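import Vale.Agent.P128.Stm

open MeasureTheory Set Metric Filter Topology Complex
open scoped ENNReal ComplexConjugate Real Convolution

noncomputable section
namespace Vale.Agent.P128

namespace Cau

theorem k_int : LocallyIntegrable (fun t : ℂ => (1 / π : ℂ) * t⁻¹) volume := by
  refine locallyIntegrable_of_norm_le_rpow (C := ‖(1 / π : ℂ)‖) (α := 1) (by simp) (by simp)
    (Eventually.of_forall fun x => ?_) (by fun_prop : Measurable _).aestronglyMeasurable
  rw [norm_mul, norm_inv, Real.rpow_neg_one]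

theorem cau_eq (ψ : ℂ → ℂ) :
    cau ψ = (fun t : ℂ => (1 / π : ℂ) * t⁻¹) ⋆[ContinuousLinearMap.mul ℝ ℂ, volume] ψ := by
  funext a
  rw [convolution_eq_swap, cau, ← integral_const_mul]
  refine integral_congr_ae (Eventually.of_forall fun z => ?_)
  simp only [ContinuousLinearMap.mul_apply']
  ring

theorem db_cau {ψ : ℂ → ℂ} (h : ContDiff ℝ (⊤ : ℕ∞) ψ) (hc : HasCompactSupport ψ) (a : ℂ) :
    db (cau ψ) a = cau (db ψ) a := by
  have h1 : ContDiff ℝ 1 ψ := h.of_le (by exact_mod_cast le_top)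
  have hf := h1.continuous_fderiv one_ne_zero
  have e : ∀ v : ℂ, fderiv ℝ (cau ψ) a v =
      ∫ t : ℂ, (1 / π : ℂ) * t⁻¹ * fderiv ℝ ψ (a - t) v := by
    intro v
    rw [cau_eq, (hc.hasFDerivAt_convolution_right _ k_int h1 a).fderiv,
      convolution_precompR_apply _ k_int (hc.fderiv ℝ) hf]
    rfl
  have hi : ∀ v : ℂ, Integrable fun t : ℂ => (1 / π : ℂ) * t⁻¹ * fderiv ℝ ψ (a - t) v := fun v =>
    HasCompactSupport.convolutionExists_right (ContinuousLinearMap.mul ℝ ℂ)
      (g := fun z => fderiv ℝ ψ z v) (hc.fderiv_apply ℝ v) k_int (hf.clm_apply continuous_const) a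
  rw [db, e, e, cau_eq, convolution_def, ← integral_const_mul,
    ← integral_add (hi 1) ((hi I).const_mul I), ← integral_div]
  refine integral_congr_ae (Eventually.of_forall fun z => ?_)
  simp only [ContinuousLinearMap.mul_apply', db]
  ring

/-- the unit vector of angle `θ` -/
def ee (θ : ℝ) : ℂ := Real.cos θ + Real.sin θ * I

theorem ee_cont : Continuous ee := by unfold ee; fun_prop

theorem ee_mul (θ : ℝ) : ee θ * conj (ee θ) = 1 := by
  apply Complex.ext
  · simp only [ee, mul_re, conj_re, conj_im, add_re, add_im, mul_im, ofReal_re, ofReal_im, I_re,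
      I_im, one_re]
    nlinarith [Real.sin_sq_add_cos_sq θ]
  · simp only [ee, mul_re, conj_re, conj_im, add_re, add_im, mul_im, ofReal_re, ofReal_im, I_re,
      I_im, one_im]
    ring

theorem ee_norm (θ : ℝ) : ‖ee θ‖ = 1 := by
  have := congrArg norm (ee_mul θ)
  rw [norm_mul, norm_conj, norm_one] at this
  nlinarith [norm_nonneg (ee θ)]

theorem ee_deriv (θ : ℝ) : HasDerivAt ee (I * ee θ) θ := by
  have := (Real.hasDerivAt_cos θ).ofReal_comp.add ((Real.hasDerivAt_sin θ).ofReal_comp.mul_const I)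
  refine HasDerivAt.congr_deriv this ?_
  unfold ee
  push_cast
  linear_combination (-Complex.sin θ) * I_mul_I

theorem far {R : ℝ} {F : Type} [Zero F] {g : ℂ → F} (hR : ∀ z, R < ‖z‖ → g z = 0) (a : ℂ) (ρ θ : ℝ)
    (h : R + ‖a‖ < |ρ|) : g (a - ρ * ee θ) = 0 := by
  apply hR
  have h1 := norm_sub_norm_le (ρ * ee θ) a
  rw [norm_mul, ee_norm, norm_real, Real.norm_eq_abs, norm_sub_rev] at h1
  linarith

theorem int_on {R : ℝ} {g : ℂ → ℂ →L[ℝ] ℂ} (hg : Continuous g) (hR : ∀ z, R < ‖z‖ → g z = 0)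
    (a c : ℂ) : IntegrableOn (fun p : ℝ × ℝ => g (a - p.1 * ee p.2) (c * ee p.2))
      (Ioi (0 : ℝ) ×ˢ Ioo (-π) π) := by
  have hc : Continuous fun p : ℝ × ℝ => g (a - p.1 * ee p.2) (c * ee p.2) := by
    have := ee_cont
    exact (hg.comp (by fun_prop)).clm_apply (by fun_prop)
  refine IntegrableOn.of_forall_sdiff_eq_zero (s := Icc 0 (R + ‖a‖) ×ˢ Icc (-π) π)
    (hc.continuousOn.integrableOn_compact (isCompact_Icc.prod isCompact_Icc))
    (measurableSet_Ioi.prod measurableSet_Ioo) fun p hp => ?_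
  have h0 : 0 < p.1 := hp.1.1
  rw [far hR a p.1 p.2 ?_]
  · rfl
  · rw [abs_of_pos h0]
    by_contra hn
    exact hp.2 ⟨⟨h0.le, not_lt.1 hn⟩, Ioo_subset_Icc_self hp.1.2⟩

theorem pompeiu {ψ : ℂ → ℂ} (h : ContDiff ℝ (⊤ : ℕ∞) ψ) (hc : HasCompactSupport ψ) (a : ℂ) :
    cau (db ψ) a = ψ a := by
  have h1 : ContDiff ℝ 1 ψ := h.of_le (by exact_mod_cast le_top)
  have hf := h1.continuous_fderiv one_ne_zero
  have hd : ∀ z, HasFDerivAt ψ (fderiv ℝ ψ z) z := fun z =>
    (h1.differentiable one_ne_zero z).hasFDerivAt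
  obtain ⟨R, hR⟩ := hc.isBounded.subset_closedBall 0
  have hR0 : ∀ z, R < ‖z‖ → z ∉ tsupport ψ := fun z hz hn => by
    have := hR hn
    rw [mem_closedBall_zero_iff] at this
    linarith
  have hR1 : ∀ z, R < ‖z‖ → ψ z = 0 := fun z hz => image_eq_zero_of_notMem_tsupport (hR0 z hz)
  have hR2 : ∀ z, R < ‖z‖ → fderiv ℝ ψ z = 0 := fun z hz =>
    image_eq_zero_of_notMem_tsupport fun hn => hR0 z hz (tsupport_fderiv_subset ℝ hn)
  have iA := int_on hf hR2 a 1
  have iB := int_on hf hR2 a I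
  have hA : ∫ p in Ioi (0 : ℝ) ×ˢ Ioo (-π) π, fderiv ℝ ψ (a - p.1 * ee p.2) (1 * ee p.2)
      = 2 * π * ψ a := by
    have e : ∀ θ : ℝ, ∫ ρ in Ioi (0 : ℝ), fderiv ℝ ψ (a - ρ * ee θ) (1 * ee θ) = ψ a := by
      intro θ
      have hs : HasCompactSupport fun ρ : ℝ => -ψ (a - ρ * ee θ) := by
        refine HasCompactSupport.intro (isCompact_Icc (a := -(R + ‖a‖)) (b := R + ‖a‖))
          fun ρ hρ => ?_
        rw [far hR1 a ρ θ (not_le.1 fun hn => hρ (abs_le.1 hn)), neg_zero]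
      have hl : ContDiff ℝ 1 fun ρ : ℝ => a - ρ * ee θ :=
        contDiff_const.sub (ofRealCLM.contDiff.mul contDiff_const)
      have := hs.integral_Ioi_deriv_eq (h1.comp hl).neg 0
      simp only [Function.comp, ofReal_zero, zero_mul, sub_zero, neg_neg] at this
      rw [← this]
      refine integral_congr_ae (Eventually.of_forall fun ρ => ?_)
      have h2 : HasDerivAt (fun ρ : ℝ => a - ρ * ee θ) (-(1 * ee θ)) ρ := by
        simpa using ((hasDerivAt_id ρ).ofReal_comp.mul_const (ee θ)).const_sub a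
      have h3 := ((hd _).comp_hasDerivAt ρ h2).neg
      rw [map_neg, neg_neg] at h3
      exact h3.deriv.symm
    have iA' := iA
    rw [IntegrableOn, Measure.volume_eq_prod, ← Measure.prod_restrict] at iA'
    rw [Measure.volume_eq_prod, ← Measure.prod_restrict, integral_prod_symm _ iA']
    simp only [e]
    rw [setIntegral_const, Real.volume_real_Ioo_of_le (by linarith [Real.pi_pos]), real_smul]
    push_cast
    ring
  have hB : ∫ p in Ioi (0 : ℝ) ×ˢ Ioo (-π) π, fderiv ℝ ψ (a - p.1 * ee p.2) (I * ee p.2) = 0 := by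
    rw [Measure.volume_eq_prod, setIntegral_prod _ iB]
    refine setIntegral_eq_zero_of_forall_eq_zero fun ρ hρ => ?_
    have hρ' : (ρ : ℂ) ≠ 0 := ofReal_ne_zero.2 (ne_of_gt hρ)
    have h2 : ∀ θ, HasDerivAt (fun θ : ℝ => -(ρ : ℂ)⁻¹ * ψ (a - ρ * ee θ))
        (fderiv ℝ ψ (a - ρ * ee θ) (I * ee θ)) θ := by
      intro θ
      have h3 := ((hd _).comp_hasDerivAt θ (((ee_deriv θ).const_mul (ρ : ℂ)).const_sub a)).const_mul
        (-(ρ : ℂ)⁻¹)
      refine HasDerivAt.congr_deriv h3 ?_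
      rw [map_neg, ← real_smul (x := ρ) (z := I * ee θ), map_smul, real_smul]
      field_simp
    have hc' : Continuous fun θ : ℝ => fderiv ℝ ψ (a - ρ * ee θ) (I * ee θ) := by
      have := ee_cont
      exact (hf.comp (by fun_prop)).clm_apply (by fun_prop)
    have h4 := intervalIntegral.integral_eq_sub_of_hasDerivAt (a := -π) (b := π)
      (fun θ _ => h2 θ) (hc'.intervalIntegrable _ _)
    rw [intervalIntegral.integral_of_le (by linarith [Real.pi_pos]), integral_Ioc_eq_integral_Ioo]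
      at h4
    have h5 : ee (-π) = ee π := by simp [ee]
    rw [h5, sub_self] at h4
    exact h4
  rw [cau_eq, convolution_def, ← Complex.integral_comp_polarCoord_symm, polarCoord_target]
  have e : ∀ p ∈ Ioi (0 : ℝ) ×ˢ Ioo (-π) π,
      p.1 • (ContinuousLinearMap.mul ℝ ℂ) ((1 / π : ℂ) * (Complex.polarCoord.symm p)⁻¹)
        (db ψ (a - Complex.polarCoord.symm p)) = (1 / (2 * π) : ℂ) *
        (fderiv ℝ ψ (a - p.1 * ee p.2) (1 * ee p.2) +
          I * fderiv ℝ ψ (a - p.1 * ee p.2) (I * ee p.2)) := by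
    intro p hp
    have hρ' : (p.1 : ℂ) ≠ 0 := ofReal_ne_zero.2 (ne_of_gt hp.1)
    have h2 : Complex.polarCoord.symm p = p.1 * ee p.2 := Complex.polarCoord_symm_apply p
    have h3 : (ee p.2)⁻¹ = conj (ee p.2) := inv_eq_of_mul_eq_one_right (ee_mul _)
    rw [h2, fderiv_eq_dz_db, fderiv_eq_dz_db, ContinuousLinearMap.mul_apply', real_smul, mul_inv, h3]
    simp only [map_mul, conj_I, one_mul]
    have hπ : (π : ℂ) ≠ 0 := ofReal_ne_zero.2 Real.pi_ne_zero
    field_simp
    linear_combination (-(dz ψ (a - p.1 * ee p.2) * ee p.2) +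
      db ψ (a - p.1 * ee p.2) * conj (ee p.2)) * I_sq
  rw [setIntegral_congr_fun (measurableSet_Ioi.prod measurableSet_Ioo) e, integral_const_mul,
    integral_add iA (iB.const_mul I), integral_const_mul, hA, hB]
  have hπ : (π : ℂ) ≠ 0 := ofReal_ne_zero.2 Real.pi_ne_zero
  field_simp
  ring

end Cau

theorem cau_pf (_hPol : PolStmt) : CauStmt := by
  intro ψ h hc
  refine ⟨?_, fun a => by rw [Cau.db_cau h hc, Cau.pompeiu h hc], Cau.pompeiu h hc⟩
  rw [Cau.cau_eq]
  exact hc.contDiff_convolution_right _ Cau.k_int h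

end Vale.Agent.P128
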