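import Vale.Agent.P128.Stm

open MeasureTheory Set Metric Filter Topology Complex
open scoped ENNReal ComplexConjugate Real

noncomputable section
namespace Vale.Agent.P128

namespace Alg

theorem re_le (z β P : ℂ) : |(z * (β * P ^ 2)).re| ≤ ‖z‖ * (‖β‖ * ‖P‖ ^ 2) := by
  refine (abs_re_le_norm _).trans (le_of_eq ?_)
  rw [norm_mul, norm_mul, norm_pow]

theorem num (A β P : ℂ) : ‖conj A * P - conj β * conj P‖ ^ 2 =
    (‖A‖ ^ 2 + ‖β‖ ^ 2) * ‖P‖ ^ 2 - 2 * (conj A * (β * P ^ 2)).re := by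
  simp only [Complex.sq_norm, normSq_apply]
  simp only [sq, sub_re, sub_im, mul_re, mul_im, conj_re, conj_im]
  ring

theorem quot {J N B : ℝ} (hJ : 1 / 4 ≤ J) (h : |N| ≤ B) : |N / J| ≤ 4 * B := by
  have h0 : 0 < J := by linarith
  rw [abs_div, abs_of_pos h0, div_le_iff₀ h0]
  nlinarith [abs_nonneg N]

theorem jac {a b c : ℝ} (hb : 0 ≤ b) (hc : 0 ≤ c) (h : c + b ≤ 1 / 2) (h1 : a ≤ 1 + c)
    (h2 : 1 - c ≤ a) : 1 / 4 ≤ a ^ 2 - b ^ 2 ∧ |1 - (a ^ 2 - b ^ 2)| ≤ 3 * (c + b) :=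
  ⟨by nlinarith, abs_le.2 ⟨by nlinarith, by nlinarith⟩⟩

theorem r1 {a b c p R : ℝ} (hb : 0 ≤ b) (hc : 0 ≤ c) (hp : 0 ≤ p) (h : c + b ≤ 1 / 2)
    (h1 : a ≤ 1 + c) (h2 : 1 - c ≤ a) (hR : |R| ≤ a * (b * p)) :
    |((a ^ 2 + b ^ 2) * p - 2 * R) / (a ^ 2 - b ^ 2) - p| ≤ 4 * (c + b) * p := by
  have h0 : 0 < a ^ 2 - b ^ 2 := by linarith [(jac hb hc h h1 h2).1]
  have hbp : 0 ≤ b * p := mul_nonneg hb hp
  have e : ((a ^ 2 + b ^ 2) * p - 2 * R) / (a ^ 2 - b ^ 2) - p =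
      (2 * b ^ 2 * p - 2 * R) / (a ^ 2 - b ^ 2) := by
    field_simp; ring
  rw [e, abs_div, abs_of_pos h0, div_le_iff₀ h0]
  have h3 : |2 * b ^ 2 * p - 2 * R| ≤ 2 * (b * p) * (a + b) := by
    rw [abs_le] at hR ⊢
    constructor <;> nlinarith [mul_nonneg hb hbp]
  have h4 : 0 ≤ b * p * (a + b) := mul_nonneg hbp (by linarith)
  have h5 : 0 ≤ c * p * (a ^ 2 - b ^ 2) := by positivity
  have h6 : 0 ≤ b * p * (a + b) * (2 * (a - b) - 1) := mul_nonneg h4 (by linarith)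
  nlinarith

theorem r2 {a b c p R S : ℝ} (hb : 0 ≤ b) (hc : 0 ≤ c) (hp : 0 ≤ p) (h : c + b ≤ 1 / 2)
    (h1 : a ≤ 1 + c) (h2 : 1 - c ≤ a) (hR : |(a ^ 2 - b ^ 2) * S - R| ≤ 4 * (c + b) * (b * p)) :
    |((a ^ 2 + b ^ 2) * p - 2 * R) / (a ^ 2 - b ^ 2) - p + 2 * S| ≤ 40 * (c + b) ^ 2 * p := by
  have hJ := (jac hb hc h h1 h2).1
  have h0 : a ^ 2 - b ^ 2 ≠ 0 := by linarith
  have hbp : 0 ≤ b * p := mul_nonneg hb hp
  have e : ((a ^ 2 + b ^ 2) * p - 2 * R) / (a ^ 2 - b ^ 2) - p + 2 * S =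
      (2 * b ^ 2 * p + 2 * ((a ^ 2 - b ^ 2) * S - R)) / (a ^ 2 - b ^ 2) := by
    field_simp; ring
  rw [e]
  refine (quot (B := 10 * (c + b) ^ 2 * p) hJ ?_).trans (le_of_eq (by ring))
  have h4 : b * p ≤ (c + b) * p := mul_le_mul_of_nonneg_right (by linarith) hp
  have h5 : (c + b) * (b * p) ≤ (c + b) * ((c + b) * p) :=
    mul_le_mul_of_nonneg_left h4 (by linarith)
  have h6 : b * (b * p) ≤ (c + b) * (b * p) := mul_le_mul_of_nonneg_right (by linarith) hbp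
  have h7 : 0 ≤ b * (b * p) := mul_nonneg hb hbp
  rw [abs_le] at hR ⊢
  constructor <;> nlinarith

theorem r3 {a b c p R S : ℝ} (hb : 0 ≤ b) (hc : 0 ≤ c) (hp : 0 ≤ p) (h : c + b ≤ 1 / 2)
    (h1 : a ≤ 1 + c) (h2 : 1 - c ≤ a)
    (hR : |(a ^ 2 - b ^ 2) * S - R| ≤ 2 * (c + b) ^ 2 * (b * p)) :
    |((a ^ 2 + b ^ 2) * p - 2 * R) / (a ^ 2 - b ^ 2) - p - 2 * b ^ 2 * p + 2 * S| ≤
      40 * (c + b) ^ 3 * p := by
  obtain ⟨hJ, hJ1⟩ := jac hb hc h h1 h2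
  have h0 : a ^ 2 - b ^ 2 ≠ 0 := by linarith
  have e : ((a ^ 2 + b ^ 2) * p - 2 * R) / (a ^ 2 - b ^ 2) - p - 2 * b ^ 2 * p + 2 * S =
      (2 * b ^ 2 * p * (1 - (a ^ 2 - b ^ 2)) + 2 * ((a ^ 2 - b ^ 2) * S - R)) /
        (a ^ 2 - b ^ 2) := by
    field_simp; ring
  rw [e]
  refine (quot (B := 10 * (c + b) ^ 3 * p) hJ ?_).trans (le_of_eq (by ring))
  have h3 : b ≤ c + b := by linarith
  have h5 : 2 * (c + b) ^ 2 * (b * p) ≤ 2 * (c + b) ^ 2 * ((c + b) * p) := by gcongr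
  have h6 : |2 * b ^ 2 * p * (1 - (a ^ 2 - b ^ 2))| ≤ 2 * (c + b) ^ 2 * p * (3 * (c + b)) := by
    rw [abs_mul, abs_of_nonneg (by positivity : 0 ≤ 2 * b ^ 2 * p)]
    gcongr
  refine (abs_add_le _ _).trans ?_
  rw [abs_mul 2, abs_two]
  linarith

end Alg

theorem alg_pf : AlgStmt := by
  refine ⟨40, by norm_num, fun α β P h => ?_⟩
  have ha1 : ‖1 + α‖ ≤ 1 + ‖α‖ := by simpa using norm_add_le 1 α
  have ha2 : 1 - ‖α‖ ≤ ‖1 + α‖ := by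
    have := norm_sub_le (1 + α) α
    rw [add_sub_cancel_right, norm_one] at this
    linarith
  have ha3 : ‖1 - α‖ ≤ 1 + ‖α‖ := by simpa using norm_sub_le 1 α
  have hb := norm_nonneg β
  have hc := norm_nonneg α
  have hp := sq_nonneg ‖P‖
  have hbp := mul_nonneg hb hp
  have hAA : ((‖1 + α‖ ^ 2 : ℝ) : ℂ) = (1 + α) * conj (1 + α) := by
    rw [mul_conj, normSq_eq_norm_sq]
  unfold dd
  rw [Alg.num]
  refine ⟨Alg.r1 hb hc hp h ha1 ha2 ?_, Alg.r2 hb hc hp h ha1 ha2 ?_, Alg.r3 hb hc hp h ha1 ha2 ?_⟩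
  · simpa only [Complex.norm_conj] using Alg.re_le (conj (1 + α)) β P
  · rw [← re_ofReal_mul, ← sub_re, ← sub_mul]
    refine (Alg.re_le _ β P).trans (mul_le_mul_of_nonneg_right ?_ hbp)
    have e2 : ((‖1 + α‖ ^ 2 - ‖β‖ ^ 2 : ℝ) : ℂ) - conj (1 + α) =
        -((1 - (‖1 + α‖ ^ 2 - ‖β‖ ^ 2) : ℝ) : ℂ) - conj α := by
      push_cast; simp only [map_add, map_one]; ring
    rw [e2]
    refine (norm_sub_le _ _).trans ?_
    rw [norm_neg, Complex.norm_real, Real.norm_eq_abs, Complex.norm_conj]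
    linarith [(Alg.jac hb hc h ha1 ha2).2]
  · rw [← re_ofReal_mul, ← sub_re, show (β - α * β) * P ^ 2 = (1 - α) * (β * P ^ 2) by ring,
      ← mul_assoc, ← sub_mul]
    refine (Alg.re_le _ β P).trans (mul_le_mul_of_nonneg_right ?_ hbp)
    have e2 : ((‖1 + α‖ ^ 2 - ‖β‖ ^ 2 : ℝ) : ℂ) * (1 - α) - conj (1 + α) =
        -(conj (1 + α) * α ^ 2) - ((‖β‖ ^ 2 : ℝ) : ℂ) * (1 - α) := by
      rw [ofReal_sub, hAA]; ring
    rw [e2]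
    refine (norm_sub_le _ _).trans ?_
    rw [norm_neg, norm_mul, norm_mul, Complex.norm_real, Real.norm_eq_abs, Complex.norm_conj,
      norm_pow, abs_of_nonneg (sq_nonneg _)]
    have h3 : ‖1 + α‖ * ‖α‖ ^ 2 ≤ 2 * ‖α‖ ^ 2 :=
      mul_le_mul_of_nonneg_right (by linarith) (sq_nonneg _)
    have h4 : ‖β‖ ^ 2 * ‖1 - α‖ ≤ ‖β‖ ^ 2 * 2 :=
      mul_le_mul_of_nonneg_left (by linarith) (sq_nonneg _)
    nlinarith [mul_nonneg hc hb]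

end Vale.Agent.P128
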