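import Vale.Agent.P128.Stm

open MeasureTheory Set Metric Filter Topology Complex
open scoped ENNReal ComplexConjugate Real

noncomputable section
namespace Vale.Agent.P128

namespace Am

variable {Ω K : Set ℂ} {u : ℂ → ℝ} {Λ M : ℝ} {y : ℂ} {ρ : ℝ}

theorem free (hArcs : ArcsStmt) (hg : Good K u y ρ) (h1 : (K ∩ sphere y ρ).ncard ≤ 1) :
    ∃ α, Free K y ρ α (α + 2 * π) := by
  rcases (K ∩ sphere y ρ).eq_empty_or_nonempty with he | hne
  · exact ⟨0, fun θ _ h2 => he.subset ⟨h2, circleMap_mem_sphere y hg.pos.le θ⟩⟩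
  · obtain ⟨N, θ, hN, h0, h2, h3, -⟩ := hArcs K y ρ hg.pos hg.fin hne
    obtain rfl : N = 1 := by omega
    exact ⟨θ 0, h3 ▸ (h2 0 one_pos).2.2⟩

theorem low (hRem : RemStmt) (hCirc : CircStmt) (hArcs : ArcsStmt) (h : IsMS Ω K u Λ M)
    (hΩ : closedBall y ρ ⊆ Ω) (hg : Good K u y ρ) (h1 : (K ∩ sphere y ρ).ncard ≤ 1) {c : ℝ}
    (h2 : c * (ρ / 4) ≤ len K (closedBall y (ρ / 4)))
    (h3 : En u (closedBall y ρ) + 7 * (Λ * M) * ρ ^ 2 ≤ c / 8 * ρ) : c ≤ 1280 * ce u y ρ := by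
  have hρ := hg.pos
  obtain ⟨α, hα⟩ := free hArcs hg h1
  have h4 := (hRem Ω K u Λ M h y ρ 1 (1 / 2) hρ hΩ one_pos le_rfl one_half_pos
    one_half_lt_one).2 α (α + 2 * π) hg (by linarith [Real.pi_pos]) le_rfl hα
  have h5 := (hCirc Ω K u y ρ h.isOpen h.c1 (sphere_subset_closedBall.trans hΩ) hg).2.2.2.1
  have h6 : len K (closedBall y (ρ / 4)) ≤ len K (ball y ((1 - 1 / 2) * ρ)) :=
    len_mono (closedBall_subset_ball (by linarith)) ((measure_mono (inter_subset_inter_right _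
      (ball_subset_closedBall.trans (closedBall_subset_closedBall (by linarith))))).trans_lt
        (h.fin y ρ hΩ))
  have h7 := mul_le_mul_of_nonneg_left h5 Real.pi_pos.le
  have h8 : π * π ≤ 10 := by nlinarith [Real.pi_lt_d2, Real.pi_pos]
  have h9 := mul_le_mul_of_nonneg_right h8 (mul_nonneg hρ.le (ce_nonneg u y hρ.le))
  have ha := mul_nonneg h.a0 (sq_nonneg ρ)
  have h10 := mul_le_mul_of_nonneg_right Real.pi_lt_d2.le ha
  rw [show (1 : ℝ) * (1 / 2) = 2⁻¹ by norm_num, div_inv_eq_mul] at h4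
  refine le_of_mul_le_mul_right ?_ hρ
  linarith

theorem net (hStar : StarStmt) (hNet : NetStmt) (h : IsMS Ω K u Λ M) (hΩ : closedBall y ρ ⊆ Ω)
    (hg : Good K u y ρ) {P : Finset ℂ} (hP : (P : Set ℂ) = K ∩ sphere y ρ) (hne : P.Nonempty)
    {s e : ℝ} (hs : s = ‖∑ p ∈ P, (p - y) / ρ‖ ^ 2 / (4 * P.card) ∨ (4 ≤ P.card ∧ s = 1 / 50))
    (he : 200 * ce u y ρ + 7 * (Λ * M) * ρ ≤ e) :
    len K (closedBall y ρ) ≤ ρ * (P.card - s + e) := by
  obtain ⟨Z, z1, z2, z3, z4, z5, z6⟩ := hNet P y ρ hg.pos hne (hP ▸ inter_subset_right) s hs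
  have h1 := hStar Ω K u Λ M h y ρ Z hΩ hg (hP ▸ hne.to_set) z1 z2 z3
    (fun p hp => z4 p (by rwa [← hP] at hp)) z5
  rw [cnt, ← hP, ncard_coe_finset] at h1
  have h2 := mul_le_mul_of_nonneg_left he hg.pos.le
  linarith [En_nonneg u (closedBall y ρ)]

end Am

theorem am_pf (hDecay : DecayStmt) (hGood : GoodStmt) (hStar : StarStmt) (hNet : NetStmt)
    (hRem : RemStmt) (hDens : DensStmt) (hUp : UpStmt) (hCirc : CircStmt) (hArcs : ArcsStmt)
    : AmStmt := by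
  intro A ε hε
  obtain ⟨δ₀, C, hδ₀, hC, hD⟩ := hDecay A
  obtain ⟨c, hc, hc'⟩ := hDens
  obtain ⟨C₁, h200, hC₁⟩ : ∃ C₁ : ℝ, 200 ≤ C₁ ∧ 16640 ≤ C₁ * c :=
    ⟨200 + 16640 / c, le_add_of_nonneg_right (by positivity), by
      rw [add_mul, div_mul_cancel₀ _ hc.ne']
      linarith⟩
  obtain ⟨δ, hδ, d0, d1, d2⟩ : ∃ δ : ℝ, 0 < δ ∧ δ ≤ δ₀ ∧ δ * (8 + C) ≤ c / 8 ∧
      δ * (C₁ * (1 + C) + 7) ≤ ε := by
    have h1 : 0 < C₁ * (1 + C) + 7 := by positivity
    refine ⟨min δ₀ (min (c / 8 / (8 + C)) (ε / (C₁ * (1 + C) + 7))), by positivity,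
      min_le_left _ _, ?_, ?_⟩
    · exact (le_div_iff₀ (by positivity)).1 ((min_le_right _ _).trans (min_le_left _ _))
    · exact (le_div_iff₀ h1).1 ((min_le_right _ _).trans (min_le_right _ _))
  refine ⟨δ, hδ, fun Ω K u Λ M hR y hy b hb hΩ hE ha => ?_⟩
  have h := hR.ms
  have ha0 := h.a0
  have hΩ' : ∀ r, r ≤ b → closedBall y r ⊆ Ω := fun r hr => (closedBall_subset_closedBall
    (hr.trans (le_mul_of_one_le_left hb.le hR.A1))).trans hΩ
  have hdec : ∀ s ∈ Ioc 0 b, En u (closedBall y s) ≤ (s / b) ^ (1 / 3 : ℝ) * (δ * (1 + C)) * s := by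
    intro s hs
    refine (hD Ω K u Λ M hR y hy b hb hΩ (hE.trans (mul_le_mul_of_nonneg_right d0 hb.le))
      (ha.trans d0) s hs).trans (mul_le_mul_of_nonneg_right (mul_le_mul_of_nonneg_left ?_
        (Real.rpow_nonneg (div_nonneg hs.1.le hb.le) _)) hs.1.le)
    linarith [(div_le_iff₀ hb).2 hE, mul_le_mul_of_nonneg_left ha hC]
  obtain ⟨g1, g2, -, g3⟩ := hGood K u y b h.cl (h.fin y b (hΩ' b le_rfl)) (h.int y b (hΩ' b le_rfl))
  have i1 : IntegrableOn (fun ρ : ℝ => 7 * (Λ * M) * ρ) (Ioo 0 b) :=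
    ((by fun_prop : Continuous fun ρ : ℝ => 7 * (Λ * M) * ρ).integrableOn_Icc).mono_set
      Ioo_subset_Icc_self
  have he : ∀ ρ, 0 < ρ → max 0 (C₁ * ce u y ρ + 7 * (Λ * M) * ρ) =
      C₁ * ce u y ρ + 7 * (Λ * M) * ρ := fun ρ hρ => max_eq_right (by
    have := ce_nonneg u y hρ.le
    positivity)
  refine ⟨h.cl, hb, hε.le, h.fin y b (hΩ' b le_rfl),
    fun ρ => max 0 (C₁ * ce u y ρ + 7 * (Λ * M) * ρ), fun ρ => le_max_left _ _,
    IntegrableOn.congr_fun ((g2.const_mul C₁).add i1) (fun ρ hρ => (he ρ hρ.1).symm)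
      measurableSet_Ioo, fun r hr => ?_, ?_⟩
  · have h1 : Ioo 0 r ⊆ Ioo 0 b := Ioo_subset_Ioo_right hr.2
    have h2 := (g3 0 r le_rfl hr.1.le hr.2).1
    have h3 : r / b ≤ (r / b) ^ (1 / 3 : ℝ) := Real.self_le_rpow_of_le_one
      (div_nonneg hr.1.le hb.le) ((div_le_one hb).2 hr.2) (by norm_num)
    have h4 : ∫ ρ in Ioo 0 r, 7 * (Λ * M) * ρ = 7 * (Λ * M * b) * (r / b) * r / 2 := by
      rw [← integral_Ioc_eq_integral_Ioo, ← intervalIntegral.integral_of_le hr.1.le,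
        intervalIntegral.integral_const_mul, integral_id]
      field_simp
      ring
    rw [intervalIntegral.integral_of_le hr.1.le, integral_Ioc_eq_integral_Ioo] at h2
    rw [setIntegral_congr_fun measurableSet_Ioo fun ρ hρ => he ρ hρ.1,
      integral_add ((g2.mono_set h1).const_mul C₁) (i1.mono_set h1), integral_const_mul, h4]
    have h5 := mul_le_mul_of_nonneg_left (hdec r hr) (by linarith : 0 ≤ C₁)
    have h6 := mul_le_mul_of_nonneg_left (En_nonneg u (closedBall y 0)) (by linarith : 0 ≤ C₁)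
    have h7 : 0 ≤ (r / b) ^ (1 / 3 : ℝ) * r := mul_nonneg ((div_pos hr.1 hb).le.trans h3) hr.1.le
    have h8 := mul_le_mul_of_nonneg_right d2 h7
    have h9 := mul_le_mul_of_nonneg_right (mul_le_mul ha h3 (div_pos hr.1 hb).le hδ.le) hr.1.le
    have h10 := mul_nonneg hδ.le h7
    rw [h2] at h5
    linarith
  · filter_upwards [g1] with ρ h1 hρ
    have hg := h1 hρ
    have hB := hΩ' ρ hρ.2.le
    have h0 := ce_nonneg u y hρ.1.le
    have haρ : Λ * M * ρ ≤ δ := (mul_le_mul_of_nonneg_left hρ.2.le ha0).trans ha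
    have hP := hg.fin.coe_toFinset
    generalize hg.fin.toFinset = P at hP
    have h2 : P.card ≤ 1 → 13 ≤ C₁ * ce u y ρ + 7 * (Λ * M) * ρ := fun h3 => by
      have hB' := hΩ' (ρ / 4) (by linarith [hρ.1, hρ.2])
      have h4 : (ρ / b) ^ (1 / 3 : ℝ) ≤ 1 := Real.rpow_le_one (div_pos hρ.1 hb).le
        ((div_le_one hb).2 hρ.2.le) (by norm_num)
      have h5 := mul_le_mul_of_nonneg_right h4 (by
        have := hρ.1
        positivity : 0 ≤ δ * (1 + C) * ρ)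
      have h6 := Am.low hRem hCirc hArcs h hB hg (by rwa [← hP, ncard_coe_finset])
        (hc' Ω K u Λ M h y hy (ρ / 4) (by linarith [hρ.1]) hB' (hR.small _ _ hB'))
        (by linarith [hdec ρ ⟨hρ.1, hρ.2.le⟩, mul_le_mul_of_nonneg_right haρ hρ.1.le,
          mul_le_mul_of_nonneg_right d1 hρ.1.le])
      linarith [mul_le_mul_of_nonneg_left h6 (by linarith : 0 ≤ C₁), mul_nonneg ha0 hρ.1.le]
    have h3 : 200 * ce u y ρ + 7 * (Λ * M) * ρ ≤ C₁ * ce u y ρ + 7 * (Λ * M) * ρ := by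
      linarith [mul_le_mul_of_nonneg_right h200 h0]
    rw [he ρ hρ.1]
    refine ⟨P, hP, fun h4 => by linarith [h2 h4], ?_, fun h4 => Am.net hStar hNet h hB hg hP
      (Finset.card_pos.1 (by omega)) (.inr ⟨h4, rfl⟩) h3⟩
    rcases P.eq_empty_or_nonempty with rfl | hne
    · have h4 := mul_le_mul_of_nonneg_left (h2 (by simp)) hρ.1.le
      have h5 := hUp Ω K u Λ M h y ρ hρ.1.le hB
      have h6 := mul_le_mul_of_nonneg_left (hR.small _ _ hB) (mul_pos Real.pi_pos hρ.1).le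
      have h7 := mul_le_mul_of_nonneg_right Real.pi_lt_d2.le hρ.1.le
      simp only [Finset.card_empty, Nat.cast_zero, mul_zero, div_zero, sub_zero, zero_add]
      linarith [En_nonneg u (closedBall y ρ), hρ.1]
    · exact Am.net hStar hNet h hB hg hP hne (.inl rfl) h3

end Vale.Agent.P128
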