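import Vale.Agent.P128.Stm

open MeasureTheory Set Metric Filter Topology Complex
open scoped ENNReal ComplexConjugate Real

noncomputable section
namespace Vale.Agent.P128

namespace Anx

open Classical in
/-- the glued function -/
def gl {F : Type} (Q : Set ℂ) (w u : ℂ → F) (z : ℂ) : F := if z ∈ Q then w z else u z

theorem gl_in {F : Type} {Q : Set ℂ} (hQ : IsOpen Q) (w u : ℂ → F) {z : ℂ} (hz : z ∈ Q) :
    gl Q w u =ᶠ[𝓝 z] w := by
  filter_upwards [hQ.mem_nhds hz] with y hy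
  simp [gl, hy]

theorem gl_out {F : Type} {Q : Set ℂ} (w u : ℂ → F) {z : ℂ} (hz : z ∉ closure Q) :
    gl Q w u =ᶠ[𝓝 z] u := by
  filter_upwards [isClosed_closure.isOpen_compl.mem_nhds hz] with y hy
  have : y ∉ Q := fun h => hy (subset_closure h)
  simp [gl, this]

theorem gl_eq {F : Type} {Q V : Set ℂ} (hV : IsOpen V) {w u : ℂ → F} (h : ∀ y ∈ V, w y = u y)
    {z : ℂ} (hz : z ∈ V) : gl Q w u =ᶠ[𝓝 z] u := by
  filter_upwards [hV.mem_nhds hz] with y hy
  unfold gl
  split_ifs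
  · exact h y hy
  · rfl

theorem comp_loc {K : Set ℂ} (hK : IsClosed K) {z : ℂ} (hz : z ∉ K) :
    ∀ᶠ y in 𝓝 z, connectedComponentIn Kᶜ y = connectedComponentIn Kᶜ z := by
  have ho : IsOpen (connectedComponentIn Kᶜ z) := hK.isOpen_compl.connectedComponentIn
  filter_upwards [ho.mem_nhds (mem_connectedComponentIn hz)] with y hy
  exact (connectedComponentIn_eq hy).symm

theorem int_pd {Q O : Set ℂ} {w : ℂ → ℝ} (hQ : IsOpen Q) (hb : Bornology.IsBounded Q)
    (hO : closure Q ⊆ O) (hw : LocallyLipschitzOn O w) :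
    IntegrableOn (fun z => ‖pd w z‖ ^ 2) Q := by
  obtain ⟨C, hC⟩ := (hw.mono hO).exists_lipschitzOnWith_of_compact hb.isCompact_closure
  have hfin : volume Q < ⊤ := hb.measure_lt_top
  refine Measure.integrableOn_of_bounded (M := (C : ℝ) ^ 2) hfin.ne
    ((measurable_pd w).norm.pow_const 2).aestronglyMeasurable ?_
  refine (ae_restrict_iff' hQ.measurableSet).2 (Eventually.of_forall fun z hz => ?_)
  have h1 : ‖fderiv ℝ w z‖ ≤ C :=
    norm_fderiv_le_of_lipschitzOn ℝ (hQ.mem_nhds hz) (hC.mono subset_closure)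
  rw [Real.norm_eq_abs, abs_of_nonneg (by positivity), norm_pd]
  exact pow_le_pow_left₀ (norm_nonneg _) h1 2

end Anx

open Anx in
theorem anx_pf : AnxStmt := by
  intro K u h z₀ Q O J w hQ hb hO hQO hw hwu hJ hJQ hfr hJf
  set U := connectedComponentIn Kᶜ z₀ with hU
  have hUo : IsOpen U := h.cl.isOpen_compl.connectedComponentIn
  have hUK : U ⊆ Kᶜ := connectedComponentIn_subset _ _
  obtain ⟨R, hR⟩ := (hb.closure).subset_closedBall (0 : ℂ)
  set B := closedBall (0 : ℂ) R with hB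
  have hQB : Q ⊆ B := subset_closure.trans hR
  have hJc : J ⊆ closure Q := hJQ.trans frontier_subset_closure
  have hJB : J ⊆ B := hJc.trans hR
  have hJQ' : ∀ z ∈ J, z ∉ Q := fun z hz hq => by
    have := hJQ hz
    rw [hQ.frontier_eq] at this
    exact this.2 hq
  set L : Set ℂ := (K \ Q) ∪ J with hL
  have hLc : IsClosed L := (h.cl.sdiff hQ).union hJ
  -- trichotomy off `L`
  have tri : ∀ z, z ∉ L → z ∈ Q ∨ (z ∉ closure Q ∧ z ∉ K) ∨ z ∈ O ∩ U := by
    intro z hz
    by_cases hq : z ∈ Q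
    · exact Or.inl hq
    have hk : z ∉ K := fun hk => hz (Or.inl ⟨hk, hq⟩)
    have hj : z ∉ J := fun hj => hz (Or.inr hj)
    by_cases hc : z ∈ closure Q
    · have hf : z ∈ frontier Q := by
        rw [hQ.frontier_eq]
        exact ⟨hc, hq⟩
      rcases hfr hf with (h1 | h1) | h1
      · exact Or.inr (Or.inr ⟨hQO hc, h1⟩)
      · exact absurd h1 hj
      · exact absurd h1 hk
    · exact Or.inr (Or.inl ⟨hc, hk⟩)
  have hKB : μH[1] (K ∩ B) < ⊤ := h.fin 0 R (subset_univ _)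
  have hLB : L ∩ B ⊆ ((K ∩ B) \ Q) ∪ (J \ K) := by
    rintro z ⟨hz | hz, hzB⟩
    · exact Or.inl ⟨⟨hz.1, hzB⟩, hz.2⟩
    · by_cases hk : z ∈ K
      · exact Or.inl ⟨⟨hk, hzB⟩, hJQ' z hz⟩
      · exact Or.inr ⟨hz, hk⟩
  have hf1 : μH[1] ((K ∩ B) \ Q) < ⊤ := (measure_mono sdiff_subset).trans_lt hKB
  have hf2 : μH[1] (J \ K) < ⊤ := (measure_mono sdiff_subset).trans_lt hJf
  have hLf : μH[1] (L ∩ B) ≤ μH[1] ((K ∩ B) \ Q) + μH[1] (J \ K) :=
    (measure_mono hLB).trans (measure_union_le _ _)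
  have hLfin : μH[1] (L ∩ B) < ⊤ := hLf.trans_lt (ENNReal.add_lt_top.2 ⟨hf1, hf2⟩)
  have hBm : MeasurableSet B := measurableSet_closedBall
  -- gradients off `Q`
  have hout : ∀ᵐ z ∂(volume.restrict (B \ Q)), ‖pd (gl Q w u) z‖ ^ 2 = ‖pd u z‖ ^ 2 := by
    have h0 : volume (L ∩ B) = 0 := volume_null hLfin
    refine (ae_restrict_iff' (hBm.diff hQ.measurableSet)).2 ?_
    filter_upwards [compl_mem_ae_iff.2 h0] with z hz hzB
    have hzL : z ∉ L := fun hl => hz ⟨hl, hzB.1⟩
    rcases tri z hzL with h1 | h1 | h1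
    · exact absurd h1 hzB.2
    · rw [pd_congr (gl_out w u h1.1)]
    · rw [pd_congr (gl_eq (hO.inter hUo) hwu h1)]
  have hin : ∀ z ∈ Q, ‖pd (gl Q w u) z‖ ^ 2 = ‖pd w z‖ ^ 2 := fun z hz => by
    rw [pd_congr (gl_in hQ w u hz)]
  have hiu : IntegrableOn (fun z => ‖pd u z‖ ^ 2) B := h.int 0 R (subset_univ _)
  have hi1 : IntegrableOn (fun z => ‖pd (gl Q w u) z‖ ^ 2) Q :=
    (int_pd hQ hb hQO hw).congr_fun (fun z hz => (hin z hz).symm) hQ.measurableSet
  have hi2 : IntegrableOn (fun z => ‖pd (gl Q w u) z‖ ^ 2) (B \ Q) :=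
    (hiu.mono_set sdiff_subset).congr (hout.mono fun z hz => hz.symm)
  have hBe : Q ∪ B \ Q = B := union_sdiff_cancel hQB
  have hig : IntegrableOn (fun z => ‖pd (gl Q w u) z‖ ^ 2) B := by
    rw [← hBe]
    exact hi1.union hi2
  have hdis : Disjoint Q (B \ Q) := disjoint_sdiff_right
  have hcomp : Comp univ K u 0 R L (gl Q w u) := by
    refine ⟨hLc, ?_, ?_, ?_, hig, hLfin, ?_⟩
    · ext z
      constructor
      · rintro ⟨hz | hz, hzB⟩
        · exact ⟨hz.1, hzB⟩
        · exact absurd (hJB hz) hzB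
      · rintro ⟨hz, hzB⟩
        exact ⟨Or.inl ⟨hz, fun hq => hzB (hQB hq)⟩, hzB⟩
    · intro z _ hzB _
      exact (gl_out w u fun hc => hzB (hR hc)).self_of_nhds
    · refine locLip_of_local fun z hz => ?_
      rcases tri z hz.2 with h1 | h1 | h1
      · exact ⟨w, O, hO, hQO (subset_closure h1), hw, gl_in hQ w u h1⟩
      · exact ⟨u, univ \ K, h.isOpen, ⟨mem_univ _, h1.2⟩, h.lip, gl_out w u h1.1⟩
      · exact ⟨u, univ \ K, h.isOpen, ⟨mem_univ _, hUK h1.2⟩, h.lip,
          gl_eq (hO.inter hUo) hwu h1⟩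
    · refine ⟨gl Q (fun _ => U) (fun z => connectedComponentIn Kᶜ z), fun z hz => ?_, ?_⟩
      · rcases tri z hz.2 with h1 | h1 | h1
        · have h2 := gl_in hQ (fun _ => U) (fun z => connectedComponentIn Kᶜ z) h1
          filter_upwards [h2] with y hy
          rw [hy, h2.self_of_nhds]
        · have h2 := gl_out (fun _ => U) (fun z => connectedComponentIn Kᶜ z) h1.1
          filter_upwards [h2, comp_loc h.cl h1.2] with y hy hy'
          rw [hy, h2.self_of_nhds, hy']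
        · have h2 := gl_eq (Q := Q) hUo (w := fun _ => U)
            (u := fun z => connectedComponentIn Kᶜ z)
            (fun y hy => connectedComponentIn_eq hy) h1.2
          filter_upwards [h2, comp_loc h.cl (hUK h1.2)] with y hy hy'
          rw [hy, h2.self_of_nhds, hy']
      · intro z _ hzB _
        rw [(gl_out (fun _ => U) (fun z => connectedComponentIn Kᶜ z)
          fun hc => hzB (hR hc)).self_of_nhds, compl_eq_univ_sdiff]
  have hmin := h.min 0 R L (gl Q w u) (subset_univ _) hcomp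
  rw [zero_mul, add_zero] at hmin
  have e1 : En u B = En u Q + En u (B \ Q) := by
    unfold En
    rw [← setIntegral_union hdis (hBm.diff hQ.measurableSet) (hiu.mono_set hQB)
      (hiu.mono_set sdiff_subset), hBe]
  have e2 : En (gl Q w u) B = En w Q + En u (B \ Q) := by
    have a1 : En (gl Q w u) Q = En w Q := setIntegral_congr_fun hQ.measurableSet hin
    have a2 : En (gl Q w u) (B \ Q) = En u (B \ Q) := integral_congr_ae hout
    rw [← a1, ← a2]
    unfold En
    rw [← setIntegral_union hdis (hBm.diff hQ.measurableSet) hi1 hi2, hBe]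
  have e3 : len K B = len K Q + (μH[1] ((K ∩ B) \ Q)).toReal := by
    unfold len
    have h1 : μH[1] ((K ∩ B) ∩ Q) + μH[1] ((K ∩ B) \ Q) = μH[1] (K ∩ B) :=
      measure_inter_add_sdiff _ hQ.measurableSet
    have h2 : (K ∩ B) ∩ Q = K ∩ Q := by
      rw [inter_assoc, inter_eq_right.2 hQB]
    rw [h2] at h1
    have h3 : μH[1] (K ∩ Q) < ⊤ := (measure_mono (inter_subset_inter_right _ hQB)).trans_lt hKB
    rw [← h1, ENNReal.toReal_add h3.ne hf1.ne]
  have e4 : len L B ≤ (μH[1] ((K ∩ B) \ Q)).toReal + (μH[1] (J \ K)).toReal := by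
    unfold len
    rw [← ENNReal.toReal_add hf1.ne hf2.ne]
    exact ENNReal.toReal_mono (ENNReal.add_lt_top.2 ⟨hf1, hf2⟩).ne hLf
  rw [← hB] at hmin
  linarith

end Vale.Agent.P128
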