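import Vale.Agent.P128.Stm

open MeasureTheory Set Metric Filter Topology Complex
open scoped ENNReal ComplexConjugate Real

noncomputable section
namespace Vale.Agent.P128

namespace Apx

theorem cut {O : Set ℂ} {u : ℂ → ℝ} (hO : IsOpen O) (hu : ContDiffOn ℝ 1 u O) {x : ℂ} {r : ℝ}
    (hr : 0 < r) (h : closedBall x (2 * r) ⊆ O) : ∃ v : ℂ → ℝ, ContDiff ℝ 1 v ∧
      HasCompactSupport v ∧ ∀ z ∈ ball x (7 / 4 * r), pd v z = pd u z := by
  let η : ContDiffBump x := ⟨7 / 4 * r, 2 * r, by positivity, by linarith⟩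
  refine ⟨fun z => η z * u z, contDiff_iff_contDiffAt.2 fun z => ?_,
    η.hasCompactSupport.mul_right, fun z hz => pd_congr ?_⟩
  · by_cases hz : z ∈ tsupport η
    · rw [η.tsupport_eq] at hz
      exact η.contDiffAt.mul (hu.contDiffAt (hO.mem_nhds (h hz)))
    · refine (contDiffAt_const (c := (0 : ℝ))).congr_of_eventuallyEq ?_
      filter_upwards [notMem_tsupport_iff_eventuallyEq.1 hz] with y hy
      simp [hy]
  · filter_upwards [η.eventuallyEq_one_of_mem_ball hz] with y hy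
    simp [hy]

theorem cont_d {F : Type} [NormedAddCommGroup F] [NormedSpace ℝ F] {v : ℂ → F}
    (hv : ContDiff ℝ 1 v) (e : ℂ) : Continuous fun z => fderiv ℝ v z e :=
  (hv.continuous_fderiv one_ne_zero).clm_apply continuous_const

theorem ibp {v ψ : ℂ → ℝ} (hv : ContDiff ℝ 1 v) (hc : HasCompactSupport v)
    (hψ : ContDiff ℝ (⊤ : ℕ∞) ψ) (e e' : ℂ) :
    ∫ z, fderiv ℝ ψ z e * fderiv ℝ v z e' = -∫ z, fderiv ℝ (fderiv ℝ ψ) z e' e * v z := by
  have h0 : ContDiff ℝ (⊤ : ℕ∞) (fderiv ℝ ψ) := hψ.fderiv_right (by simp)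
  have h1 : ContDiff ℝ 1 (fderiv ℝ ψ) := h0.of_le (by exact_mod_cast le_top)
  have h2 : ContDiff ℝ 1 fun z => fderiv ℝ ψ z e := h1.clm_apply contDiff_const
  have h3 : ∀ z, fderiv ℝ (fun z => fderiv ℝ ψ z e) z e' = fderiv ℝ (fderiv ℝ ψ) z e' e := by
    intro z
    rw [fderiv_clm_apply (h1.differentiable one_ne_zero z) (differentiableAt_const e)]
    simp
  rw [integral_mul_fderiv_eq_neg_fderiv_mul_of_integrable (f := fun z => fderiv ℝ ψ z e)
    (((cont_d h2 e').mul hv.continuous).integrable_of_hasCompactSupport hc.mul_left)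
    ((h2.continuous.mul (cont_d hv e')).integrable_of_hasCompactSupport
      (hc.fderiv_apply ℝ e').mul_left)
    ((h2.continuous.mul hv.continuous).integrable_of_hasCompactSupport hc.mul_left)
    (fun z _ => h2.differentiable one_ne_zero z) (fun z _ => hv.differentiable one_ne_zero z)]
  simp only [h3]

theorem curl {v ψ : ℂ → ℝ} (hv : ContDiff ℝ 1 v) (hc : HasCompactSupport v)
    (hψ : ContDiff ℝ (⊤ : ℕ∞) ψ) :
    ∫ z, fderiv ℝ ψ z I * fderiv ℝ v z 1 = ∫ z, fderiv ℝ ψ z 1 * fderiv ℝ v z I := by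
  rw [ibp hv hc hψ, ibp hv hc hψ]
  congr 1
  refine integral_congr_ae (ae_of_all _ fun z => ?_)
  have h : IsSymmSndFDerivAt ℝ ψ z := hψ.contDiffAt.isSymmSndFDerivAt (by
    simp only [minSmoothness_of_isRCLikeNormedField]
    exact WithTop.coe_le_coe.2 (le_top : (2 : ℕ∞) ≤ ⊤))
  simp only [h.eq 1 I]

theorem cont_pd {v : ℂ → ℝ} (hv : ContDiff ℝ 1 v) : Continuous (pd v) :=
  continuousOn_univ.1 (continuousOn_pd isOpen_univ hv.contDiffOn)

theorem psi_smooth (φ : ContDiffBump (0 : ℂ)) (a : ℂ) :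
    ContDiff ℝ (⊤ : ℕ∞) fun z => φ.normed volume (a - z) :=
  φ.contDiff_normed.comp (contDiff_const.sub contDiff_id)

theorem psi_fderiv (φ : ContDiffBump (0 : ℂ)) (a z e : ℂ) :
    fderiv ℝ (φ.normed volume) (a - z) e = -fderiv ℝ (fun z => φ.normed volume (a - z)) z e := by
  have h1 : DifferentiableAt ℝ (φ.normed volume) (a - z) :=
    (φ.contDiff_normed (n := 1)).differentiable (by simp) _
  have h2 : HasFDerivAt (fun z => φ.normed volume (a - z))
      ((fderiv ℝ (φ.normed volume) (a - z)).comp (-ContinuousLinearMap.id ℝ ℂ)) z :=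
    HasFDerivAt.comp (f := fun z : ℂ => a - z) z h1.hasFDerivAt ((hasFDerivAt_id z).const_sub a)
  rw [h2.fderiv]
  simp

theorem db_mol (hMol : MolStmt) {v : ℂ → ℝ} (hv : ContDiff ℝ 1 v) (hc : HasCompactSupport v)
    (φ : ContDiffBump (0 : ℂ)) (a : ℂ) : db (mol φ (pd v)) a =
      -((∫ z, (pd v z * conj (pd (fun z => φ.normed volume (a - z)) z)).re : ℝ) : ℂ) / 2 := by
  obtain ⟨-, -, H⟩ := (hMol ℂ (pd v) (cont_pd hv).locallyIntegrable).1 φ
  have hψ := psi_smooth φ a
  simp only [db, H, psi_fderiv]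
  generalize (fun z => φ.normed volume (a - z)) = ψ at hψ
  have hψ1 : ContDiff ℝ 1 ψ := hψ.of_le (by exact_mod_cast le_top)
  have hi : ∀ e e', Integrable fun z => fderiv ℝ ψ z e * fderiv ℝ v z e' := fun e e' =>
    ((cont_d hψ1 e).mul (cont_d hv e')).integrable_of_hasCompactSupport
      (hc.fderiv_apply ℝ e').mul_left
  have e1 : ∀ e, ∫ z, -fderiv ℝ ψ z e • pd v z =
      -((∫ z, fderiv ℝ ψ z e * fderiv ℝ v z 1 : ℝ) : ℂ) +
        I * ((∫ z, fderiv ℝ ψ z e * fderiv ℝ v z I : ℝ) : ℂ) := by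
    intro e
    have i1 : Integrable fun z => -((fderiv ℝ ψ z e * fderiv ℝ v z 1 : ℝ) : ℂ) :=
      (hi e 1).ofReal.fun_neg
    have i2 : Integrable fun z => I * ((fderiv ℝ ψ z e * fderiv ℝ v z I : ℝ) : ℂ) :=
      (hi e I).ofReal.const_mul I
    rw [← integral_complex_ofReal, ← integral_complex_ofReal, ← integral_neg,
      ← integral_const_mul, ← integral_add i1 i2]
    refine integral_congr_ae (ae_of_all _ fun z => ?_)
    simp only [pd, real_smul]
    push_cast
    ring
  have e2 : ∫ z, (pd v z * conj (pd ψ z)).re =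
      (∫ z, fderiv ℝ ψ z 1 * fderiv ℝ v z 1) + ∫ z, fderiv ℝ ψ z I * fderiv ℝ v z I := by
    rw [← integral_add (hi 1 1) (hi I I)]
    refine integral_congr_ae (ae_of_all _ fun z => ?_)
    simp only [mul_re, conj_re, conj_im, pd_re, pd_im]
    ring
  rw [e1, e1, e2, curl hv hc hψ]
  push_cast
  linear_combination (((∫ z, fderiv ℝ ψ z I * fderiv ℝ v z I : ℝ) : ℂ) / 2) * I_mul_I

theorem db_bound (hEl : ElStmt) (hMol : MolStmt) {Ω K : Set ℂ} {u : ℂ → ℝ} {Λ M : ℝ}
    (h : IsMS Ω K u Λ M) {x : ℂ} {r : ℝ} (hx : closedBall x (2 * r) ⊆ Ω \ K) {v : ℂ → ℝ}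
    (hv : ContDiff ℝ 1 v) (hc : HasCompactSupport v)
    (he : ∀ z ∈ ball x (7 / 4 * r), pd v z = pd u z) (φ : ContDiffBump (0 : ℂ))
    (hφ : φ.rOut ≤ r / 4) {a : ℂ} (ha : a ∈ ball x (3 / 2 * r)) :
    ‖db (mol φ (pd v)) a‖ ≤ Λ / 2 := by
  have hr : 0 < r := by linarith [φ.rOut_pos]
  have hψ := psi_smooth φ a
  have hψ1 : ContDiff ℝ 1 fun z => φ.normed volume (a - z) := hψ.of_le (by exact_mod_cast le_top)
  have hz : ∀ z, z ∉ ball x (7 / 4 * r) →
      (fun z => φ.normed volume (a - z)) =ᶠ[𝓝 z] fun _ => 0 := by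
    intro z hz
    have h1 : a - z ∉ tsupport (φ.normed volume) := by
      rw [φ.tsupport_normed_eq, mem_closedBall_zero_iff, ← dist_eq_norm]
      intro h2
      refine hz ?_
      rw [mem_ball] at ha ⊢
      linarith [dist_triangle_left z x a]
    exact ((continuous_const.sub continuous_id).tendsto z).eventually
      (notMem_tsupport_iff_eventuallyEq.1 h1)
  have hsub : ball x (7 / 4 * r) ⊆ closedBall x (2 * r) :=
    ball_subset_closedBall.trans (closedBall_subset_closedBall (by linarith))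
  have hI : Integrable fun z => Λ * φ.normed volume (a - z) :=
    (φ.integrable_normed.comp_sub_left a).const_mul Λ
  have h1 := hEl Ω K u Λ M h x (2 * r) _ (hx.trans sdiff_subset)
    (locLip_of_contDiffOn h.isOpen hψ1.contDiffOn)
    (fun z hz' => (hz z fun h2 => hz' (hsub h2)).self_of_nhds)
    (((cont_pd hψ1).norm.pow 2).continuousOn.integrableOn_compact (isCompact_closedBall _ _))
    hI.integrableOn
  have h2 : ∫ z in closedBall x (2 * r), |Λ * φ.normed volume (a - z)| ≤ Λ := by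
    refine (setIntegral_le_integral hI.abs (ae_of_all _ fun z => abs_nonneg _)).trans
      (le_of_eq ?_)
    simp only [abs_of_nonneg (mul_nonneg h.L0 (φ.nonneg_normed _))]
    rw [integral_const_mul, integral_sub_left_eq_self (φ.normed volume) volume a,
      φ.integral_normed, mul_one]
  have h3 : ∫ z, (pd v z * conj (pd (fun z => φ.normed volume (a - z)) z)).re =
      ∫ z in closedBall x (2 * r),
        (pd u z * conj (pd (fun z => φ.normed volume (a - z)) z)).re := by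
    rw [← integral_indicator measurableSet_closedBall]
    refine integral_congr_ae (ae_of_all _ fun z => ?_)
    by_cases hz' : z ∈ ball x (7 / 4 * r)
    · simp only [indicator_of_mem (hsub hz'), he z hz']
    · have e : pd (fun z => φ.normed volume (a - z)) z = 0 := by
        rw [pd_congr (hz z hz'), pd_const]
      by_cases h4 : z ∈ closedBall x (2 * r)
      · simp only [indicator_of_mem h4, e, map_zero, mul_zero]
      · simp only [indicator_of_notMem h4, e, map_zero, mul_zero, zero_re]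
  rw [db_mol hMol hv hc, h3, norm_div, norm_neg, Complex.norm_real, Real.norm_eq_abs,
    Complex.norm_two]
  linarith

theorem db_smooth {f : ℂ → ℂ} (hf : ContDiff ℝ (⊤ : ℕ∞) f) : ContDiff ℝ (⊤ : ℕ∞) (db f) := by
  have h1 : ContDiff ℝ (⊤ : ℕ∞) (fderiv ℝ f) := hf.fderiv_right (by simp)
  exact ((h1.clm_apply contDiff_const).add
    (contDiff_const.mul (h1.clm_apply contDiff_const))).div_const 2

theorem cau_bound (hPol : PolStmt) {g : ℂ → ℂ} {a : ℂ} {B R : ℝ} (hB : 0 ≤ B) (hR : 0 ≤ R)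
    (h1 : ∀ z, ‖g z‖ ≤ B) (h2 : ∀ z, z ∉ closedBall a R → g z = 0) : ‖cau g a‖ ≤ 2 * B * R := by
  obtain ⟨hi, he⟩ := hPol.2.2 a R 1 hR (by norm_num)
  have h3 : ‖∫ z, g z / (a - z)‖ ≤
      ∫ z, (closedBall a R).indicator (fun z => B * ‖z - a‖ ^ (-1 : ℝ)) z := by
    refine norm_integral_le_of_norm_le
      (IntegrableOn.integrable_indicator (hi.const_mul B) measurableSet_closedBall)
      (ae_of_all _ fun z => ?_)
    by_cases hz : z ∈ closedBall a R
    · rw [indicator_of_mem hz, norm_div, Real.rpow_neg_one, norm_sub_rev, div_eq_mul_inv]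
      exact mul_le_mul_of_nonneg_right (h1 z) (by positivity)
    · rw [indicator_of_notMem hz, h2 z hz, zero_div, norm_zero]
  rw [integral_indicator measurableSet_closedBall, integral_const_mul, he] at h3
  have h4 : ‖(1 / π : ℂ)‖ = 1 / π := by
    rw [norm_div, norm_one, Complex.norm_real, Real.norm_eq_abs, abs_of_pos Real.pi_pos]
  rw [cau, norm_mul, h4]
  refine (mul_le_mul_of_nonneg_left h3 (by positivity)).trans (le_of_eq ?_)
  have := Real.pi_pos
  norm_num
  field_simp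

theorem hol (hCau : CauStmt) (hPol : PolStmt) {q : ℂ → ℂ} (hq : ContDiff ℝ (⊤ : ℕ∞) q) {x : ℂ}
    {r B : ℝ} (hr : 0 < r) (hB : 0 ≤ B) (hb : ∀ a ∈ ball x (3 / 2 * r), ‖db q a‖ ≤ B) :
    ∃ h : ℂ → ℂ, DifferentiableOn ℂ h (ball x r) ∧ ∀ z ∈ ball x r, ‖q z - h z‖ ≤ 5 * B * r := by
  let ζ : ContDiffBump x := ⟨r, 3 / 2 * r, hr, by linarith⟩
  have hg : ContDiff ℝ (⊤ : ℕ∞) fun z => (ζ z : ℂ) * db q z :=
    (ofRealCLM.contDiff.comp ζ.contDiff).mul (db_smooth hq)
  have hgc : HasCompactSupport fun z => (ζ z : ℂ) * db q z :=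
    (ζ.hasCompactSupport.comp_left (g := fun t : ℝ => (t : ℂ)) ofReal_zero).mul_right
  have h0 : ∀ z, z ∉ ball x (3 / 2 * r) → (ζ z : ℂ) * db q z = 0 := by
    intro z hz
    rw [ζ.zero_of_le_dist (not_lt.1 hz), ofReal_zero, zero_mul]
  obtain ⟨c1, c2, -⟩ := hCau _ hg hgc
  refine ⟨fun z => q z - cau (fun z => (ζ z : ℂ) * db q z) z, fun z hz => ?_, fun z hz => ?_⟩
  · have d1 := hq.differentiable (by simp) z
    have d2 := c1.differentiable (by simp) z
    refine (hasDerivAt_of_db (d1.fun_sub d2) ?_).differentiableAt.differentiableWithinAt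
    have e := c2 z
    rw [ζ.one_of_mem_closedBall (ball_subset_closedBall hz), ofReal_one, one_mul] at e
    generalize cau (fun z => (ζ z : ℂ) * db q z) = c at d2 e ⊢
    simp only [db, fderiv_fun_sub d1 d2, sub_apply] at e ⊢
    linear_combination -e
  · rw [sub_sub_cancel]
    refine (cau_bound hPol hB (R := 5 / 2 * r) (by positivity) (fun w => ?_)
      fun w hw => h0 w fun h2 => hw ?_).trans (le_of_eq (by ring))
    · by_cases hw : w ∈ ball x (3 / 2 * r)
      · rw [norm_mul, Complex.norm_real, Real.norm_eq_abs, abs_of_nonneg ζ.nonneg]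
        exact (mul_le_of_le_one_left (norm_nonneg _) ζ.le_one).trans (hb w hw)
      · rw [h0 w hw, norm_zero]
        exact hB
    · rw [mem_ball] at hz h2
      rw [mem_closedBall]
      linarith [dist_triangle_right w z x]

theorem apx (hEl : ElStmt) (hMol : MolStmt) (hCau : CauStmt) (hPol : PolStmt) {Ω K : Set ℂ}
    {u : ℂ → ℝ} {Λ M : ℝ} (h : IsMS Ω K u Λ M) {x : ℂ} {r : ℝ} (hr : 0 < r)
    (hx : closedBall x (2 * r) ⊆ Ω \ K) {ε : ℝ} (hε : 0 < ε) :
    ∃ f : ℂ → ℂ, DifferentiableOn ℂ f (ball x r) ∧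
      ∀ z ∈ ball x r, ‖pd u z - f z‖ ≤ 3 * Λ * r + ε := by
  obtain ⟨v, hv, hc, he⟩ := cut h.isOpen h.c1 hr hx
  obtain ⟨H1, H2⟩ := hMol ℂ (pd v) (cont_pd hv).locallyIntegrable
  let φ : ℕ → ContDiffBump (0 : ℂ) := fun n =>
    ⟨r / 8 * (1 / ((n : ℝ) + 1)), r / 4 * (1 / ((n : ℝ) + 1)), by positivity,
      mul_lt_mul_of_pos_right (by linarith) (by positivity)⟩
  have h1 : Tendsto (fun n => (φ n).rOut) atTop (𝓝 0) := by
    have := tendsto_one_div_add_atTop_nhds_zero_nat (𝕜 := ℝ) |>.const_mul (r / 4)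
    rwa [mul_zero] at this
  have h2 := (H2 φ h1).1 univ (closedBall x r) isOpen_univ (cont_pd hv).continuousOn
    (isCompact_closedBall _ _) (subset_univ _)
  obtain ⟨n, hn⟩ := (Metric.tendstoUniformlyOn_iff.1 h2 ε hε).exists
  have h3 : (φ n).rOut ≤ r / 4 := by
    refine mul_le_of_le_one_right (by positivity) ?_
    rw [div_le_one (by positivity)]
    linarith [Nat.cast_nonneg (α := ℝ) n]
  have hL := h.L0
  obtain ⟨f, hf, hf'⟩ := hol hCau hPol (H1 (φ n)).1 hr (B := Λ / 2) (by positivity)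
    fun a ha => db_bound hEl hMol h hx hv hc he (φ n) h3 ha
  refine ⟨f, hf, fun z hz => ?_⟩
  have h4 := hn z (ball_subset_closedBall hz)
  rw [dist_eq_norm, he z (ball_subset_ball (by linarith) hz)] at h4
  have h5 := hf' z hz
  have h6 := norm_sub_le_norm_sub_add_norm_sub (pd u z) (mol (φ n) (pd v) z) (f z)
  nlinarith [mul_nonneg hL hr.le]

theorem mean (hPol : PolStmt) {f : ℂ → ℂ} {x : ℂ} {r t : ℝ} (hf : DifferentiableOn ℂ f (ball x r))
    (ht : 0 < t) (htr : t < r) : ∫ z in closedBall x t, f z = (π * t ^ 2) • f x := by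
  have hi : IntegrableOn f (closedBall x t) :=
    (hf.continuousOn.mono (closedBall_subset_ball htr)).integrableOn_compact
      (isCompact_closedBall _ _)
  have h1 := (hPol.2.1 ℂ f x t hi).2.2 0 t le_rfl ht.le le_rfl
  rw [setIntegral_congr_set (sdiff_null_ae_eq_self (by simp))] at h1
  have h2 : ∀ ρ ∈ uIcc 0 t, ρ • ∫ θ in (0 : ℝ)..2 * π, f (circleMap x ρ θ) =
      (2 * π * ρ) • f x := by
    intro ρ hρ
    rw [uIcc_of_le ht.le] at hρ
    have h3 : DiffContOnCl ℂ f (ball x |ρ|) := by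
      rw [abs_of_nonneg hρ.1]
      refine DifferentiableOn.diffContOnCl (hf.mono ?_)
      exact closure_ball_subset_closedBall.trans (closedBall_subset_ball (hρ.2.trans_lt htr))
    rw [← h3.circleAverage, Real.circleAverage_def, smul_smul]
    congr 1
    have := Real.pi_pos
    field_simp
  rw [h1, intervalIntegral.integral_congr h2, intervalIntegral.integral_smul_const,
    intervalIntegral.integral_const_mul, integral_id]
  congr 1
  ring

theorem point (hPol : PolStmt) (hUp : UpStmt) {Ω K : Set ℂ} {u : ℂ → ℝ} {Λ M : ℝ}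
    (h : IsMS Ω K u Λ M) {x : ℂ} {r : ℝ} (hr : 0 < r) (hx : closedBall x (2 * r) ⊆ Ω)
    (hs : Λ * M * (2 * r) ≤ 1) {f : ℂ → ℂ} {δ : ℝ} (hf : DifferentiableOn ℂ f (ball x r))
    (hf' : ∀ z ∈ ball x r, ‖pd u z - f z‖ ≤ δ) : ‖pd u x‖ ^ 2 * r ≤ 32 + 6 * (δ ^ 2 * r) := by
  have hsub : closedBall x (r / 2) ⊆ Ω := (closedBall_subset_closedBall (by linarith)).trans hx
  have hpi := Real.pi_pos
  have h1 := mean hPol (f := fun z => f z ^ 2) (hf.pow 2) (t := r / 2) (by positivity)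
    (by linarith)
  have hi := h.int x _ hsub
  have hc : IntegrableOn (fun _ : ℂ => 2 * δ ^ 2) (closedBall x (r / 2)) :=
    continuousOn_const.integrableOn_compact (isCompact_closedBall _ _)
  have key : ∀ a b : ℂ, ‖a - b‖ ≤ δ → ‖b‖ ^ 2 ≤ 2 * ‖a‖ ^ 2 + 2 * δ ^ 2 := by
    intro a b hab
    have h2 : ‖b‖ ≤ ‖a‖ + δ := by
      have := norm_sub_norm_le b a
      rw [norm_sub_rev] at this
      linarith
    have h3 := pow_le_pow_left₀ (norm_nonneg _) h2 2
    nlinarith [sq_nonneg (‖a‖ - δ)]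
  have h2 : ‖∫ z in closedBall x (r / 2), f z ^ 2‖ ≤
      ∫ z in closedBall x (r / 2), (2 * ‖pd u z‖ ^ 2 + 2 * δ ^ 2) := by
    refine norm_integral_le_of_norm_le ((hi.const_mul 2).fun_add hc) ?_
    filter_upwards [ae_restrict_mem measurableSet_closedBall] with z hz
    rw [norm_pow]
    exact key _ _ (hf' z (closedBall_subset_ball (by linarith) hz))
  have h3 : (volume : Measure ℂ).real (closedBall x (r / 2)) = π * (r / 2) ^ 2 := by
    rw [Measure.real, Complex.volume_closedBall, ENNReal.toReal_mul, ENNReal.toReal_pow,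
      ENNReal.toReal_ofReal (by positivity), mul_comm]
    rfl
  rw [h1, integral_add (hi.const_mul 2) hc, integral_const_mul, setIntegral_const, h3, norm_smul,
    norm_pow, Real.norm_eq_abs, abs_of_pos (by positivity), smul_eq_mul] at h2
  have h4 := hUp Ω K u Λ M h x (r / 2) (by positivity) hsub
  have h5 := len_nonneg K (closedBall x (r / 2))
  have h6 : 2 * π * (Λ * M) * (r / 2) ^ 2 ≤ π * r := by
    have := mul_le_mul_of_nonneg_left hs (show 0 ≤ π * r / 4 by positivity)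
    nlinarith [mul_pos hpi hr]
  have h7 : π * r * (‖f x‖ ^ 2 * r) ≤ π * r * (16 + 2 * (δ ^ 2 * r)) := by
    unfold En at h4
    nlinarith
  have h8 := le_of_mul_le_mul_left h7 (by positivity)
  have h9 := key (f x) (pd u x) (by rw [norm_sub_rev]; exact hf' x (mem_ball_self hr))
  nlinarith [mul_le_mul_of_nonneg_right h9 hr.le]

end Apx

theorem apx_pf (hEl : ElStmt) (hMol : MolStmt) (hCau : CauStmt) (hPol : PolStmt) (hUp : UpStmt)
    : ApxStmt := by
  refine ⟨⟨70, by norm_num, fun Ω K u Λ M h x r hr hx => ⟨fun ε hε => ?_, fun hs => ?_⟩⟩,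
    fun K u h z hz => ?_⟩
  · obtain ⟨f, hf, hf'⟩ := Apx.apx hEl hMol hCau hPol h hr hx hε
    refine ⟨f, hf, fun z hz => (hf' z hz).trans ?_⟩
    nlinarith [mul_nonneg h.L0 hr.le]
  · have hq : 0 < √r := Real.sqrt_pos.2 hr
    obtain ⟨f, hf, hf'⟩ := Apx.apx hEl hMol hCau hPol h hr hx (ε := 1 / √r) (by positivity)
    have hx' := hx.trans sdiff_subset
    have h1 := Apx.point hPol hUp h hr hx' hs hf hf'
    have h2 := h.sz x r ((closedBall_subset_closedBall (by linarith)).trans hx')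
    have h3 : (3 * Λ * r + 1 / √r) ^ 2 * r = (3 * (Λ * √r * r) + 1) ^ 2 := by
      conv_lhs => rw [show (3 * Λ * r + 1 / √r) ^ 2 * r = (3 * Λ * r + 1 / √r) ^ 2 * √r ^ 2 by
        rw [Real.sq_sqrt hr.le]]
      field_simp
    have h4 : Λ * √r * r ≤ 1 / 2 := by nlinarith [mul_le_mul_of_nonneg_right h2 hr.le]
    have h5 : 0 ≤ Λ * √r * r := by have := h.L0; positivity
    rw [h3] at h1
    nlinarith
  · obtain ⟨ρ, hρ, hb⟩ := Metric.nhds_basis_closedBall.mem_iff.1 (h.cl.isOpen_compl.mem_nhds hz)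
    have hx : closedBall z (2 * (ρ / 2)) ⊆ univ \ K := by
      rw [show 2 * (ρ / 2) = ρ by ring]
      exact fun w hw => ⟨mem_univ _, hb hw⟩
    choose f hf hf' using fun n : ℕ =>
      Apx.apx hEl hMol hCau hPol h (half_pos hρ) hx (ε := 1 / ((n : ℝ) + 1)) (by positivity)
    have h1 : TendstoUniformlyOn f (pd u) atTop (ball z (ρ / 2)) := by
      refine Metric.tendstoUniformlyOn_iff.2 fun ε hε => ?_
      filter_upwards [(tendsto_one_div_add_atTop_nhds_zero_nat (𝕜 := ℝ)).eventually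
        (gt_mem_nhds hε)] with n hn w hw
      have := hf' n w hw
      rw [dist_eq_norm]
      linarith
    exact ((h1.tendstoLocallyUniformlyOn.differentiableOn (Eventually.of_forall hf)
      isOpen_ball).differentiableAt (ball_mem_nhds z (half_pos hρ))).differentiableWithinAt

end Vale.Agent.P128
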