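import Vale.Agent.P128.Stm

open MeasureTheory Set Metric Filter Topology Complex
open scoped ENNReal ComplexConjugate Real

noncomputable section
namespace Vale.Agent.P128

namespace ArcA

variable {a b U : ℝ → ℝ} {α β B : ℝ}

theorem int_of_sq {f : ℝ → ℝ} (hlt : α < β) (hc : ContinuousOn f (Ioo α β))
    (hi : IntervalIntegrable (fun θ => f θ ^ 2) volume α β) : IntervalIntegrable f volume α β := by
  have h1 := (hi.add (intervalIntegrable_const (c := (1 : ℝ))))
  rw [intervalIntegrable_iff_integrableOn_Ioo_of_le hlt.le] at h1 ⊢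
  refine h1.mono' (hc.aestronglyMeasurable measurableSet_Ioo) (Eventually.of_forall fun θ => ?_)
  rw [Real.norm_eq_abs, abs_le]
  constructor <;> nlinarith [sq_nonneg (f θ - 1), sq_nonneg (f θ + 1)]

theorem int_U (h : AD a b U α β B) {f : ℝ → ℝ} (hf : IntervalIntegrable f volume α β) :
    IntervalIntegrable (fun θ => U θ * f θ) volume α β := by
  rw [intervalIntegrable_iff_integrableOn_Ioo_of_le h.lt.le] at hf ⊢
  have h1 : ContinuousOn U (Ioo α β) := fun θ hθ => (h.der θ hθ).continuousAt.continuousWithinAt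
  exact Integrable.bdd_mul (c := B) hf (h1.aestronglyMeasurable measurableSet_Ioo)
    ((ae_restrict_iff' measurableSet_Ioo).2 (Eventually.of_forall h.bd))

theorem shift (h : AD a b U α β B) (m : ℝ) : AD a (fun θ => b θ - m) U α β B := by
  refine ⟨h.lt, h.ca, h.cb.sub continuousOn_const, h.ia, ?_, h.der, h.bd⟩
  have h1 := (h.ib.sub ((int_of_sq h.lt h.cb h.ib).const_mul (2 * m))).add
    (intervalIntegrable_const (c := m ^ 2))
  refine h1.congr fun θ _ => ?_
  ring

theorem core (hWir : WirStmt) (h : AD a b U α β B) {V : ℝ → ℝ} (hV : ContinuousOn V (Icc α β))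
    (h0 : V α = 0) (h1 : V β = 0) (hd : ∀ θ ∈ Ioo α β, HasDerivAt V (b θ) θ) :
    ∫ θ in α..β, U θ * b θ ≤ (β - α) / (2 * π) * ∫ θ in α..β, (a θ ^ 2 + b θ ^ 2) := by
  have hL : 0 < β - α := sub_pos.2 h.lt
  have hp := Real.pi_pos
  have hV' : ContinuousOn V (uIcc α β) := by rwa [uIcc_of_le h.lt.le]
  have i1 := (int_of_sq h.lt h.ca h.ia).mul_continuousOn hV'
  have i2 := int_U h (int_of_sq h.lt h.cb h.ib)
  have i3 : IntervalIntegrable (fun θ => V θ ^ 2) volume α β := (hV'.pow 2).intervalIntegrable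
  have t1 : Tendsto (fun θ => U θ * V θ) (𝓝[>] α) (𝓝 0) := by
    refine bdd_le_mul_tendsto_zero' B (mem_of_superset (Ioo_mem_nhdsGT h.lt) h.bd) ?_
    have h2 := (hV α (left_mem_Icc.2 h.lt.le)).mono Ioc_subset_Icc_self
    rw [ContinuousWithinAt, nhdsWithin_Ioc_eq_nhdsGT h.lt, h0] at h2
    exact h2
  have t2 : Tendsto (fun θ => U θ * V θ) (𝓝[<] β) (𝓝 0) := by
    refine bdd_le_mul_tendsto_zero' B (mem_of_superset (Ioo_mem_nhdsLT h.lt) h.bd) ?_
    have h2 := (hV β (right_mem_Icc.2 h.lt.le)).mono Ico_subset_Icc_self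
    rw [ContinuousWithinAt, nhdsWithin_Ico_eq_nhdsLT h.lt, h1] at h2
    exact h2
  have h2 := intervalIntegral.integral_eq_sub_of_hasDerivAt_of_tendsto h.lt
    (fun θ hθ => (h.der θ hθ).fun_mul (hd θ hθ)) (i1.add i2) t1 t2
  rw [intervalIntegral.integral_add i1 i2] at h2
  have h3 := (hWir V b α β h.lt hV h0 h1 hd h.cb h.ib).1
  have h4 : ∫ θ in α..β, -(a θ * V θ) ≤
      ∫ θ in α..β, ((β - α) / (2 * π) * a θ ^ 2 + π / (2 * (β - α)) * V θ ^ 2) := by
    refine intervalIntegral.integral_mono_on h.lt.le i1.neg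
      ((h.ia.const_mul _).add (i3.const_mul _)) fun θ _ => ?_
    have h5 : (β - α) / (2 * π) * a θ ^ 2 + π / (2 * (β - α)) * V θ ^ 2 + a θ * V θ =
        ((β - α) * a θ + π * V θ) ^ 2 / (2 * π * (β - α)) := by
      field_simp
      ring
    have h6 : 0 ≤ ((β - α) * a θ + π * V θ) ^ 2 / (2 * π * (β - α)) := by positivity
    linarith
  rw [intervalIntegral.integral_neg, intervalIntegral.integral_add (h.ia.const_mul _)
    (i3.const_mul _), intervalIntegral.integral_const_mul, intervalIntegral.integral_const_mul] at h4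
  have h7 := mul_le_mul_of_nonneg_left h3 (by positivity : 0 ≤ π / (2 * (β - α)))
  have h8 : π / (2 * (β - α)) * (((β - α) / π) ^ 2 * ∫ θ in α..β, b θ ^ 2) =
      (β - α) / (2 * π) * ∫ θ in α..β, b θ ^ 2 := by field_simp
  rw [intervalIntegral.integral_add h.ia h.ib]
  linarith

theorem fin (h : AD a b U α β B) {c m : ℝ} (hc : 0 ≤ c) (hm : ∫ θ in α..β, b θ = m * (β - α))
    (h1 : ∫ θ in α..β, U θ * (b θ - m) ≤ c * ∫ θ in α..β, (a θ ^ 2 + (b θ - m) ^ 2)) :
    ∫ θ in α..β, U θ * b θ ≤ c * (∫ θ in α..β, (a θ ^ 2 + b θ ^ 2)) + |∫ θ in α..β, b θ| * B := by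
  have hL : 0 < β - α := sub_pos.2 h.lt
  have i1 := int_of_sq h.lt h.cb h.ib
  have i2 : IntervalIntegrable U volume α β := by
    simpa using int_U h (intervalIntegrable_const (c := (1 : ℝ)))
  have h2 : ∫ θ in α..β, U θ * (b θ - m) = (∫ θ in α..β, U θ * b θ) - m * ∫ θ in α..β, U θ := by
    rw [← intervalIntegral.integral_const_mul, ← intervalIntegral.integral_sub (int_U h i1)
      (i2.const_mul m)]
    exact intervalIntegral.integral_congr fun θ _ => by ring
  have h3 : ∫ θ in α..β, (a θ ^ 2 + (b θ - m) ^ 2) =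
      (∫ θ in α..β, (a θ ^ 2 + b θ ^ 2)) - m ^ 2 * (β - α) := by
    have h4 : ∫ θ in α..β, (a θ ^ 2 + (b θ - m) ^ 2) =
        ∫ θ in α..β, ((a θ ^ 2 + b θ ^ 2) - 2 * m * b θ + m ^ 2) :=
      intervalIntegral.integral_congr fun θ _ => by ring
    rw [h4, intervalIntegral.integral_add ((h.ia.add h.ib).sub (i1.const_mul _))
      intervalIntegrable_const, intervalIntegral.integral_sub (h.ia.add h.ib) (i1.const_mul _),
      intervalIntegral.integral_const_mul, hm, intervalIntegral.integral_const, smul_eq_mul]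
    ring
  have h5 : |∫ θ in α..β, U θ| ≤ B * (β - α) := by
    have h6 := intervalIntegral.norm_integral_le_of_norm_le_const_ae (a := α) (b := β) (C := B)
      (f := U) (by
        filter_upwards [Measure.ae_ne volume β] with θ hθ h7
        rw [uIoc_of_le h.lt.le] at h7
        exact h.bd θ ⟨h7.1, lt_of_le_of_ne h7.2 hθ⟩)
    rwa [abs_of_pos hL] at h6
  have h8 : m * ∫ θ in α..β, U θ ≤ |m| * (B * (β - α)) := by
    refine (le_abs_self _).trans ?_
    rw [abs_mul]
    exact mul_le_mul_of_nonneg_left h5 (abs_nonneg m)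
  rw [h2, h3] at h1
  rw [hm, abs_mul, abs_of_pos hL]
  nlinarith [mul_nonneg hc (mul_nonneg (sq_nonneg m) hL.le)]

theorem one (hWir : WirStmt) (h : AD a b U α β B) : ∫ θ in α..β, U θ * b θ ≤
    (β - α) / (2 * π) * (∫ θ in α..β, (a θ ^ 2 + b θ ^ 2)) + |∫ θ in α..β, b θ| * B := by
  have hL : 0 < β - α := sub_pos.2 h.lt
  obtain ⟨m, hm⟩ : ∃ m, ∫ θ in α..β, b θ = m * (β - α) := ⟨_, (div_mul_cancel₀ _ hL.ne').symm⟩
  have h' := shift h m
  have i1 := int_of_sq h.lt h'.cb h'.ib
  refine fin h (div_pos hL Real.two_pi_pos).le hm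
    (core hWir h' (V := fun θ => ∫ t in α..θ, (b t - m)) ?_ intervalIntegral.integral_same ?_
      fun θ hθ => ?_)
  · rw [← uIcc_of_le h.lt.le]
    exact intervalIntegral.continuousOn_primitive_interval' i1 left_mem_uIcc
  · rw [intervalIntegral.integral_sub (int_of_sq h.lt h.cb h.ib) intervalIntegrable_const, hm,
      intervalIntegral.integral_const, smul_eq_mul]
    ring
  · refine intervalIntegral.integral_hasDerivAt_right (i1.mono_set ?_)
      (h'.cb.stronglyMeasurableAtFilter isOpen_Ioo θ hθ)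
      (h'.cb.continuousAt (Ioo_mem_nhds hθ.1 hθ.2))
    rw [uIcc_of_le hθ.1.le, uIcc_of_le h.lt.le]
    exact Icc_subset_Icc_right hθ.2.le

theorem ad_of_cont (ha : Continuous a) (hb : Continuous b) (hd : ∀ θ, HasDerivAt U (a θ) θ)
    (hB : ∀ θ, |U θ| ≤ B) (hlt : α < β) : AD a b U α β B :=
  ⟨hlt, ha.continuousOn, hb.continuousOn, (ha.pow 2).intervalIntegrable _ _,
    (hb.pow 2).intervalIntegrable _ _, fun θ _ => hd θ, fun θ _ => hB θ⟩

theorem half {V : ℝ → ℝ} (hV : Continuous V) (hp : V (2 * π) = V 0) : ∃ s, V (s + π) = V s := by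
  have h1 : Continuous fun s => V (s + π) - V s := by fun_prop
  have h2 : (0 : ℝ) ∈ uIcc (V (0 + π) - V 0) (V (π + π) - V π) := by
    rw [zero_add, ← two_mul, hp, mem_uIcc]
    rcases le_total (V π) (V 0) with h3 | h3
    · exact Or.inl ⟨by linarith, by linarith⟩
    · exact Or.inr ⟨by linarith, by linarith⟩
  obtain ⟨s, _, hs⟩ := intermediate_value_uIcc h1.continuousOn h2
  exact ⟨s, sub_eq_zero.1 hs⟩

theorem two0 (hWir : WirStmt) (ha : Continuous a) (hb : Continuous b)
    (pb : Function.Periodic b (2 * π)) (pU : Function.Periodic U (2 * π))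
    (hd : ∀ θ, HasDerivAt U (a θ) θ) (hB : ∀ θ, |U θ| ≤ B)
    (h0 : ∫ θ in (0 : ℝ)..2 * π, b θ = 0) : ∫ θ in (0 : ℝ)..2 * π, U θ * b θ ≤
      1 / 2 * ∫ θ in (0 : ℝ)..2 * π, (a θ ^ 2 + b θ ^ 2) := by
  have hp := Real.pi_pos
  have pa : Function.Periodic a (2 * π) := fun θ => by
    have h1 := (hd (θ + 2 * π)).comp_add_const θ (2 * π)
    rw [funext pU] at h1
    exact h1.unique (hd θ)
  have hU : Continuous U := continuous_iff_continuousAt.2 fun θ => (hd θ).continuousAt
  have hV : ∀ s θ, HasDerivAt (fun θ => ∫ t in s..θ, b t) (b θ) θ :=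
    fun s θ => (hb.integral_hasStrictDerivAt s θ).hasDerivAt
  have hV' : ∀ s, Continuous fun θ => ∫ t in s..θ, b t :=
    fun s => continuous_iff_continuousAt.2 fun θ => (hV s θ).continuousAt
  obtain ⟨s, hs⟩ := half (hV' 0) (by simp only [h0, intervalIntegral.integral_same])
  have i1 := hb.intervalIntegrable (μ := volume)
  have h1 : ∫ t in s..s + π, b t = 0 := by
    rw [← intervalIntegral.integral_interval_sub_left (i1 0 _) (i1 0 _), sub_eq_zero]
    exact hs
  have h2 : ∫ t in s + π..s + 2 * π, b t = 0 := by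
    rw [← intervalIntegral.integral_interval_sub_left (i1 s _) (i1 s _), h1,
      pb.intervalIntegral_add_eq s 0, zero_add, h0, sub_zero]
  have h3 := core hWir (ad_of_cont ha hb hd hB (by linarith : s < s + π)) (hV' s).continuousOn
    intervalIntegral.integral_same h1 fun θ _ => hV s θ
  have h4 := core hWir (ad_of_cont ha hb hd hB (by linarith : s + π < s + 2 * π))
    (hV' (s + π)).continuousOn intervalIntegral.integral_same h2 fun θ _ => hV _ θ
  have p1 : Function.Periodic (fun θ => U θ * b θ) (2 * π) := pU.mul pb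
  have p2 : Function.Periodic (fun θ => a θ ^ 2 + b θ ^ 2) (2 * π) := fun θ => by
    simp only [pa θ, pb θ]
  have e1 := p1.intervalIntegral_add_eq 0 s
  have e2 := p2.intervalIntegral_add_eq 0 s
  have i2 := (hU.mul hb).intervalIntegrable (μ := volume)
  have i3 := ((ha.pow 2).add (hb.pow 2)).intervalIntegrable (μ := volume)
  have e3 : _ = ∫ θ in s..s + 2 * π, U θ * b θ :=
    intervalIntegral.integral_add_adjacent_intervals (i2 s (s + π)) (i2 _ _)
  have e4 : _ = ∫ θ in s..s + 2 * π, (a θ ^ 2 + b θ ^ 2) :=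
    intervalIntegral.integral_add_adjacent_intervals (i3 s (s + π)) (i3 _ _)
  rw [zero_add] at e1 e2
  rw [show (s + π - s) / (2 * π) = 1 / 2 by field_simp; ring] at h3
  rw [show (s + 2 * π - (s + π)) / (2 * π) = 1 / 2 by field_simp; ring] at h4
  rw [e1, e2, ← e3, ← e4, mul_add]
  exact add_le_add h3 h4

end ArcA

theorem arcA_pf (hWir : WirStmt) : ArcAStmt := by
  refine ⟨fun a b U α β B h => ArcA.one hWir h, fun a b U B ha hb pb pU hd hB => ?_⟩
  have hp := Real.two_pi_pos
  obtain ⟨m, hm⟩ : ∃ m, ∫ θ in (0 : ℝ)..2 * π, b θ = m * (2 * π - 0) :=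
    ⟨_, (div_mul_cancel₀ _ (by linarith)).symm⟩
  have h1 := ArcA.fin (ArcA.ad_of_cont ha hb hd hB hp) one_half_pos.le hm
    (ArcA.two0 hWir ha (hb.sub continuous_const) (fun θ => by simp only [pb θ]) pU hd hB (by
      rw [intervalIntegral.integral_sub (hb.intervalIntegrable _ _) intervalIntegrable_const, hm,
        intervalIntegral.integral_const, smul_eq_mul]
      ring))
  linarith

end Vale.Agent.P128
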