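import Vale.Agent.P128.Stm

open MeasureTheory Set Metric Filter Topology Complex
open scoped ENNReal ComplexConjugate Real

noncomputable section
namespace Vale.Agent.P128

namespace ArcB

open intervalIntegral

variable {α β : ℝ} {f g : ℝ → ℝ}

/-- continuous inside the arc and square integrable -/
def L2 (α β : ℝ) (f : ℝ → ℝ) : Prop :=
  ContinuousOn f (Ioo α β) ∧ IntervalIntegrable (fun θ => f θ ^ 2) volume α β

theorem int_of_le {E : Type} [NormedAddCommGroup E] (h : α < β) {F : ℝ → E}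
    (hF : ContinuousOn F (Ioo α β)) (hg : IntervalIntegrable g volume α β)
    (hle : ∀ θ, ‖F θ‖ ≤ g θ) : IntervalIntegrable F volume α β := by
  refine hg.mono_fun' ?_ (Eventually.of_forall hle)
  rw [uIoc_of_le h.le, ← Measure.restrict_congr_set Ioo_ae_eq_Ioc]
  exact hF.aestronglyMeasurable measurableSet_Ioo

theorem L2.mul_int (h : α < β) (hf : L2 α β f) (hg : L2 α β g) :
    IntervalIntegrable (fun θ => f θ * g θ) volume α β :=
  int_of_le h (hf.1.mul hg.1) (hf.2.add hg.2) fun θ => by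
    rw [Real.norm_eq_abs, abs_le]
    constructor <;> nlinarith [sq_nonneg (f θ + g θ), sq_nonneg (f θ - g θ)]

theorem L2.of_cont (h : α < β) (hf : ContinuousOn f (Icc α β)) : L2 α β f :=
  ⟨hf.mono Ioo_subset_Icc_self, (hf.pow 2).intervalIntegrable_of_Icc h.le⟩

theorem L2.int (h : α < β) (hf : L2 α β f) : IntervalIntegrable f volume α β := by
  simpa using hf.mul_int h (L2.of_cont (f := fun _ => 1) h continuousOn_const)

theorem L2.sub (h : α < β) (hf : L2 α β f) (hg : L2 α β g) : L2 α β fun θ => f θ - g θ :=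
  ⟨hf.1.sub hg.1, int_of_le h ((hf.1.sub hg.1).pow 2)
    ((hf.2.add hg.2).const_mul 2) fun θ => by
      rw [Real.norm_eq_abs, abs_of_nonneg (sq_nonneg _)]
      nlinarith [sq_nonneg (f θ + g θ)]⟩

theorem L2.mul (h : α < β) (hf : L2 α β f) (hg : ContinuousOn g (Icc α β)) :
    L2 α β fun θ => f θ * g θ := by
  refine ⟨hf.1.mul (hg.mono Ioo_subset_Icc_self), ?_⟩
  simp only [mul_pow]
  exact hf.2.mul_continuousOn (by rw [uIcc_of_le h.le]; exact hg.pow 2)

theorem L2.prim (h : α < β) (hf : L2 α β f) {m : ℝ} (hm : m ∈ Icc α β) :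
    ContinuousOn (fun θ => ∫ t in m..θ, f t) (Icc α β) ∧
      ∀ θ ∈ Ioo α β, HasDerivAt (fun θ => ∫ t in m..θ, f t) (f θ) θ := by
  have e := uIcc_of_le h.le
  refine ⟨e ▸ continuousOn_primitive_interval' (hf.int h) (e ▸ hm), fun θ hθ => ?_⟩
  refine integral_hasDerivAt_right ((hf.int h).mono_set ?_)
    (hf.1.stronglyMeasurableAtFilter isOpen_Ioo θ hθ) (hf.1.continuousAt (Ioo_mem_nhds hθ.1 hθ.2))
  exact uIcc_subset_uIcc (e ▸ hm) (e ▸ Ioo_subset_Icc_self hθ)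

/-- `U` extends continuously to the closed arc -/
theorem extend {a U : ℝ → ℝ} (h : α < β) (ha : L2 α β a)
    (hU : ∀ θ ∈ Ioo α β, HasDerivAt U (a θ) θ) :
    ∃ W : ℝ → ℝ, ContinuousOn W (Icc α β) ∧ (∀ θ ∈ Ioo α β, HasDerivAt W (a θ) θ) ∧
      EqOn U W (Ioo α β) := by
  have hm : (α + β) / 2 ∈ Ioo α β := ⟨by linarith, by linarith⟩
  obtain ⟨h1, h2⟩ := ha.prim h (Ioo_subset_Icc_self hm)
  refine ⟨fun θ => U ((α + β) / 2) + ∫ t in (α + β) / 2..θ, a t, continuousOn_const.add h1,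
    fun θ hθ => (h2 θ hθ).const_add _, fun θ hθ => ?_⟩
  have hs : uIcc ((α + β) / 2) θ ⊆ Ioo α β := ordConnected_Ioo.uIcc_subset hm hθ
  have h3 := integral_eq_sub_of_hasDerivAt (fun x hx => hU x (hs hx))
    ((ha.int h).mono_set (by rw [uIcc_of_le h.le]; exact hs.trans Ioo_subset_Icc_self))
  simp only [h3, add_sub_cancel]

theorem hd_half (α θ : ℝ) : HasDerivAt (fun θ => (θ - α) / 2) (1 / 2) θ :=
  ((hasDerivAt_id θ).sub_const α).div_const 2

theorem wir4 (hW : WirStmt) {V v : ℝ → ℝ} (hβ : β = α + 2 * π) (hV : ContinuousOn V (Icc α β))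
    (h0 : V α = 0) (h1 : V β = 0) (hd : ∀ θ ∈ Ioo α β, HasDerivAt V (v θ) θ) (hv : L2 α β v) :
    ∫ θ in α..β, V θ ^ 2 ≤ 4 * ∫ θ in α..β, v θ ^ 2 ∧
      (4 * ∫ θ in α..β, v θ ^ 2 ≤ ∫ θ in α..β, V θ ^ 2 →
        ∃ κ : ℝ, ∀ θ ∈ Icc α β, V θ = κ * Real.sin ((θ - α) / 2)) := by
  have hp := Real.pi_pos
  have h := hW V v α β (by linarith) hV h0 h1 hd hv.1 hv.2
  have e1 : ((β - α) / π) ^ 2 = 4 := by rw [hβ]; field_simp; ring
  have e2 : ∀ θ, π * (θ - α) / (β - α) = (θ - α) / 2 := fun θ => by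
    rw [hβ, add_sub_cancel_left]; field_simp
  simpa only [e1, e2] using h

/-- the equality case -/
theorem part1 (hW : WirStmt) {a b U : ℝ → ℝ} (hβ : β = α + 2 * π) (ha : L2 α β a) (hb : L2 α β b)
    (hU : ContinuousOn U (Icc α β)) (hd : ∀ θ ∈ Ioo α β, HasDerivAt U (a θ) θ)
    (h0 : ∫ θ in α..β, b θ = 0)
    (hE : ∫ θ in α..β, (a θ ^ 2 + b θ ^ 2) ≤ ∫ θ in α..β, U θ * b θ) :
    ∃ κ : ℝ, ∀ θ ∈ Ioo α β, (b θ : ℂ) - I * a θ = κ * exp ((θ - α) / 2 * I) := by
  have h : α < β := by linarith [Real.pi_pos]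
  obtain ⟨c1, c2⟩ := hb.prim h (left_mem_Icc.2 h.le)
  generalize hV : (fun θ => ∫ t in α..θ, b t) = V at c1 c2
  have V0 : V α = 0 := by rw [← hV]; exact integral_same
  have V1 : V β = 0 := by rw [← hV]; exact h0
  obtain ⟨w1, w2⟩ := wir4 hW hβ c1 V0 V1 c2 hb
  have lV := L2.of_cont h c1
  have i1 := ha.mul_int h lV
  have i2 := (L2.of_cont h hU).mul_int h hb
  have e1 := integral_eq_sub_of_hasDerivAt_of_le h.le (hU.mul c1)
    (fun θ hθ => (hd θ hθ).mul (c2 θ hθ)) (i1.add i2)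
  rw [integral_add i1 i2, Pi.mul_apply, Pi.mul_apply, V0, V1] at e1
  rw [integral_add ha.2 hb.2] at hE
  have e2 : (fun θ => (a θ + V θ / 2) ^ 2) = fun θ => a θ ^ 2 + a θ * V θ + V θ ^ 2 / 4 := by
    funext θ; ring
  have i3 : IntervalIntegrable (fun θ => (a θ + V θ / 2) ^ 2) volume α β := by
    rw [e2]; exact (ha.2.add i1).add (lV.2.div_const 4)
  have e3 : ∫ θ in α..β, (a θ + V θ / 2) ^ 2 = (∫ θ in α..β, a θ ^ 2) +
      (∫ θ in α..β, a θ * V θ) + (∫ θ in α..β, V θ ^ 2) / 4 := by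
    rw [e2, integral_add (ha.2.add i1) (lV.2.div_const 4), integral_add ha.2 i1,
      intervalIntegral.integral_div]
  have p1 : 0 ≤ ∫ θ in α..β, (a θ + V θ / 2) ^ 2 :=
    intervalIntegral.integral_nonneg h.le fun _ _ => sq_nonneg _
  obtain ⟨κ, hκ⟩ := w2 (by linarith)
  have e4 : ∫ θ in α..β, (a θ + V θ / 2) ^ 2 = 0 := by linarith
  rw [integral_eq_zero_iff_of_le_of_nonneg_ae h.le (Eventually.of_forall fun _ => sq_nonneg _) i3,
    ← Measure.restrict_congr_set Ioo_ae_eq_Ioc] at e4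
  have e5 := Measure.eqOn_Ioo_of_ae_eq volume e4 ((ha.1.add (lV.1.div_const 2)).pow 2)
    continuousOn_const
  refine ⟨κ / 2, fun θ hθ => ?_⟩
  have e6 : a θ = -(κ / 2 * Real.sin ((θ - α) / 2)) := by
    have h1 : a θ + V θ / 2 = 0 := pow_eq_zero_iff two_ne_zero |>.1 (e5 hθ)
    rw [hκ θ (Ioo_subset_Icc_self hθ)] at h1
    linarith
  have e7 : b θ = κ / 2 * Real.cos ((θ - α) / 2) := by
    have h1 : HasDerivAt V (κ * (Real.cos ((θ - α) / 2) * (1 / 2))) θ :=
      ((hd_half α θ).sin.const_mul κ).congr_of_eventuallyEq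
        (mem_of_superset (Icc_mem_nhds hθ.1 hθ.2) fun t ht => hκ t ht)
    rw [(c2 θ hθ).unique h1]
    ring
  rw [e6, e7, exp_mul_I]
  push_cast
  ring

/-- the sharp inequality for `b` of mean zero -/
theorem core (hW : WirStmt) {a b U : ℝ → ℝ} (hβ : β = α + 2 * π) (ha : L2 α β a) (hb : L2 α β b)
    (hU : ContinuousOn U (Icc α β)) (hd : ∀ θ ∈ Ioo α β, HasDerivAt U (a θ) θ)
    (h0 : ∫ θ in α..β, b θ = 0) : ∫ θ in α..β, U θ * b θ ≤
      ∫ θ in α..β, (b θ * Real.cos ((θ - α) / 2) - a θ * Real.sin ((θ - α) / 2)) ^ 2 := by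
  have h : α < β := by linarith [Real.pi_pos]
  obtain ⟨c1, c2⟩ := hb.prim h (left_mem_Icc.2 h.le)
  generalize hV : (fun θ => ∫ t in α..θ, b t) = V at c1 c2
  have V0 : V α = 0 := by rw [← hV]; exact integral_same
  have V1 : V β = 0 := by rw [← hV]; exact h0
  obtain ⟨c, hc⟩ : ∃ c : ℝ → ℝ, c = fun θ => Real.cos ((θ - α) / 2) := ⟨_, rfl⟩
  obtain ⟨s, hs⟩ : ∃ s : ℝ → ℝ, s = fun θ => Real.sin ((θ - α) / 2) := ⟨_, rfl⟩
  have dc : ∀ θ, HasDerivAt c (-s θ * (1 / 2)) θ := fun θ => by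
    rw [hc, hs]; exact (hd_half α θ).cos
  have ds : ∀ θ, HasDerivAt s (c θ * (1 / 2)) θ := fun θ => by
    rw [hc, hs]; exact (hd_half α θ).sin
  have cc : ContinuousOn c (Icc α β) := fun θ _ => (dc θ).continuousAt.continuousWithinAt
  have cs : ContinuousOn s (Icc α β) := fun θ _ => (ds θ).continuousAt.continuousWithinAt
  have one : ∀ θ, s θ ^ 2 + c θ ^ 2 = 1 := fun θ => by
    rw [hc, hs]; exact Real.sin_sq_add_cos_sq _
  have s0 : s α = 0 := by simp [hs]
  have s1 : s β = 0 := by simp [hs, hβ]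
  have lg : L2 α β fun θ => b θ * c θ - a θ * s θ := (hb.mul h cc).sub h (ha.mul h cs)
  have cP : ContinuousOn (fun θ => U θ * c θ + V θ * s θ) (Icc α β) := (hU.mul cc).add (c1.mul cs)
  have cQ : ContinuousOn (fun θ => V θ * c θ - U θ * s θ) (Icc α β) := (c1.mul cc).sub (hU.mul cs)
  have lq : L2 α β fun θ => b θ * c θ - a θ * s θ - (U θ * c θ + V θ * s θ) / 2 :=
    lg.sub h (L2.of_cont h (cP.div_const 2))
  have dQ : ∀ θ ∈ Ioo α β, HasDerivAt (fun θ => V θ * c θ - U θ * s θ)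
      (b θ * c θ - a θ * s θ - (U θ * c θ + V θ * s θ) / 2) θ := fun θ hθ =>
    (((c2 θ hθ).mul (dc θ)).sub ((hd θ hθ).mul (ds θ))).congr_deriv (by ring)
  have w1 := (wir4 hW hβ cQ (by simp [V0, s0]) (by simp [V1, s1]) dQ lq).1
  have i2 := (L2.of_cont h hU).mul_int h hb
  have i3 := (L2.of_cont h cQ).2.div_const 4
  have e1 := integral_eq_sub_of_hasDerivAt_of_le
    (f := fun θ => (U θ * V θ - (U θ * c θ + V θ * s θ) * (V θ * c θ - U θ * s θ)) / 2)
    h.le (((hU.mul c1).sub (cP.mul cQ)).div_const 2) (fun θ hθ =>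
      ((((hd θ hθ).mul (c2 θ hθ)).sub ((((hd θ hθ).mul (dc θ)).add ((c2 θ hθ).mul (ds θ))).mul
        (dQ θ hθ))).div_const 2).congr_deriv (by
          simp only [Pi.add_apply, Pi.mul_apply]
          linear_combination (U θ * b θ - V θ * a θ) / 2 * one θ))
    (((lq.2.sub i3).sub lg.2).add i2)
  rw [integral_add ((lq.2.sub i3).sub lg.2) i2, integral_sub (lq.2.sub i3) lg.2,
    integral_sub lq.2 i3, intervalIntegral.integral_div] at e1
  simp only [V0, V1, s0, s1, mul_zero, zero_mul, sub_zero, zero_div] at e1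
  subst hc hs
  linarith

theorem re_eq (a b x : ℝ) : (((b : ℂ) - I * a) ^ 2 * exp (-(x : ℂ) * I)).re =
    2 * (b * Real.cos (x / 2) - a * Real.sin (x / 2)) ^ 2 - (a ^ 2 + b ^ 2) := by
  have e1 : Real.cos x = Real.cos (x / 2) ^ 2 - Real.sin (x / 2) ^ 2 := by
    rw [← Real.cos_two_mul']; congr 1; ring
  have e2 : Real.sin x = 2 * Real.sin (x / 2) * Real.cos (x / 2) := by
    rw [← Real.sin_two_mul]; congr 1; ring
  rw [← ofReal_neg, mul_re, exp_ofReal_mul_I_re, exp_ofReal_mul_I_im, Real.cos_neg, Real.sin_neg,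
    e1, e2]
  simp only [pow_two, mul_re, mul_im, sub_re, sub_im, ofReal_re, ofReal_im, I_re, I_im]
  linear_combination -(a ^ 2 + b ^ 2) * Real.sin_sq_add_cos_sq (x / 2)

theorem ptw {a b c s k t u B : ℝ} (h1 : s ^ 2 + c ^ 2 = 1) (ht : 0 < t) (hu : |u| ≤ B) :
    2 * ((b - k) * c - a * s) ^ 2 + 2 * k * u ≤ 2 * (b * c - a * s) ^ 2 +
      2 * |k| * t * (a ^ 2 + b ^ 2) + (2 * |k| * B + 2 * |k| * t⁻¹ + 2 * k ^ 2) := by
  have c1 : c ^ 2 ≤ 1 := by nlinarith [sq_nonneg s]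
  have g1 : (b * c - a * s) ^ 2 ≤ a ^ 2 + b ^ 2 := by nlinarith [sq_nonneg (a * c + b * s)]
  have g2 : k * u ≤ |k| * B :=
    (le_abs_self _).trans (by rw [abs_mul]; exact mul_le_mul_of_nonneg_left hu (abs_nonneg k))
  have g3 : 2 * |(b * c - a * s) * c| ≤ t * (a ^ 2 + b ^ 2) + t⁻¹ := by
    have h2 := two_mul_le_add_mul_sq (a := |b * c - a * s|) (b := |c|) ht
    rw [sq_abs, sq_abs] at h2
    rw [abs_mul]
    nlinarith [mul_le_mul_of_nonneg_left g1 ht.le,
      mul_le_mul_of_nonneg_left c1 (inv_pos.2 ht).le]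
  have g4 : -(k * ((b * c - a * s) * c)) ≤ |k| * |(b * c - a * s) * c| :=
    (neg_le_abs _).trans (abs_mul _ _).le
  nlinarith [mul_le_mul_of_nonneg_left g3 (abs_nonneg k),
    mul_le_mul_of_nonneg_left c1 (sq_nonneg k)]

end ArcB

open ArcB intervalIntegral in
theorem arcB_pf (hWir : WirStmt) : ArcBStmt := by
  intro a b U₀ α β B H hβ
  have h := H.lt
  have hp := Real.pi_pos
  have ha : L2 α β a := ⟨H.ca, H.ia⟩
  have hb : L2 α β b := ⟨H.cb, H.ib⟩
  obtain ⟨U, hU, hd, he⟩ := extend h ha H.der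
  have e0 : ∫ θ in α..β, U₀ θ * b θ = ∫ θ in α..β, U θ * b θ :=
    integral_congr_Ioo_of_le h.le fun θ hθ => by simp only [he hθ]
  rw [e0]
  refine ⟨part1 hWir hβ ha hb hU hd, ?_⟩
  obtain ⟨k, hk⟩ : ∃ k, k = (∫ θ in α..β, b θ) / (2 * π) := ⟨_, rfl⟩
  have hk' : ∫ θ in α..β, b θ = 2 * π * k := by rw [hk]; field_simp
  have hl : β - α = 2 * π := by linarith
  have lk : L2 α β fun θ => b θ - k := hb.sub h (L2.of_cont h continuousOn_const)
  have lU := L2.of_cont h hU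
  have a1 := core hWir hβ ha lk hU hd (by
    rw [integral_sub (hb.int h) intervalIntegrable_const, intervalIntegral.integral_const, hk', hl,
      smul_eq_mul, sub_self])
  have e1 : ∫ θ in α..β, U θ * (b θ - k) = (∫ θ in α..β, U θ * b θ) - k * ∫ θ in α..β, U θ := by
    rw [← intervalIntegral.integral_const_mul,
      ← integral_sub (lU.mul_int h hb) ((lU.int h).const_mul k)]
    exact integral_congr fun θ _ => by ring
  have cc : ContinuousOn (fun θ => Real.cos ((θ - α) / 2)) (Icc α β) := by fun_prop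
  have cs : ContinuousOn (fun θ => Real.sin ((θ - α) / 2)) (Icc α β) := by fun_prop
  have iE := ha.2.add hb.2
  have lg := (hb.mul h cc).sub h (ha.mul h cs)
  have lg' := (lk.mul h cc).sub h (ha.mul h cs)
  have iF : IntervalIntegrable (fun θ : ℝ => ((b θ : ℂ) - I * a θ) ^ 2 * exp (-(θ - α) * I))
      volume α β := by
    refine int_of_le h ((((continuous_ofReal.comp_continuousOn hb.1).sub
      (continuousOn_const.mul (continuous_ofReal.comp_continuousOn ha.1))).pow 2).mul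
      (by fun_prop)) iE fun θ => ?_
    rw [norm_mul, ← ofReal_sub, ← ofReal_neg, norm_exp_ofReal_mul_I, mul_one, norm_pow,
      Complex.sq_norm, normSq_apply]
    simp only [sub_re, sub_im, mul_re, mul_im, ofReal_re, ofReal_im, I_re, I_im]
    nlinarith
  have e2 : (∫ θ in α..β, ((b θ : ℂ) - I * a θ) ^ 2 * exp (-(θ - α) * I)).re =
      2 * (∫ θ in α..β, (b θ * Real.cos ((θ - α) / 2) - a θ * Real.sin ((θ - α) / 2)) ^ 2) -
        ∫ θ in α..β, (a θ ^ 2 + b θ ^ 2) := by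
    rw [← intervalIntegral.integral_const_mul, ← integral_sub (lg.2.const_mul 2) iE]
    refine (intervalIntegral_re iF).symm.trans (integral_congr fun θ _ => ?_)
    have := re_eq (a θ) (b θ) (θ - α)
    rw [ofReal_sub] at this
    exact this
  have E0 : 0 ≤ ∫ θ in α..β, (a θ ^ 2 + b θ ^ 2) :=
    intervalIntegral.integral_nonneg h.le fun _ _ => by positivity
  rw [e2, hk', abs_mul, abs_of_pos (by positivity : 0 < 2 * π)]
  refine le_of_forall_pos_le_add fun ε hε => ?_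
  obtain ⟨r, hr⟩ : ∃ r, r = √(∫ θ in α..β, (a θ ^ 2 + b θ ^ 2)) + ε / (4 * π * (|k| + 1)) :=
    ⟨_, rfl⟩
  have q0 : 0 < ε / (4 * π * (|k| + 1)) := by positivity
  have r0 : 0 < r := by rw [hr]; positivity
  have r1 : (∫ θ in α..β, (a θ ^ 2 + b θ ^ 2)) ≤ r ^ 2 :=
    (Real.sqrt_le_left r0.le).1 (by linarith)
  have a2 := integral_mono_on_of_le_Ioo h.le ((lg'.2.const_mul 2).add ((lU.int h).const_mul (2 * k)))
    (((lg.2.const_mul 2).add (iE.const_mul (2 * |k| * (2 / r)))).add intervalIntegrable_const)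
    fun θ hθ => ptw (Real.sin_sq_add_cos_sq _) (by positivity) (he hθ ▸ H.bd θ hθ)
  rw [integral_add (lg'.2.const_mul 2) ((lU.int h).const_mul (2 * k)),
    integral_add ((lg.2.const_mul 2).add (iE.const_mul _)) intervalIntegrable_const,
    integral_add (lg.2.const_mul 2) (iE.const_mul _), intervalIntegral.integral_const] at a2
  simp only [intervalIntegral.integral_const_mul, hl, smul_eq_mul, inv_div] at a2
  have a3 : 2 / r * ∫ θ in α..β, (a θ ^ 2 + b θ ^ 2) ≤ π * r := by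
    rw [div_mul_eq_mul_div, div_le_iff₀ r0]
    nlinarith [Real.two_le_pi, sq_nonneg r]
  have a4 : 4 * π * |k| * (ε / (4 * π * (|k| + 1))) ≤ ε := by
    rw [← mul_div_assoc, div_le_iff₀ (by positivity)]
    nlinarith [mul_pos hp hε]
  have a5 := mul_le_mul_of_nonneg_left a3 (abs_nonneg k)
  have a6 : π * k ^ 2 ≤ π * π * k ^ 2 :=
    mul_le_mul_of_nonneg_right (le_mul_of_one_le_right hp.le (by linarith [Real.two_le_pi]))
      (sq_nonneg k)
  have a7 : 4 * π * |k| * r = 4 * π * |k| * √(∫ θ in α..β, (a θ ^ 2 + b θ ^ 2)) +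
      4 * π * |k| * (ε / (4 * π * (|k| + 1))) := by rw [hr]; ring
  rw [e1] at a1
  linarith

end Vale.Agent.P128
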