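import Vale.Agent.P128.Stm

open MeasureTheory Set Metric Filter Topology Complex
open scoped ENNReal ComplexConjugate Real

noncomputable section
namespace Vale.Agent.P128

namespace Arcs

theorem enum (T : Finset ℝ) {a b : ℝ} (ha : a ∈ T) (hT : ∀ t ∈ T, t ∈ Ico a b) :
    ∃ θ : ℕ → ℝ, θ 0 = a ∧ θ T.card = b ∧ (∀ i j, i < j → j ≤ T.card → θ i < θ j) ∧
      (∀ i < T.card, θ i ∈ T) ∧ ∀ t ∈ T, ∃ i < T.card, θ i = t := by
  set θ : ℕ → ℝ := fun i => if h : i < T.card then T.orderEmbOfFin rfl ⟨i, h⟩ else b with hθ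
  have h1 : ∀ i < T.card, θ i ∈ T := fun i hi => by simp [hθ, hi]
  have h2 : θ T.card = b := by simp [hθ]
  have h3 : ∀ i j, i < j → j ≤ T.card → θ i < θ j := fun i j hij hj => by
    rcases hj.eq_or_lt with rfl | hj
    · rw [h2]
      exact (hT _ (h1 i hij)).2
    · simp only [hθ, hj, hij.trans hj, dif_pos]
      exact (T.orderEmbOfFin rfl).strictMono (Fin.mk_lt_mk.2 hij)
  have h4 : ∀ t ∈ T, ∃ i < T.card, θ i = t := fun t ht => by
    obtain ⟨i, hi⟩ : t ∈ range (T.orderEmbOfFin rfl) := by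
      rw [Finset.range_orderEmbOfFin]
      exact ht
    exact ⟨i, i.2, by simp [hθ, hi]⟩
  refine ⟨θ, ?_, h2, h3, h1, h4⟩
  obtain ⟨k, hk, e⟩ := h4 a ha
  rcases k.eq_zero_or_pos with rfl | h0
  · exact e
  · exact absurd (e ▸ h3 0 k h0 hk.le) (not_lt.2 (hT _ (h1 0 (h0.trans hk))).1)

theorem loc (θ : ℕ → ℝ) {s : ℝ} (h0 : θ 0 ≤ s) :
    ∀ n, s < θ n → ∃ i < n, θ i ≤ s ∧ s < θ (i + 1)
  | 0, h => absurd h (not_lt.2 h0)
  | n + 1, h => by
    by_cases hn : s < θ n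
    · obtain ⟨i, hi, h'⟩ := loc θ h0 n hn
      exact ⟨i, hi.trans n.lt_succ_self, h'⟩
    · exact ⟨n, n.lt_succ_self, not_lt.1 hn, h⟩

theorem shift (a s : ℝ) :
    ∃ k : ℤ, s - k * (2 * π) ∈ Ico a (a + 2 * π) :=
  ⟨toIcoDiv Real.two_pi_pos a s, by
    simpa only [zsmul_eq_mul] using sub_toIcoDiv_zsmul_mem_Ico Real.two_pi_pos a s⟩

end Arcs

open Arcs in
theorem arcs_pf : ArcsStmt := by
  intro K x ρ hρ hfin ⟨z₀, hK₀, hz₀⟩
  have hr : ∀ z ∈ sphere x ρ, ∀ a : ℝ, ∃ s ∈ Ico a (a + 2 * π), circleMap x ρ s = z := by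
    intro z hz a
    obtain ⟨s, rfl⟩ : z ∈ range (circleMap x ρ) := by
      rwa [range_circleMap, abs_of_pos hρ]
    obtain ⟨k, hk⟩ := shift a s
    exact ⟨_, hk, (periodic_circleMap x ρ).sub_int_mul_eq k⟩
  obtain ⟨a, -, rfl⟩ := hr z₀ hz₀ 0
  have hinj : InjOn (circleMap x ρ) (Ico a (a + 2 * π)) :=
    injOn_circleMap_of_abs_sub_le' hρ.ne' (by linarith)
  set S : Set ℝ := {s ∈ Ico a (a + 2 * π) | circleMap x ρ s ∈ K} with hS
  have himg : circleMap x ρ '' S = K ∩ sphere x ρ := by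
    refine Subset.antisymm ?_ fun z hz => ?_
    · rintro _ ⟨s, hs, rfl⟩
      exact ⟨hs.2, circleMap_mem_sphere x hρ.le s⟩
    · obtain ⟨s, hs, rfl⟩ := hr z hz.2 a
      exact ⟨s, ⟨hs, hz.1⟩, rfl⟩
  have hiS : InjOn (circleMap x ρ) S := hinj.mono fun s hs => hs.1
  have hSf : S.Finite := Finite.of_finite_image (himg ▸ hfin) hiS
  have haS : a ∈ hSf.toFinset := by
    rw [Finite.mem_toFinset]
    exact ⟨⟨le_rfl, by linarith [Real.two_pi_pos]⟩, hK₀⟩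
  obtain ⟨θ, h0, hN, hmono, hin, hsur⟩ := enum (b := a + 2 * π) hSf.toFinset haS
    fun t ht => (hSf.mem_toFinset.1 ht).1
  set N := hSf.toFinset.card with hNdef
  have hle : ∀ i j, i ≤ j → j ≤ N → θ i ≤ θ j := fun i j hij hj => by
    rcases hij.eq_or_lt with rfl | h
    · exact le_rfl
    · exact (hmono i j h hj).le
  have hIco : ∀ i < N, ∀ s ∈ Ioo (θ i) (θ (i + 1)), s ∈ Ico a (a + 2 * π) := fun i hi s hs =>
    ⟨(h0 ▸ hle 0 i i.zero_le hi.le).trans hs.1.le, hs.2.trans_le (hN ▸ hle (i + 1) N hi le_rfl)⟩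
  have hK : ∀ i ≤ N, circleMap x ρ (θ i) ∈ K := fun i hi => by
    rcases hi.eq_or_lt with rfl | hi
    · rwa [hN, periodic_circleMap x ρ a]
    · exact (hSf.mem_toFinset.1 (hin i hi)).2
  refine ⟨N, θ, ?_, Finset.card_pos.2 ⟨a, haS⟩, fun i hi => ⟨hmono i _ i.lt_succ_self hi, ?_, ?_⟩,
    by rw [hN, h0], hK, fun z hz hzK => ?_, fun α β hF => ?_⟩
  · rw [← himg, hiS.ncard_image, ncard_eq_toFinset_card S hSf]
  · have a1 := hle 0 i i.zero_le hi.le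
    have a2 := hle (i + 1) N hi le_rfl
    linarith
  · intro s hs hsK
    obtain ⟨k, hk, rfl⟩ := hsur s (hSf.mem_toFinset.2 ⟨hIco i hi s hs, hsK⟩)
    rcases le_or_gt k i with h | h
    · exact absurd hs.1 (not_lt.2 (hle k i h hi.le))
    · exact absurd hs.2 (not_lt.2 (hle (i + 1) k h hk.le))
  · obtain ⟨s, hs, rfl⟩ := hr z hz a
    obtain ⟨i, hi, h1, h2⟩ := loc θ (h0 ▸ hs.1) N (hN ▸ hs.2)
    have h3 : θ i < s := h1.lt_of_ne fun e => hzK (e ▸ hK i hi.le)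
    refine ⟨i, ⟨hi, s, ⟨h3, h2⟩, rfl⟩, ?_⟩
    rintro j ⟨hj, s', hs', e⟩
    obtain rfl := hinj (hIco j hj s' hs') hs e
    rcases lt_trichotomy j i with h | h | h
    · exact absurd (hs'.2.trans_le (hle (j + 1) i h hi.le)) (not_lt.2 h1)
    · exact h
    · exact absurd (h2.trans_le (hle (i + 1) j h hj.le)) (not_lt.2 hs'.1.le)
  · obtain ⟨k, hk⟩ := shift a α
    obtain ⟨i, hi, h1, h2⟩ := loc θ (h0 ▸ hk.1) N (hN ▸ hk.2)
    refine ⟨i, hi, not_lt.1 fun hlt => hF (θ (i + 1) + k * (2 * π)) ⟨by linarith, by linarith⟩ ?_⟩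
    rw [((periodic_circleMap x ρ).int_mul k) (θ (i + 1))]
    exact hK _ hi

end Vale.Agent.P128
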