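import Vale.Agent.P128.Cls

/-! Elementary facts used everywhere. -/

open MeasureTheory Set Metric Filter Topology Complex
open scoped ENNReal ComplexConjugate Real

noncomputable section
namespace Vale.Agent.P128

theorem clm_apply_eq {F : Type*} [NormedAddCommGroup F] [NormedSpace ℝ F] (A : ℂ →L[ℝ] F)
    (e : ℂ) : A e = e.re • A 1 + e.im • A I := by
  conv_lhs => rw [show e = e.re • (1 : ℂ) + e.im • I by apply Complex.ext <;> simp]
  rw [map_add, map_smul, map_smul]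

theorem pd_re (u : ℂ → ℝ) (z : ℂ) : (pd u z).re = fderiv ℝ u z 1 := by simp [pd]

theorem pd_im (u : ℂ → ℝ) (z : ℂ) : (pd u z).im = -fderiv ℝ u z I := by simp [pd]

theorem fderiv_eq_pd (u : ℂ → ℝ) (z e : ℂ) : fderiv ℝ u z e = (pd u z * e).re := by
  rw [clm_apply_eq, mul_re, pd_re, pd_im]; simp only [smul_eq_mul]; ring

theorem norm_pd (u : ℂ → ℝ) (z : ℂ) : ‖pd u z‖ = ‖fderiv ℝ u z‖ := by
  apply le_antisymm
  · by_cases h : pd u z = 0
    · rw [h, norm_zero]; exact norm_nonneg _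
    have h0 : 0 < ‖pd u z‖ := norm_pos_iff.2 h
    have h1 := (fderiv ℝ u z).le_opNorm (conj (pd u z))
    rw [fderiv_eq_pd, mul_conj, ofReal_re, normSq_eq_norm_sq, Real.norm_eq_abs,
      abs_of_nonneg (sq_nonneg _), Complex.norm_conj, sq] at h1
    exact le_of_mul_le_mul_right h1 h0
  · refine ContinuousLinearMap.opNorm_le_bound _ (norm_nonneg _) fun e => ?_
    rw [fderiv_eq_pd, ← norm_mul, Real.norm_eq_abs]
    exact abs_re_le_norm _

theorem pd_congr {u v : ℂ → ℝ} {z : ℂ} (h : u =ᶠ[𝓝 z] v) : pd u z = pd v z := by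
  simp only [pd, h.fderiv_eq]

theorem pd_of_fderiv {u : ℂ → ℝ} {z p : ℂ} (h : ∀ e, fderiv ℝ u z e = (p * e).re) :
    pd u z = p := by
  apply Complex.ext
  · rw [pd_re, h]; simp
  · rw [pd_im, h]; simp

theorem pd_const (c : ℝ) (z : ℂ) : pd (fun _ => c) z = 0 := by simp [pd]

theorem pd_add {u v : ℂ → ℝ} {z : ℂ} (hu : DifferentiableAt ℝ u z) (hv : DifferentiableAt ℝ v z) :
    pd (fun z => u z + v z) z = pd u z + pd v z := by
  apply pd_of_fderiv; intro e
  rw [fderiv_fun_add hu hv, ContinuousLinearMap.add_apply, fderiv_eq_pd, fderiv_eq_pd, add_mul,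
    add_re]

theorem pd_mul {u v : ℂ → ℝ} {z : ℂ} (hu : DifferentiableAt ℝ u z) (hv : DifferentiableAt ℝ v z) :
    pd (fun z => u z * v z) z = u z * pd v z + v z * pd u z := by
  apply pd_of_fderiv; intro e
  rw [fderiv_fun_mul hu hv, ContinuousLinearMap.add_apply, ContinuousLinearMap.smul_apply,
    ContinuousLinearMap.smul_apply, fderiv_eq_pd, fderiv_eq_pd, add_mul, add_re, mul_assoc,
    mul_assoc, re_ofReal_mul, re_ofReal_mul, smul_eq_mul, smul_eq_mul]

theorem pd_const_mul (c : ℝ) (u : ℂ → ℝ) (z : ℂ) : pd (fun z => c * u z) z = c * pd u z := by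
  apply pd_of_fderiv; intro e
  have : (fun z => c * u z) = c • u := rfl
  rw [this, fderiv_const_smul_field, Pi.smul_apply, ContinuousLinearMap.smul_apply, fderiv_eq_pd,
    mul_assoc, re_ofReal_mul, smul_eq_mul]

theorem pd_add_const (u : ℂ → ℝ) (c : ℝ) (z : ℂ) : pd (fun z => u z + c) z = pd u z := by
  simp only [pd, fderiv_add_const]

theorem measurable_pd (u : ℂ → ℝ) : Measurable (pd u) := by
  unfold pd
  have h1 := measurable_fderiv_apply_const ℝ u 1
  have h2 := measurable_fderiv_apply_const ℝ u I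
  fun_prop

theorem measurable_dz (f : ℂ → ℂ) : Measurable (dz f) := by
  unfold dz
  have h1 := measurable_fderiv_apply_const ℝ f 1
  have h2 := measurable_fderiv_apply_const ℝ f I
  fun_prop

theorem measurable_db (f : ℂ → ℂ) : Measurable (db f) := by
  unfold db
  have h1 := measurable_fderiv_apply_const ℝ f 1
  have h2 := measurable_fderiv_apply_const ℝ f I
  fun_prop

theorem continuousOn_pd {u : ℂ → ℝ} {O : Set ℂ} (hO : IsOpen O) (hu : ContDiffOn ℝ 1 u O) :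
    ContinuousOn (pd u) O := by
  have h := hu.continuousOn_fderiv_of_isOpen hO le_rfl
  have h1 : ContinuousOn (fun z => fderiv ℝ u z 1) O := h.clm_apply continuousOn_const
  have h2 : ContinuousOn (fun z => fderiv ℝ u z I) O := h.clm_apply continuousOn_const
  exact (continuous_ofReal.comp_continuousOn h1).sub
    (continuousOn_const.mul (continuous_ofReal.comp_continuousOn h2))

theorem fderiv_eq_dz_db (f : ℂ → ℂ) (z e : ℂ) :
    fderiv ℝ f z e = dz f z * e + db f z * conj e := by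
  rw [clm_apply_eq]
  simp only [dz, db, real_smul]
  have h1 : e = e.re + e.im * I := (re_add_im e).symm
  have h2 : conj e = e.re - e.im * I := by apply Complex.ext <;> simp
  rw [h2]
  generalize fderiv ℝ f z 1 = A
  generalize fderiv ℝ f z I = B
  conv_rhs => rw [h1]
  simp only [add_re, ofReal_re, mul_re, I_re, mul_zero, ofReal_im, I_im, mul_one, sub_self,
    add_zero, add_im, mul_im, zero_add]
  linear_combination (e.im * B) * I_mul_I

/-- the Wirtinger derivatives are determined by the differential -/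
theorem dz_db_of_fderiv {f : ℂ → ℂ} {z A B : ℂ} (h : ∀ e, fderiv ℝ f z e = A * e + B * conj e) :
    dz f z = A ∧ db f z = B := by
  simp only [dz, db, h, map_one, conj_I]
  constructor
  · linear_combination (-(A - B) / 2) * I_mul_I
  · linear_combination ((A - B) / 2) * I_mul_I

theorem norm_fderiv_eq (f : ℂ → ℂ) (z : ℂ) : ‖fderiv ℝ f z‖ = ‖dz f z‖ + ‖db f z‖ := by
  apply le_antisymm
  · refine ContinuousLinearMap.opNorm_le_bound _ (by positivity) fun e => ?_
    rw [fderiv_eq_dz_db, add_mul]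
    refine (norm_add_le _ _).trans ?_
    rw [norm_mul, norm_mul, Complex.norm_conj]
  · set A := dz f z
    set B := db f z
    have h := (fderiv ℝ f z).le_opNorm (exp (((arg B - arg A) / 2 : ℝ) * I))
    rw [fderiv_eq_dz_db, norm_exp_ofReal_mul_I, mul_one, ← exp_conj] at h
    refine le_trans (le_of_eq ?_) h
    have hA := norm_mul_exp_arg_mul_I A
    have hB := norm_mul_exp_arg_mul_I B
    have : A * exp (((arg B - arg A) / 2 : ℝ) * I) +
        B * exp (conj ((((arg B - arg A) / 2 : ℝ) : ℂ) * I)) =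
        ((‖A‖ + ‖B‖ : ℝ) : ℂ) * exp (((arg B + arg A) / 2 : ℝ) * I) := by
      conv_lhs => rw [← hA, ← hB]
      simp only [arg_real_mul _ , map_mul, conj_ofReal, conj_I, mul_assoc, ← Complex.exp_add]
      rw [hA, hB]
      push_cast
      rw [add_mul]
      congr 2 <;> congr 1 <;> ring
    rw [this, norm_mul, norm_exp_ofReal_mul_I, mul_one, Complex.norm_real, Real.norm_eq_abs,
      abs_of_nonneg (by positivity)]

theorem dz_db_of_hasDerivAt {f : ℂ → ℂ} {z f' : ℂ} (h : HasDerivAt f f' z) :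
    dz f z = f' ∧ db f z = 0 := by
  apply dz_db_of_fderiv; intro e
  rw [(h.hasFDerivAt.restrictScalars ℝ).fderiv]
  simp [mul_comm]

theorem hasDerivAt_of_db {f : ℂ → ℂ} {z : ℂ} (h : DifferentiableAt ℝ f z) (h0 : db f z = 0) :
    HasDerivAt f (dz f z) z := by
  rw [hasDerivAt_iff_hasFDerivAt]
  refine hasFDerivAt_of_restrictScalars ℝ h.hasFDerivAt ?_
  ext e
  all_goals simp [fderiv_eq_dz_db, h0, mul_comm]

/-- sets of finite length have no area -/
theorem volume_null {S : Set ℂ} (h : μH[1] S < ⊤) : volume S = 0 := by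
  have h2 : (μH[(Module.finrank ℝ ℂ : ℝ)] : Measure ℂ) S = 0 := by
    rcases Measure.hausdorffMeasure_zero_or_top (show (1 : ℝ) < (Module.finrank ℝ ℂ : ℝ) by
      rw [finrank_real_complex]; norm_num) S with h' | h'
    · exact h'
    · exact absurd h' h.ne
  exact Measure.absolutelyContinuous_isAddHaarMeasure volume _ h2

theorem ae_differentiableAt {F : Type*} [NormedAddCommGroup F] [NormedSpace ℝ F]
    [FiniteDimensional ℝ F] {O : Set ℂ} {w : ℂ → F} (hO : IsOpen O)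
    (hw : LocallyLipschitzOn O w) : ∀ᵐ z, z ∈ O → DifferentiableAt ℝ w z := by
  have h1 : ∀ z ∈ O, ∃ t ∈ 𝓝[O] z, ∀ᵐ y, y ∈ t → DifferentiableAt ℝ w y := by
    intro z hz
    obtain ⟨C, t, ht, hl⟩ := hw hz
    rw [hO.nhdsWithin_eq hz] at ht ⊢
    refine ⟨interior t, interior_mem_nhds.2 ht, ?_⟩
    filter_upwards [(hl.mono interior_subset).ae_differentiableWithinAt_of_mem (μ := volume)]
      with y hy hyt
    exact (hy hyt).differentiableAt (isOpen_interior.mem_nhds hyt)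
  choose! t ht hd using h1
  obtain ⟨s, hs, hc, hcov⟩ := TopologicalSpace.countable_cover_nhdsWithin ht
  filter_upwards [(ae_ball_iff hc).2 fun z hz => hd z (hs hz)] with y hy hyO
  obtain ⟨z, hz, hyz⟩ := mem_iUnion₂.1 (hcov hyO)
  exact hy z hz hyz

theorem locLip_of_contDiffOn {F : Type*} [NormedAddCommGroup F] [NormedSpace ℝ F] {O : Set ℂ}
    {w : ℂ → F} (hO : IsOpen O) (hw : ContDiffOn ℝ 1 w O) : LocallyLipschitzOn O w := by
  intro z hz
  obtain ⟨C, t, ht, hl⟩ := (hw.contDiffAt (hO.mem_nhds hz)).exists_lipschitzOnWith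
  exact ⟨C, t, mem_nhdsWithin_of_mem_nhds ht, hl⟩

/-- local Lipschitz property from a local description -/
theorem locLip_of_local {F : Type*} [PseudoEMetricSpace F] {O : Set ℂ} {w : ℂ → F}
    (h : ∀ z ∈ O, ∃ (f : ℂ → F) (U : Set ℂ), IsOpen U ∧ z ∈ U ∧ LocallyLipschitzOn U f ∧
      w =ᶠ[𝓝 z] f) : LocallyLipschitzOn O w := by
  intro z hz
  obtain ⟨f, U, hU, hzU, hf, he⟩ := h z hz
  obtain ⟨C, t, ht, hl⟩ := hf hzU
  rw [hU.nhdsWithin_eq hzU] at ht
  refine ⟨C, t ∩ {y | w y = f y}, mem_nhdsWithin_of_mem_nhds (inter_mem ht he), ?_⟩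
  intro a ha b hb
  rw [show w a = f a from ha.2, show w b = f b from hb.2]
  exact hl ha.1 hb.1

/-- composition with a contraction does not increase the gradient -/
theorem norm_pd_comp_le {T : ℝ → ℝ} (hT : LipschitzWith 1 T) {w : ℂ → ℝ} {z : ℂ}
    (hw : DifferentiableAt ℝ w z) : ‖pd (fun y => T (w y)) z‖ ≤ ‖pd w z‖ := by
  rw [norm_pd, norm_pd]
  refine le_of_forall_pos_le_add fun ε hε => ?_
  refine norm_fderiv_le_of_lip' ℝ (by positivity) ?_
  filter_upwards [hw.hasFDerivAt.isLittleO.def hε] with y hy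
  have h1 := hT.dist_le_mul (w y) (w z)
  rw [NNReal.coe_one, one_mul, dist_eq_norm, dist_eq_norm] at h1
  have h2 := (fderiv ℝ w z).le_opNorm (y - z)
  have h3 := norm_add_le (w y - w z - fderiv ℝ w z (y - z)) (fderiv ℝ w z (y - z))
  rw [sub_add_cancel] at h3
  rw [add_mul]; linarith

theorem En_nonneg (u : ℂ → ℝ) (S : Set ℂ) : 0 ≤ En u S :=
  integral_nonneg fun _ => sq_nonneg _

theorem len_nonneg (K S : Set ℂ) : 0 ≤ len K S := ENNReal.toReal_nonneg

theorem En_mono {u : ℂ → ℝ} {S T : Set ℂ} (h : S ⊆ T)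
    (hi : IntegrableOn (fun z => ‖pd u z‖ ^ 2) T) : En u S ≤ En u T :=
  setIntegral_mono_set hi (Eventually.of_forall fun _ => sq_nonneg _) h.eventuallyLE

theorem len_mono {K S T : Set ℂ} (h : S ⊆ T) (hf : μH[1] (K ∩ T) < ⊤) : len K S ≤ len K T :=
  ENNReal.toReal_mono hf.ne (measure_mono (inter_subset_inter_right _ h))

theorem ce_nonneg (u : ℂ → ℝ) (x : ℂ) {ρ : ℝ} (h : 0 ≤ ρ) : 0 ≤ ce u x ρ :=
  mul_nonneg h (intervalIntegral.integral_nonneg (by positivity) fun _ _ => sq_nonneg _)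

theorem arc_length_le (x : ℂ) {ρ : ℝ} (hρ : 0 ≤ ρ) (α β : ℝ) :
    μH[1] (circleMap x ρ '' Icc α β) ≤ ENNReal.ofReal (ρ * (β - α)) := by
  have h := (lipschitzWith_circleMap x ρ).hausdorffMeasure_image_le zero_le_one (Icc α β)
  rw [ENNReal.rpow_one, hausdorffMeasure_real, Real.volume_Icc] at h
  rw [ENNReal.ofReal_mul hρ]
  refine h.trans (le_of_eq ?_)
  congr 1
  rw [ENNReal.ofReal, Real.toNNReal_of_nonneg hρ]
  congr 1
  ext; simp [abs_of_nonneg hρ]

theorem sphere_length_le (x : ℂ) {ρ : ℝ} (hρ : 0 ≤ ρ) :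
    μH[1] (sphere x ρ) ≤ ENNReal.ofReal (2 * π * ρ) := by
  have h := arc_length_le x hρ 0 (2 * π)
  rw [sub_zero, mul_comm ρ] at h
  refine le_trans (measure_mono ?_) h
  have := image_circleMap_Ioc x ρ
  rw [abs_of_nonneg hρ] at this
  rw [← this]
  exact image_mono Ioc_subset_Icc_self

theorem Free.le_two_pi {K : Set ℂ} {x : ℂ} {ρ α β : ℝ} (hρ : 0 ≤ ρ) (h : Free K x ρ α β)
    (hne : (K ∩ sphere x ρ).Nonempty) : β - α ≤ 2 * π := by
  by_contra hlt
  obtain ⟨z, hz, hs⟩ := hne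
  have h1 := (periodic_circleMap x ρ).image_Ioc Real.two_pi_pos α
  rw [range_circleMap, abs_of_nonneg hρ] at h1
  rw [← h1] at hs
  obtain ⟨θ, hθ, rfl⟩ := hs
  exact h θ ⟨hθ.1, by linarith [hθ.2, not_le.1 hlt]⟩ hz

namespace IsMS
variable {Ω K : Set ℂ} {u : ℂ → ℝ} {Λ M : ℝ}

theorem isOpen (h : IsMS Ω K u Λ M) : IsOpen (Ω \ K) := h.op.sdiff h.cl

theorem a0 (h : IsMS Ω K u Λ M) : 0 ≤ Λ * M := mul_nonneg h.L0 h.M0

theorem lip (h : IsMS Ω K u Λ M) : LocallyLipschitzOn (Ω \ K) u :=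
  locLip_of_contDiffOn h.isOpen h.c1

theorem diff (h : IsMS Ω K u Λ M) {z : ℂ} (hz : z ∈ Ω \ K) : DifferentiableAt ℝ u z :=
  (h.c1.contDiffAt (h.isOpen.mem_nhds hz)).differentiableAt one_ne_zero

theorem ae_notMem (h : IsMS Ω K u Λ M) {x : ℂ} {r : ℝ} (hx : closedBall x r ⊆ Ω) :
    ∀ᵐ z, z ∈ closedBall x r → z ∉ K := by
  have := volume_null (h.fin x r hx)
  filter_upwards [measure_eq_zero_iff_ae_notMem.1 this] with z hz h1 h2
  exact hz ⟨h2, h1⟩

theorem gm (h : IsMS Ω K u Λ M) (h0 : Λ = 0) : IsMS Ω K u 0 1 := by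
  subst h0
  exact ⟨h.op, h.cl, h.c1, le_rfl, zero_le_one, by simp, by simp, h.int, h.fin,
    fun x r L w h1 h2 => by simpa using h.min x r L w h1 h2, h.red⟩

end IsMS

theorem GM.null {K : Set ℂ} {u : ℂ → ℝ} (h : GM K u) : volume K = 0 := by
  have : K = ⋃ n : ℕ, K ∩ closedBall 0 n := by
    rw [← inter_iUnion, iUnion_closedBall_nat, inter_univ]
  rw [this]
  exact measure_iUnion_null fun n => volume_null (h.fin 0 n (subset_univ _))

theorem rpow_div_mono {r b b' γ : ℝ} (hr : 0 ≤ r) (hb' : 0 < b') (h : b' ≤ b) (hγ : 0 ≤ γ) :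
    (r / b) ^ γ ≤ (r / b') ^ γ :=
  Real.rpow_le_rpow (div_nonneg hr (hb'.le.trans h)) (div_le_div_of_nonneg_left hr hb' h) hγ

theorem AMin.mono {K : Set ℂ} {y : ℂ} {b b' ε : ℝ} (h : AMin K y b ε) (hb : 0 < b')
    (hle : b' ≤ b) : AMin K y b' ε := by
  obtain ⟨e, h0, hi, hs, ha⟩ := h.ex
  refine ⟨h.cl, hb, h.e0, lt_of_le_of_lt (measure_mono (inter_subset_inter_right _
    (closedBall_subset_closedBall hle))) h.fin, e, h0,
    hi.mono_set (Ioo_subset_Ioo_right hle), fun r hr => ?_, ?_⟩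
  · refine (hs r ⟨hr.1, hr.2.trans hle⟩).trans ?_
    exact mul_le_mul_of_nonneg_right (mul_le_mul_of_nonneg_left
      (rpow_div_mono hr.1.le hb hle (by norm_num)) h.e0) hr.1.le
  · filter_upwards [ha] with ρ h1 h2
    exact h1 ⟨h2.1, h2.2.trans_le hle⟩

theorem AMin.mono_eps {K : Set ℂ} {y : ℂ} {b ε ε' : ℝ} (h : AMin K y b ε) (hle : ε ≤ ε') :
    AMin K y b ε' := by
  obtain ⟨e, h0, hi, hs, ha⟩ := h.ex
  refine ⟨h.cl, h.pos, h.e0.trans hle, h.fin, e, h0, hi, fun r hr => (hs r hr).trans ?_, ha⟩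
  have := hr.1
  have := h.pos
  gcongr

theorem Bal.mono {K : Set ℂ} {x : ℂ} {n : ℕ} {η η' ρ : ℝ} (h : Bal K x n η ρ) (hle : η ≤ η') :
    Bal K x n η' ρ := by
  obtain ⟨P, h1, h2, h3⟩ := h
  exact ⟨P, h1, h2, fun p hp q hq => ⟨(h3 p hp q hq).1.trans hle, (h3 p hp q hq).2⟩⟩

theorem Cone.mono_eps {K : Set ℂ} {x : ℂ} {n : ℕ} {b ε ε' γ : ℝ} (h : Cone K x n b ε γ)
    (hle : ε ≤ ε') : Cone K x n b ε' γ := by
  have hb := h.pos
  refine ⟨h.cl, h.pos, h.e0.trans hle, h.fin, fun r hr => (h.le r hr).trans ?_, fun r hr => ?_⟩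
  · have := hr.1
    gcongr
  · have hr0 := hr.1
    refine le_trans (measure_mono fun ρ hρ => ?_) ((h.bal r hr).trans
      (ENNReal.ofReal_le_ofReal (by gcongr)))
    refine ⟨hρ.1, fun hB => hρ.2 (hB.mono ?_)⟩
    have : 0 < ρ := by linarith [hρ.1.1]
    gcongr

theorem LB.mono_eps {K : Set ℂ} {x : ℂ} {b ε ε' γ : ℝ} (h : LB K x b ε γ) (hb : 0 < b)
    (hle : ε ≤ ε') : LB K x b ε' γ := by
  intro z hz hne hzb t ht hf
  refine le_trans ?_ (h z hz hne hzb t ht hf)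
  gcongr

theorem Tan.mono {K : Set ℂ} {y τ : ℂ} {b b' ε γ : ℝ} (h : Tan K y b ε γ τ) (hb : 0 < b')
    (hle : b' ≤ b) (hε : 0 ≤ ε) (hγ : 0 ≤ γ) : Tan K y b' ε γ τ := by
  refine ⟨h.unit, fun z hz hzb => (h.near z hz (hzb.trans hle)).trans ?_, fun s hs hsb => ?_⟩
  · exact mul_le_mul_of_nonneg_right (mul_le_mul_of_nonneg_left
      (rpow_div_mono (norm_nonneg _) hb hle hγ) hε) (norm_nonneg _)
  · obtain ⟨z, hz, h1⟩ := h.hit s hs (hsb.trans hle)
    exact ⟨z, hz, h1.trans (mul_le_mul_of_nonneg_right (mul_le_mul_of_nonneg_left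
      (rpow_div_mono (abs_nonneg _) hb hle hγ) hε) (abs_nonneg _))⟩

theorem Concl.mono {K : Set ℂ} {x : ℂ} {b b' : ℝ} (h : Concl K x b) (hle : b ≤ b') :
    Concl K x b' := by
  obtain ⟨r, α, S, h1, h2, h3, h4, h5⟩ := h
  exact ⟨r, α, S, h1, h2, h3, h4,
    h5.trans (inter_subset_inter_right _ (closedBall_subset_closedBall hle))⟩

theorem IsArc.mono {α α' : ℝ} {γ γ' : ℝ → ℂ} (h : IsArc α γ γ') (h0 : 0 < α') (hle : α' ≤ α) :
    IsArc α' γ γ' := by
  obtain ⟨h1, h2, C, h3⟩ := h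
  refine ⟨h1, h2, max C 0, fun s hs t ht => (h3 s hs t ht).trans ?_⟩
  have h4 : |s - t| ≤ 1 := abs_le.2 ⟨by linarith [hs.1, ht.2], by linarith [hs.2, ht.1]⟩
  have h5 : |s - t| ^ α ≤ |s - t| ^ α' :=
    Real.rpow_le_rpow_of_exponent_ge' (abs_nonneg _) h4 h0.le hle
  exact mul_le_mul (le_max_left _ _) h5 (by positivity) (le_max_right _ _)

end Vale.Agent.P128
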