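import Vale.Agent.P128.Stm

open MeasureTheory Set Metric Filter Topology Complex
open scoped ENNReal ComplexConjugate Real

noncomputable section
namespace Vale.Agent.P128

namespace Bnd

/-- truncation at height `T` -/
def cl (T a : ℝ) : ℝ := max (-T) (min a T)

theorem cl_lip (T : ℝ) : LipschitzWith 1 (cl T) :=
  (LipschitzWith.id.min_const T).const_max (-T)

theorem cl_eq {T a : ℝ} (h : |a| ≤ T) : cl T a = a := by
  rw [abs_le] at h
  unfold cl
  rw [min_eq_left h.2, max_eq_right h.1]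

theorem cl_abs {T : ℝ} (hT : 0 ≤ T) (a : ℝ) : |cl T a| ≤ T := by
  unfold cl
  rw [abs_le]
  exact ⟨le_max_left _ _, max_le (by linarith) (min_le_right _ _)⟩

theorem cl_sq {T a b : ℝ} (hb : |b| ≤ T) :
    (cl T a - b) ^ 2 ≤ (a - b) ^ 2 ∧ ((a - b) ^ 2 - (cl T a - b) ^ 2 = 0 → |a| ≤ T) := by
  have hb' := abs_le.1 hb
  rcases le_or_gt |a| T with h | h
  · rw [cl_eq h]; exact ⟨le_rfl, fun _ => h⟩
  · have key : (cl T a - b) ^ 2 < (a - b) ^ 2 := by
      rcases lt_abs.1 h with h1 | h1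
      · have : cl T a = T := by
          unfold cl
          rw [min_eq_right h1.le, max_eq_right (by linarith)]
        rw [this]
        nlinarith [mul_pos (sub_pos.2 h1) (show 0 < a + T - 2 * b by linarith)]
      · have : cl T a = -T := by
          unfold cl
          rw [min_eq_left (by linarith), max_eq_left (by linarith)]
        rw [this]
        nlinarith [mul_pos (show 0 < -T - a by linarith) (show 0 < 2 * b - a + T by linarith)]
    exact ⟨key.le, fun h0 => absurd h0 (by linarith)⟩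

theorem int_pd {Ω K B : Set ℂ} {u v : ℂ → ℝ} {G : ℂ → ℂ} (hA : Adm Ω u G K)
    (hR : Rep Ω u G K v) (hB : B ⊆ Ω) (hBm : MeasurableSet B) :
    IntegrableOn (fun z => ‖pd v z‖ ^ 2) B := by
  have h0 : volume K = 0 := volume_null hA.fin
  have h1 : IntegrableOn (fun z => ‖G z‖ ^ 2) (Ω \ K) :=
    (memLp_two_iff_integrable_sq_norm hA.gl2.1).1 hA.gl2
  have h2 : IntegrableOn (fun z => ‖G z‖ ^ 2) (B \ K) := h1.mono_set (diff_subset_diff_left hB)
  have h3 : IntegrableOn (fun z => ‖G z‖ ^ 2) B :=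
    h2.congr_set_ae (diff_null_ae_eq_self h0).symm
  refine h3.congr ?_
  have h4 : ∀ᵐ z ∂(volume.restrict B), pd v z = conj (G z) :=
    ae_restrict_of_ae_restrict_of_subset hB hR.grad
  filter_upwards [h4] with z hz
  rw [hz, Complex.norm_conj]

end Bnd

open Bnd in
theorem bnd_pf (hTrf : TrfStmt) (hGood : GoodStmt) (hCirc : CircStmt) : BndStmt := by
  classical
  intro Ω g u G K v hΩ hg hmin hR x hx
  have hA := hmin.1
  have hO : IsOpen (Ω \ K) := hA.closed
  have h0 : volume K = 0 := volume_null hA.fin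
  obtain ⟨R₁, hR₁, hsub⟩ : ∃ R₁, 0 < R₁ ∧ closedBall x R₁ ⊆ Ω :=
    Metric.nhds_basis_closedBall.mem_iff.1 (hΩ.mem_nhds hx)
  have hK'c : IsClosed (K ∩ closedBall x R₁) := by
    have : K ∩ closedBall x R₁ = closedBall x R₁ \ (Ω \ K) := by
      ext z; constructor
      · rintro ⟨h1, h2⟩; exact ⟨h2, fun h => h.2 h1⟩
      · rintro ⟨h1, h2⟩; exact ⟨by_contra fun h => h2 ⟨hsub h1, h⟩, h1⟩
    rw [this]; exact isClosed_closedBall.sdiff hO
  have hint := int_pd hA hR hsub measurableSet_closedBall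
  obtain ⟨hae, -⟩ := hGood (K ∩ closedBall x R₁) v x R₁ hK'c
    (lt_of_le_of_lt (measure_mono (inter_subset_left.trans inter_subset_left)) hA.fin) hint
  obtain ⟨ρ, hρ, hG⟩ : ∃ ρ, ρ ∈ Ioo 0 R₁ ∧ Good (K ∩ closedBall x R₁) v x ρ := by
    have h1 : volume (Ioo (0 : ℝ) R₁) ≠ 0 := by simpa using hR₁
    obtain ⟨ρ, h2, h3⟩ := Measure.exists_mem_of_measure_ne_zero_of_ae h1
      (ae_restrict_of_ae hae)
    exact ⟨ρ, h2, h3 h2⟩
  have hset : ball x R₁ \ (K ∩ closedBall x R₁) = ball x R₁ \ K := by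
    ext z; constructor
    · rintro ⟨h1, h2⟩; exact ⟨h1, fun h => h2 ⟨h, ball_subset_closedBall h1⟩⟩
    · rintro ⟨h1, h2⟩; exact ⟨h1, fun h => h2 h.1⟩
  have hsub' : ball x R₁ \ K ⊆ Ω \ K :=
    diff_subset_diff_left (ball_subset_closedBall.trans hsub)
  have hO' : IsOpen (ball x R₁ \ K) := by
    rw [← hset]; exact isOpen_ball.sdiff hK'c
  have hcb : closedBall x ρ ⊆ ball x R₁ := closedBall_subset_ball hρ.2
  have hcΩ : closedBall x ρ ⊆ Ω := hcb.trans (ball_subset_closedBall.trans hsub)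
  obtain ⟨-, -, -, -, ⟨T₀, hT₀⟩, -⟩ := hCirc (ball x R₁) (K ∩ closedBall x R₁) v x ρ
    (by rw [hset]; exact hO') (by rw [hset]; exact hR.c1.mono hsub')
    (sphere_subset_closedBall.trans hcb) hG
  obtain ⟨T₁, hT₁⟩ : ∃ T₁ : ℝ, ∀ᵐ z ∂(volume.restrict Ω), |g z| ≤ T₁ := by
    have h1 := hg.2
    rw [eLpNorm_exponent_top] at h1
    obtain ⟨C, hC⟩ := eLpNormEssSup_lt_top_iff_isBoundedUnder.1 h1
    refine ⟨C, ?_⟩
    have h2 : ∀ᵐ z ∂(volume.restrict Ω), ‖g z‖₊ ≤ C := hC
    filter_upwards [h2] with z hz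
    exact hz
  set T : ℝ := max (max T₀ T₁) 0 + 1 with hT
  have hT0 : 0 ≤ T := by have := le_max_right (max T₀ T₁) 0; linarith
  have hTT₀ : T₀ < T := by
    have := le_max_left (max T₀ T₁) 0
    have := le_max_left T₀ T₁
    linarith
  have hTT₁ : T₁ ≤ T := by
    have := le_max_left (max T₀ T₁) 0
    have := le_max_right T₀ T₁
    linarith
  set w : ℂ → ℝ := fun z => if z ∈ closedBall x ρ then cl T (v z) else v z with hw
  have hw1 : ∀ z ∈ closedBall x ρ, w z = cl T (v z) := fun z hz => by simp only [hw, if_pos hz]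
  have hw2 : ∀ z, z ∉ closedBall x ρ → w z = v z := fun z hz => by simp only [hw, if_neg hz]
  have hw3 : ∀ z ∈ ball x ρ, w =ᶠ[𝓝 z] fun y => cl T (v y) := fun z hz => by
    filter_upwards [isOpen_ball.mem_nhds hz] with y hy using hw1 y (ball_subset_closedBall hy)
  have hvl : LocallyLipschitzOn (Ω \ K) v := locLip_of_contDiffOn hO hR.c1
  have hvc : ∀ z ∈ Ω \ K, ContinuousAt v z := fun z hz =>
    hR.c1.continuousOn.continuousAt (hO.mem_nhds hz)
  have hset2 : ball x R₁ \ (K ∩ closedBall x ρ ∪ K \ closedBall x ρ) = ball x R₁ \ K := by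
    rw [inter_union_diff]
  have hlip : LocallyLipschitzOn (ball x R₁ \ K) w := by
    refine locLip_of_local fun z hz => ?_
    have hz' := hsub' hz
    rcases lt_trichotomy (dist z x) ρ with h | h | h
    · refine ⟨fun y => cl T (v y), Ω \ K, hO, hz', ?_, hw3 z h⟩
      intro y hy
      obtain ⟨C, t, ht, hl⟩ := hvl hy
      exact ⟨1 * C, t, ht, (cl_lip T).comp_lipschitzOnWith hl⟩
    · refine ⟨v, Ω \ K, hO, hz', hvl, ?_⟩
      have h1 : |v z| < T := lt_of_le_of_lt (hT₀ z h fun hh => hz.2 hh.1) hTT₀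
      have h2 : ∀ᶠ y in 𝓝 z, |v y| < T :=
        (continuous_abs.continuousAt.comp (hvc z hz')).eventually (gt_mem_nhds h1)
      filter_upwards [h2] with y hy
      by_cases hy' : y ∈ closedBall x ρ
      · rw [hw1 y hy', cl_eq hy.le]
      · exact hw2 y hy'
    · refine ⟨v, Ω \ K, hO, hz', hvl, ?_⟩
      have h1 : z ∈ (closedBall x ρ)ᶜ := fun hh => absurd (mem_closedBall.1 hh) (not_le.2 h)
      filter_upwards [isClosed_closedBall.isOpen_compl.mem_nhds h1] with y hy using hw2 y hy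
  have hintρ : IntegrableOn (fun z => ‖pd v z‖ ^ 2) (closedBall x ρ) :=
    hint.mono_set (hcb.trans ball_subset_closedBall)
  have hgood : ∀ᵐ z ∂(volume.restrict (closedBall x ρ)), z ∈ ball x ρ ∧ z ∉ K := by
    have h1 : volume (sphere x ρ) = 0 := Measure.addHaar_sphere volume x ρ
    rw [ae_restrict_iff' measurableSet_closedBall]
    filter_upwards [measure_eq_zero_iff_ae_notMem.1 h1, measure_eq_zero_iff_ae_notMem.1 h0]
      with z h2 h3 h4
    exact ⟨lt_of_le_of_ne (mem_closedBall.1 h4) h2, h3⟩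
  have hpd : ∀ᵐ z ∂(volume.restrict (closedBall x ρ)), ‖pd w z‖ ^ 2 ≤ ‖pd v z‖ ^ 2 := by
    filter_upwards [hgood] with z hz
    have hz' : z ∈ Ω \ K := ⟨hcΩ (ball_subset_closedBall hz.1), hz.2⟩
    have h1 : DifferentiableAt ℝ v z :=
      (hR.c1.contDiffAt (hO.mem_nhds hz')).differentiableAt one_ne_zero
    rw [pd_congr (hw3 z hz.1)]
    exact pow_le_pow_left₀ (norm_nonneg _) (norm_pd_comp_le (cl_lip T) h1) 2
  have hintw : IntegrableOn (fun z => ‖pd w z‖ ^ 2) (closedBall x ρ) := by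
    refine Integrable.mono' hintρ ((measurable_pd w).norm.pow_const 2).aestronglyMeasurable ?_
    filter_upwards [hpd] with z hz
    rwa [Real.norm_of_nonneg (sq_nonneg _)]
  have hEn : En w (closedBall x ρ) ≤ En v (closedBall x ρ) := integral_mono_ae hintw hintρ hpd
  haveI : IsFiniteMeasure (volume.restrict (closedBall x ρ)) :=
    isFiniteMeasure_restrict.2 measure_closedBall_lt_top.ne
  have hvu : ∀ᵐ z ∂(volume.restrict (closedBall x ρ)), v z = u z :=
    ae_restrict_of_ae_restrict_of_subset hcΩ hR.eq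
  have hv2 : MemLp v 2 (volume.restrict (closedBall x ρ)) :=
    (memLp_congr_ae hvu).2 (hA.l2.mono_measure (Measure.restrict_mono hcΩ le_rfl))
  have hwae : ∀ᵐ z ∂(volume.restrict (closedBall x ρ)), w z = cl T (v z) :=
    (ae_restrict_iff' measurableSet_closedBall).2 (Eventually.of_forall hw1)
  have hw2' : MemLp w 2 (volume.restrict (closedBall x ρ)) := by
    refine (memLp_congr_ae hwae).2 (MemLp.of_bound
      ((cl_lip T).continuous.comp_aestronglyMeasurable hv2.1) T ?_)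
    exact Eventually.of_forall fun z => cl_abs hT0 _
  have hg2 : MemLp g 2 (volume.restrict (closedBall x ρ)) :=
    (hg.mono_measure (Measure.restrict_mono hcΩ le_rfl)).mono_exponent le_top
  have hmain := hTrf Ω g u G K v hΩ hg hmin hR x ρ R₁ (K ∩ closedBall x ρ) w hρ.1.le hρ.2
    (ball_subset_closedBall.trans hsub) inter_subset_right
    (lt_of_le_of_lt (measure_mono inter_subset_left) hA.fin) (by rw [hset2]; exact hO')
    (by rw [hset2]; exact hlip) (fun z _ h _ => hw2 z h) hintw hw2'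
  have hi1 : Integrable (fun z => (v z - g z) ^ 2) (volume.restrict (closedBall x ρ)) :=
    (hv2.sub hg2).integrable_sq
  have hi2 : Integrable (fun z => (w z - g z) ^ 2) (volume.restrict (closedBall x ρ)) :=
    (hw2'.sub hg2).integrable_sq
  have hgT : ∀ᵐ z ∂(volume.restrict (closedBall x ρ)), |g z| ≤ T := by
    filter_upwards [ae_restrict_of_ae_restrict_of_subset hcΩ hT₁] with z hz using hz.trans hTT₁
  have hnn : 0 ≤ᵐ[volume.restrict (closedBall x ρ)]
      fun z => (v z - g z) ^ 2 - (w z - g z) ^ 2 := by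
    filter_upwards [hwae, hgT] with z h1 h2
    rw [h1]
    exact sub_nonneg.2 (cl_sq h2).1
  have hz0 : ∫ z in closedBall x ρ, ((v z - g z) ^ 2 - (w z - g z) ^ 2) = 0 := by
    refine le_antisymm ?_ (integral_nonneg_of_ae hnn)
    rw [integral_sub hi1 hi2]
    unfold len at hmain
    linarith
  have hz1 := (integral_eq_zero_iff_of_nonneg_ae hnn (hi1.sub hi2)).1 hz0
  have hvT : ∀ᵐ z ∂(volume.restrict (closedBall x ρ)), |v z| ≤ T := by
    filter_upwards [hwae, hgT, hz1] with z h1 h2 h3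
    refine (cl_sq h2).2 ?_
    rw [← h1]; exact h3
  refine ⟨ρ, T, hρ.1, hcΩ, fun z hz hzK => ?_⟩
  by_contra hlt
  have hz' : z ∈ Ω \ K := ⟨hcΩ (ball_subset_closedBall hz), hzK⟩
  have h1 : ∀ᶠ y in 𝓝 z, T < |v y| :=
    (continuous_abs.continuousAt.comp (hvc z hz')).eventually (lt_mem_nhds (not_le.1 hlt))
  have h2 : {y | y ∈ ball x ρ ∧ T < |v y|} ∈ 𝓝 z := inter_mem (isOpen_ball.mem_nhds hz) h1
  have h3 := Measure.measure_pos_of_mem_nhds volume h2
  rw [ae_restrict_iff' measurableSet_closedBall] at hvT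
  refine h3.ne' (measure_eq_zero_iff_ae_notMem.2 ?_)
  filter_upwards [hvT] with y hy hy'
  exact absurd (hy (ball_subset_closedBall hy'.1)) (not_le.2 hy'.2)

end Vale.Agent.P128
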