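import Vale.Agent.P128.Stm

open MeasureTheory Set Metric Filter Topology Complex
open scoped ENNReal ComplexConjugate Real

noncomputable section
namespace Vale.Agent.P128

namespace Bon

variable {Ω K : Set ℂ} {u : ℂ → ℝ} {Λ M : ℝ} {x : ℂ} {ρ : ℝ}

theorem int_U {a b U : ℝ → ℝ} {α β B : ℝ} (h : AD a b U α β B) {f : ℝ → ℝ}
    (hf : IntervalIntegrable f volume α β) :
    IntervalIntegrable (fun θ => U θ * f θ) volume α β := by
  rw [intervalIntegrable_iff_integrableOn_Ioo_of_le h.lt.le] at hf ⊢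
  have h1 : ContinuousOn U (Ioo α β) := fun θ hθ => (h.der θ hθ).continuousAt.continuousWithinAt
  exact Integrable.bdd_mul (c := B) hf (h1.aestronglyMeasurable measurableSet_Ioo)
    ((ae_restrict_iff' measurableSet_Ioo).2 (Eventually.of_forall h.bd))

theorem bound (h : IsMS Ω K u Λ M) (hs : sphere x ρ ⊆ Ω)
    (hT : ∃ T, ∀ z ∈ sphere x ρ, z ∉ K → |u z| ≤ T) :
    ∃ B, 0 ≤ B ∧ Λ * B ≤ Λ * M ∧ ∀ z ∈ sphere x ρ, z ∉ K → |u z| ≤ B := by
  rcases h.L0.eq_or_lt with h0 | h0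
  · obtain ⟨T, hT⟩ := hT
    exact ⟨max T 0, le_max_right _ _, by simp [← h0], fun z h1 h2 =>
      (hT z h1 h2).trans (le_max_left _ _)⟩
  · exact ⟨M, h.M0, le_rfl, fun z h1 h2 => le_of_mul_le_mul_left (h.bd z ⟨hs h1, h2⟩) h0⟩

theorem sq_eq (u : ℂ → ℝ) (x : ℂ) (ρ α β : ℝ) :
    ∫ θ in α..β, ((-(cg u x ρ θ).im) ^ 2 + (cg u x ρ θ).re ^ 2) =
      ∫ θ in α..β, ‖cg u x ρ θ‖ ^ 2 := by
  refine intervalIntegral.integral_congr fun θ _ => ?_
  simp only [Complex.sq_norm, normSq_apply]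
  ring

theorem cg_per (u : ℂ → ℝ) (x : ℂ) (ρ : ℝ) : Function.Periodic (cg u x ρ) (2 * π) :=
  fun θ => by simp only [cg, periodic_circleMap x ρ θ]

theorem one (hEid : EidStmt) (hArcA : ArcAStmt) (hCirc : CircStmt) (h : IsMS Ω K u Λ M)
    (hg : Good K u x ρ) (hΩ : closedBall x ρ ⊆ Ω) (he : K ∩ sphere x ρ = ∅) :
    En u (closedBall x ρ) ≤ ρ * ce u x ρ / 2 + 7 * (Λ * M) * ρ ^ 2 := by
  have hs := sphere_subset_closedBall.trans hΩ
  obtain ⟨c1, -, c3, -, c5, -, -⟩ := hCirc Ω K u x ρ h.isOpen h.c1 hs hg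
  obtain ⟨B, hB0, hB1, hB⟩ := bound h hs c5
  obtain ⟨e1, e2⟩ := hEid Ω K u Λ M h x ρ hΩ hg
  have hK : ∀ θ, circleMap x ρ θ ∉ K := fun θ h1 =>
    he.subset ⟨h1, circleMap_mem_sphere x hg.pos.le θ⟩
  have hc : Continuous (cg u x ρ) := continuous_iff_continuousAt.2 fun θ => (c1 θ (hK θ)).1
  have h1 := hArcA.2 (fun θ => -(cg u x ρ θ).im) (fun θ => (cg u x ρ θ).re)
    (fun θ => u (circleMap x ρ θ)) B (continuous_im.comp hc).neg (continuous_re.comp hc)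
    (fun θ => by simp only [cg_per u x ρ θ]) (fun θ => by simp only [periodic_circleMap x ρ θ])
    (fun θ => (c1 θ (hK θ)).2) fun θ => hB _ (circleMap_mem_sphere x hg.pos.le θ) (hK θ)
  have h2 := c3 0
  rw [zero_add] at h2
  rw [sq_eq, h2] at h1
  have h3 := mul_le_mul_of_nonneg_right e2 hB0
  have h4 := mul_le_mul_of_nonneg_left hB1 (by positivity : 0 ≤ π * ρ ^ 2)
  have h5 := mul_le_mul_of_nonneg_right Real.pi_lt_d2.le (mul_nonneg h.a0 (sq_nonneg ρ))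
  have h6 := mul_nonneg h.a0 (sq_nonneg ρ)
  linarith [(abs_le.1 e1).2]

end Bon

theorem bon_pf (hEid : EidStmt) (hFlx : FlxStmt) (hArcA : ArcAStmt) (hArcs : ArcsStmt)
    (hCirc : CircStmt) : BonStmt := by
  intro Ω K u Λ M h x ρ hg
  refine ⟨Bon.one hEid hArcA hCirc h hg, fun A θ₀ hA hΩ hL hθ => ?_⟩
  have hρ := hg.pos
  have hρA : ρ ≤ A * ρ := le_mul_of_one_le_left hρ.le hA
  have hΩ' := (closedBall_subset_closedBall hρA).trans hΩ
  have hs := sphere_subset_closedBall.trans hΩ'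
  obtain ⟨-, c2, c3, -, c5, -, c7⟩ := hCirc Ω K u x ρ h.isOpen h.c1 hs hg
  obtain ⟨B, hB0, hB1, hB⟩ := Bon.bound h hs c5
  have e1 := (abs_le.1 (hEid Ω K u Λ M h x ρ hΩ' hg).1).2
  have hne : (K ∩ sphere x ρ).Nonempty := by
    by_contra h1
    have h2 := hθ 0 (θ₀ + 1) fun t _ h3 => h1 ⟨_, h3, circleMap_mem_sphere x hρ.le t⟩
    linarith
  obtain ⟨N, θ, hN, -, h1, h2, h3, -, -⟩ := hArcs K x ρ hρ hg.fin hne
  have hm : ∀ i ≤ N, circleMap x ρ (θ i) ∈ K ∩ closedBall x ρ := fun i hi =>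
    ⟨h3 i hi, sphere_subset_closedBall (circleMap_mem_sphere x hρ.le _)⟩
  have hAD := fun i hi => c7 (θ i) (θ (i + 1)) B (h1 i hi).1 (h1 i hi).2.2 hB
  have ha := mul_nonneg h.a0 (sq_nonneg ρ)
  have h4 : ∀ i ∈ Finset.range N,
      ∫ t in θ i..θ (i + 1), u (circleMap x ρ t) * (cg u x ρ t).re ≤
        θ₀ / (2 * π) * (∫ t in θ i..θ (i + 1), ‖cg u x ρ t‖ ^ 2) +
          7 * A ^ 2 * (Λ * M * ρ ^ 2) := by
    intro i hi
    rw [Finset.mem_range] at hi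
    obtain ⟨h5, h6, h7⟩ := h1 i hi
    obtain ⟨C, k1, k2, k3, k4, k5⟩ := hL _ (hm i hi.le) _ (hm (i + 1) hi)
    have h8 := mul_le_mul_of_nonneg_right
      (hFlx Ω K u Λ M h x ρ (A * ρ) _ _ C hΩ hρA hg h5 h6 h7 k1 k2 k3 k4 k5) hB0
    have h9 := hArcA.1 _ _ _ _ _ _ (hAD i hi)
    rw [Bon.sq_eq] at h9
    have h10 := mul_le_mul_of_nonneg_right
      (div_le_div_of_nonneg_right (hθ _ _ h7) Real.two_pi_pos.le)
      (intervalIntegral.integral_nonneg (μ := volume) h5.le fun t _ => sq_nonneg ‖cg u x ρ t‖)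
    have h11 := mul_le_mul_of_nonneg_left hB1 (by positivity : 0 ≤ 2 * π * (A * ρ) ^ 2)
    have h12 := mul_le_mul_of_nonneg_right Real.pi_lt_d2.le (mul_nonneg (sq_nonneg A) ha)
    have h13 := mul_nonneg (sq_nonneg A) ha
    linarith
  have h5 := Finset.sum_le_sum h4
  have p1 : Function.Periodic (fun t => u (circleMap x ρ t) * (cg u x ρ t).re) (2 * π) :=
    fun t => by simp only [Bon.cg_per u x ρ t, periodic_circleMap x ρ t]
  rw [Finset.sum_add_distrib, ← Finset.mul_sum,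
    intervalIntegral.sum_integral_adjacent_intervals fun i hi =>
      Bon.int_U (hAD i hi) (f := fun t => (cg u x ρ t).re) ⟨(c2 _ _).1.1.re, (c2 _ _).1.2.re⟩,
    intervalIntegral.sum_integral_adjacent_intervals fun i _ => (c2 _ _).2, h2, c3,
    p1.intervalIntegral_add_eq _ 0, zero_add, Finset.sum_const, Finset.card_range, nsmul_eq_mul,
    hN] at h5
  have h6 := mul_le_mul_of_nonneg_right Real.pi_lt_d2.le ha
  have h7 := mul_le_mul_of_nonneg_right (one_le_pow₀ hA (n := 2)) ha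
  rw [cnt]
  linarith

end Vale.Agent.P128
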