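import Vale.Agent.P128.BrA

open MeasureTheory Set Metric Filter Topology Complex
open scoped ENNReal ComplexConjugate Real

noncomputable section
namespace Vale.Agent.P128

namespace Br

/-- the cone condition about the positive real axis -/
def Cone (z : ℂ) : Prop := ‖z - (‖z‖ : ℝ)‖ ≤ ‖z‖ / 2

theorem dir_norm {z : ℂ} (hz : z ≠ 0) : ‖dir 0 z - 1‖ * ‖z‖ = ‖z - (‖z‖ : ℝ)‖ := by
  have h : ((‖z‖ : ℝ) : ℂ) ≠ 0 := by exact_mod_cast (norm_ne_zero_iff.2 hz)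
  have e : z - (‖z‖ : ℝ) = (dir 0 z - 1) * (‖z‖ : ℝ) := by
    unfold dir; simp only [sub_zero]; field_simp
  rw [e, norm_mul, Complex.norm_real, norm_norm]

theorem dir_eq {x e : ℂ} (he : ‖e‖ = 1) (w : ℂ) :
    ‖dir x (x + e * w) - e‖ = ‖dir 0 w - 1‖ := by
  have e1 : dir x (x + e * w) - e = e * (dir 0 w - 1) := by
    unfold dir
    rw [add_sub_cancel_left, norm_mul, he, one_mul, sub_zero]; ring
  rw [e1, norm_mul, he, one_mul]

theorem cone_iff {z : ℂ} (hz : z ≠ 0) : ‖dir 0 z - 1‖ ≤ 1 / 2 ↔ Cone z := by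
  have hp : 0 < ‖z‖ := norm_pos_iff.2 hz
  unfold Cone
  rw [← dir_norm hz]
  constructor
  · intro h; nlinarith
  · intro h
    have : ‖dir 0 z - 1‖ * ‖z‖ ≤ 1 / 2 * ‖z‖ := by linarith
    exact le_of_mul_le_mul_right this hp

theorem near_abs (w : ℂ) {s : ℝ} (hs : 0 ≤ s) : |‖w‖ - s| ≤ ‖w - s‖ := by
  have := abs_norm_sub_norm_le w (s : ℂ)
  rwa [Complex.norm_real, Real.norm_of_nonneg hs] at this

theorem near_norm (w : ℂ) {s : ℝ} (hs : 0 ≤ s) : ‖w - (‖w‖ : ℝ)‖ ≤ 2 * ‖w - s‖ := by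
  have h1 := norm_sub_le_norm_sub_add_norm_sub w (s : ℂ) (‖w‖ : ℝ)
  have h2 : ‖(s : ℂ) - (‖w‖ : ℝ)‖ = |‖w‖ - s| := by
    rw [← Complex.ofReal_sub, Complex.norm_real, Real.norm_eq_abs, abs_sub_comm]
  have h3 := near_abs w hs
  linarith

theorem cone_of_near {w : ℂ} {s : ℝ} (hs : 0 ≤ s) (h : ‖w - s‖ ≤ s / 5) : Cone w := by
  have h1 := near_norm w hs
  have h2 := (abs_le.1 (near_abs w hs)).1
  unfold Cone
  linarith

theorem re_near (z : ℂ) (s : ℝ) : |z.re - s| ≤ ‖z - s‖ := by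
  simpa using Complex.abs_re_le_norm (z - s)

theorem im_near (z : ℂ) (s : ℝ) : |z.im| ≤ ‖z - s‖ := by
  simpa using Complex.abs_im_le_norm (z - s)

theorem Cone.le {z : ℂ} (h : Cone z) : ‖z‖ ≤ 2 * z.re := by
  have h1 := (abs_le.1 (re_near z ‖z‖)).1
  unfold Cone at h
  linarith

theorem isClosed_cone : IsClosed {z : ℂ | Cone z} :=
  isClosed_le (by fun_prop) (by fun_prop)

theorem slope_est {K : Set ℂ} {y τ : ℂ} {b κ γ γ' C : ℝ} (hκ : 0 < κ) (hγ : 0 < γ)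
    (hγ1 : γ ≤ 1) (hγ' : 0 < γ') (hγ'1 : γ' ≤ 1) (hκ1 : κ ≤ 1) (hC : 0 ≤ C)
    (H1 : ∀ z ∈ K, z ≠ 0 → ‖z‖ ≤ b → Cone z → ‖z - (‖z‖ : ℝ)‖ ≤ C * ‖z‖ ^ γ * ‖z‖)
    (hy : y ∈ K) (hy0 : y ≠ 0) (hyc : Cone y) (hy1 : ‖y‖ ≤ 1) (hyb : 2 * ‖y‖ ≤ b)
    (hyC : C * ‖y‖ ^ γ ≤ 1 / 20) (h : Tan K y (κ * ‖y‖) (1 / 100) γ' τ) :
    |τ.im| ≤ (50 * C / κ + 1) * ‖y‖ ^ (γ * γ' / 2) := by
  obtain ⟨s, hs⟩ : ∃ s, s = ‖y‖ := ⟨_, rfl⟩
  have hy2 := H1 y hy hy0 (by linarith [norm_nonneg y]) hyc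
  have hs0 : 0 < s := hs ▸ norm_pos_iff.2 hy0
  rw [← hs] at hy1 hyb hyC h hy2 ⊢
  obtain ⟨p, hp⟩ : ∃ p, p = s ^ (γ / 2) := ⟨_, rfl⟩
  have hp0 : 0 < p := hp ▸ Real.rpow_pos_of_pos hs0 _
  have hp1 : p ≤ 1 := hp ▸ Real.rpow_le_one hs0.le hy1 (by linarith)
  have hpp : s ^ γ = p * p := by
    rw [hp, ← Real.rpow_add hs0]; congr 1; ring
  obtain ⟨B, hB⟩ : ∃ B, B = s ^ (γ * γ' / 2) := ⟨_, rfl⟩
  have hpB : p ≤ B := by
    rw [hp, hB]
    exact Real.rpow_le_rpow_of_exponent_ge hs0 hy1 (by nlinarith)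
  have hqB : (p / 10) ^ γ' ≤ B := by
    have e : B = p ^ γ' := by
      rw [hB, hp, ← Real.rpow_mul hs0.le]; congr 1; ring
    rw [e]
    exact Real.rpow_le_rpow (by positivity) (by linarith) hγ'.le
  have hB1 : B ≤ 1 := hB ▸ Real.rpow_le_one hs0.le hy1 (by positivity)
  obtain ⟨t, ht⟩ : ∃ t, t = κ * s * (p / 10) := ⟨_, rfl⟩
  have hκs : 0 < κ * s := mul_pos hκ hs0
  have ht0 : 0 < t := by rw [ht]; positivity
  have ht1 : t ≤ κ * s / 10 := by rw [ht]; nlinarith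
  have ht2 : κ * s ≤ s := by nlinarith
  obtain ⟨w, hw, hwt⟩ := h.hit t ht0.ne' (by rw [abs_of_pos ht0]; linarith)
  have e1 : |t| / (κ * s) = p / 10 := by rw [abs_of_pos ht0, ht]; field_simp
  rw [e1, abs_of_pos ht0] at hwt
  have h1 : ‖w - y - t * τ‖ ≤ B * t / 100 := by
    have := mul_le_mul_of_nonneg_right hqB ht0.le
    linarith
  have h2 : B * t ≤ t := by nlinarith
  have h3 : ‖w - y‖ ≤ ‖w - y - t * τ‖ + t := by
    have := norm_add_le (w - y - t * τ) (t * τ)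
    rw [norm_mul, h.unit, Complex.norm_real, Real.norm_of_nonneg ht0.le] at this
    simpa using this
  have h4 : C * s ^ γ * s ≤ s / 20 := by nlinarith
  have h5 : ‖w - s‖ ≤ s / 5 := by
    have := norm_sub_le_norm_sub_add_norm_sub w y (s : ℂ)
    linarith
  have h6 := abs_le.1 ((near_abs w hs0.le).trans h5)
  have hw0 : w ≠ 0 := by
    intro h0; rw [h0, norm_zero] at h6; linarith [h6.1]
  have h7 := H1 w hw hw0 (by linarith [h6.2]) (cone_of_near hs0.le h5)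
  have h8 : ‖w‖ ^ γ ≤ 2 * s ^ γ := by
    have a1 : ‖w‖ ^ γ ≤ (2 * s) ^ γ :=
      Real.rpow_le_rpow (norm_nonneg _) (by linarith [h6.2]) hγ.le
    rw [Real.mul_rpow (by norm_num) hs0.le] at a1
    have a2 : (2 : ℝ) ^ γ ≤ 2 := by
      have := Real.rpow_le_rpow_of_exponent_le (by norm_num : (1 : ℝ) ≤ 2) hγ1
      rwa [Real.rpow_one] at this
    exact a1.trans (mul_le_mul_of_nonneg_right a2 (Real.rpow_nonneg hs0.le _))
  have h9 : |w.im| ≤ 4 * (C * (p * p) * s) := by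
    have a1 : ‖w‖ ^ γ * ‖w‖ ≤ 2 * s ^ γ * (2 * s) :=
      mul_le_mul h8 (by linarith [h6.2]) (norm_nonneg _) (by positivity)
    have a2 := mul_le_mul_of_nonneg_left a1 hC
    have a3 := im_near w ‖w‖
    rw [hpp] at a2
    linarith
  have h10 : |y.im| ≤ C * (p * p) * s := by
    have a3 := im_near y s
    rw [hpp] at hy2
    linarith
  have h11 : |w.im - y.im - t * τ.im| ≤ B * t / 100 := by
    have := (Complex.abs_im_le_norm _).trans h1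
    simpa using this
  have h12 : t * |τ.im| ≤ 5 * (C * (p * p) * s) + B * t / 100 := by
    have e : t * |τ.im| = |t * τ.im| := by rw [abs_mul, abs_of_pos ht0]
    rw [e, abs_le]
    have a1 := abs_le.1 h9
    have a2 := abs_le.1 h10
    have a3 := abs_le.1 h11
    constructor <;> linarith [a1.1, a1.2, a2.1, a2.2, a3.1, a3.2]
  have h13 : 5 * (C * (p * p) * s) = t * (50 * C / κ * p) := by
    rw [ht]; field_simp; ring
  have h14 : 50 * C / κ * p ≤ 50 * C / κ * B :=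
    mul_le_mul_of_nonneg_left hpB (by positivity)
  have h15 : t * |τ.im| ≤ t * ((50 * C / κ + 1) * B) := by
    have a1 := mul_le_mul_of_nonneg_left h14 ht0.le
    have a2 : 0 ≤ B * t := mul_nonneg (hp0.le.trans hpB) ht0.le
    linarith
  rw [← hB]
  exact le_of_mul_le_mul_left h15 ht0

theorem holder_aux {m : ℝ → ℝ} {r A B κ β γ : ℝ} (hr : r ≤ 1) (hκ : 0 < κ) (hκ1 : κ ≤ 1)
    (hβ : 0 < β) (hβγ : β ≤ γ) (hA : 0 ≤ A) (hB : 0 ≤ B)
    (h1 : ∀ s ∈ Icc 0 r, |m s| ≤ A * s ^ β)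
    (h2 : ∀ s ∈ Icc 0 r, ∀ s' ∈ Icc 0 r, 0 < s → s < s' → s' - s ≤ κ * s / 4 →
      |m s - m s'| ≤ B * ((s' - s) / s) ^ γ)
    {s s' : ℝ} (hs : s ∈ Icc 0 r) (hs' : s' ∈ Icc 0 r) (hlt : s < s') :
    |m s - m s'| ≤ (B + 2 * A * (5 / κ) ^ β) * (s' - s) ^ (β / 2) := by
  obtain ⟨d, hd⟩ : ∃ d, d = s' - s := ⟨_, rfl⟩
  have hd0 : 0 < d := by linarith
  have hd1 : d ≤ 1 := by linarith [hs.1, hs'.2]
  obtain ⟨q, hq⟩ : ∃ q, q = d ^ (1 / 2 : ℝ) := ⟨_, rfl⟩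
  have hq0 : 0 < q := hq ▸ Real.rpow_pos_of_pos hd0 _
  have hq1 : q ≤ 1 := hq ▸ Real.rpow_le_one hd0.le hd1 (by norm_num)
  have hqq : q * q = d := by
    rw [hq, ← Real.rpow_add hd0]; norm_num
  have hqβ : d ^ (β / 2) = q ^ β := by
    rw [hq, ← Real.rpow_mul hd0.le]; congr 1; ring
  rw [← hd, hqβ]
  have hP : 0 ≤ q ^ β := Real.rpow_nonneg hq0.le _
  have hQ : 0 ≤ (5 / κ) ^ β := Real.rpow_nonneg (by positivity) _
  by_cases hc : d ≤ κ * s / 4 ∧ q ≤ s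
  · have hs0 : 0 < s := hq0.trans_le hc.2
    have h3 := h2 s hs s' hs' hs0 hlt (hd ▸ hc.1)
    rw [← hd] at h3
    have h4 : d / s ≤ q := by
      rw [div_le_iff₀ hs0, ← hqq]; exact mul_le_mul_of_nonneg_left hc.2 hq0.le
    have h5 : (d / s) ^ γ ≤ q ^ β :=
      (Real.rpow_le_rpow (by positivity) h4 (hβ.le.trans hβγ)).trans
        (Real.rpow_le_rpow_of_exponent_ge hq0 hq1 hβγ)
    have h6 := mul_le_mul_of_nonneg_left h5 hB
    have h7 : 0 ≤ 2 * A * (5 / κ) ^ β * q ^ β := by positivity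
    linarith
  · have hdq : d ≤ q := by nlinarith
    have h3 : κ * s ≤ 4 * q := by
      rcases not_and_or.1 hc with h | h
      · have := not_le.1 h; linarith
      · have := not_le.1 h
        have h' : κ * s ≤ s := by nlinarith [hs.1]
        linarith
    have h4 : s' ≤ 5 / κ * q := by
      rw [div_mul_eq_mul_div, le_div_iff₀ hκ]
      have : s' = s + d := by linarith
      have h' : κ * d ≤ d := by nlinarith
      rw [this]; nlinarith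
    have h5 : s' ^ β ≤ (5 / κ) ^ β * q ^ β := by
      rw [← Real.mul_rpow (by positivity) hq0.le]
      exact Real.rpow_le_rpow hs'.1 h4 hβ.le
    have h6 : s ^ β ≤ s' ^ β := Real.rpow_le_rpow hs.1 hlt.le hβ.le
    have h7 := h1 s hs
    have h8 := h1 s' hs'
    have h9 := abs_sub (m s) (m s')
    have h10 := mul_le_mul_of_nonneg_left h5 hA
    have h11 := mul_le_mul_of_nonneg_left h6 hA
    have h12 := mul_nonneg hB hP
    linarith

theorem holder_of_two {m : ℝ → ℝ} {r A B κ β γ : ℝ} (hr : r ≤ 1) (hκ : 0 < κ) (hκ1 : κ ≤ 1)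
    (hβ : 0 < β) (hβγ : β ≤ γ) (hA : 0 ≤ A) (hB : 0 ≤ B)
    (h1 : ∀ s ∈ Icc 0 r, |m s| ≤ A * s ^ β)
    (h2 : ∀ s ∈ Icc 0 r, ∀ s' ∈ Icc 0 r, 0 < s → s < s' → s' - s ≤ κ * s / 4 →
      |m s - m s'| ≤ B * ((s' - s) / s) ^ γ) :
    ∀ s ∈ Icc 0 r, ∀ s' ∈ Icc 0 r,
      |m s - m s'| ≤ (B + 2 * A * (5 / κ) ^ β) * |s - s'| ^ (β / 2) := by
  intro s hs s' hs'
  rcases lt_trichotomy s s' with h | rfl | h
  · rw [abs_sub_comm s s', abs_of_pos (sub_pos.2 h)]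
    exact holder_aux hr hκ hκ1 hβ hβγ hA hB h1 h2 hs hs' h
  · simp only [sub_self, abs_zero, Real.zero_rpow (by positivity : β / 2 ≠ 0), mul_zero, le_refl]
  · rw [abs_sub_comm (m s), abs_of_pos (sub_pos.2 h)]
    exact holder_aux hr hκ hκ1 hβ hβγ hA hB h1 h2 hs' hs h

/-- the normalized situation -/
structure Sit (K : Set ℂ) (r D β κ γ : ℝ) : Prop where
  cl : IsClosed K
  r0 : 0 < r
  r1 : r ≤ 1
  κ0 : 0 < κ
  κ1 : κ ≤ 1
  β0 : 0 < β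
  βγ : β ≤ γ
  D0 : 0 ≤ D
  small : D * (2 * r) ^ β ≤ κ / 100
  near : ∀ z ∈ K, z ≠ 0 → ‖z‖ ≤ 2 * r → Cone z → ‖z - (‖z‖ : ℝ)‖ ≤ D * ‖z‖ ^ β * ‖z‖
  hit : ∀ s, 0 < s → s ≤ r → ∃ z ∈ K, ‖z - (s : ℝ)‖ ≤ s / 100
  tan : ∀ z ∈ K, z ≠ 0 → ‖z‖ ≤ 2 * r → Cone z →
    ∃ τ, Tan K z (κ * ‖z‖) (1 / 100) γ τ ∧ |τ.im| ≤ D * ‖z‖ ^ β

variable {K : Set ℂ} {r D β κ γ : ℝ}

theorem Sit.sm (h : Sit K r D β κ γ) {z : ℂ} (hz : ‖z‖ ≤ 2 * r) : D * ‖z‖ ^ β ≤ κ / 100 :=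
  (mul_le_mul_of_nonneg_left (Real.rpow_le_rpow (norm_nonneg _) hz h.β0.le) h.D0).trans h.small

theorem Sit.near' (h : Sit K r D β κ γ) {z : ℂ} (hz : z ∈ K) (h0 : z ≠ 0) (hr : ‖z‖ ≤ 2 * r)
    (hc : Cone z) : ‖z - (‖z‖ : ℝ)‖ ≤ κ / 100 * ‖z‖ :=
  (h.near z hz h0 hr hc).trans (mul_le_mul_of_nonneg_right (h.sm hr) (norm_nonneg _))

theorem Sit.close (h : Sit K r D β κ γ) {z w : ℂ} (hz : z ∈ K) (hz0 : z ≠ 0)
    (hzr : ‖z‖ ≤ 2 * r) (hzc : Cone z) (hw : w ∈ K) (hw0 : w ≠ 0) (hwr : ‖w‖ ≤ 2 * r)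
    (hwc : Cone w) (hd : |w.re - z.re| ≤ κ * ‖z‖ / 4) : ‖w - z‖ ≤ κ * ‖z‖ := by
  have h1 := h.near' hz hz0 hzr hzc
  have h2 := h.near' hw hw0 hwr hwc
  have h3 := (im_near z _).trans h1
  have h4 := (im_near w _).trans h2
  have h5 := hwc.le
  have h6 : z.re ≤ ‖z‖ := Complex.re_le_norm z
  have h7 : ‖w - z‖ ≤ |w.re - z.re| + |w.im - z.im| := by
    simpa using Complex.norm_le_abs_re_add_abs_im (w - z)
  have h8 := abs_sub w.im z.im
  have h9 := (abs_le.1 hd).2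
  have h10 : κ * ‖z‖ ≤ ‖z‖ := by nlinarith [h.κ1, norm_nonneg z]
  have h11 : κ * ‖w‖ ≤ κ * (3 * ‖z‖) :=
    mul_le_mul_of_nonneg_left (by linarith [norm_nonneg z]) h.κ0.le
  have h12 : 0 ≤ κ * ‖z‖ := mul_nonneg h.κ0.le (norm_nonneg _)
  linarith

theorem Sit.surj (h : Sit K r D β κ γ) {s : ℝ} (hs0 : 0 < s) (hsr : s ≤ r) :
    ∃ z ∈ K, Cone z ∧ z.re = s := by
  have hγ : 0 < γ := h.β0.trans_le h.βγ
  have hA : IsCompact (((closedBall (0 : ℂ) (2 * r) ∩ K) ∩ {z : ℂ | Cone z}) ∩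
      Complex.re ⁻¹' Icc (s / 4) s) :=
    (((isCompact_closedBall _ _).inter_right h.cl).inter_right isClosed_cone).inter_right
      (isClosed_Icc.preimage Complex.continuous_re)
  have mem : ∀ w ∈ K, Cone w → s / 4 ≤ w.re → w.re ≤ s →
      w ∈ (((closedBall (0 : ℂ) (2 * r) ∩ K) ∩ {z : ℂ | Cone z}) ∩
        Complex.re ⁻¹' Icc (s / 4) s) := by
    intro w hw hc h1 h2
    exact ⟨⟨⟨mem_closedBall_zero_iff.2 (by linarith [hc.le]), hw⟩, hc⟩, h1, h2⟩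
  obtain ⟨z, ⟨⟨⟨-, hz2⟩, hz1⟩, -⟩, hz3⟩ := surj_aux hA Complex.continuous_re (s := s) (by
      obtain ⟨z, hz, hzs⟩ := h.hit (s / 2) (by linarith) (by linarith)
      have h1 := abs_le.1 ((re_near z _).trans hzs)
      exact ⟨z, mem z hz (cone_of_near (s := s / 2) (by linarith) (by linarith))
        (by linarith [h1.1]) (by linarith [h1.2])⟩) (fun z hz => hz.2.2) (by
      rintro z ⟨⟨⟨hz1, hz2⟩, hzc⟩, hz3, hz4⟩ hlt
      rw [mem_closedBall_zero_iff] at hz1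
      have hz0 : z ≠ 0 := by
        intro h0; rw [h0, Complex.zero_re] at hz3; linarith
      have hzp : 0 < ‖z‖ := norm_pos_iff.2 hz0
      obtain ⟨τ, hτ, hτ2⟩ := h.tan z hz2 hz0 hz1 hzc
      have hκz : 0 < κ * ‖z‖ := mul_pos h.κ0 hzp
      have h10 : κ * ‖z‖ ≤ ‖z‖ := by nlinarith [h.κ1]
      obtain ⟨t, ht0, ht1, ht2⟩ : ∃ t : ℝ, 0 < t ∧ t ≤ (s - z.re) / 2 ∧ t ≤ κ * ‖z‖ / 20 :=
        ⟨min ((s - z.re) / 2) (κ * ‖z‖ / 20), lt_min (by linarith) (by linarith),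
          min_le_left _ _, min_le_right _ _⟩
      obtain ⟨w, hw, hw1, hw2⟩ := tan_step (t := t) hτ hγ
        (hτ2.trans ((h.sm hz1).trans (by linarith [h.κ1]))) ht0.ne'
        (by rw [abs_of_pos ht0]; linarith)
      rw [abs_of_pos ht0] at hw2
      have h1 : z.re < w.re := sub_pos.1 ((mul_pos_iff_of_pos_left ht0).1 hw1)
      have h2 : |w.re - z.re| ≤ 2 * t :=
        le_trans (by simpa using Complex.abs_re_le_norm (w - z)) hw2
      have h3 := h.near' hz2 hz0 hz1 hzc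
      have h4 := norm_sub_le_norm_sub_add_norm_sub w z (‖z‖ : ℝ)
      exact ⟨w, mem w hw (cone_of_near hzp.le (by linarith)) (by linarith)
        (by linarith [(abs_le.1 h2).2]), h1⟩)
  exact ⟨z, hz2, hz1, hz3⟩

theorem Sit.main (h : Sit K r D β κ γ) :
    ∃ (Z : ℝ → ℂ) (m : ℝ → ℝ) (H : ℝ), Z 0 = 0 ∧ m 0 = 0 ∧ (∀ u ∈ Icc 0 r, (Z u).re = u) ∧
      (∀ u ∈ Icc 0 r, HasDerivWithinAt Z (1 + m u * I) (Icc 0 r) u) ∧
      (∀ u ∈ Icc 0 r, ∀ v ∈ Icc 0 r, |m u - m v| ≤ H * |u - v| ^ (β / 2)) ∧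
      Z '' Icc 0 r = {0} ∪ {z ∈ K | z ≠ 0 ∧ ‖z‖ ≤ 2 * r ∧ Cone z ∧ z.re ≤ r} := by
  have hγ : 0 < γ := h.β0.trans_le h.βγ
  have hκ := h.κ0
  have hex : ∀ s : ℝ, ∃ z τ : ℂ, (s = 0 → z = 0 ∧ τ = 1) ∧ (0 < s → s ≤ r →
      z.re = s ∧ z ∈ K ∧ z ≠ 0 ∧ ‖z‖ ≤ 2 * r ∧ Cone z ∧ Tan K z (κ * ‖z‖) (1 / 100) γ τ ∧
        |τ.im| ≤ D * ‖z‖ ^ β) := by
    intro s
    by_cases hs : 0 < s ∧ s ≤ r
    · obtain ⟨z, hz, hz1, hz2⟩ := h.surj hs.1 hs.2
      have hz0 : z ≠ 0 := by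
        intro h0; rw [h0, Complex.zero_re] at hz2; exact hs.1.ne hz2
      have hzr : ‖z‖ ≤ 2 * r := by linarith [hz1.le, hs.2]
      obtain ⟨τ, hτ⟩ := h.tan z hz hz0 hzr hz1
      exact ⟨z, τ, fun h0 => absurd h0 hs.1.ne', fun _ _ => ⟨hz2, hz, hz0, hzr, hz1, hτ⟩⟩
    · exact ⟨0, 1, fun _ => ⟨rfl, rfl⟩, fun h1 h2 => absurd ⟨h1, h2⟩ hs⟩
  choose Z τ h0 hZ using hex
  obtain ⟨hZ0, hτ0⟩ := h0 0 rfl
  have hre : ∀ u ∈ Icc 0 r, (Z u).re = u := by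
    intro u hu
    rcases hu.1.eq_or_lt with rfl | hu0
    · rw [hZ0, Complex.zero_re]
    · exact (hZ u hu0 hu.2).1
  have key : ∀ u, 0 < u → u ≤ r → ∀ w ∈ K, w ≠ 0 → ‖w‖ ≤ 2 * r → Cone w →
      |w.re - u| ≤ κ * u / 4 →
      |w.im - (Z u).im - (τ u).im / (τ u).re * (w.re - u)| ≤
        (2 * |w.re - u| / (κ * u)) ^ γ * |w.re - u| := by
    intro u hu0 hur w hw hw0 hwr hwc hd
    obtain ⟨h1, h2, h3, h4, h5, h6, h7⟩ := hZ u hu0 hur
    have hu : u ≤ ‖Z u‖ := by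
      have := Complex.re_le_norm (Z u); rwa [h1] at this
    have hκu : κ * u ≤ κ * ‖Z u‖ := mul_le_mul_of_nonneg_left hu hκ.le
    have hκu0 : 0 < κ * u := mul_pos hκ hu0
    have h8 := h.close h2 h3 h4 h5 hw hw0 hwr hwc (by rw [h1]; linarith)
    have h9 := (tan_lip h6 (by linarith) hγ
      (h7.trans ((h.sm h4).trans (by linarith [h.κ1]))) hw h8).2
    rw [h1] at h9
    refine h9.trans (mul_le_mul_of_nonneg_right ?_ (abs_nonneg _))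
    exact Real.rpow_le_rpow (by have := hκu0.trans_le hκu; positivity)
      (div_le_div_of_nonneg_left (by positivity) hκu0 hκu) hγ.le
  have hpow : ∀ u, 0 < u → u ≤ r → D * ‖Z u‖ ^ β ≤ D * 2 ^ β * u ^ β := by
    intro u hu0 hur
    obtain ⟨h1, -, -, -, h5, -, -⟩ := hZ u hu0 hur
    have a1 := h5.le
    rw [h1] at a1
    rw [mul_assoc, ← Real.mul_rpow (by norm_num) hu0.le]
    exact mul_le_mul_of_nonneg_left (Real.rpow_le_rpow (norm_nonneg _) a1 h.β0.le) h.D0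
  have hD := h.D0
  refine ⟨Z, fun u => (τ u).im / (τ u).re, _, hZ0, by simp [hτ0], hre, ?_,
    holder_of_two (A := 2 * (D * 2 ^ β)) (B := 2 * (2 / κ) ^ γ) h.r1 hκ h.κ1 h.β0 h.βγ
      (by positivity) (by positivity) ?_ ?_, ?_⟩
  · intro u hu
    rcases hu.1.eq_or_lt with rfl | hu0
    · refine deriv_of_est (A := 2 * (D * 2 ^ β)) hu hre one_pos h.β0 ?_
      intro v hv _
      rcases hv.1.eq_or_lt with rfl | hv0
      · simp
      · obtain ⟨h1, h2, h3, h4, h5, -, -⟩ := hZ v hv0 hv.2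
        have a1 := (im_near _ _).trans (h.near _ h2 h3 h4 h5)
        have a2 := h5.le
        rw [h1] at a2
        have a3 := mul_le_mul (hpow v hv0 hv.2) a2 (norm_nonneg _) (by positivity)
        simp only [hZ0, hτ0, Complex.zero_im, Complex.one_im, zero_div, zero_mul, sub_zero,
          abs_of_pos hv0]
        linarith
    · have hκu0 : 0 < κ * u := mul_pos hκ hu0
      have hκu : κ * u ≤ u := by nlinarith [h.κ1]
      refine deriv_of_est (A := (2 / (κ * u)) ^ γ) (δ := κ * u / 4) hu hre (by linarith) hγ ?_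
      intro v hv hd
      have hv0 : 0 < v := by linarith [(abs_le.1 hd).1]
      obtain ⟨h1, h2, h3, h4, h5, -, -⟩ := hZ v hv0 hv.2
      have a1 := key u hu0 hu.2 (Z v) h2 h3 h4 h5 (by rw [h1]; exact hd)
      rw [h1] at a1
      rw [← Real.mul_rpow (by positivity) (abs_nonneg _)]
      have e : 2 / (κ * u) * |v - u| = 2 * |v - u| / (κ * u) := by ring
      rw [e]; exact a1
  · intro u hu
    rcases hu.1.eq_or_lt with rfl | hu0
    · simp only [hτ0, Complex.one_im, zero_div, abs_zero]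
      positivity
    · obtain ⟨-, -, -, h4, -, h6, h7⟩ := hZ u hu0 hu.2
      have a1 := re_ge h6.unit (h7.trans ((h.sm h4).trans (by linarith [h.κ1])))
      have a2 := hpow u hu0 hu.2
      rw [abs_div, div_le_iff₀ (by linarith)]
      have a3 : 0 ≤ D * 2 ^ β * u ^ β := by positivity
      nlinarith
  · intro u hu v hv hu0 huv hd
    have hv0 : 0 < v := hu0.trans huv
    have hκu0 : 0 < κ * u := mul_pos hκ hu0
    have hκuv : κ * u ≤ κ * v := mul_le_mul_of_nonneg_left huv.le hκ.le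
    have hvu : |v - u| = v - u := abs_of_pos (sub_pos.2 huv)
    obtain ⟨h1, h2, h3, h4, h5, -, -⟩ := hZ v hv0 hv.2
    obtain ⟨g1, g2, g3, g4, g5, -, -⟩ := hZ u hu0 hu.2
    have a1 := key u hu0 hu.2 (Z v) h2 h3 h4 h5 (by rw [h1, hvu]; exact hd)
    have a2 := key v hv0 hv.2 (Z u) g2 g3 g4 g5 (by rw [g1, abs_sub_comm, hvu]; linarith)
    rw [h1] at a1
    rw [g1, abs_sub_comm u v] at a2
    have a3 : (2 * |v - u| / (κ * v)) ^ γ ≤ (2 * |v - u| / (κ * u)) ^ γ :=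
      Real.rpow_le_rpow (by positivity)
        (div_le_div_of_nonneg_left (by positivity) hκu0 hκuv) hγ.le
    have a4 := a2.trans (mul_le_mul_of_nonneg_right a3 (abs_nonneg _))
    have a5 := slope_two (a := v - u) (c := (Z v).im - (Z u).im)
      (m := (τ u).im / (τ u).re) (m' := (τ v).im / (τ v).re)
      (sub_pos.2 huv).ne' a1 (by rw [neg_sub, neg_sub]; exact a4)
    have e : 2 * |v - u| / (κ * u) = 2 / κ * ((v - u) / u) := by rw [hvu]; field_simp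
    rw [e, Real.mul_rpow (by positivity) (div_nonneg (by linarith) hu0.le)] at a5
    linarith
  · ext z
    constructor
    · rintro ⟨u, hu, rfl⟩
      rcases hu.1.eq_or_lt with rfl | hu0
      · exact Or.inl hZ0
      · obtain ⟨h1, h2, h3, h4, h5, -, -⟩ := hZ u hu0 hu.2
        exact Or.inr ⟨h2, h3, h4, h5, by rw [h1]; exact hu.2⟩
    · rintro (hz | ⟨hz, hz0, hzr, hzc, hz1⟩)
      · exact ⟨0, ⟨le_rfl, h.r0.le⟩, hZ0.trans hz.symm⟩
      · have hp : 0 < z.re := by linarith [hzc.le, norm_pos_iff.2 hz0]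
        have a1 := key z.re hp hz1 z hz hz0 hzr hzc (by rw [sub_self, abs_zero]; positivity)
        simp only [sub_self, abs_zero, mul_zero, sub_zero] at a1
        refine ⟨z.re, ⟨hp.le, hz1⟩, Complex.ext (hZ _ hp hz1).1 ?_⟩
        have := abs_nonpos_iff.1 a1
        linarith

theorem sit_of {K : Set ℂ} {b κ γ γ' C : ℝ} (hK : IsClosed K) (hb : 0 < b) (hκ : 0 < κ)
    (hκ1 : κ ≤ 1) (hγ : 0 < γ) (hγ1 : γ ≤ 1) (hγ' : 0 < γ') (hγ'1 : γ' ≤ 1)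
    (H1 : ∀ z ∈ K, z ≠ 0 → ‖z‖ ≤ b → Cone z → ‖z - (‖z‖ : ℝ)‖ ≤ C * ‖z‖ ^ γ * ‖z‖)
    (H2 : ∀ s ∈ Ioc 0 b, ∃ z ∈ K, ‖z - (s : ℝ)‖ ≤ C * s ^ γ * s)
    (H3 : ∀ y ∈ K, y ≠ 0 → ‖y‖ ≤ b → ∃ τ, Tan K y (κ * ‖y‖) (1 / 100) γ' τ) :
    ∀ᶠ r in 𝓝[>] (0 : ℝ), Sit K r (50 * C / κ + 1) (γ * γ' / 2) κ γ' := by
  have hC : 0 ≤ C := by
    obtain ⟨z, -, hz⟩ := H2 b ⟨hb, le_rfl⟩
    have h1 := (norm_nonneg _).trans hz
    have h2 : 0 < b ^ γ * b := mul_pos (Real.rpow_pos_of_pos hb _) hb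
    rw [mul_assoc] at h1
    exact nonneg_of_mul_nonneg_left h1 h2
  obtain ⟨D, hD⟩ : ∃ D, D = 50 * C / κ + 1 := ⟨_, rfl⟩
  obtain ⟨β, hβ⟩ : ∃ β, β = γ * γ' / 2 := ⟨_, rfl⟩
  have hβ0 : 0 < β := by rw [hβ]; positivity
  have hβ1 : β ≤ γ := by rw [hβ]; nlinarith
  have hβ2 : β ≤ γ' := by rw [hβ]; nlinarith
  have hCD : C ≤ D := by
    have : C ≤ 50 * C / κ := by rw [le_div_iff₀ hκ]; nlinarith
    linarith
  have hD0 : 0 ≤ D := hC.trans hCD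
  have h1 : Tendsto (fun u : ℝ => D * (2 * u) ^ β) (𝓝 0) (𝓝 (D * (2 * 0) ^ β)) := by
    refine Tendsto.const_mul D ?_
    exact (ContinuousAt.rpow_const (by fun_prop) (Or.inr hβ0.le)).tendsto
  rw [mul_zero, Real.zero_rpow hβ0.ne', mul_zero] at h1
  have h2 : ∀ᶠ u in 𝓝 (0 : ℝ), D * (2 * u) ^ β < κ / 100 :=
    h1.eventually (gt_mem_nhds (by linarith))
  have h3 : ∀ᶠ u in 𝓝 (0 : ℝ), u < 1 / 2 := gt_mem_nhds (by norm_num)
  have h4 : ∀ᶠ u in 𝓝 (0 : ℝ), u < b / 4 := gt_mem_nhds (by linarith)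
  filter_upwards [nhdsWithin_le_nhds h2, nhdsWithin_le_nhds h3, nhdsWithin_le_nhds h4,
    self_mem_nhdsWithin] with r hr1 hr2 hr3 hr0
  have hr : 0 < r := hr0
  have cmp : ∀ s : ℝ, 0 < s → s ≤ 2 * r → C * s ^ γ ≤ D * s ^ β ∧ D * s ^ β ≤ κ / 100 := by
    intro s hs hsr
    refine ⟨mul_le_mul hCD (Real.rpow_le_rpow_of_exponent_ge hs (by linarith) hβ1)
      (Real.rpow_nonneg hs.le _) hD0, ?_⟩
    exact (mul_le_mul_of_nonneg_left (Real.rpow_le_rpow hs.le hsr hβ0.le) hD0).trans hr1.le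
  rw [← hD, ← hβ]
  refine ⟨hK, hr, by linarith, hκ, hκ1, hβ0, hβ2, hD0, hr1.le, ?_, ?_, ?_⟩
  · intro z hz hz0 hzr hzc
    exact (H1 z hz hz0 (by linarith) hzc).trans
      (mul_le_mul_of_nonneg_right (cmp _ (norm_pos_iff.2 hz0) hzr).1 (norm_nonneg _))
  · intro s hs hsr
    obtain ⟨z, hz, hzs⟩ := H2 s ⟨hs, by linarith⟩
    have a1 := cmp s hs (by linarith)
    have a2 : C * s ^ γ ≤ 1 / 100 := by linarith [a1.1, a1.2]
    have a3 := mul_le_mul_of_nonneg_right a2 hs.le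
    exact ⟨z, hz, by linarith⟩
  · intro z hz hz0 hzr hzc
    obtain ⟨τ, hτ⟩ := H3 z hz hz0 (by linarith)
    have a1 := cmp _ (norm_pos_iff.2 hz0) hzr
    refine ⟨τ, hτ, ?_⟩
    rw [hD, hβ]
    exact slope_est hκ hγ hγ1 hγ' hγ'1 hκ1 hC H1 hz hz0 hzc (by linarith) (by linarith)
      (by linarith [a1.1, a1.2]) hτ

end Br

theorem br_pf : BrStmt := by
  intro K x e b κ γ γ' C hK he hb hκ hκ1 hγ hγ1 hγ' hγ'1 H1 H2 H3
  have h1 := Br.mul_conj_one he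
  have he0 : e ≠ 0 := by intro h; rw [h, norm_zero] at he; exact zero_ne_one he
  have hn : ∀ w : ℂ, ‖x + e * w - x‖ = ‖w‖ := by
    intro w; rw [add_sub_cancel_left, norm_mul, he, one_mul]
  have hne : ∀ w : ℂ, x + e * w ≠ x ↔ w ≠ 0 := by
    intro w; simp [he0]
  have hback : ∀ w : ℂ, conj e * (x + e * w - x) = w := by
    intro w; linear_combination w * h1
  have hfw : ∀ z : ℂ, x + e * (conj e * (z - x)) = z := by
    intro z; linear_combination (z - x) * h1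
  have hS := Br.sit_of (K := (fun w => x + e * w) ⁻¹' K) (C := C) (hK.preimage (by fun_prop)) hb
    hκ hκ1 hγ hγ1 hγ' hγ'1 (by
      intro z hz hz0 hzb hzc
      have a1 := H1 (x + e * z) hz ((hne z).2 hz0) (by rw [hn]; exact hzb)
        (by rw [Br.dir_eq he]; exact (Br.cone_iff hz0).2 hzc)
      rw [Br.dir_eq he, hn] at a1
      rw [← Br.dir_norm hz0]
      exact mul_le_mul_of_nonneg_right a1 (norm_nonneg _)) (by
      intro s hs
      obtain ⟨z, hz, hzs⟩ := H2 s hs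
      refine ⟨conj e * (z - x), ?_, ?_⟩
      · change x + e * (conj e * (z - x)) ∈ K
        rw [hfw]; exact hz
      · have e1 : conj e * (z - x) - s = conj e * (z - x - s * e) := by
          linear_combination (s : ℂ) * h1
        rw [e1, norm_mul, Complex.norm_conj, he, one_mul]; exact hzs) (by
      intro y hy hy0 hyb
      obtain ⟨τ, hτ⟩ := H3 (x + e * y) hy ((hne y).2 hy0) (by rw [hn]; exact hyb)
      have a1 := Br.tan_transfer (x := x) he hτ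
      rw [hback, hn] at a1
      exact ⟨_, a1⟩)
  filter_upwards [hS] with r hr
  obtain ⟨Z, m, H, hZ0, hm0, hre, hd, hH, him⟩ := hr.main
  refine ⟨γ * γ' / 2 / 2, r, _, _, by positivity, hr.r0,
    Br.arc_of_graph x he hr.r0 hre hd hH, ?_, ?_, ?_⟩
  · simp [hZ0]
  · simp [hm0, mul_comm]
  · rw [Br.image_aff x e hr.r0, him]
    ext z
    constructor
    · rintro ⟨w, hw | ⟨hw, hw0, hwr, hwc, hw1⟩, rfl⟩
      · left
        rw [mem_singleton_iff.1 hw]; simp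
      · right
        exact ⟨hw, (hne w).2 hw0, by rw [hn]; exact hwr,
          by rw [Br.dir_eq he]; exact (Br.cone_iff hw0).2 hwc, by rw [hback]; exact hw1⟩
    · rintro (hz | ⟨hz, hz0, hzr, hzc, hz1⟩)
      · exact ⟨0, Or.inl rfl, by rw [mem_singleton_iff.1 hz]; simp⟩
      · obtain ⟨w, rfl⟩ : ∃ w, z = x + e * w := ⟨_, (hfw z).symm⟩
        have hw0 := (hne w).1 hz0
        rw [hn] at hzr
        rw [Br.dir_eq he] at hzc
        rw [hback] at hz1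
        exact ⟨w, Or.inr ⟨hz, hw0, hzr, (Br.cone_iff hw0).1 hzc, hz1⟩, rfl⟩

end Vale.Agent.P128
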