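import Vale.Agent.P128.Stm

open MeasureTheory Set Metric Filter Topology Complex
open scoped ENNReal ComplexConjugate Real

noncomputable section
namespace Vale.Agent.P128

namespace Br

theorem re_ge {τ : ℂ} (h1 : ‖τ‖ = 1) (h2 : |τ.im| ≤ 1 / 20) : 99 / 100 ≤ |τ.re| := by
  have h3 : τ.re ^ 2 + τ.im ^ 2 = 1 := by
    have := Complex.sq_norm τ
    rw [h1, Complex.normSq_apply] at this
    nlinarith
  have h4 : τ.im ^ 2 ≤ (1 / 20) ^ 2 := by
    rw [← sq_abs]; exact pow_le_pow_left₀ (abs_nonneg _) h2 2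
  have h5 : (99 / 100 : ℝ) ^ 2 ≤ |τ.re| ^ 2 := by rw [sq_abs]; nlinarith
  exact (pow_le_pow_iff_left₀ (by norm_num) (abs_nonneg _) two_ne_zero).1 h5

theorem rpow_le_one' {a ρ γ : ℝ} (ha : 0 ≤ a) (h : a ≤ ρ) (hρ : 0 < ρ) (hγ : 0 < γ) :
    (a / ρ) ^ γ ≤ 1 :=
  Real.rpow_le_one (div_nonneg ha hρ.le) ((div_le_one hρ).2 h) hγ.le

theorem tan_lip {K : Set ℂ} {z w τ : ℂ} {ρ γ : ℝ} (h : Tan K z ρ (1 / 100) γ τ) (hρ : 0 < ρ)
    (hγ : 0 < γ) (hτ : |τ.im| ≤ 1 / 20) (hw : w ∈ K) (hwz : ‖w - z‖ ≤ ρ) :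
    |w.im - z.im| ≤ |w.re - z.re| / 10 ∧
      |w.im - z.im - τ.im / τ.re * (w.re - z.re)| ≤
        (2 * |w.re - z.re| / ρ) ^ γ * |w.re - z.re| := by
  have hre := re_ge h.unit hτ
  have hn := h.near w hw hwz
  have he : (conj τ * (w - z)).im = τ.re * (w.im - z.im) - τ.im * (w.re - z.re) := by
    simp [Complex.mul_im]; ring
  rw [he] at hn
  obtain ⟨a, ha⟩ : ∃ a, a = w.re - z.re := ⟨_, rfl⟩
  obtain ⟨c, hc⟩ : ∃ c, c = w.im - z.im := ⟨_, rfl⟩
  have hN : ‖w - z‖ ≤ |a| + |c| := by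
    have := Complex.norm_le_abs_re_add_abs_im (w - z)
    simpa [ha, hc] using this
  rw [← ha, ← hc] at hn ⊢
  have hq := rpow_le_one' (norm_nonneg (w - z)) hwz hρ hγ
  have hq0 : 0 ≤ (‖w - z‖ / ρ) ^ γ := Real.rpow_nonneg (div_nonneg (norm_nonneg _) hρ.le) _
  have h1 : |τ.re| * |c| ≤ |τ.im| * |a| + 1 / 100 * (|a| + |c|) := by
    have e1 : |τ.re * c| ≤ |τ.re * c - τ.im * a| + |τ.im * a| := by
      have := abs_add_le (τ.re * c - τ.im * a) (τ.im * a)
      simpa using this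
    rw [abs_mul, abs_mul] at e1
    have e2 : 1 / 100 * (‖w - z‖ / ρ) ^ γ * ‖w - z‖ ≤ 1 / 100 * (|a| + |c|) := by
      have := mul_le_mul hq hN (norm_nonneg _) zero_le_one
      nlinarith
    linarith
  have h2 : |c| ≤ |a| / 10 := by
    have e1 := mul_le_mul_of_nonneg_right hre (abs_nonneg c)
    have e2 := mul_le_mul_of_nonneg_right hτ (abs_nonneg a)
    have := abs_nonneg a
    linarith
  refine ⟨h2, ?_⟩
  have hre0 : τ.re ≠ 0 := by
    intro h0; rw [h0, abs_zero] at hre; norm_num at hre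
  have h3 : ‖w - z‖ ≤ 2 * |a| := by have := abs_nonneg a; linarith
  have h4 : (‖w - z‖ / ρ) ^ γ ≤ (2 * |a| / ρ) ^ γ :=
    Real.rpow_le_rpow (div_nonneg (norm_nonneg _) hρ.le)
      (div_le_div_of_nonneg_right h3 hρ.le) hγ.le
  have h5 : |τ.re| * |c - τ.im / τ.re * a| = |τ.re * c - τ.im * a| := by
    rw [← abs_mul]
    congr 1
    field_simp
  have h6 : (‖w - z‖ / ρ) ^ γ * ‖w - z‖ ≤ (2 * |a| / ρ) ^ γ * (2 * |a|) :=
    mul_le_mul h4 h3 (norm_nonneg _) (hq0.trans h4)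
  have h7 := mul_le_mul_of_nonneg_right hre (abs_nonneg (c - τ.im / τ.re * a))
  have h8 : 0 ≤ (2 * |a| / ρ) ^ γ * |a| := mul_nonneg (hq0.trans h4) (abs_nonneg _)
  nlinarith

theorem tan_step {K : Set ℂ} {z τ : ℂ} {ρ γ t : ℝ} (h : Tan K z ρ (1 / 100) γ τ)
    (hγ : 0 < γ) (hτ : |τ.im| ≤ 1 / 20) (ht : t ≠ 0) (htρ : |t| ≤ ρ) :
    ∃ w ∈ K, 0 < t * (w.re - z.re) ∧ ‖w - z‖ ≤ 2 * |t| := by
  have hre := re_ge h.unit hτ
  have htp : 0 < |t| := abs_pos.2 ht
  have hρ : 0 < ρ := htp.trans_le htρ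
  obtain ⟨s, hs, hs2⟩ : ∃ s : ℝ, |s| = |t| ∧ t * (s * τ.re) = |t| ^ 2 * |τ.re| := by
    rcases le_total 0 τ.re with h0 | h0
    · exact ⟨t, rfl, by rw [abs_of_nonneg h0, sq_abs]; ring⟩
    · exact ⟨-t, abs_neg t, by rw [abs_of_nonpos h0, sq_abs]; ring⟩
  have hs0 : s ≠ 0 := by
    intro h0; rw [h0, abs_zero] at hs; exact htp.ne hs
  obtain ⟨w, hw, hws⟩ := h.hit s hs0 (hs ▸ htρ)
  rw [hs] at hws
  have hq := rpow_le_one' (abs_nonneg t) htρ hρ hγ
  have h1 : ‖w - z - s * τ‖ ≤ |t| / 100 := by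
    have := mul_le_mul_of_nonneg_right hq htp.le
    linarith
  refine ⟨w, hw, ?_, ?_⟩
  · have h2 : |w.re - z.re - s * τ.re| ≤ |t| / 100 := by
      have := (Complex.abs_re_le_norm (w - z - s * τ)).trans h1
      simpa using this
    have h3 : |t * (w.re - z.re - s * τ.re)| ≤ |t| * (|t| / 100) := by
      rw [abs_mul]; exact mul_le_mul_of_nonneg_left h2 htp.le
    have h4 := (abs_le.1 h3).1
    have h5 := mul_le_mul_of_nonneg_left hre (sq_nonneg |t|)
    have h6 : 0 < |t| ^ 2 := by positivity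
    nlinarith
  · have h2 : ‖w - z‖ ≤ ‖w - z - s * τ‖ + ‖(s : ℂ) * τ‖ := by
      have := norm_add_le (w - z - s * τ) (s * τ)
      simpa using this
    rw [norm_mul, h.unit, Complex.norm_real, Real.norm_eq_abs, hs] at h2
    linarith

theorem mul_conj_one {e : ℂ} (he : ‖e‖ = 1) : e * conj e = 1 := by
  rw [Complex.mul_conj, Complex.normSq_eq_norm_sq, he]; norm_num

theorem tan_transfer {K : Set ℂ} {x e y τ : ℂ} {ρ ε γ : ℝ} (he : ‖e‖ = 1)
    (h : Tan K y ρ ε γ τ) :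
    Tan ((fun w => x + e * w) ⁻¹' K) (conj e * (y - x)) ρ ε γ (conj e * τ) := by
  have h1 := mul_conj_one he
  refine ⟨by rw [norm_mul, Complex.norm_conj, he, h.unit, one_mul], ?_, ?_⟩
  · intro w hw hwρ
    have e1 : x + e * w - y = e * (w - conj e * (y - x)) := by
      linear_combination (y - x) * h1
    have e2 : ‖x + e * w - y‖ = ‖w - conj e * (y - x)‖ := by
      rw [e1, norm_mul, he, one_mul]
    have e3 : conj (conj e * τ) * (w - conj e * (y - x)) = conj τ * (x + e * w - y) := by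
      rw [e1, map_mul, Complex.conj_conj]; ring
    have := h.near (x + e * w) hw (e2 ▸ hwρ)
    rw [e2] at this
    rw [e3]; exact this
  · intro s hs hsρ
    obtain ⟨z, hz, hzs⟩ := h.hit s hs hsρ
    refine ⟨conj e * (z - x), ?_, ?_⟩
    · change x + e * (conj e * (z - x)) ∈ K
      have : x + e * (conj e * (z - x)) = z := by linear_combination (z - x) * h1
      rw [this]; exact hz
    · have : conj e * (z - x) - conj e * (y - x) - s * (conj e * τ) =
          conj e * (z - y - s * τ) := by ring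
      rw [this, norm_mul, Complex.norm_conj, he, one_mul]; exact hzs

theorem deriv_of_est {Z : ℝ → ℂ} {J : Set ℝ} {s m A δ p : ℝ} (hs : s ∈ J)
    (hre : ∀ u ∈ J, (Z u).re = u) (hδ : 0 < δ) (hp : 0 < p)
    (h : ∀ u ∈ J, |u - s| ≤ δ → |(Z u).im - (Z s).im - m * (u - s)| ≤ A * |u - s| ^ p * |u - s|) :
    HasDerivWithinAt Z (1 + m * I) J s := by
  rw [hasDerivWithinAt_iff_isLittleO, Asymptotics.isLittleO_iff]
  intro c hc
  have h1 : Tendsto (fun u : ℝ => A * |u - s| ^ p) (𝓝 s) (𝓝 (A * |s - s| ^ p)) := by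
    refine Tendsto.const_mul A ?_
    exact (ContinuousAt.rpow_const (by fun_prop) (Or.inr hp.le)).tendsto
  rw [sub_self, abs_zero, Real.zero_rpow hp.ne', mul_zero] at h1
  have h2 : ∀ᶠ u in 𝓝 s, A * |u - s| ^ p < c := h1.eventually (gt_mem_nhds hc)
  have h3 : ∀ᶠ u in 𝓝 s, |u - s| ≤ δ := by
    filter_upwards [Metric.closedBall_mem_nhds s hδ] with u hu
    simpa [Real.dist_eq] using hu
  filter_upwards [nhdsWithin_le_nhds h2, nhdsWithin_le_nhds h3, self_mem_nhdsWithin]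
    with u hu1 hu2 hu3
  have e1 : Z u - Z s - (u - s) • (1 + m * I) =
      (((Z u).im - (Z s).im - m * (u - s) : ℝ) : ℂ) * I := by
    apply Complex.ext
    · simp [hre u hu3, hre s hs]
    · simp; ring
  rw [e1, norm_mul, Complex.norm_I, mul_one, Complex.norm_real, Real.norm_eq_abs,
    Real.norm_eq_abs]
  exact (h u hu3 hu2).trans (mul_le_mul_of_nonneg_right hu1.le (abs_nonneg _))

theorem aff_mem {p q t : ℝ} (hpq : p < q) (ht : t ∈ Icc (0 : ℝ) 1) :
    p + (q - p) * t ∈ Icc p q := by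
  constructor <;> nlinarith [ht.1, ht.2]

theorem arc_of_graph {Z : ℝ → ℂ} {m : ℝ → ℝ} {p q α H : ℝ} (x : ℂ) {e : ℂ} (he : ‖e‖ = 1)
    (hpq : p < q) (hre : ∀ u ∈ Icc p q, (Z u).re = u)
    (hd : ∀ u ∈ Icc p q, HasDerivWithinAt Z (1 + m u * I) (Icc p q) u)
    (hH : ∀ u ∈ Icc p q, ∀ v ∈ Icc p q, |m u - m v| ≤ H * |u - v| ^ α) :
    IsArc α (fun t => x + e * Z (p + (q - p) * t))
      (fun t => e * (((q - p : ℝ) : ℂ) * (1 + m (p + (q - p) * t) * I))) := by
  have he0 : e ≠ 0 := by intro h; rw [h, norm_zero] at he; exact zero_ne_one he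
  have hqp : 0 < q - p := sub_pos.2 hpq
  refine ⟨?_, ?_, (q - p) * (H * (q - p) ^ α), ?_⟩
  · intro s hs t ht hst
    have h1 : Z (p + (q - p) * s) = Z (p + (q - p) * t) :=
      mul_left_cancel₀ he0 (add_left_cancel hst)
    have h2 := congrArg Complex.re h1
    rw [hre _ (aff_mem hpq hs), hre _ (aff_mem hpq ht)] at h2
    exact mul_left_cancel₀ hqp.ne' (add_left_cancel h2)
  · intro t ht
    refine ⟨?_, ?_⟩
    · have h1 : HasDerivWithinAt (fun t : ℝ => p + (q - p) * t) (q - p) (Icc 0 1) t := by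
        have := ((hasDerivAt_id t).const_mul (q - p)).const_add p
        simpa using this.hasDerivWithinAt
      have h2 := HasDerivWithinAt.scomp t (hd _ (aff_mem hpq ht)) h1
        (fun u hu => aff_mem hpq hu)
      have h3 := (h2.const_mul e).const_add x
      rw [Complex.real_smul] at h3
      exact h3
    · refine mul_ne_zero he0 (mul_ne_zero (by exact_mod_cast hqp.ne') ?_)
      intro h
      have := congrArg Complex.re h
      simp at this
  · intro s hs t ht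
    have e1 : e * (((q - p : ℝ) : ℂ) * (1 + m (p + (q - p) * s) * I)) -
        e * (((q - p : ℝ) : ℂ) * (1 + m (p + (q - p) * t) * I)) =
        e * (((q - p : ℝ) : ℂ) * (((m (p + (q - p) * s) - m (p + (q - p) * t) : ℝ) : ℂ) * I)) := by
      push_cast; ring
    have h1 := hH _ (aff_mem hpq hs) _ (aff_mem hpq ht)
    have e2 : |p + (q - p) * s - (p + (q - p) * t)| = (q - p) * |s - t| := by
      rw [← abs_of_pos hqp, ← abs_mul, abs_of_pos hqp]; congr 1; ring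
    rw [e2, Real.mul_rpow hqp.le (abs_nonneg _)] at h1
    simp only
    rw [e1, norm_mul, norm_mul, norm_mul, he, Complex.norm_I, Complex.norm_real,
      Complex.norm_real, Real.norm_eq_abs, Real.norm_eq_abs, abs_of_pos hqp, one_mul, mul_one]
    have := mul_le_mul_of_nonneg_left h1 hqp.le
    linarith

theorem image_aff {Z : ℝ → ℂ} {p q : ℝ} (x e : ℂ) (hpq : p < q) :
    (fun t => x + e * Z (p + (q - p) * t)) '' Icc 0 1 =
      (fun w => x + e * w) '' (Z '' Icc p q) := by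
  have hqp : 0 < q - p := sub_pos.2 hpq
  ext z
  constructor
  · rintro ⟨t, ht, rfl⟩
    exact ⟨_, ⟨_, aff_mem hpq ht, rfl⟩, rfl⟩
  · rintro ⟨_, ⟨u, hu, rfl⟩, rfl⟩
    refine ⟨(u - p) / (q - p), ⟨div_nonneg (sub_nonneg.2 hu.1) hqp.le,
      (div_le_one hqp).2 (by linarith [hu.2])⟩, ?_⟩
    have : p + (q - p) * ((u - p) / (q - p)) = u := by field_simp; ring
    simp only [this]

theorem surj_aux {A : Set ℂ} (hA : IsCompact A) {f : ℂ → ℝ} (hf : Continuous f) {s : ℝ}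
    (hne : A.Nonempty) (hle : ∀ z ∈ A, f z ≤ s)
    (hstep : ∀ z ∈ A, f z < s → ∃ w ∈ A, f z < f w) : ∃ z ∈ A, f z = s := by
  obtain ⟨z, hz, hmax⟩ := hA.exists_isMaxOn hne hf.continuousOn
  refine ⟨z, hz, ?_⟩
  by_contra h
  obtain ⟨w, hw, hlt⟩ := hstep z hz (lt_of_le_of_ne (hle z hz) h)
  exact absurd (hmax hw) (not_le.2 hlt)

theorem slope_two {a c m m' A : ℝ} (ha : a ≠ 0) (h1 : |c - m * a| ≤ A * |a|)
    (h2 : |-c - m' * (-a)| ≤ A * |a|) : |m - m'| ≤ 2 * A := by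
  have hp : 0 < |a| := abs_pos.2 ha
  have h3 : |m - m'| * |a| ≤ 2 * A * |a| := by
    rw [← abs_mul]
    have e : (m - m') * a = -(c - m * a) - (-c - m' * (-a)) := by ring
    rw [e]
    have := abs_sub (-(c - m * a)) (-c - m' * (-a))
    rw [abs_neg] at this
    linarith
  exact le_of_mul_le_mul_right h3 hp

end Br

end Vale.Agent.P128
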