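import Vale.Agent.P128.Stm

open MeasureTheory Set Metric Filter Topology Complex
open scoped ENNReal ComplexConjugate Real

noncomputable section
namespace Vale.Agent.P128

namespace Brg

/-- truncation at the levels `-M` and `M` -/
def cl (M s : ℝ) : ℝ := max (-M) (min s M)

theorem cl_lip (M : ℝ) : LipschitzWith 1 (cl M) :=
  (LipschitzWith.id.min_const M).const_max (-M)

theorem cl_abs {M : ℝ} (hM : 0 ≤ M) (s : ℝ) : |cl M s| ≤ M :=
  abs_le.2 ⟨le_max_left _ _, max_le (by linarith) (min_le_right _ _)⟩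

theorem cl_eq {M s : ℝ} (h : |s| ≤ M) : cl M s = s := by
  obtain ⟨h1, h2⟩ := abs_le.1 h
  rw [cl, min_eq_left h2, max_eq_right h1]

theorem cl_sq {M w v g : ℝ} (hv : |v| ≤ M) (hg : |g| ≤ M) :
    (cl M w - g) ^ 2 ≤ (v - g) ^ 2 + 4 * M * min |w - v| (2 * M) := by
  have hM : 0 ≤ M := (abs_nonneg _).trans hv
  have h1 : |cl M w - v| ≤ min |w - v| (2 * M) := by
    refine le_min ?_ ?_
    · have := (cl_lip M).dist_le_mul w v
      rwa [cl_eq hv, Real.dist_eq, Real.dist_eq, NNReal.coe_one, one_mul] at this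
    · have := abs_sub (cl M w) v
      linarith [cl_abs hM w]
  have h2 : |cl M w + v - 2 * g| ≤ 4 * M := by
    obtain ⟨a1, a2⟩ := abs_le.1 (cl_abs hM w)
    obtain ⟨a3, a4⟩ := abs_le.1 hv
    obtain ⟨a5, a6⟩ := abs_le.1 hg
    exact abs_le.2 ⟨by linarith, by linarith⟩
  have h3 : (cl M w + v - 2 * g) * (cl M w - v) ≤ 4 * M * min |w - v| (2 * M) := by
    refine (le_abs_self _).trans ?_
    rw [abs_mul]
    exact mul_le_mul h2 h1 (abs_nonneg _) (by linarith)
  nlinarith

theorem exists_ball {x y : ℂ} {r R : ℝ} (hr : 0 ≤ r) (h : closedBall y r ⊆ ball x R) :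
    ∃ R', r < R' ∧ ball y R' ⊆ ball x R := by
  obtain ⟨δ, hδ, h1⟩ := (isCompact_closedBall y r).exists_thickening_subset_open isOpen_ball h
  rw [thickening_closedBall hδ hr] at h1
  exact ⟨δ + r, by linarith, h1⟩

theorem rad_le {x y : ℂ} {r R : ℝ} (hR : 0 ≤ R) (h : closedBall y r ⊆ ball x R) : r ≤ R := by
  rcases le_total r 0 with hr | hr
  · linarith
  have h1 : y + r ∈ closedBall y r := by simp [abs_of_nonneg hr]
  have h2 : y - r ∈ closedBall y r := by simp [abs_of_nonneg hr]
  have h3 := dist_triangle_right (y + r) (y - r) x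
  have h4 : dist (y + r) (y - r) = 2 * r := by
    rw [dist_eq_norm, show y + r - (y - r) = ((2 * r : ℝ) : ℂ) by push_cast; ring, norm_real,
      Real.norm_of_nonneg (by linarith)]
  have h5 := mem_ball.1 (h h1)
  have h6 := mem_ball.1 (h h2)
  linarith

theorem aesm {O B : Set ℂ} {f : ℂ → ℝ} (hO : IsOpen O) (hf : ContinuousOn f O)
    (hB : MeasurableSet B) (h : ∀ᵐ z, z ∈ B → z ∈ O) :
    AEStronglyMeasurable f (volume.restrict B) := by
  have e : volume.restrict B = volume.restrict (B ∩ O) := by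
    refine Measure.restrict_congr_set ?_
    filter_upwards [h] with z hz
    exact propext ⟨fun a => ⟨a, hz a⟩, fun a => a.1⟩
  rw [e]
  exact (hf.mono inter_subset_right).aestronglyMeasurable (hB.inter hO.measurableSet)

theorem ae_not {S : Set ℂ} (h : μH[1] S < ⊤) : ∀ᵐ z, z ∉ S :=
  measure_eq_zero_iff_ae_notMem.1 (volume_null h)

theorem int_pd {Ω K : Set ℂ} {u v : ℂ → ℝ} {G : ℂ → ℂ} (hA : Adm Ω u G K) (hv : Rep Ω u G K v) :
    IntegrableOn (fun z => ‖pd v z‖ ^ 2) Ω := by
  have e : volume.restrict Ω = volume.restrict (Ω \ K) := by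
    refine Measure.restrict_congr_set ?_
    filter_upwards [ae_not hA.fin] with z hz
    exact propext ⟨fun a => ⟨a, hz⟩, fun a => a.1⟩
  have h1 : Integrable (fun z => ‖G z‖ ^ 2) (volume.restrict Ω) := by
    rw [e]
    exact (memLp_two_iff_integrable_sq_norm hA.gl2.1).1 hA.gl2
  refine h1.congr ?_
  filter_upwards [hv.grad] with z hz
  rw [hz, norm_conj]

theorem min_pf (hTrf : TrfStmt) {Ω K : Set ℂ} {g u v : ℂ → ℝ} {G : ℂ → ℂ} (hΩ : IsOpen Ω)
    (hg : MemLp g ⊤ (volume.restrict Ω)) (hm : IsMin Ω g u G K) (hv : Rep Ω u G K v)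
    {x : ℂ} {R R₁ M : ℝ} (hR : R ≤ R₁) (hsub : closedBall x R₁ ⊆ Ω) (hM : 0 ≤ M)
    (hvM : ∀ z ∈ ball x R, z ∉ K → |v z| ≤ M) (hgM : ∀ᵐ z ∂(volume.restrict Ω), |g z| ≤ M)
    {y : ℂ} {r : ℝ} {L : Set ℂ} {w : ℂ → ℝ} (hr : 0 ≤ r) (hB : closedBall y r ⊆ ball x R)
    (hC : Comp (ball x R) (K ∩ closedBall x R₁) v y r L w) :
    En v (closedBall y r) + len K (closedBall y r) ≤ En w (closedBall y r) +
      len L (closedBall y r) + 4 * M * ∫ z in closedBall y r, min |w z - v z| (2 * M) := by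
  obtain ⟨R', hR', hs⟩ := exists_ball hr hB
  have hxR : ball x R ⊆ closedBall x R₁ :=
    ball_subset_closedBall.trans (closedBall_subset_closedBall hR)
  have hBΩ : closedBall y r ⊆ Ω := hB.trans (hxR.trans hsub)
  have hBm : MeasurableSet (closedBall y r) := measurableSet_closedBall
  have e : ball y R' \ (L ∩ closedBall y r ∪ K \ closedBall y r) = ball y R' \ L := by
    ext z
    refine and_congr_right fun hz => not_congr ?_
    by_cases hzB : z ∈ closedBall y r
    · simp [hzB]
    · have := Set.ext_iff.1 hC.out z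
      simp only [Set.mem_sdiff, mem_inter_iff, hzB, not_false_eq_true, and_true,
        hxR (hs hz)] at this
      simp [hzB, this]
  have hO : IsOpen (ball x R \ L) := isOpen_ball.sdiff hC.cl
  have haeL : ∀ᵐ z, z ∈ closedBall y r → z ∈ ball x R \ L := by
    filter_upwards [ae_not hC.fin] with z hz h1
    exact ⟨hB h1, fun h2 => hz ⟨h2, h1⟩⟩
  have haeK : ∀ᵐ z, z ∈ closedBall y r → z ∈ Ω \ K := by
    filter_upwards [ae_not hm.1.fin] with z hz h1
    exact ⟨hBΩ h1, hz⟩
  have hpd : ∀ᵐ z ∂(volume.restrict (closedBall y r)),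
      ‖pd (fun z => cl M (w z)) z‖ ^ 2 ≤ ‖pd w z‖ ^ 2 := by
    rw [ae_restrict_iff' hBm]
    filter_upwards [haeL, ae_differentiableAt hO hC.lip] with z h1 h2 hz
    gcongr
    exact norm_pd_comp_le (cl_lip M) (h2 (h1 hz))
  have hint : IntegrableOn (fun z => ‖pd (fun z => cl M (w z)) z‖ ^ 2) (closedBall y r) := by
    refine Integrable.mono' hC.int
      ((measurable_pd _).norm.pow_const 2).aestronglyMeasurable ?_
    filter_upwards [hpd] with z hz
    rwa [Real.norm_of_nonneg (sq_nonneg _)]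
  have hfin : IsFiniteMeasure (volume.restrict (closedBall y r)) :=
    isFiniteMeasure_restrict.2 measure_closedBall_lt_top.ne
  have mw : AEStronglyMeasurable w (volume.restrict (closedBall y r)) :=
    aesm hO hC.lip.continuousOn hBm haeL
  have mv : AEStronglyMeasurable v (volume.restrict (closedBall y r)) :=
    aesm hm.1.closed hv.c1.continuousOn hBm haeK
  have mg : AEStronglyMeasurable g (volume.restrict (closedBall y r)) :=
    hg.1.mono_measure (Measure.restrict_mono hBΩ le_rfl)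
  have bv : ∀ᵐ z ∂(volume.restrict (closedBall y r)), |v z| ≤ M := by
    rw [ae_restrict_iff' hBm]
    filter_upwards [haeK] with z h1 hz
    exact hvM z (hB hz) (h1 hz).2
  have bg : ∀ᵐ z ∂(volume.restrict (closedBall y r)), |g z| ≤ M :=
    ae_restrict_of_ae_restrict_of_subset hBΩ hgM
  have key := hTrf Ω g u G K v hΩ hg hm hv y r R' (L ∩ closedBall y r) (fun z => cl M (w z)) hr hR'
    (hs.trans (hxR.trans hsub)) inter_subset_right hC.fin
    (by rw [e]; exact isOpen_ball.sdiff hC.cl)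
    (by
      rw [e]
      intro z hz
      obtain ⟨c, t, ht, hl⟩ := hC.lip.mono (sdiff_subset_sdiff_left hs) hz
      exact ⟨_, t, ht, (cl_lip M).comp_lipschitzOnWith hl⟩)
    (fun z hz h1 h2 => by
      rw [hC.eq z (hs hz) h1 fun h3 => h2 h3.1, cl_eq (hvM z (hs hz) h2)])
    hint
    (MemLp.of_bound ((cl_lip M).continuous.comp_aestronglyMeasurable mw) M
      (Eventually.of_forall fun z => cl_abs hM _))
  have i1 : Integrable (fun z => (v z - g z) ^ 2) (volume.restrict (closedBall y r)) := by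
    refine Integrable.of_bound ((mv.sub mg).pow 2) ((2 * M) ^ 2) ?_
    filter_upwards [bv, bg] with z h1 h2
    rw [Real.norm_of_nonneg (sq_nonneg _), ← sq_abs]
    gcongr
    linarith [abs_sub (v z) (g z)]
  have i2 : Integrable (fun z => min |w z - v z| (2 * M)) (volume.restrict (closedBall y r)) := by
    refine Integrable.of_bound (((continuous_abs.min continuous_const).comp_aestronglyMeasurable
      (mw.sub mv) :)) (2 * M) (Eventually.of_forall fun z => ?_)
    rw [Real.norm_of_nonneg (le_min (abs_nonneg _) (by linarith))]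
    exact min_le_right _ _
  have h1 : ∫ z in closedBall y r, (cl M (w z) - g z) ^ 2 ≤
      ∫ z in closedBall y r, ((v z - g z) ^ 2 + 4 * M * min |w z - v z| (2 * M)) := by
    refine integral_mono_of_nonneg (Eventually.of_forall fun z => sq_nonneg _)
      (i1.add (i2.const_mul _)) ?_
    filter_upwards [bv, bg] with z h1 h2
    exact cl_sq h1 h2
  rw [integral_add i1 (i2.const_mul _), integral_const_mul] at h1
  have h2 : En (fun z => cl M (w z)) (closedBall y r) ≤ En w (closedBall y r) :=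
    integral_mono_ae hint hC.int hpd
  have h3 : len L (closedBall y r) = (μH[1] (L ∩ closedBall y r)).toReal := rfl
  linarith

end Brg

theorem brg_pf (hTrf : TrfStmt) (hBnd : BndStmt) : BrgStmt := by
  intro Ω g u G K v hΩ hg hm hred hv x hx
  obtain ⟨R₁, T, hR₁, hsub, hT⟩ := hBnd Ω g u G K v hΩ hg hm hv x hx
  obtain ⟨M, hM1, hM2, hM3⟩ : ∃ M : ℝ, T ≤ M ∧ √R₁ ≤ M ∧
      ∀ᵐ z ∂(volume.restrict Ω), |g z| ≤ M := by
    refine ⟨max (max T √R₁) (lpNorm g ⊤ (volume.restrict Ω)),
      (le_max_left _ _).trans (le_max_left _ _), (le_max_right _ _).trans (le_max_left _ _), ?_⟩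
    filter_upwards [ae_le_lpNorm_exponent_top hg] with z hz
    exact hz.trans (le_max_right _ _)
  have hM : 0 ≤ M := (Real.sqrt_nonneg _).trans hM2
  refine ⟨M, R₁, hR₁, hsub, fun R hR => ?_⟩
  have hxR : ball x R ⊆ closedBall x R₁ :=
    ball_subset_closedBall.trans (closedBall_subset_closedBall hR.2.le)
  have hd : ball x R \ (K ∩ closedBall x R₁) ⊆ Ω \ K := fun z hz =>
    ⟨hsub (hxR hz.1), fun h => hz.2 ⟨h, hxR hz.1⟩⟩
  have hvM : ∀ z ∈ ball x R, z ∉ K → |v z| ≤ M := fun z hz h =>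
    (hT z (ball_subset_ball hR.2.le hz) h).trans hM1
  refine ⟨isOpen_ball, ?_, hv.c1.mono hd, by linarith, hM, fun z hz => ?_, fun y r h => ?_,
    fun y r h => (Brg.int_pd hm.1 hv).mono_set (h.trans (hxR.trans hsub)),
    fun y r _ => (measure_mono (inter_subset_left.trans inter_subset_left)).trans_lt hm.1.fin,
    fun y r L w h hC => ?_, fun y hy hyR r hr => ?_⟩
  · have : K ∩ closedBall x R₁ = (Ω \ K)ᶜ ∩ closedBall x R₁ := by
      ext z
      refine and_congr_left fun hz => ?_
      simp [hsub hz]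
    rw [this]
    exact hm.1.closed.isClosed_compl.inter isClosed_closedBall
  · exact mul_le_mul_of_nonneg_left (hvM z hz.1 (hd hz).2) (by linarith)
  · exact mul_le_mul_of_nonneg_left
      ((Real.sqrt_le_sqrt ((Brg.rad_le hR.1.le h).trans hR.2.le)).trans hM2) (by linarith)
  · rcases lt_or_ge r 0 with hr | hr
    · simp [closedBall_eq_empty.2 hr, En, len]
    · have e : len (K ∩ closedBall x R₁) (closedBall y r) = len K (closedBall y r) := by
        unfold len
        rw [inter_assoc, inter_eq_right.2 (h.trans hxR)]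
      rw [e]
      exact Brg.min_pf hTrf hΩ hg hm hv hR.2.le hsub hM hvM hM3 hr h hC
  · obtain ⟨δ, hδ, h1⟩ := nhds_basis_closedBall.mem_iff.1 (isOpen_ball.mem_nhds hyR)
    have h2 : closedBall y (min r δ) ⊆ closedBall x R₁ :=
      (closedBall_subset_closedBall (min_le_right _ _)).trans (h1.trans hxR)
    refine (hred y hy.1 (min r δ) (lt_min hr hδ) (h2.trans hsub)).trans_le (measure_mono ?_)
    exact fun z hz => ⟨⟨hz.1, h2 (ball_subset_closedBall hz.2)⟩,
      ball_subset_ball (min_le_left _ _) hz.2⟩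

end Vale.Agent.P128
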