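import Vale.Agent.P128.Cut0

open MeasureTheory Set Metric Filter Topology Complex
open scoped ENNReal ComplexConjugate Real

noncomputable section
namespace Vale.Agent.P128

namespace CaseA1

theorem test_mul {K D W : Set ℂ} {φ g : ℂ → ℂ} (hK : IsClosed K) (h0 : volume K = 0)
    (h : Test K W φ) (hW : IsOpen W) (hD : W ⊆ D) (hg : ContDiffOn ℝ 1 g W) :
    Test K D fun z => φ z * g z := by
  obtain ⟨B, hB⟩ := h.bd
  obtain ⟨C, hC⟩ := h.cpt.exists_bound_of_continuousOn (hg.continuousOn.mono h.sub)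
  obtain ⟨C', hC'⟩ := h.cpt.exists_bound_of_continuousOn
    ((hg.continuousOn_fderiv_of_isOpen hW le_rfl).mono h.sub)
  have B0 : 0 ≤ B := (norm_nonneg _).trans (hB 0)
  refine ⟨locLip_of_local fun z hz => ?_, h.cpt.mul_right, tsupport_mul_subset_left.trans
    (h.sub.trans hD), ?_, B * max C 0, fun z => ?_⟩
  · by_cases hz' : z ∈ tsupport φ
    · refine ⟨_, Kᶜ ∩ W, hK.isOpen_compl.inter hW, ⟨hz, h.sub hz'⟩, ?_, EventuallyEq.rfl⟩
      exact locallyLipschitzOn_iff_restrict.2
        ((contDiff_mul : ContDiff ℝ 1 fun p : ℂ × ℂ => p.1 * p.2).locallyLipschitz.comp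
          ((h.lip.mono inter_subset_left).restrict.prodMk
            ((locLip_of_contDiffOn hW hg).mono inter_subset_right).restrict))
    · refine ⟨fun _ => 0, univ, isOpen_univ, trivial,
        (LocallyLipschitz.const _).locallyLipschitzOn, ?_⟩
      filter_upwards [notMem_tsupport_iff_eventuallyEq.1 hz'] with y hy
      rw [hy, Pi.zero_apply, zero_mul]
  · refine (integrableOn_iff_integrable_of_support_subset (s := tsupport φ) fun z hz =>
      by_contra fun h' => hz ?_).1 ?_
    · simp [fderiv_of_notMem_tsupport ℝ fun e => h' (tsupport_mul_subset_left e)]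
    refine ((integrableOn_const (C := 2 * (B * C') ^ 2) h.cpt.measure_lt_top.ne).add
      (h.int.const_mul (2 * C ^ 2)).integrableOn).mono'
      ((measurable_fderiv ℝ _).norm.pow_const 2).aestronglyMeasurable ?_
    rw [ae_restrict_iff' (isClosed_tsupport φ).measurableSet]
    filter_upwards [h.ae_diff hK h0] with z z1 hz
    have z2 := (hg.contDiffAt (hW.mem_nhds (h.sub hz))).differentiableAt one_ne_zero
    rw [Real.norm_of_nonneg (sq_nonneg _), fderiv_fun_mul z1 z2, Pi.add_apply]
    have k : ‖φ z • fderiv ℝ g z + g z • fderiv ℝ φ z‖ ≤ B * C' + C * ‖fderiv ℝ φ z‖ := by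
      refine (norm_add_le _ _).trans ?_
      rw [norm_smul, norm_smul]
      exact add_le_add (mul_le_mul (hB z) (hC' z hz) (norm_nonneg _) B0)
        (mul_le_mul_of_nonneg_right (hC z hz) (norm_nonneg _))
    nlinarith [pow_le_pow_left₀ (norm_nonneg _) k 2, sq_nonneg (B * C' - C * ‖fderiv ℝ φ z‖)]
  · by_cases hz : z ∈ tsupport φ
    · rw [norm_mul]
      exact mul_le_mul (hB z) ((hC z hz).trans (le_max_left _ _)) (norm_nonneg _) B0
    · rw [image_eq_zero_of_notMem_tsupport hz, zero_mul, norm_zero]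
      positivity

end CaseA1

theorem caseA1_pf (hCaseA2 : CaseA2Stmt) : CaseA1Stmt := by
  intro K u h c hc κ hκ H
  have an := hκ.analyticOnNhd isOpen_ball
  have c0 : c ∈ ball c (1 / 4) := mem_ball_self (by norm_num)
  rcases (an c c0).eventually_eq_zero_or_eventually_ne_zero with h1 | h1
  · exact an.eqOn_zero_of_preconnected_of_eventuallyEq_zero (convex_ball _ _).isPreconnected c0 h1
  exfalso
  obtain ⟨y, hy, y1, y2⟩ : ∃ y ∈ K, y ∈ ball c (1 / 4) ∧ κ y ≠ 0 := by
    obtain ⟨r, r0, hr⟩ := Metric.eventually_nhds_iff_ball.1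
      ((eventually_nhdsWithin_iff.1 h1).and (isOpen_ball.mem_nhds c0))
    have : NullSingletonClass (μH[1] : Measure ℂ) := Measure.nullSingletonClass_hausdorff ℂ one_pos
    by_contra hn
    refine (h.red c hc trivial r r0).ne' (measure_mono_null (t := {c}) (fun y hy => ?_)
      (measure_singleton c))
    exact by_contra fun e => hn ⟨y, hy.1, (hr y hy.2).2, (hr y hy.2).1 e⟩
  obtain ⟨r, r0, hr⟩ := Metric.eventually_nhds_iff_ball.1
    (((an y y1).continuousAt.eventually_ne y2).and (isOpen_ball.mem_nhds y1))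
  have hg : DifferentiableOn ℂ (fun z => (κ z)⁻¹) (ball y r) :=
    (hκ.mono fun z hz => (hr z hz).2).fun_inv fun z hz => (hr z hz).1
  refine hCaseA2 K u h y hy r r0 fun φ hφ => ?_
  rw [← H _ (CaseA1.test_mul h.cl h.null hφ isOpen_ball (fun z hz => (hr z hz).2)
    ((hg.contDiffOn isOpen_ball).restrict_scalars ℝ))]
  refine integral_congr_ae ?_
  filter_upwards [hφ.ae_diff h.cl h.null] with z z1
  by_cases hz : z ∈ tsupport φ
  · have z2 := hg.differentiableAt (isOpen_ball.mem_nhds (hφ.sub hz))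
    rw [(dz_db_mul z1 (z2.restrictScalars ℝ)).2, (dz_db_of_hasDerivAt z2.hasDerivAt).2, mul_zero,
      zero_add, mul_inv_cancel_left₀ (hr z (hφ.sub hz)).1]
  · rw [(dz_db_of_notMem hz).2, (dz_db_of_notMem fun e => hz (tsupport_mul_subset_left e)).2,
      mul_zero]

end Vale.Agent.P128
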