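import Vale.Agent.P128.Stm

open MeasureTheory Set Metric Filter Topology Complex
open scoped ENNReal ComplexConjugate Real

noncomputable section
namespace Vale.Agent.P128

namespace CaseA2

/-- bounded functions, locally Lipschitz off `K`, with gradient at most `G` -/
structure Cl (K : Set ℂ) (G f : ℂ → ℝ) : Prop where
  lip : LocallyLipschitzOn Kᶜ f
  bd : ∃ B, ∀ z, |f z| ≤ B
  le : ∀ z, z ∉ K → ‖pd f z‖ ≤ G z

variable {K D S : Set ℂ} {G f ψ : ℂ → ℝ}

theorem lip_comp {F F' : Type*} [PseudoEMetricSpace F] [PseudoEMetricSpace F'] {O : Set ℂ}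
    {f : ℂ → F} (hf : LocallyLipschitzOn O f) {Ψ : ℂ × F → F'} (h : LocallyLipschitz Ψ) :
    LocallyLipschitzOn O fun z => Ψ (z, f z) :=
  locallyLipschitzOn_iff_restrict.2
    (h.comp ((LipschitzWith.subtype_val O).locallyLipschitz.prodMk hf.restrict))

theorem ofReal_db {g : ℂ → ℝ} {z : ℂ} (hg : DifferentiableAt ℝ g z) :
    db (fun z => (g z : ℂ)) z = conj (pd g z) / 2 ∧
      ‖fderiv ℝ (fun z => (g z : ℂ)) z‖ = ‖pd g z‖ := by
  have h : ∀ e, fderiv ℝ (fun z => (g z : ℂ)) z e =
      pd g z / 2 * e + conj (pd g z) / 2 * conj e := fun e => by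
    have := (ofRealCLM.hasFDerivAt.comp z hg.hasFDerivAt).fderiv
    rw [show (fun z => (g z : ℂ)) = ofRealCLM ∘ g from rfl, this, ContinuousLinearMap.comp_apply,
      fderiv_eq_pd, ofRealCLM_apply, re_eq_add_conj, map_mul]
    ring
  obtain ⟨h1, h2⟩ := dz_db_of_fderiv h
  refine ⟨h2, ?_⟩
  rw [norm_fderiv_eq, h1, h2, norm_div, norm_div, Complex.norm_conj]
  simp

theorem ae_off (h0 : volume K = 0) : ∀ᵐ z, z ∉ K := measure_eq_zero_iff_ae_notMem.1 h0

theorem Cl.meas (hf : Cl K G f) (hK : IsClosed K) (h0 : volume K = 0) :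
    AEStronglyMeasurable f volume := by
  have := hf.lip.continuousOn.aestronglyMeasurable (μ := volume) hK.isOpen_compl.measurableSet
  rwa [Measure.restrict_eq_self_of_ae_mem (s := Kᶜ) (ae_off h0)] at this

theorem Cl.locInt (hf : Cl K G f) (hK : IsClosed K) (h0 : volume K = 0) : LocallyIntegrable f := by
  obtain ⟨B, hB⟩ := hf.bd
  exact (memLp_top_of_bound (hf.meas hK h0) B (.of_forall hB)).locallyIntegrable le_top

theorem weak (hK : IsClosed K) (h0 : volume K = 0)
    (H : ∀ φ, Test K D φ → ∫ a, db φ a = 0) (hSD : S ⊆ D)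
    (g1 : Integrable (S.indicator G)) (g2 : MemLp (S.indicator G) 2) (hf : Cl K G f)
    (hψ : ContDiff ℝ 1 ψ) (c : HasCompactSupport ψ) (hs : tsupport ψ ⊆ S) (p : ∀ z, 0 ≤ ψ z)
    (e : ℂ) : |∫ z, fderiv ℝ ψ z e * f z| ≤ (∫ z, ψ z * S.indicator G z) * ‖e‖ := by
  obtain ⟨B, hB⟩ := hf.bd
  obtain ⟨A, hA⟩ := c.exists_bound_of_continuous hψ.continuous
  have fm := hf.meas hK h0
  have fd : ∀ᵐ z, DifferentiableAt ℝ f z := by
    filter_upwards [ae_differentiableAt hK.isOpen_compl hf.lip, ae_off h0] with z h1 h2 using h1 h2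
  have ψd := hψ.differentiable one_ne_zero
  have b1 : ∀ᵐ z, ‖(ψ z : ℂ) * pd f z‖ ≤ ψ z * S.indicator G z := by
    filter_upwards [ae_off h0] with z hz
    by_cases h : z ∈ S
    · rw [indicator_of_mem h, norm_mul, Complex.norm_real, Real.norm_of_nonneg (p z)]
      exact mul_le_mul_of_nonneg_left (hf.le z hz) (p z)
    · simp [image_eq_zero_of_notMem_tsupport fun h' => h (hs h')]
  have m1 : AEStronglyMeasurable (fun z => (ψ z : ℂ) * pd f z) volume :=
    ((continuous_ofReal.comp hψ.continuous).measurable.mul (measurable_pd f)).aestronglyMeasurable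
  have l1 : ∀ q, MemLp (S.indicator G) q → MemLp (fun z => ψ z * S.indicator G z) q :=
    fun q hq => hq.of_le_mul (c := A) (hψ.continuous.aestronglyMeasurable.mul hq.1)
      (.of_forall fun z => by
        rw [norm_mul]; exact mul_le_mul_of_nonneg_right (hA z) (norm_nonneg _))
  have l2 : ∀ q, MemLp (S.indicator G) q → MemLp (fun z => (ψ z : ℂ) * pd f z) q :=
    fun q hq => (l1 q hq).of_le m1 (b1.mono fun z hz => hz.trans (le_abs_self _))
  have pc : Continuous (pd ψ) :=
    continuousOn_univ.1 (continuousOn_pd isOpen_univ hψ.contDiffOn)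
  have pk : HasCompactSupport (pd ψ) := by
    refine (c.fderiv ℝ).mono fun z hz h => hz ?_
    rw [← norm_eq_zero, norm_pd, h, norm_zero]
  have l3 : ∀ q, MemLp (fun z => (f z : ℂ) * pd ψ z) q := fun q =>
    (pc.memLp_of_hasCompactSupport pk).of_le_mul (c := B)
      ((continuous_ofReal.comp_aestronglyMeasurable fm).mul pc.aestronglyMeasurable)
      (.of_forall fun z => by
        rw [norm_mul, Complex.norm_real]
        exact mul_le_mul_of_nonneg_right (hB z) (norm_nonneg _))
  have e1 : ∀ᵐ z, pd (fun z => ψ z * f z) z = ψ z * pd f z + f z * pd ψ z :=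
    fd.mono fun z hz => pd_mul (ψd z) hz
  have e2 := fd.mono fun z hz => ofReal_db ((ψd z).fun_mul hz)
  have T : Test K D fun z => ((ψ z * f z : ℝ) : ℂ) := by
    have su : Function.support (fun z => ((ψ z * f z : ℝ) : ℂ)) ⊆ Function.support ψ :=
      fun z hz h => hz (by simp [h])
    refine ⟨lip_comp hf.lip (Ψ := fun q : ℂ × ℝ => ((ψ q.1 * q.2 : ℝ) : ℂ))
      (ContDiff.locallyLipschitz (𝕂 := ℝ) (ofRealCLM.contDiff.comp
        ((hψ.comp contDiff_fst).mul contDiff_snd))), c.mono su,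
      ((closure_mono su).trans hs).trans hSD, ?_, A * B, fun z => ?_⟩
    · have := (l2 2 g2).add (l3 2)
      refine ((memLp_two_iff_integrable_sq_norm this.1).1 this).congr ?_
      filter_upwards [e1, e2] with z h1 h2
      rw [h2.2, h1, Pi.add_apply]
    · rw [Complex.norm_real, norm_mul]
      exact mul_le_mul (hA z) (hB z) (norm_nonneg _) ((norm_nonneg _).trans (hA z))
  have i2 := memLp_one_iff_integrable.1 (l2 1 (memLp_one_iff_integrable.2 g1))
  have i3 := memLp_one_iff_integrable.1 (l3 1)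
  have z0 : (∫ z, (ψ z : ℂ) * pd f z) + ∫ z, (f z : ℂ) * pd ψ z = 0 := by
    have := H _ T
    rw [integral_congr_ae (g := fun z => conj (ψ z * pd f z + f z * pd ψ z) / 2) (by
      filter_upwards [e1, e2] with z h1 h2
      rw [h2.1, h1]), integral_div, integral_conj, integral_add i2 i3] at this
    simpa only [div_eq_zero_iff, map_eq_zero, two_ne_zero, or_false] using this
  have z1 : ∫ z, fderiv ℝ ψ z e * f z = ((∫ z, (f z : ℂ) * pd ψ z) * e).re := by
    rw [← integral_mul_const]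
    refine Eq.trans ?_ (integral_re (i3.mul_const e))
    refine integral_congr_ae (.of_forall fun z => ?_)
    simp only [fderiv_eq_pd, RCLike.re_to_complex, mul_assoc, re_ofReal_mul, mul_comm (f z)]
  rw [z1, eq_neg_of_add_eq_zero_right z0]
  refine (abs_re_le_norm _).trans ?_
  rw [norm_mul, norm_neg]
  exact mul_le_mul_of_nonneg_right (norm_integral_le_of_norm_le
    (memLp_one_iff_integrable.1 (l1 1 (memLp_one_iff_integrable.2 g1))) b1) (norm_nonneg _)

theorem grad (hMol : MolStmt) (hK : IsClosed K) (h0 : volume K = 0)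
    (H : ∀ φ, Test K D φ → ∫ a, db φ a = 0) (hSD : S ⊆ D)
    (g1 : Integrable (S.indicator G)) (g2 : MemLp (S.indicator G) 2) (hf : Cl K G f)
    (φ : ContDiffBump (0 : ℂ)) (a : ℂ) (ha : closedBall a φ.rOut ⊆ S) (e : ℂ) :
    |fderiv ℝ (mol φ f) a e| ≤ mol φ (S.indicator G) a * ‖e‖ := by
  have hd : ContDiff ℝ 1 (φ.normed volume) := φ.contDiff_normed (n := 1)
  have su : tsupport (fun z => φ.normed volume (a - z)) ⊆ closedBall a φ.rOut := by
    refine closure_minimal (fun z hz => ?_) isClosed_closedBall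
    have : a - z ∈ Function.support (φ.normed volume) := hz
    rw [φ.support_normed_eq, mem_ball_zero_iff] at this
    rw [mem_closedBall, dist_comm, dist_eq_norm]
    exact this.le
  have := weak hK h0 H hSD g1 g2 hf (ψ := fun z => φ.normed volume (a - z))
    (hd.comp (contDiff_const.sub contDiff_id))
    ((isCompact_closedBall a φ.rOut).of_isClosed_subset (isClosed_tsupport _) su) (su.trans ha)
    (fun z => φ.nonneg_normed _) (-e)
  rw [(((hMol ℝ f (hf.locInt hK h0)).1 φ).2.2 a e),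
    ((hMol ℝ _ g1.locallyIntegrable).1 φ).2.1 a]
  rw [norm_neg] at this
  simp only [smul_eq_mul]
  convert this using 4 with z
  have h1 := ((hd.differentiable one_ne_zero (a - z)).hasFDerivAt.comp z
    ((hasFDerivAt_id (𝕜 := ℝ) z).const_sub a)).fderiv
  rw [show (fun z => φ.normed volume (a - z)) =
    φ.normed volume ∘ HSub.hSub a from rfl, h1]
  simp

theorem osc {F M : ℂ → ℝ} (hF : ContDiff ℝ 1 F) {x : ℂ} {ρ : ℝ} (hρ : 0 ≤ ρ)
    (h : ∀ a ∈ sphere x ρ, ∀ e, |fderiv ℝ F a e| ≤ M a * ‖e‖) {z w : ℂ} (hz : z ∈ sphere x ρ)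
    (hw : w ∈ sphere x ρ) : ‖F z - F w‖ₑ ≤
      ENNReal.ofReal ρ * ∫⁻ θ in Ioo 0 (2 * π), ENNReal.ofReal (M (circleMap x ρ θ)) := by
  have im := image_circleMap_Ioc x ρ
  rw [abs_of_nonneg hρ] at im
  rw [← im] at hz hw
  obtain ⟨α, hα, rfl⟩ := hz
  obtain ⟨β, hβ, rfl⟩ := hw
  wlog hle : β ≤ α generalizing α β
  · rw [enorm_sub_rev]; exact this β hβ α hα (not_le.1 hle).le
  refine (enorm_sub_le_lintegral_deriv_of_contDiffOn_Icc (f := fun θ => F (circleMap x ρ θ))
    (hF.comp (contDiff_circleMap x ρ)).contDiffOn hle).trans ?_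
  rw [← lintegral_const_mul' _ _ ENNReal.ofReal_ne_top, setLIntegral_congr Ioo_ae_eq_Ioc]
  refine (lintegral_mono fun θ => ?_).trans
    (lintegral_mono_set fun θ hθ => ⟨hβ.1.trans_le hθ.1, hθ.2.trans hα.2⟩)
  have d := ((hF.differentiable one_ne_zero _).hasFDerivAt.comp_hasDerivAt θ
    (hasDerivAt_circleMap x ρ θ)).deriv
  have := h _ (circleMap_mem_sphere x hρ θ) (circleMap 0 ρ θ * I)
  rw [norm_mul, norm_I, norm_circleMap_zero, abs_of_nonneg hρ, mul_one, mul_comm (M _)] at this
  rw [show (fun θ => F (circleMap x ρ θ)) = F ∘ circleMap x ρ from rfl, d,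
    ← ENNReal.ofReal_mul hρ, ← ofReal_norm]
  exact ENNReal.ofReal_le_ofReal this

theorem circ (hMol : MolStmt) (hPol : PolStmt) (hK : IsClosed K) (h0 : volume K = 0)
    (H : ∀ φ, Test K D φ → ∫ a, db φ a = 0) {x : ℂ} {s c : ℝ} (hs : 0 < s) (hc0 : 0 ≤ c)
    (hSD : closedBall x s ⊆ D) (G0 : ∀ z, 0 ≤ G z)
    (g1 : Integrable ((closedBall x s).indicator G))
    (g2 : MemLp ((closedBall x s).indicator G) 2)
    (hc : ∫ z, (closedBall x s).indicator G z < c * (s / 4)) :
    ∃ ρ ∈ Ioo (s / 2) (3 * s / 4), ∀ f, Cl K G f → ∀ z ∈ sphere x ρ, ∀ w ∈ sphere x ρ,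
      z ∉ K → w ∉ K → |f z - f w| ≤ c := by
  let φ : ℕ → ContDiffBump (0 : ℂ) := fun n => ⟨s / 8 * (1 / (n + 1)), s / 4 * (1 / (n + 1)),
    by positivity, by gcongr; linarith⟩
  have t0 : Tendsto (fun n => (φ n).rOut) atTop (𝓝 0) := by
    simpa only [mul_zero] using
      (tendsto_one_div_add_atTop_nhds_zero_nat (𝕜 := ℝ)).const_mul (s / 4)
  have r1 : ∀ n, (φ n).rOut ≤ s / 4 := fun n =>
    mul_le_of_le_one_right (by positivity) (Nat.one_div_le_one_div (Nat.zero_le n) |>.trans
      (by simp))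
  set G₀ := (closedBall x s).indicator G
  have G1 : ∀ z, 0 ≤ G₀ z := fun z => indicator_nonneg (fun z _ => G0 z) z
  have mG := (hMol ℝ G₀ g1.locallyIntegrable).1
  have mc : ∀ n, Measurable fun z => ENNReal.ofReal (mol (φ n) G₀ z) := fun n =>
    (mG (φ n)).1.continuous.measurable.ennreal_ofReal
  let Φ : ℕ → ℝ → ℝ≥0∞ := fun n ρ => ENNReal.ofReal ρ *
    ∫⁻ θ in Ioo 0 (2 * π), ENNReal.ofReal (mol (φ n) G₀ (circleMap x ρ θ))
  have mΦ : ∀ n, Measurable (Φ n) := fun n => ENNReal.measurable_ofReal.mul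
    (Measurable.lintegral_prod_right' (f := fun p : ℝ × ℝ =>
      ENNReal.ofReal (mol (φ n) G₀ (circleMap x p.1 p.2))) ((mc n).comp
        (Continuous.measurable (by unfold circleMap; fun_prop))))
  have iΦ : ∀ n, ∫⁻ ρ in Ioo (s / 2) (3 * s / 4), Φ n ρ ≤ ENNReal.ofReal (∫ z, G₀ z) := fun n => by
    rw [← hPol.1 _ x _ _ (mc n).aemeasurable (by positivity)]
    refine (setLIntegral_le_lintegral _ _).trans (le_of_eq ?_)
    rw [← ofReal_integral_eq_lintegral_ofReal (f := mol (φ n) G₀)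
      ((φ n).integrable_normed.integrable_convolution _ g1) (.of_forall fun a => ?_)]
    · rw [mol, integral_convolution _ (φ n).integrable_normed g1, (φ n).integral_normed]
      simp
    · show 0 ≤ mol (φ n) G₀ a
      rw [(mG (φ n)).2.1]
      exact integral_nonneg fun z => mul_nonneg ((φ n).nonneg_normed _) (G1 z)
  have ex : ∃ ρ ∈ Ioo (s / 2) (3 * s / 4),
      liminf (fun n => Φ n ρ) atTop ≤ ENNReal.ofReal c := by
    by_contra! hn
    have h1 := (setLIntegral_mono' measurableSet_Ioo fun ρ hρ => (hn ρ hρ).le).trans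
      ((lintegral_liminf_le mΦ).trans (liminf_le_of_frequently_le' (.of_forall iΦ)))
    rw [setLIntegral_const, Real.volume_Ioo, ← ENNReal.ofReal_mul hc0,
      ENNReal.ofReal_le_ofReal_iff (integral_nonneg G1)] at h1
    linarith
  obtain ⟨ρ, hρ, hl⟩ := ex
  refine ⟨ρ, hρ, fun f hf z hz w hw zK wK => ?_⟩
  have mf := hMol ℝ f (hf.locInt hK h0)
  have cv : ∀ z, z ∉ K → Tendsto (fun n => mol (φ n) f z) atTop (𝓝 (f z)) := fun z hz =>
    ((mf.2 φ t0).1 Kᶜ {z} hK.isOpen_compl hf.lip.continuousOn isCompact_singleton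
      (singleton_subset_iff.2 hz)).tendsto_at rfl
  have lim := (((cv z zK).sub (cv w wK)).enorm).liminf_eq
  rw [← ENNReal.ofReal_le_ofReal_iff hc0, ← Real.norm_eq_abs, ofReal_norm, ← lim]
  refine (liminf_le_liminf (.of_forall fun n => ?_)).trans hl
  refine osc ((mf.1 (φ n)).1.of_le (by simp)) (by linarith [hρ.1]) (fun a ha =>
    grad hMol hK h0 H hSD g1 g2 hf (φ n) a (closedBall_subset_closedBall' ?_)) hz hw
  rw [mem_sphere.1 ha]
  linarith [r1 n, hρ.2]

theorem cl_ind (hK : IsClosed K) (G0 : ∀ z, 0 ≤ G z) (z₀ : ℂ) (T : ℝ) :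
    Cl K G ((connectedComponentIn Kᶜ z₀).indicator fun _ => T) := by
  have lc : ∀ z, z ∉ K → (connectedComponentIn Kᶜ z₀).indicator (fun _ => T) =ᶠ[𝓝 z]
      fun _ => (connectedComponentIn Kᶜ z₀).indicator (fun _ => T) z := fun z hz => by
    filter_upwards [connectedComponentIn_mem_nhds (hK.isOpen_compl.mem_nhds hz)] with y hy
    have e := connectedComponentIn_eq hy
    by_cases h : z ∈ connectedComponentIn Kᶜ z₀
    · rw [indicator_of_mem h, indicator_of_mem (by rwa [connectedComponentIn_eq h])]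
    · rw [indicator_of_notMem h, indicator_of_notMem fun h' => h ?_]
      rw [connectedComponentIn_eq h', ← e]
      exact mem_connectedComponentIn hz
  refine ⟨locLip_of_local fun z hz => ⟨_, univ, isOpen_univ, trivial,
    (LipschitzWith.const _).locallyLipschitz.locallyLipschitzOn, lc z hz⟩, ⟨|T|, fun z => ?_⟩,
    fun z hz => ?_⟩
  · exact norm_indicator_le_norm_self (fun _ => T) z
  · rw [pd_congr (lc z hz), pd_const, norm_zero]; exact G0 z

theorem cl_clamp {u : ℂ → ℝ} (h : GM K u) (T : ℝ) (hT : 0 ≤ T) :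
    Cl K (fun z => ‖pd u z‖) fun z => max (-T) (min T (u z)) := by
  have l : LipschitzWith 1 fun t : ℝ => max (-T) (min T t) :=
    (LipschitzWith.id.const_min T).const_max (-T)
  refine ⟨?_, ⟨T, fun z => abs_le.2 ⟨le_max_left _ _, max_le (by linarith) (min_le_left _ _)⟩⟩,
    fun z hz => norm_pd_comp_le l (h.diff ⟨trivial, hz⟩)⟩
  have := h.lip
  rw [← compl_eq_univ_sdiff] at this
  exact locallyLipschitzOn_iff_restrict.2 (l.locallyLipschitz.comp this.restrict)

end CaseA2

open CaseA2 in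
theorem caseA2_pf (hDz : DzStmt) (hDens : DensStmt) (hRem : RemStmt) (hMol : MolStmt)
    (hPol : PolStmt) : CaseA2Stmt := by
  intro K u h y hy r hr H
  obtain ⟨c, c0, hc⟩ := hDens
  set ε := √(c / 50000) with hε
  have ε0 : 0 < ε := Real.sqrt_pos.2 (by positivity)
  have ε2 : ε ^ 2 = c / 50000 := Real.sq_sqrt (by positivity)
  have mE : MeasurableSet (K ∩ ball y (r / 2)) := h.cl.measurableSet.inter measurableSet_ball
  have := hDz (K ∩ ball y (r / 2)) (ball y r) (fun z => ‖pd u z‖ ^ 2) mE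
    ((measure_mono (inter_subset_inter_right _ ball_subset_closedBall)).trans_lt
      (h.fin y _ (subset_univ _)))
    isOpen_ball (inter_subset_right.trans (ball_subset_ball (by linarith)))
    ((h.int y r (subset_univ _)).mono_set ball_subset_closedBall) (fun z => sq_nonneg _)
    (ε ^ 2) (by positivity)
  have ne : (ae ((μH[1] : Measure ℂ).restrict (K ∩ ball y (r / 2)))).NeBot :=
    ae_neBot.2 fun e => (h.red y hy trivial (r / 2) (by positivity)).ne'
      (Measure.restrict_eq_zero.1 e)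
  obtain ⟨x, hx, ev⟩ := ((ae_restrict_mem mE).and this).exists
  obtain ⟨s, hE, hs, hsr⟩ := (ev.and (Ioo_mem_nhdsGT (by positivity : 0 < r / 2))).exists
  have i2 := h.int x s (subset_univ _)
  have q0 : 0 < √s := Real.sqrt_pos.2 hs
  have q2 : √s ^ 2 = s := Real.sq_sqrt hs.le
  have m2 : MemLp (fun z => ‖pd u z‖) 2 (volume.restrict (closedBall x s)) :=
    (memLp_two_iff_integrable_sq (measurable_pd u).norm.aestronglyMeasurable).2 i2
  have fm : IsFiniteMeasure (volume.restrict (closedBall x s)) :=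
    isFiniteMeasure_restrict.2 measure_closedBall_lt_top.ne
  have i1 := m2.integrable one_le_two
  have E1 : ∫ z, (closedBall x s).indicator (fun z => ‖pd u z‖) z < 13 * ε * √s * (s / 4) := by
    rw [integral_indicator measurableSet_closedBall]
    have h1 : ∫ z in closedBall x s, ‖pd u z‖ ≤
        ∫ z in closedBall x s, (ε / √s / 2 + √s / ε / 2 * ‖pd u z‖ ^ 2) :=
      integral_mono i1 ((integrable_const _).add (i2.const_mul _)) fun z => by
        have : ε / √s / 2 + √s / ε / 2 * ‖pd u z‖ ^ 2 - ‖pd u z‖ =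
            (ε - √s * ‖pd u z‖) ^ 2 / (2 * ε * √s) := by field_simp; ring
        have h2 : 0 ≤ (ε - √s * ‖pd u z‖) ^ 2 / (2 * ε * √s) := by positivity
        linarith
    rw [integral_add (integrable_const _) (i2.const_mul _), integral_const_mul, setIntegral_const,
      measureReal_def, Complex.volume_closedBall] at h1
    simp only [ENNReal.toReal_mul, ENNReal.toReal_pow, ENNReal.toReal_ofReal hs.le,
      ENNReal.coe_toReal, NNReal.coe_real_pi, smul_eq_mul] at h1
    have h3 := mul_le_mul_of_nonneg_left hE (by positivity : 0 ≤ √s / ε / 2)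
    have e1 : s ^ 2 * π * (ε / √s / 2) = π / 2 * (ε * √s * s) := by
      generalize √s = q at *
      rw [← q2]; field_simp
    have e2 : √s / ε / 2 * (ε ^ 2 * s) = 1 / 2 * (ε * √s * s) := by field_simp
    have p1 : 0 < ε * √s * s := by positivity
    have := mul_lt_mul_of_pos_right Real.pi_lt_four p1
    linarith
  obtain ⟨ρ, hρ, ho⟩ := circ hMol hPol h.cl h.null H hs (by positivity)
    (closedBall_subset_ball' (by linarith [mem_ball.1 hx.2])) (fun z => norm_nonneg _)
    ((integrable_indicator_iff measurableSet_closedBall).2 i1)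
    ((memLp_indicator_iff_restrict measurableSet_closedBall).2 m2) E1
  have p0 : 0 < ε * √s := by positivity
  obtain ⟨z₀, hz₀⟩ : ∃ z₀, ∀ z ∈ sphere x ρ, z ∉ K → z ∉ (∅ : Set ℂ) →
      |u z - u z₀| < 14 * ε * √s ∧ z ∈ connectedComponentIn (univ \ K) z₀ := by
    by_cases hn : ∃ z₀ ∈ sphere x ρ, z₀ ∉ K
    swap
    · exact ⟨0, fun z hz zK => absurd ⟨z, hz, zK⟩ hn⟩
    obtain ⟨z₀, h1, h2⟩ := hn
    refine ⟨z₀, fun z hz zK _ => ⟨?_, ?_⟩⟩
    · have := ho _ (cl_clamp h (|u z| + |u z₀|) (by positivity)) z hz z₀ h1 zK h2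
      have a1 := abs_nonneg (u z)
      have a2 := abs_nonneg (u z₀)
      rw [min_eq_right (by linarith [le_abs_self (u z)]),
        min_eq_right (by linarith [le_abs_self (u z₀)]),
        max_eq_right (by linarith [neg_abs_le (u z)]),
        max_eq_right (by linarith [neg_abs_le (u z₀)])] at this
      linarith
    · by_contra hn
      rw [← compl_eq_univ_sdiff] at hn
      have := ho _ (cl_ind h.cl (fun z => norm_nonneg _) z₀ (14 * ε * √s)) z hz z₀ h1 zK h2
      rw [indicator_of_notMem hn, indicator_of_mem (mem_connectedComponentIn h2), zero_sub,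
        abs_neg, abs_of_pos (by linarith)] at this
      linarith
  have R := (hRem _ K u 0 1 h x ρ 1 (1 / 2) (by linarith [hρ.1]) (subset_univ _) one_pos le_rfl
    (by norm_num) (by norm_num)).1 ∅ (u z₀) _ z₀ isClosed_empty (empty_subset _) (by linarith) hz₀
  have D1 := hc _ K u 0 1 h x hx.1 (s / 5) (by positivity) (subset_univ _) (by norm_num)
  have D2 : len K (closedBall x (s / 5)) ≤ len K (ball x ((1 - 1 / 2) * ρ)) :=
    len_mono (closedBall_subset_ball (by linarith [hρ.1])) ((measure_mono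
      (inter_subset_inter_right _ ball_subset_closedBall)).trans_lt (h.fin x _ (subset_univ _)))
  have D3 : En u (closedBall x ρ) ≤ ε ^ 2 * s :=
    (En_mono (closedBall_subset_closedBall (by linarith [hρ.2])) i2).trans hE
  rw [measure_empty, ENNReal.toReal_zero, mul_pow, mul_pow, q2, ε2] at R
  rw [ε2] at D3
  have p1 : 0 < c * s := by positivity
  have := mul_lt_mul_of_pos_right Real.pi_lt_four p1
  have e : 4 * π * (14 ^ 2 * (c / 50000) * s) / (1 * (1 / 2)) + 2 * π * (0 * 1) * ρ ^ 2 =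
      1568 / 50000 * (π * (c * s)) := by ring
  linarith

end Vale.Agent.P128
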