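import Vale.Agent.P128.Stm

open MeasureTheory Set Metric Filter Topology Complex
open scoped ENNReal ComplexConjugate Real

noncomputable section
namespace Vale.Agent.P128

namespace Chi

def bump : ContDiffBump (0 : ℂ) := ⟨1 / 32, 1 / 16, by norm_num, by norm_num⟩

def ind (K : Set ℂ) : ℂ → ℝ := indicator {z | infDist z K ≤ 3 / 8} fun _ => 1

theorem ind_le (K : Set ℂ) (z : ℂ) : ‖ind K z‖ ≤ 1 := by
  unfold ind indicator
  split_ifs <;> simp

theorem ind_loc (K : Set ℂ) : LocallyIntegrable (ind K) :=
  (locallyIntegrable_const 1).indicator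
    (isClosed_le (continuous_infDist_pt K) continuous_const).measurableSet

theorem ind_one {K : Set ℂ} {z : ℂ} (h : infDist z K ≤ 3 / 8) : ind K z = 1 :=
  indicator_of_mem (s := {z | infDist z K ≤ 3 / 8}) h _

theorem ind_zero {K : Set ℂ} {z : ℂ} (h : 3 / 8 < infDist z K) : ind K z = 0 :=
  indicator_of_notMem (s := {z | infDist z K ≤ 3 / 8}) (not_le.2 h) _

theorem bound {g : ℂ → ℝ} (hg : Integrable g) {k : ℂ → ℝ} (hk : ∀ z, ‖k z‖ ≤ g z) (K : Set ℂ)
    (a : ℂ) : ‖∫ z, k (a - z) • ind K z‖ ≤ ∫ z, g z := by
  rw [← integral_sub_left_eq_self g volume a]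
  refine norm_integral_le_of_norm_le (hg.comp_sub_left a) (Eventually.of_forall fun z => ?_)
  rw [norm_smul]
  exact (mul_le_of_le_one_right (norm_nonneg _) (ind_le K z)).trans (hk _)

end Chi

open Chi in
theorem chi_pf (hMol : MolStmt) : ChiStmt := by
  intro K
  obtain ⟨h1, h2, h3⟩ := (hMol ℝ (ind K) (ind_loc K)).1 bump
  have hr : bump.rOut = 1 / 16 := rfl
  refine ⟨mol bump (ind K), h1, fun z hz => ?_, fun z hz => ?_,
    ∫ z, ‖fderiv ℝ (bump.normed volume) z‖, fun z => ⟨?_, ?_⟩⟩
  · rw [← ind_one (K := K) (z := z) (by linarith)]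
    refine bump.normed_convolution_eq_right fun w hw => ?_
    have := infDist_le_infDist_add_dist (x := w) (y := z) (s := K)
    rw [mem_ball, hr] at hw
    rw [ind_one (by linarith), ind_one (by linarith)]
  · rw [← ind_zero (K := K) (z := z) (by linarith)]
    refine bump.normed_convolution_eq_right fun w hw => ?_
    have := infDist_le_infDist_add_dist (x := z) (y := w) (s := K)
    rw [mem_ball, hr, dist_comm] at hw
    rw [ind_zero (by linarith), ind_zero (by linarith)]
  · rw [h2, ← Real.norm_eq_abs, ← bump.integral_normed (μ := volume)]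
    exact bound bump.integrable_normed
      (fun w => (Real.norm_of_nonneg (bump.nonneg_normed w)).le) K z
  · have hc : Continuous (fderiv ℝ (bump.normed volume)) :=
      (bump.contDiff_normed (n := 1)).continuous_fderiv one_ne_zero
    have hi : Integrable fun w => ‖fderiv ℝ (bump.normed volume) w‖ :=
      (hc.integrable_of_hasCompactSupport (bump.hasCompactSupport_normed.fderiv ℝ)).norm
    refine ContinuousLinearMap.opNorm_le_bound _ (integral_nonneg fun _ => norm_nonneg _)
      fun e => ?_
    rw [h3, ← integral_mul_const]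
    exact bound (hi.mul_const _) (k := fun w => fderiv ℝ (bump.normed volume) w e)
      (fun w => ContinuousLinearMap.le_opNorm _ _) K z

end Vale.Agent.P128
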