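import Vale.Agent.P128.Stm

open MeasureTheory Set Metric Filter Topology Complex
open scoped ENNReal ComplexConjugate Real

noncomputable section
namespace Vale.Agent.P128

namespace Circ

variable {K : Set ℂ} {u : ℂ → ℝ} {x : ℂ} {ρ : ℝ}

theorem per (u : ℂ → ℝ) (x : ℂ) (ρ : ℝ) : Function.Periodic (cg u x ρ) (2 * π) := fun θ => by
  simp only [cg, periodic_circleMap x ρ θ]

theorem meas (u : ℂ → ℝ) (x : ℂ) (ρ : ℝ) : Measurable (cg u x ρ) :=
  ((measurable_circleMap x ρ).sub_const x).mul ((measurable_pd u).comp (measurable_circleMap x ρ))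

theorem nsq (hρ : 0 < ρ) (θ : ℝ) :
    ‖cg u x ρ θ‖ ^ 2 = ρ ^ 2 * ‖pd u (circleMap x ρ θ)‖ ^ 2 := by
  rw [cg, norm_mul, circleMap_sub_center, norm_circleMap_zero, abs_of_pos hρ, mul_pow]

theorem pern (u : ℂ → ℝ) (x : ℂ) (ρ : ℝ) :
    Function.Periodic (fun θ => ‖cg u x ρ θ‖) (2 * π) := fun θ => by simp only [per u x ρ θ]

theorem per2 (u : ℂ → ℝ) (x : ℂ) (ρ : ℝ) :
    Function.Periodic (fun θ => ‖cg u x ρ θ‖ ^ 2) (2 * π) := fun θ => by simp only [per u x ρ θ]

theorem int2 (h : Good K u x ρ) (α β : ℝ) :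
    IntervalIntegrable (fun θ => ‖cg u x ρ θ‖ ^ 2) volume α β := by
  refine (per2 u x ρ).intervalIntegrable₀ Real.two_pi_pos.ne' ?_ α β
  simp only [nsq h.pos]
  exact h.int.const_mul _

theorem int1 (h : Good K u x ρ) (α β : ℝ) : IntervalIntegrable (cg u x ρ) volume α β := by
  refine ((intervalIntegrable_const (c := (1 : ℝ))).add (int2 h α β)).mono_fun'
    (meas u x ρ).aestronglyMeasurable (Eventually.of_forall fun θ => ?_)
  dsimp only
  nlinarith [sq_nonneg (‖cg u x ρ θ‖ - 1), norm_nonneg (cg u x ρ θ)]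

theorem eq2 (h : Good K u x ρ) (α : ℝ) :
    ∫ θ in α..α + 2 * π, ‖cg u x ρ θ‖ ^ 2 = ρ * ce u x ρ := by
  rw [(per2 u x ρ).intervalIntegral_add_eq α 0, zero_add]
  simp only [nsq h.pos, intervalIntegral.integral_const_mul, ce]
  ring

theorem cs {f : ℝ → ℝ} {T : ℝ} (hT : 0 < T) (h1 : IntervalIntegrable f volume 0 T)
    (h2 : IntervalIntegrable (fun θ => f θ ^ 2) volume 0 T) :
    (∫ θ in (0 : ℝ)..T, f θ) ^ 2 ≤ T * ∫ θ in (0 : ℝ)..T, f θ ^ 2 := by
  set S := ∫ θ in (0 : ℝ)..T, f θ with hS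
  have a1 : 0 ≤ ∫ θ in (0 : ℝ)..T, (T ^ 2 * f θ ^ 2 - 2 * T * S * f θ + S ^ 2) :=
    intervalIntegral.integral_nonneg hT.le fun θ _ => by nlinarith [sq_nonneg (T * f θ - S)]
  rw [intervalIntegral.integral_add ((h2.const_mul _).sub (h1.const_mul _))
    intervalIntegrable_const, intervalIntegral.integral_sub (h2.const_mul _) (h1.const_mul _),
    intervalIntegral.integral_const_mul, intervalIntegral.integral_const_mul,
    intervalIntegral.integral_const, ← hS, sub_zero, smul_eq_mul] at a1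
  refine le_of_mul_le_mul_left ?_ hT
  nlinarith

theorem sq_int {f : ℝ → ℝ} (h : Good K u x ρ) (hf : Measurable f)
    (hle : ∀ θ, |f θ| ≤ ‖cg u x ρ θ‖) (α β : ℝ) :
    IntervalIntegrable (fun θ => f θ ^ 2) volume α β :=
  (int2 h α β).mono_fun' (hf.pow_const 2).aestronglyMeasurable (Eventually.of_forall fun θ => by
    dsimp only
    rw [norm_pow, Real.norm_eq_abs]
    exact pow_le_pow_left₀ (abs_nonneg _) (hle θ) 2)

end Circ

open Circ in
theorem circ_pf (hArcs : ArcsStmt) : CircStmt := by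
  intro Ω K u x ρ hO hu hS h
  have hm : ∀ θ, circleMap x ρ θ ∈ sphere x ρ := fun θ => circleMap_mem_sphere x h.pos.le θ
  have h1 : ∀ θ, circleMap x ρ θ ∉ K → ContinuousAt (cg u x ρ) θ ∧
      HasDerivAt (fun θ => u (circleMap x ρ θ)) (-(cg u x ρ θ).im) θ := fun θ hθ => by
    have hn : Ω \ K ∈ 𝓝 (circleMap x ρ θ) := hO.mem_nhds ⟨hS (hm θ), hθ⟩
    refine ⟨((continuous_circleMap x ρ).continuousAt.sub continuousAt_const).mul
      (((continuousOn_pd hO hu).continuousAt hn).comp (continuous_circleMap x ρ).continuousAt), ?_⟩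
    have h2 := ((hu.contDiffAt hn).differentiableAt one_ne_zero).hasFDerivAt.comp_hasDerivAt θ
      (hasDerivAt_circleMap x ρ θ)
    rw [fderiv_eq_pd, ← mul_assoc, mul_I_re, mul_comm, ← circleMap_sub_center x] at h2
    exact h2
  have iim : ∀ α β, IntervalIntegrable (fun θ => -(cg u x ρ θ).im) volume α β := fun α β =>
    (int1 h α β).norm.mono_fun' (measurable_im.comp (meas u x ρ)).neg.aestronglyMeasurable
      (Eventually.of_forall fun θ => by
        dsimp only
        rw [norm_neg]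
        exact abs_im_le_norm _)
  have h6 : ∀ α β, β ≤ α + 2 * π → Free K x ρ α β → ∀ s ∈ Ioo α β, ∀ t ∈ Ioo α β,
      |u (circleMap x ρ s) - u (circleMap x ρ t)| ≤ ∫ θ in (0 : ℝ)..2 * π, ‖cg u x ρ θ‖ := by
    intro α β hβ hF s hs t ht
    wlog hst : t ≤ s generalizing s t
    · rw [abs_sub_comm]
      exact this t ht s hs (not_le.1 hst).le
    rw [← intervalIntegral.integral_eq_sub_of_hasDerivAt (f := fun θ => u (circleMap x ρ θ))
      (fun θ hθ => (h1 θ (hF θ ?_)).2) (iim t s)]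
    · have a1 := (pern u x ρ).intervalIntegral_add_eq t 0
      rw [zero_add] at a1
      rw [← a1, ← intervalIntegral.integral_add_adjacent_intervals (int1 h t s).norm
        (int1 h s _).norm]
      have a2 : 0 ≤ ∫ θ in s..t + 2 * π, ‖cg u x ρ θ‖ :=
        intervalIntegral.integral_nonneg (by linarith [hs.2, ht.1]) fun _ _ => norm_nonneg _
      refine le_add_of_le_of_nonneg ((intervalIntegral.abs_integral_le_integral_abs hst).trans
        (intervalIntegral.integral_mono_on hst (iim t s).abs (int1 h t s).norm fun θ _ => ?_)) a2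
      rw [abs_neg]
      exact abs_im_le_norm _
    · rw [uIcc_of_le hst] at hθ
      exact ⟨ht.1.trans_le hθ.1, hθ.2.trans_lt hs.2⟩
  refine ⟨h1, fun α β => ⟨int1 h α β, int2 h α β⟩, eq2 h, ?_, ?_, h6, ?_⟩
  · have a1 := eq2 h 0
    rw [zero_add] at a1
    rw [mul_assoc (2 * π), ← a1]
    exact cs Real.two_pi_pos (int1 h _ _).norm (int2 h _ _)
  · rcases (K ∩ sphere x ρ).eq_empty_or_nonempty with he | he
    · obtain ⟨T, hT⟩ := (isCompact_sphere x ρ).exists_bound_of_continuousOn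
        (hu.continuousOn.mono fun z hz => ⟨hS hz, fun hK => (he ▸ ⟨hK, hz⟩ : z ∈ (∅ : Set ℂ))⟩)
      exact ⟨T, fun z hz _ => hT z hz⟩
    · obtain ⟨N, θ, -, -, a1, -, -, a2, -⟩ := hArcs K x ρ h.pos h.fin he
      refine ⟨∑ i ∈ Finset.range N, |u (circleMap x ρ ((θ i + θ (i + 1)) / 2))| +
        ∫ θ in (0 : ℝ)..2 * π, ‖cg u x ρ θ‖, fun z hz hK => ?_⟩
      obtain ⟨i, ⟨hi, s, hs, rfl⟩, -⟩ := a2 z hz hK
      obtain ⟨b1, b2, b3⟩ := a1 i hi
      have b4 := h6 _ _ b2 b3 s hs ((θ i + θ (i + 1)) / 2) ⟨by linarith, by linarith⟩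
      have b5 := Finset.single_le_sum
        (f := fun i => |u (circleMap x ρ ((θ i + θ (i + 1)) / 2))|)
        (fun i _ => abs_nonneg _) (Finset.mem_range.2 hi)
      have b6 := abs_sub_abs_le_abs_sub (u (circleMap x ρ s))
        (u (circleMap x ρ ((θ i + θ (i + 1)) / 2)))
      linarith
  · intro α β B hαβ hF hB
    have hc : ContinuousOn (cg u x ρ) (Ioo α β) := fun θ hθ =>
      (h1 θ (hF θ hθ)).1.continuousWithinAt
    refine ⟨hαβ, (continuous_im.comp_continuousOn hc).neg, continuous_re.comp_continuousOn hc,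
      sq_int h (measurable_im.comp (meas u x ρ)).neg (fun θ => ?_) α β,
      sq_int h (measurable_re.comp (meas u x ρ)) (fun θ => abs_re_le_norm _) α β,
      fun θ hθ => (h1 θ (hF θ hθ)).2, fun θ hθ => hB _ (hm θ) (hF θ hθ)⟩
    exact (abs_neg _).trans_le (abs_im_le_norm _)

end Vale.Agent.P128
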