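import Vale.Agent.P128.Defs

/-! Working definitions.  See PLAN.md. -/

open MeasureTheory Set Metric Filter Topology Complex
open scoped ENNReal ComplexConjugate Convolution Real

noncomputable section
namespace Vale.Agent.P128

/-- `u_x - i u_y` -/
def pd (u : ℂ → ℝ) (z : ℂ) : ℂ := (fderiv ℝ u z 1 : ℝ) - I * (fderiv ℝ u z I : ℝ)

/-- the Wirtinger derivative in `z` -/
def dz (f : ℂ → ℂ) (z : ℂ) : ℂ := (fderiv ℝ f z 1 - I * fderiv ℝ f z I) / 2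

/-- the Wirtinger derivative in `conj z` -/
def db (f : ℂ → ℂ) (z : ℂ) : ℂ := (fderiv ℝ f z 1 + I * fderiv ℝ f z I) / 2

/-- Dirichlet energy -/
def En (u : ℂ → ℝ) (S : Set ℂ) : ℝ := ∫ z in S, ‖pd u z‖ ^ 2

/-- length -/
def len (K S : Set ℂ) : ℝ := (μH[1] (K ∩ S)).toReal

/-- competitors in a closed disc, with the topological condition given by a labelling -/
structure Comp (Ω K : Set ℂ) (u : ℂ → ℝ) (x : ℂ) (r : ℝ) (L : Set ℂ) (w : ℂ → ℝ) : Prop where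
  cl : IsClosed L
  out : L \ closedBall x r = K \ closedBall x r
  eq : ∀ z ∈ Ω, z ∉ closedBall x r → z ∉ K → w z = u z
  lip : LocallyLipschitzOn (Ω \ L) w
  int : IntegrableOn (fun z => ‖pd w z‖ ^ 2) (closedBall x r)
  fin : μH[1] (L ∩ closedBall x r) < ⊤
  lab : ∃ b : ℂ → Set ℂ, (∀ z ∈ Ω \ L, ∀ᶠ y in 𝓝 z, b y = b z) ∧
    ∀ z ∈ Ω, z ∉ closedBall x r → z ∉ K → b z = connectedComponentIn (Ω \ K) z

/-- the working class of almost minimizers; `Λ = 0`, `M = 1`, `Ω = univ`: global minimizers -/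
structure IsMS (Ω K : Set ℂ) (u : ℂ → ℝ) (Λ M : ℝ) : Prop where
  op : IsOpen Ω
  cl : IsClosed K
  c1 : ContDiffOn ℝ 1 u (Ω \ K)
  L0 : 0 ≤ Λ
  M0 : 0 ≤ M
  bd : ∀ z ∈ Ω \ K, Λ * |u z| ≤ Λ * M
  sz : ∀ x r, closedBall x r ⊆ Ω → Λ * √r ≤ Λ * M
  int : ∀ x r, closedBall x r ⊆ Ω → IntegrableOn (fun z => ‖pd u z‖ ^ 2) (closedBall x r)
  fin : ∀ x r, closedBall x r ⊆ Ω → μH[1] (K ∩ closedBall x r) < ⊤
  min : ∀ x r L w, closedBall x r ⊆ Ω → Comp Ω K u x r L w →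
    En u (closedBall x r) + len K (closedBall x r) ≤ En w (closedBall x r) +
      len L (closedBall x r) + Λ * ∫ z in closedBall x r, min |w z - u z| (2 * M)
  red : ∀ x ∈ K, x ∈ Ω → ∀ r, 0 < r → 0 < μH[1] (K ∩ ball x r)

/-- points of `K` in the disc of radius `r` are joined in `K` inside the disc of radius `A r` -/
def LocConn (K : Set ℂ) (A : ℝ) (y : ℂ) (r : ℝ) : Prop :=
  ∀ p ∈ K ∩ closedBall y r, ∀ q ∈ K ∩ closedBall y r, ∃ C : Set ℂ, IsCompact C ∧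
    IsPreconnected C ∧ C ⊆ K ∩ closedBall y (A * r) ∧ p ∈ C ∧ q ∈ C

structure IsReg (Ω K : Set ℂ) (u : ℂ → ℝ) (Λ M A : ℝ) : Prop where
  ms : IsMS Ω K u Λ M
  A1 : 1 ≤ A
  small : ∀ x r, closedBall x r ⊆ Ω → Λ * M * r ≤ 1
  conn : ∀ y r, 0 < r → closedBall y (A * r) ⊆ Ω → LocConn K A y r

/-- `ρ (u_ρ - i u_τ)` on the circle; the real part is the flux density, minus the imaginary part
is the derivative of `θ ↦ u (circleMap x ρ θ)` -/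
def cg (u : ℂ → ℝ) (x : ℂ) (ρ θ : ℝ) : ℂ := (circleMap x ρ θ - x) * pd u (circleMap x ρ θ)

/-- energy on a circle -/
def ce (u : ℂ → ℝ) (x : ℂ) (ρ : ℝ) : ℝ :=
  ρ * ∫ θ in (0 : ℝ)..2 * π, ‖pd u (circleMap x ρ θ)‖ ^ 2

/-- number of points of `K` on a circle -/
def cnt (K : Set ℂ) (x : ℂ) (ρ : ℝ) : ℝ := ((K ∩ sphere x ρ).ncard : ℝ)

/-- the open arc with angles in `(α, β)` misses `K` -/
def Free (K : Set ℂ) (x : ℂ) (ρ α β : ℝ) : Prop := ∀ θ ∈ Ioo α β, circleMap x ρ θ ∉ K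

/-- the similarity `z ↦ x + d z` -/
def af (x d z : ℂ) : ℂ := x + d * z

/-- the rescaled function -/
def sc (x d : ℂ) (u : ℂ → ℝ) (z : ℂ) : ℝ := u (af x d z) / √‖d‖

/-- unit vector from `x` to `z` -/
def dir (x z : ℂ) : ℂ := (z - x) / (‖z - x‖ : ℝ)

structure Good (K : Set ℂ) (u : ℂ → ℝ) (x : ℂ) (ρ : ℝ) : Prop where
  pos : 0 < ρ
  fin : (K ∩ sphere x ρ).Finite
  int : IntervalIntegrable (fun θ => ‖pd u (circleMap x ρ θ)‖ ^ 2) volume 0 (2 * π)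

def dd (α β P : ℂ) : ℝ :=
  ‖conj (1 + α) * P - conj β * conj P‖ ^ 2 / (‖1 + α‖ ^ 2 - ‖β‖ ^ 2)

/-- energy density after the deformation `id + X` -/
def dens (X : ℂ → ℂ) (P z : ℂ) : ℝ := dd (dz X z) (db X z) P

/-- Jacobian of `id + X` -/
def jac (X : ℂ → ℂ) (z : ℂ) : ℝ := ‖1 + dz X z‖ ^ 2 - ‖db X z‖ ^ 2

/-- global minimizers -/
abbrev GM (K : Set ℂ) (u : ℂ → ℝ) : Prop := IsMS univ K u 0 1

/-- data on an arc: `U' = a` -/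
structure AD (a b U : ℝ → ℝ) (α β B : ℝ) : Prop where
  lt : α < β
  ca : ContinuousOn a (Ioo α β)
  cb : ContinuousOn b (Ioo α β)
  ia : IntervalIntegrable (fun θ => a θ ^ 2) volume α β
  ib : IntervalIntegrable (fun θ => b θ ^ 2) volume α β
  der : ∀ θ ∈ Ioo α β, HasDerivAt U (a θ) θ
  bd : ∀ θ ∈ Ioo α β, |U θ| ≤ B

/-- decay at infinity -/
def Decay (X : ℂ → ℂ) : Prop :=
  ∃ C, ∀ z, ‖X z‖ ≤ C / (1 + ‖z‖) ∧ ‖fderiv ℝ X z‖ ≤ C / (1 + ‖z‖) ^ 2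

/-- the circle integral of the Hopf differential -/
def tens (u : ℂ → ℝ) (x : ℂ) (ρ : ℝ) : ℂ :=
  ρ * ∫ θ in (0 : ℝ)..2 * π, exp (θ * I) * pd u (circleMap x ρ θ) ^ 2

/-- `v` is a `C^1` representative of `u` off `K` -/
structure Rep (Ω : Set ℂ) (u : ℂ → ℝ) (G : ℂ → ℂ) (K : Set ℂ) (v : ℂ → ℝ) : Prop where
  c1 : ContDiffOn ℝ 1 v (Ω \ K)
  eq : ∀ᵐ z ∂(volume.restrict Ω), v z = u z
  grad : ∀ᵐ z ∂(volume.restrict Ω), pd v z = conj (G z)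

/-- Cauchy transform -/
def cau (ψ : ℂ → ℂ) (a : ℂ) : ℂ := (1 / π : ℂ) * ∫ z, ψ z / (a - z)

def kap (χ : ℂ → ℝ) (p : ℂ → ℂ) (a : ℂ) : ℂ :=
  -(1 / π : ℂ) * ∫ z, db (fun w => (χ w : ℂ)) z * p z / (a - z) ^ 2

/-- mollification -/
def mol {F : Type} [NormedAddCommGroup F] [NormedSpace ℝ F] (φ : ContDiffBump (0 : ℂ))
    (f : ℂ → F) : ℂ → F :=
  φ.normed volume ⋆[ContinuousLinearMap.lsmul ℝ ℝ, volume] f

/-- two closed pieces at distance one -/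
structure Split (K K₁ K₂ : Set ℂ) : Prop where
  eq : K = K₁ ∪ K₂
  c1 : IsClosed K₁
  c2 : IsClosed K₂
  far : ∀ z ∈ K₁, ∀ w ∈ K₂, 1 ≤ ‖z - w‖
  m1 : (0 : ℂ) ∈ K₁
  m2 : I ∈ K₂

structure IsChi (K₁ : Set ℂ) (χ : ℂ → ℝ) : Prop where
  sm : ContDiff ℝ (⊤ : ℕ∞) χ
  one : ∀ z, infDist z K₁ ≤ 1 / 4 → χ z = 1
  zero : ∀ z, 1 / 2 ≤ infDist z K₁ → χ z = 0
  bd : ∃ C, ∀ z, |χ z| ≤ 1 ∧ ‖fderiv ℝ χ z‖ ≤ C

/-- test functions off `K` supported in `D` -/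
structure Test (K D : Set ℂ) (φ : ℂ → ℂ) : Prop where
  lip : LocallyLipschitzOn Kᶜ φ
  cpt : HasCompactSupport φ
  sub : tsupport φ ⊆ D
  int : Integrable fun z => ‖fderiv ℝ φ z‖ ^ 2
  bd : ∃ B, ∀ z, ‖φ z‖ ≤ B

/-! ### sequences and limits -/

structure Seq (Ω K : ℕ → Set ℂ) (u : ℕ → ℂ → ℝ) (Λ M R : ℕ → ℝ) : Prop where
  ms : ∀ j, IsMS (Ω j) (K j) (u j) (Λ j) (M j)
  sub : ∀ j, ball 0 (R j) ⊆ Ω j
  big : Tendsto R atTop atTop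
  small : Tendsto (fun j => Λ j * M j) atTop (𝓝 0)
  zero : ∀ j, (0 : ℂ) ∈ K j

def limK (K : ℕ → Set ℂ) : Set ℂ :=
  {z | Tendsto (fun j => infDist z (K j)) (hyperfilter ℕ) (𝓝 0)}

structure Lim0 (K : ℕ → Set ℂ) (u : ℕ → ℂ → ℝ) (P : ℂ → ℂ) : Prop where
  cl : IsClosed (limK K)
  far : ∀ C, IsCompact C → C ⊆ (limK K)ᶜ → ∀ᶠ j in hyperfilter ℕ, Disjoint C (K j)
  cont : ContinuousOn P (limK K)ᶜ
  grad : ∀ C, IsCompact C → C ⊆ (limK K)ᶜ →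
    TendstoUniformlyOn (fun j => pd (u j)) P (hyperfilter ℕ) C

structure Lim (K : ℕ → Set ℂ) (u : ℕ → ℂ → ℝ) (v : ℂ → ℝ) : Prop where
  cl : IsClosed (limK K)
  c1 : ContDiffOn ℝ 1 v (limK K)ᶜ
  far : ∀ C, IsCompact C → C ⊆ (limK K)ᶜ → ∀ᶠ j in hyperfilter ℕ, Disjoint C (K j)
  grad : ∀ C, IsCompact C → C ⊆ (limK K)ᶜ →
    TendstoUniformlyOn (fun j => pd (u j)) (pd v) (hyperfilter ℕ) C
  val : ∀ z w, w ∈ connectedComponentIn (limK K)ᶜ z →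
    Tendsto (fun j => u j w - u j z) (hyperfilter ℕ) (𝓝 (v w - v z))

/-- finiteness of the limit and lower semicontinuity of the energy -/
def LimE (K : ℕ → Set ℂ) (u : ℕ → ℂ → ℝ) (v : ℂ → ℝ) : Prop :=
  ∀ x r, μH[1] (limK K ∩ closedBall x r) < ⊤ ∧
    IntegrableOn (fun z => ‖pd v z‖ ^ 2) (closedBall x r) ∧
    ∀ ε, 0 < ε → ∀ᶠ j in hyperfilter ℕ, En v (closedBall x r) ≤ En (u j) (closedBall x r) + ε

/-! ### geometry of the set -/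

/-- almost minimal sets, seen from `y` up to the scale `b` -/
structure AMin (K : Set ℂ) (y : ℂ) (b ε : ℝ) : Prop where
  cl : IsClosed K
  pos : 0 < b
  e0 : 0 ≤ ε
  fin : μH[1] (K ∩ closedBall y b) < ⊤
  ex : ∃ e : ℝ → ℝ, (∀ ρ, 0 ≤ e ρ) ∧ IntegrableOn e (Ioo 0 b) ∧
    (∀ r ∈ Ioc 0 b, ∫ ρ in Ioo 0 r, e ρ ≤ ε * (r / b) ^ (1 / 3 : ℝ) * r) ∧
    ∀ᵐ ρ, ρ ∈ Ioo 0 b → ∃ P : Finset ℂ, (P : Set ℂ) = K ∩ sphere y ρ ∧ (P.card ≤ 1 → 1 ≤ e ρ) ∧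
      len K (closedBall y ρ) ≤
        ρ * (P.card - ‖∑ p ∈ P, (p - y) / ρ‖ ^ 2 / (4 * P.card) + e ρ) ∧
      (4 ≤ P.card → len K (closedBall y ρ) ≤ ρ * (P.card - 1 / 50 + e ρ))

/-- the circle meets `K` in `n` nearly equidistributed points -/
def Bal (K : Set ℂ) (x : ℂ) (n : ℕ) (η ρ : ℝ) : Prop :=
  ∃ P : Finset ℂ, (P : Set ℂ) = K ∩ sphere x ρ ∧ P.card = n ∧ ∀ p ∈ P, ∀ q ∈ P,
    ‖((p - x) / ρ) ^ n - ((q - x) / ρ) ^ n‖ ^ 2 ≤ η ∧ (p ≠ q → ρ ≤ ‖p - q‖)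

structure Cone (K : Set ℂ) (x : ℂ) (n : ℕ) (b ε γ : ℝ) : Prop where
  cl : IsClosed K
  pos : 0 < b
  e0 : 0 ≤ ε
  fin : μH[1] (K ∩ closedBall x b) < ⊤
  le : ∀ r ∈ Ioc 0 b, |len K (closedBall x r) - n * r| ≤ ε * (r / b) ^ γ * r
  bal : ∀ r ∈ Ioc 0 b, volume {ρ ∈ Ioo (r / 2) r | ¬ Bal K x n (ε * (ρ / b) ^ γ) ρ} ≤
    ENNReal.ofReal (ε * (r / b) ^ γ * r)

/-- lower bound for the length around the points of `K` near `x` -/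
def LB (K : Set ℂ) (x : ℂ) (b ε γ : ℝ) : Prop :=
  ∀ z ∈ K, z ≠ x → ‖z - x‖ ≤ b → ∀ t ∈ Ioc 0 (‖z - x‖ / 4),
    μH[1] (K ∩ closedBall z t) < ⊤ →
    2 * t - ε * (‖z - x‖ / b) ^ γ * ‖z - x‖ ≤ len K (closedBall z t)

/-- directions of points at comparable distances -/
def Cmpr (K : Set ℂ) (x : ℂ) (n : ℕ) (b ε γ : ℝ) : Prop :=
  ∀ z ∈ K, ∀ w ∈ K, z ≠ x → ‖z - x‖ ≤ ‖w - x‖ → ‖w - x‖ ≤ 11 / 10 * ‖z - x‖ → ‖w - x‖ ≤ b →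
    ‖dir x z ^ n - dir x w ^ n‖ ≤ ε * (‖z - x‖ / b) ^ γ

structure Ray (K : Set ℂ) (x : ℂ) (n : ℕ) (b ε γ : ℝ) (Φ : ℂ) : Prop where
  unit : ‖Φ‖ = 1
  near : ∀ z ∈ K, z ≠ x → ‖z - x‖ ≤ b →
    ‖dir x z ^ n - Φ‖ ≤ ε * (‖z - x‖ / b) ^ γ
  hit : ∀ e : ℂ, e ^ n = Φ → ∀ s ∈ Ioc 0 b, ∃ z ∈ K, ‖z - x - s * e‖ ≤ ε * (s / b) ^ γ * s

structure Tan (K : Set ℂ) (y : ℂ) (b ε γ : ℝ) (τ : ℂ) : Prop where
  unit : ‖τ‖ = 1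
  near : ∀ z ∈ K, ‖z - y‖ ≤ b → |(conj τ * (z - y)).im| ≤ ε * (‖z - y‖ / b) ^ γ * ‖z - y‖
  hit : ∀ s : ℝ, s ≠ 0 → |s| ≤ b → ∃ z ∈ K, ‖z - y - s * τ‖ ≤ ε * (|s| / b) ^ γ * |s|

/-- tangents at the points near `x`, at the scale of the distance to `x` -/
def TanH (K : Set ℂ) (x : ℂ) (b κ γ : ℝ) : Prop :=
  ∀ y ∈ K, y ≠ x → ‖y - x‖ ≤ b → ∃ τ, Tan K y (κ * ‖y - x‖) (1 / 100) γ τ

/-- cosine of the angle between the tangent and the radius -/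
def cb (x : ℂ) (γ τ : ℝ → ℂ) (ρ : ℝ) : ℝ := (conj (τ ρ) * (γ ρ - x)).re / ρ

/-- a `C^1` arc ending at `x`, parametrized by the distance to `x` -/
structure Tip (K : Set ℂ) (x : ℂ) (r : ℝ) (γ τ : ℝ → ℂ) : Prop where
  pos : 0 < r
  eq : K ∩ ball x r = {x} ∪ γ '' Ioo 0 r
  norm : ∀ ρ ∈ Ioo 0 r, ‖γ ρ - x‖ = ρ
  unit : ∀ ρ ∈ Ioo 0 r, ‖τ ρ‖ = 1
  cont : ContinuousOn τ (Ioo 0 r)
  cos : ∀ ρ ∈ Ioo 0 r, 1 / 2 ≤ cb x γ τ ρ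
  der : ∀ ρ ∈ Ioo 0 r, HasDerivAt γ (τ ρ / (cb x γ τ ρ : ℝ)) ρ

/-- the local structure of `K` at `x` -/
def Concl (K : Set ℂ) (x : ℂ) (b : ℝ) : Prop :=
  ∃ r α : ℝ, ∃ S : Set ℂ, 0 < r ∧ 0 < α ∧ IsModel α x S ∧ K ∩ ball x r ⊆ S ∧
    S ⊆ K ∩ closedBall x b

end Vale.Agent.P128
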