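import Vale.Agent.P128.Stm

open MeasureTheory Set Metric Filter Topology Complex
open scoped ENNReal ComplexConjugate Real

noncomputable section
namespace Vale.Agent.P128

namespace Conv1

/-- three sides of a rectangle in `U` force the open rectangle into `U` -/
def Rect (U : Set ℂ) : Prop := ∀ a b c d : ℝ, a < b → c < d →
  (∀ z : ℂ, (z.re ∈ Icc a b ∧ z.im = c) ∨ ((z.re = a ∨ z.re = b) ∧ z.im ∈ Icc c d) → z ∈ U) →
    ∀ z : ℂ, z.re ∈ Ioo a b → z.im ∈ Ioo c d → z ∈ U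

theorem rect (hCut : CutStmt) {K : Set ℂ} {u : ℂ → ℝ} (hG : GM K u) {z₀ : ℂ}
    (h0 : ∀ z ∈ connectedComponentIn Kᶜ z₀, pd u z = 0) : Rect (connectedComponentIn Kᶜ z₀) := by
  intro a b c d hab hcd hs z hz1 hz2
  have h1 := hCut K u hG z₀ a b c d h0 hab hcd hs
  have hc : Convex ℝ (reLm ⁻¹' Ioo a b ∩ imLm ⁻¹' Ico c d) :=
    ((convex_Ioo a b).linear_preimage reLm).inter ((convex_Ico c d).linear_preimage imLm)
  have hx : (⟨z.re, c⟩ : ℂ) ∈ connectedComponentIn Kᶜ z₀ :=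
    hs _ (Or.inl ⟨Ioo_subset_Icc_self hz1, rfl⟩)
  rw [connectedComponentIn_eq hx]
  refine hc.isPreconnected.subset_connectedComponentIn (x := ⟨z.re, c⟩) ⟨hz1, le_rfl, hcd⟩
    (fun y hy => ?_) ⟨hz1, hz2.1.le, hz2.2⟩
  rcases (show c ≤ y.im from hy.2.1).eq_or_lt with h | h
  · exact connectedComponentIn_subset _ _ (hs y (Or.inl ⟨Ioo_subset_Icc_self hy.1, h.symm⟩))
  · exact h1 y hy.1 ⟨h, hy.2.2⟩

theorem near {z A : ℂ} {δ : ℝ} (h1 : |z.re - A.re| < δ / 2) (h2 : |z.im - A.im| < δ / 2) :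
    z ∈ ball A δ := by
  rw [mem_ball_iff_norm]
  have := norm_le_abs_re_add_abs_im (z - A)
  rw [sub_re, sub_im] at this
  linarith

theorem step {U : Set ℂ} (hU : IsOpen U) (hR : Rect U) {w : ℂ} (hw : w.im < 0) {τ : ℝ}
    (hτ : 0 < τ) (hA : (1 - τ : ℝ) * w ∈ U) (hB : (1 - τ : ℝ) * w + τ ∈ U)
    (h : ∀ t ∈ Ico 0 τ, ∀ s ∈ Icc (0 : ℝ) 1, (1 - t : ℝ) * w + (t * s : ℝ) ∈ U) :
    ∀ s ∈ Icc (0 : ℝ) 1, (1 - τ : ℝ) * w + (τ * s : ℝ) ∈ U := by
  obtain ⟨δ₁, hδ₁, h₁⟩ := Metric.isOpen_iff.1 hU _ hA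
  obtain ⟨δ₂, hδ₂, h₂⟩ := Metric.isOpen_iff.1 hU _ hB
  obtain ⟨δ, hδ, hδ1, hδ2⟩ : ∃ δ, 0 < δ ∧ δ ≤ δ₁ ∧ δ ≤ δ₂ :=
    ⟨min δ₁ δ₂, lt_min hδ₁ hδ₂, min_le_left _ _, min_le_right _ _⟩
  have k₁ := (ball_subset_ball hδ1).trans h₁
  have k₂ := (ball_subset_ball hδ2).trans h₂
  obtain ⟨ε, hε, hετ, hεδ⟩ : ∃ ε, 0 < ε ∧ ε < τ ∧ ε * (‖w‖ + 1) < δ / 2 := by
    have h1 : ∀ᶠ ε in 𝓝 (0 : ℝ), ε * (‖w‖ + 1) < δ / 2 :=
      (continuous_id.mul continuous_const).continuousAt.eventually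
        (gt_mem_nhds (by simpa using hδ))
    obtain ⟨ε, h2, h3⟩ := ((h1.filter_mono nhdsWithin_le_nhds).and (Ioo_mem_nhdsGT hτ)).exists
    exact ⟨ε, h3.1, h3.2, h2⟩
  have hre := abs_le.1 (abs_re_le_norm w)
  have him := abs_le.1 (abs_im_le_norm w)
  have r1 : ε * w.re ≤ ε * ‖w‖ := mul_le_mul_of_nonneg_left hre.2 hε.le
  have r2 : ε * -‖w‖ ≤ ε * w.re := mul_le_mul_of_nonneg_left hre.1 hε.le
  have r3 : ε * -‖w‖ ≤ ε * w.im := mul_le_mul_of_nonneg_left him.1 hε.le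
  have r4 : ε * w.im < 0 := mul_neg_of_pos_of_neg hε hw
  have key := hR ((1 - τ) * w.re) ((1 - τ) * w.re + τ) ((1 - τ) * w.im + ε * w.im)
    ((1 - τ) * w.im - ε * w.im) (by linarith) (by linarith) (by
      rintro z (⟨⟨a1, a2⟩, a3⟩ | ⟨a1 | a1, a2, a3⟩)
      · by_cases b1 : z.re < (1 - τ) * w.re + ε * w.re
        · refine k₁ (near ?_ ?_) <;> simp only [re_ofReal_mul, im_ofReal_mul, abs_lt] <;>
            constructor <;> linarith
        by_cases b2 : (1 - τ) * w.re + ε * w.re + (τ - ε) < z.re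
        · refine k₂ (near ?_ ?_) <;> simp only [re_ofReal_mul, im_ofReal_mul, abs_lt, add_re,
            add_im, ofReal_re, ofReal_im] <;> constructor <;> linarith
        have h3 : 0 < τ - ε := sub_pos.2 hετ
        have h4 := h (τ - ε) ⟨h3.le, by linarith⟩
          ((z.re - ((1 - τ) * w.re + ε * w.re)) / (τ - ε))
          ⟨div_nonneg (by linarith) h3.le, (div_le_one h3).2 (by linarith)⟩
        rw [mul_div_cancel₀ _ h3.ne'] at h4
        refine (Complex.ext ?_ ?_ : _ = z) ▸ h4 <;>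
          simp only [re_ofReal_mul, im_ofReal_mul, add_re, add_im, ofReal_re, ofReal_im] <;>
          linarith
      · refine k₁ (near ?_ ?_) <;> simp only [re_ofReal_mul, im_ofReal_mul, abs_lt] <;>
          constructor <;> linarith
      · refine k₂ (near ?_ ?_) <;> simp only [re_ofReal_mul, im_ofReal_mul, abs_lt, add_re,
          add_im, ofReal_re, ofReal_im] <;> constructor <;> linarith)
  intro s hs
  rcases hs.1.eq_or_lt with rfl | hs0
  · simpa using hA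
  rcases hs.2.eq_or_lt with rfl | hs1
  · simpa using hB
  have h5 : 0 < τ * s := mul_pos hτ hs0
  have h6 : τ * s < τ := mul_lt_of_lt_one_right hτ hs1
  refine key _ ?_ ?_ <;>
    simp only [re_ofReal_mul, im_ofReal_mul, add_re, add_im, ofReal_re, ofReal_im, mem_Ioo] <;>
    constructor <;> linarith

theorem tri {U : Set ℂ} (hU : IsOpen U) (hR : Rect U) {w : ℂ} (hw : w.im < 0)
    (hA : ∀ t ∈ Icc (0 : ℝ) 1, (1 - t : ℝ) * w ∈ U)
    (hB : ∀ t ∈ Icc (0 : ℝ) 1, (1 - t : ℝ) * w + t ∈ U) : ∀ s ∈ Icc (0 : ℝ) 1, (s : ℂ) ∈ U := by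
  have hc : Continuous fun q : ℝ × ℝ => ((1 - q.1 : ℝ) : ℂ) * w + (q.1 * q.2 : ℝ) := by fun_prop
  have ho : IsOpen {t : ℝ | ∀ s ∈ Icc (0 : ℝ) 1, (1 - t : ℝ) * w + (t * s : ℝ) ∈ U} :=
    isOpen_iff_mem_nhds.2 fun t ht => isCompact_Icc.eventually_forall_of_forall_eventually
      (P := fun t s : ℝ => (1 - t : ℝ) * w + (t * s : ℝ) ∈ U) fun s hs =>
        hc.continuousAt.eventually (hU.mem_nhds (ht s hs))
  by_contra hn
  obtain ⟨τ, ⟨hτ, hτn⟩, hmin⟩ := ((isCompact_Icc (a := (0 : ℝ)) (b := 1)).diff ho).exists_isLeast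
    ⟨1, ⟨zero_le_one, le_rfl⟩, fun h => hn fun s hs => by simpa using h s hs⟩
  refine hτn ?_
  rcases hτ.1.eq_or_lt with rfl | h0
  · intro s _
    simpa using hA 0 hτ
  · refine step hU hR hw h0 (hA τ hτ) (hB τ hτ) fun t ht => ?_
    by_contra h
    exact ht.2.not_ge (hmin ⟨⟨ht.1, ht.2.le.trans hτ.2⟩, h⟩)

theorem half (hCut : CutStmt) (hScale : ScaleStmt) {K : Set ℂ} {u : ℂ → ℝ} (hG : GM K u) {z₀ : ℂ}
    (h0 : ∀ z ∈ connectedComponentIn Kᶜ z₀, pd u z = 0) {x y z : ℂ} (hxz : z - x ≠ 0)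
    (hw : ((y - x) / (z - x)).im < 0) (h1 : segment ℝ x y ⊆ connectedComponentIn Kᶜ z₀)
    (h2 : segment ℝ y z ⊆ connectedComponentIn Kᶜ z₀) :
    segment ℝ x z ⊆ connectedComponentIn Kᶜ z₀ := by
  obtain ⟨s1, -, -, -, -, s6, s7⟩ := hScale x (z - x) hxz
  have hG' : GM (af x (z - x) ⁻¹' K) (sc x (z - x) u) := (s7 _ _ _ _ _ hG).gm (by simp)
  have e0 : af x (z - x) ((z₀ - x) / (z - x)) = z₀ := by
    rw [af, mul_div_cancel₀ _ hxz, add_sub_cancel]
  have e := s6 Kᶜ ((z₀ - x) / (z - x))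
  rw [e0, preimage_compl] at e
  have hR := rect hCut hG' (z₀ := (z₀ - x) / (z - x)) fun a ha => by
    rw [← e] at ha
    rw [s1, h0 _ ha, mul_zero, zero_div]
  have key := tri (hG'.cl.isOpen_compl.connectedComponentIn) hR hw (fun t ht => by
      rw [← e]
      refine h1 ⟨t, 1 - t, ht.1, sub_nonneg.2 ht.2, add_sub_cancel _ _, ?_⟩
      simp only [af, real_smul]
      push_cast
      field_simp
      ring) (fun t ht => by
      rw [← e]
      refine h2 ⟨1 - t, t, sub_nonneg.2 ht.2, ht.1, sub_add_cancel _ _, ?_⟩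
      simp only [af, real_smul]
      push_cast
      field_simp
      ring)
  rw [segment_eq_image']
  rintro _ ⟨s, hs, rfl⟩
  have := key s hs
  rw [← e, mem_preimage, af, mul_comm] at this
  exact this

end Conv1

open Conv1 in
theorem conv1_pf (hCut : CutStmt) (hScale : ScaleStmt) : Conv1Stmt := by
  intro K u hG z₀ h0
  have hU : IsOpen (connectedComponentIn Kᶜ z₀) := hG.cl.isOpen_compl.connectedComponentIn
  refine convex_iff_segment_subset.2 fun p hp q hq => ?_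
  refine isPreconnected_connectedComponentIn.induction₂
    (fun p q => segment ℝ p q ⊆ connectedComponentIn Kᶜ z₀) (fun x hx => ?_) ?_ ?_ hp hq
  · obtain ⟨r, hr, hb⟩ := Metric.isOpen_iff.1 hU x hx
    filter_upwards [mem_nhdsWithin_of_mem_nhds (ball_mem_nhds x hr)] with y hy
    exact ((convex_ball x r).segment_subset (mem_ball_self hr) hy).trans hb
  · intro x y z hx hy hz h1 h2
    by_cases hxz : z - x = 0
    · rw [sub_eq_zero.1 hxz, segment_same]
      exact singleton_subset_iff.2 hx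
    rcases lt_trichotomy ((y - x) / (z - x)).im 0 with h | h | h
    · exact half hCut hScale hG h0 hxz h h1 h2
    · have h3 : y ∈ range (AffineMap.lineMap x z : ℝ → ℂ) := by
        refine ⟨((y - x) / (z - x)).re, ?_⟩
        have h4 : ((((y - x) / (z - x)).re : ℝ) : ℂ) = (y - x) / (z - x) :=
          Complex.ext rfl h.symm
        rw [AffineMap.lineMap_apply, vsub_eq_sub, vadd_eq_add, real_smul, h4,
          div_mul_cancel₀ _ hxz, sub_add_cancel]
      rw [← insert_endpoints_openSegment]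
      refine insert_subset hx (insert_subset hz ((openSegment_subset_union x z h3).trans
        (insert_subset hy (union_subset ?_ ?_))))
      · exact (openSegment_subset_segment ℝ x y).trans h1
      · exact (openSegment_subset_segment ℝ y z).trans h2
    · have hzx : x - z ≠ 0 := fun h' => hxz (by rw [← neg_sub, h', neg_zero])
      have e : (y - z) / (x - z) = 1 - (y - x) / (z - x) := by
        field_simp
        ring
      rw [segment_symm] at h1 h2 ⊢
      exact half hCut hScale hG h0 hzx (by rw [e]; simpa using h) h2 h1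
  · intro x y _ _ h
    rwa [segment_symm]

end Vale.Agent.P128
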