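import Vale.Agent.P128.Stm

open MeasureTheory Set Metric Filter Topology Complex
open scoped ENNReal ComplexConjugate Real

noncomputable section
namespace Vale.Agent.P128

namespace Conv2

theorem gauge_one {V : Set ℂ} (ho : IsOpen V) (hc : Convex ℝ V) (h0 : (0 : ℂ) ∈ V) {v : ℂ}
    (hv : v ∉ V) (ht : ∀ t ∈ Ioo (0 : ℝ) 1, t • v ∈ V) : gauge V v = 1 := by
  have hn : V ∈ 𝓝 (0 : ℂ) := ho.mem_nhds h0
  refine le_antisymm ?_ (not_lt.1 fun h => hv ?_)
  · by_contra h
    push Not at h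
    have h1 : 0 < gauge V v := one_pos.trans h
    have h2 := gauge_lt_one_of_mem_of_isOpen ho
      (ht (gauge V v)⁻¹ ⟨inv_pos.2 h1, inv_lt_one_of_one_lt₀ h⟩)
    rw [gauge_smul_of_nonneg (inv_pos.2 h1).le, smul_eq_mul, inv_mul_cancel₀ h1.ne'] at h2
    exact lt_irrefl _ h2
  · exact interior_subset ((gauge_lt_one_iff_mem_interior hc hn).1 h)

theorem exists_zero {V A B : Set ℂ} (ho : IsOpen V) (hc : Convex ℝ V) (h0 : (0 : ℂ) ∈ V)
    (hA : IsClosed A) (hB : IsClosed B) (hd : Disjoint A B) (hf : frontier V ⊆ A ∪ B)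
    (ha : -(I / 2) ∈ A) (hb : I / 2 ∈ B) (ga : gauge V (-(I / 2)) = 1) (gb : gauge V (I / 2) = 1)
    (s : ℝ) (hs : s ≠ 0) : ∃ e : ℂ, 0 < s * e.re ∧ gauge V e = 0 := by
  have hn : V ∈ 𝓝 (0 : ℂ) := ho.mem_nhds h0
  obtain ⟨p, hp⟩ : ∃ p : ℝ → ℂ, p = fun t : ℝ => ((s * (1 - t ^ 2) : ℝ) : ℂ) + t • (I / 2) :=
    ⟨_, rfl⟩
  have hpc : Continuous p := by rw [hp]; fun_prop
  have p1 : p 1 = I / 2 := by simp [hp]
  have p2 : p (-1) = -(I / 2) := by simp [hp]
  have pre : ∀ t, (p t).re = s * (1 - t ^ 2) := fun t => by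
    rw [hp]
    simp only [add_re, ofReal_re, smul_re, div_ofNat_re, I_re, zero_div, smul_zero, add_zero]
  by_contra hcon
  push Not at hcon
  have hne : ∀ t ∈ Icc (-1 : ℝ) 1, gauge V (p t) ≠ 0 := by
    intro t ht
    rcases eq_or_lt_of_le ht.1 with h1 | h1
    · rw [← h1, p2, ga]; exact one_ne_zero
    rcases eq_or_lt_of_le ht.2 with h2 | h2
    · rw [h2, p1, gb]; exact one_ne_zero
    refine hcon _ ?_
    rw [pre, ← mul_assoc]
    exact mul_pos (mul_self_pos.2 hs) (by nlinarith)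
  have hcc : ContinuousOn (fun t => (gauge V (p t))⁻¹ • p t) (Icc (-1 : ℝ) 1) :=
    ((((continuous_gauge hc hn).comp hpc).continuousOn).inv₀ hne).smul hpc.continuousOn
  have hpre := isPreconnected_Icc.image _ hcc
  obtain ⟨z, -, hz⟩ := isPreconnected_closed_iff.1 hpre A B hA hB
    (by
      rintro _ ⟨t, ht, rfl⟩
      refine hf ((gauge_eq_one_iff_mem_frontier hc hn).1 ?_)
      rw [gauge_smul_of_nonneg (inv_nonneg.2 (gauge_nonneg _)), smul_eq_mul,
        inv_mul_cancel₀ (hne t ht)])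
    ⟨_, ⟨-1, ⟨le_rfl, by norm_num⟩, rfl⟩, by simpa only [p2, ga, inv_one, one_smul] using ha⟩
    ⟨_, ⟨1, ⟨by norm_num, le_rfl⟩, rfl⟩, by simpa only [p1, gb, inv_one, one_smul] using hb⟩
  exact disjoint_left.1 hd hz.1 hz.2

theorem neg_zero {V : Set ℂ} (ho : IsOpen V) (hc : Convex ℝ V) (h0 : (0 : ℂ) ∈ V)
    (ga : gauge V (-(I / 2)) = 1) (gb : gauge V (I / 2) = 1) {e₁ e₂ : ℂ} (h1 : 0 < e₁.re)
    (h2 : e₂.re < 0) (g1 : gauge V e₁ = 0) (g2 : gauge V e₂ = 0) : gauge V (-e₁) = 0 := by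
  have hab : Absorbent ℝ V := absorbent_nhds_zero (ho.mem_nhds h0)
  obtain ⟨w, hw⟩ : ∃ w : ℂ, w = (-e₂.re) • e₁ + e₁.re • e₂ := ⟨_, rfl⟩
  have gw : gauge V w ≤ 0 := by
    have := gauge_add_le hc hab ((-e₂.re) • e₁) (e₁.re • e₂)
    rwa [gauge_smul_of_nonneg (neg_pos.2 h2).le, gauge_smul_of_nonneg h1.le, g1, g2, smul_zero,
      smul_zero, add_zero, ← hw] at this
  have wre : w.re = 0 := by
    rw [hw]
    simp only [add_re, smul_re, smul_eq_mul]
    ring
  have wim : w.im = 0 := by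
    rcases lt_trichotomy w.im 0 with h | h | h
    · have e : w = (-(2 * w.im)) • (-(I / 2)) := by
        apply Complex.ext <;> simp [wre]
        ring
      rw [e, gauge_smul_of_nonneg (by linarith), ga, smul_eq_mul] at gw
      linarith
    · exact h
    · have e : w = (2 * w.im) • (I / 2) := by
        apply Complex.ext <;> simp [wre]
        ring
      rw [e, gauge_smul_of_nonneg (by linarith), gb, smul_eq_mul] at gw
      linarith
  have w0 : w = 0 := Complex.ext wre wim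
  have e : (-e₂.re) • (-e₁) = e₁.re • e₂ := by
    rw [smul_neg, neg_eq_iff_add_eq_zero, ← hw, w0]
  have := congrArg (gauge V) e
  rw [gauge_smul_of_nonneg (neg_pos.2 h2).le, gauge_smul_of_nonneg h1.le, g2, smul_zero,
    smul_eq_mul] at this
  exact (mul_eq_zero.1 this).resolve_left (neg_pos.2 h2).ne'

end Conv2

open Conv2 in
theorem conv2_pf : Conv2Stmt := by
  intro K K₁ K₂ U hS hU hc hf ht h0 hI
  obtain ⟨V, hV⟩ : ∃ V : Set ℂ, V = (fun v => I / 2 + v) ⁻¹' U := ⟨_, rfl⟩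
  have mem : ∀ v, v ∈ V ↔ I / 2 + v ∈ U := fun v => by rw [hV]; rfl
  have ho : IsOpen V := hV ▸ hU.preimage (continuous_const_add _)
  have hcV : Convex ℝ V := hV ▸ hc.translate_preimage_right _
  have z0 : (0 : ℂ) ∈ V := by
    have := ht (1 / 2) ⟨by norm_num, by norm_num⟩
    rw [mem]
    rwa [show I / 2 + 0 = ((1 / 2 : ℝ) : ℂ) * I by push_cast; ring]
  have ga : gauge V (-(I / 2)) = 1 := by
    refine gauge_one ho hcV z0 (by rwa [mem, add_neg_cancel]) fun t h => ?_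
    have := ht ((1 - t) / 2) ⟨by linarith [h.2], by linarith [h.1]⟩
    rw [mem]
    rwa [show I / 2 + t • (-(I / 2)) = (((1 - t) / 2 : ℝ) : ℂ) * I by
      rw [real_smul]; push_cast; ring]
  have gb : gauge V (I / 2) = 1 := by
    refine gauge_one ho hcV z0 (by rwa [mem, add_halves]) fun t h => ?_
    have := ht ((1 + t) / 2) ⟨by linarith [h.1], by linarith [h.2]⟩
    rw [mem]
    rwa [show I / 2 + t • (I / 2) = (((1 + t) / 2 : ℝ) : ℂ) * I by
      rw [real_smul]; push_cast; ring]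
  have key := exists_zero (A := (fun v => I / 2 + v) ⁻¹' K₁) (B := (fun v => I / 2 + v) ⁻¹' K₂)
    ho hcV z0 (hS.c1.preimage (continuous_const_add _)) (hS.c2.preimage (continuous_const_add _))
    (disjoint_left.2 fun z h1 h2 => by
      have := hS.far _ h1 _ h2
      rw [sub_self, norm_zero] at this
      exact absurd this (by norm_num))
    (by
      rw [hV, ← preimage_union, ← hS.eq]
      exact ((Homeomorph.addLeft (I / 2)).preimage_frontier U).symm.subset.trans
        (preimage_mono hf))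
    (by rw [mem_preimage, add_neg_cancel]; exact hS.m1)
    (by rw [mem_preimage, add_halves]; exact hS.m2) ga gb
  obtain ⟨e₁, h1, g1⟩ := key 1 one_ne_zero
  obtain ⟨e₂, h2, g2⟩ := key (-1) (by norm_num)
  have h1' : 0 < e₁.re := by linarith
  have g3 := neg_zero ho hcV z0 ga gb h1' (by linarith) g1 g2
  refine ⟨e₁, fun h => by simp [h] at h1', fun z hz t => ?_⟩
  have gt : gauge V (t • e₁) = 0 := by
    rcases le_total 0 t with h | h
    · rw [gauge_smul_of_nonneg h, g1, smul_zero]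
    · rw [← neg_neg t, neg_smul, ← smul_neg, gauge_smul_of_nonneg (neg_nonneg.2 h), g3, smul_zero]
  have hn : V ∈ 𝓝 (0 : ℂ) := ho.mem_nhds z0
  have hz' : z - I / 2 ∈ V := by rwa [mem, add_sub_cancel]
  have h4 := gauge_add_le hcV (absorbent_nhds_zero hn) (z - I / 2) (t • e₁)
  rw [gt, add_zero] at h4
  have h5 := interior_subset ((gauge_lt_one_iff_mem_interior hcV hn).1
    (h4.trans_lt (gauge_lt_one_of_mem_of_isOpen ho hz')))
  rwa [mem, ← add_assoc, add_sub_cancel, real_smul] at h5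

end Vale.Agent.P128
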