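import Vale.Agent.P128.Stm

open MeasureTheory Set Metric Filter Topology Complex
open scoped ENNReal ComplexConjugate Real

noncomputable section
namespace Vale.Agent.P128

namespace Cov

/-- the approximating outer measures -/
def ap (r : ℝ≥0∞) : OuterMeasure ℂ :=
  OuterMeasure.mkMetric'.pre (fun s : Set ℂ => ediam s ^ (1 : ℝ)) r

theorem eq_sup (S : Set ℂ) : μH[1] S = ⨆ r > 0, ap r S := by
  have h : (μH[1] : Measure ℂ) S =
      OuterMeasure.mkMetric (X := ℂ) (fun r => r ^ (1 : ℝ)) S := by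
    rw [OuterMeasure.coe_mkMetric]
    rfl
  rw [h, OuterMeasure.mkMetric, OuterMeasure.mkMetric']
  simp only [OuterMeasure.iSup_apply, ap]

theorem ap_le {r : ℝ≥0∞} (hr : 0 < r) (S : Set ℂ) : ap r S ≤ μH[1] S := by
  rw [eq_sup]
  exact le_iSup₂ (f := fun r (_ : r > 0) => ap r S) r hr

theorem ap_ball {r : ℝ≥0∞} (y : ℂ) {s : ℝ} (h : ENNReal.ofReal (2 * s) ≤ r) :
    ap r (closedBall y s) ≤ ENNReal.ofReal (2 * s) := by
  have h1 : ediam (closedBall y s) ≤ ENNReal.ofReal (2 * s) :=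
    ediam_le_of_forall_dist_le fun a ha b hb => by
      have := dist_triangle_right a b y
      linarith [mem_closedBall.1 ha, mem_closedBall.1 hb]
  refine (OuterMeasure.mkMetric'.pre_le (h1.trans h)).trans ?_
  rw [ENNReal.rpow_one]
  exact h1

end Cov

theorem cov_pf : CovStmt := by
  classical
  intro E U F ε hE hU hEU hε hF
  by_cases h0 : μH[1] E ≤ ENNReal.ofReal ε
  · refine ⟨∅, fun _ => 0, by simp, by simp, ?_⟩
    rw [Finset.sum_empty, add_zero]
    exact ENNReal.toReal_le_of_le_ofReal hε.le h0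
  have h1 : μH[1] E - ENNReal.ofReal ε < μH[1] E :=
    ENNReal.sub_lt_self hE.ne (fun h => h0 (h ▸ zero_le)) (ENNReal.ofReal_pos.2 hε).ne'
  obtain ⟨a, ha⟩ : ∃ a, a = μH[1] E - ENNReal.ofReal ε := ⟨_, rfl⟩
  rw [← ha, Cov.eq_sup E, lt_iSup_iff] at h1
  obtain ⟨δ, h1⟩ := h1
  rw [lt_iSup_iff] at h1
  obtain ⟨δ0, h1⟩ := h1
  obtain ⟨d, d0, hd⟩ : ∃ d : ℝ, 0 < d ∧ ENNReal.ofReal (2 * d) ≤ δ := by
    obtain ⟨d, h1, h2⟩ := ENNReal.lt_iff_exists_nnreal_btwn.1 δ0
    have h3 : (0 : ℝ) < d := by exact_mod_cast h1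
    refine ⟨d / 2, by positivity, ?_⟩
    rw [mul_div_cancel₀ _ two_ne_zero, ENNReal.ofReal_coe_nnreal]
    exact h2.le
  have hR : ∀ y : ℂ, ∃ R, y ∈ E → 0 < R ∧ R ≤ d ∧ ball y R ⊆ U := by
    intro y
    by_cases hy : y ∈ E
    · obtain ⟨R, h1, h2⟩ := Metric.isOpen_iff.1 hU y (hEU hy)
      exact ⟨min R d, fun _ => ⟨lt_min h1 d0, min_le_right _ _,
        (ball_subset_ball (min_le_left _ _)).trans h2⟩⟩
    · exact ⟨1, fun h => absurd h hy⟩
  choose R hR using hR
  have : IsFiniteMeasure ((μH[1] : Measure ℂ).restrict (toMeasurable μH[1] E)) :=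
    isFiniteMeasure_restrict.2 (by rw [measure_toMeasurable]; exact hE.ne)
  obtain ⟨t, r, tc, tE, hr, hz, hdis⟩ := Besicovitch.exists_disjoint_closedBall_covering_ae
    ((μH[1] : Measure ℂ).restrict (toMeasurable μH[1] E)) F E hF R fun y hy => (hR y hy).1
  rw [Measure.restrict_eq_self _ (sdiff_subset.trans (subset_toMeasurable _ _))] at hz
  have := tc.to_subtype
  have h2 : Cov.ap δ E ≤ ∑' y : t, ENNReal.ofReal (2 * r y) := by
    have k1 : E ⊆ (E \ ⋃ x ∈ t, closedBall x (r x)) ∪ ⋃ x : t, closedBall (x : ℂ) (r x) := by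
      rw [biUnion_eq_iUnion]
      exact subset_sdiff_union _ _
    refine (measure_mono k1).trans ((measure_union_le _ _).trans ?_)
    rw [le_antisymm ((Cov.ap_le δ0 _).trans hz.le) zero_le, zero_add]
    refine (measure_iUnion_le _).trans (ENNReal.tsum_le_tsum fun y => ?_)
    have k2 := (hr y y.2).2
    refine Cov.ap_ball _ (le_trans (ENNReal.ofReal_le_ofReal ?_) hd)
    linarith [k2.2, (hR y (tE y.2)).2.1]
  have h3 := h1.trans_le h2
  rw [ENNReal.tsum_eq_iSup_sum, lt_iSup_iff] at h3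
  obtain ⟨s, h3⟩ := h3
  have hm : ∀ y ∈ s.map (Function.Embedding.subtype _), y ∈ t := fun y hy => by
    obtain ⟨z, -, rfl⟩ := Finset.mem_map.1 hy
    exact z.2
  refine ⟨s.map (Function.Embedding.subtype _), r, fun y hy => ?_, hdis.subset hm, ?_⟩
  · have k1 := hm y hy
    exact ⟨tE k1, (hr y k1).1, (hr y k1).2.1,
      (closedBall_subset_ball (hr y k1).2.2).trans (hR y (tE k1)).2.2⟩
  · have k1 : ∀ y ∈ s, 0 ≤ 2 * r y := fun y _ => by linarith [(hr y y.2).2.1]
    rw [Finset.sum_map]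
    simp only [Function.Embedding.coe_subtype]
    refine ENNReal.toReal_le_of_le_ofReal (add_nonneg hε.le (Finset.sum_nonneg k1)) ?_
    rw [ENNReal.ofReal_add hε.le (Finset.sum_nonneg k1), ENNReal.ofReal_sum_of_nonneg k1]
    rw [ha] at h3
    exact tsub_le_iff_left.1 h3.le

end Vale.Agent.P128
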