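import Vale.Agent.P128.Stm

open MeasureTheory Set Metric Filter Topology Complex
open scoped ENNReal ComplexConjugate Real

noncomputable section
namespace Vale.Agent.P128

namespace Cpt

variable {Ω K : ℕ → Set ℂ} {u : ℕ → ℂ → ℝ} {Λ M R : ℕ → ℝ} {v : ℂ → ℝ}

theorem ev_sub (h : Seq Ω K u Λ M R) (x : ℂ) (ρ : ℝ) :
    ∀ᶠ j in hyperfilter ℕ, closedBall x ρ ⊆ Ω j :=
  ((h.big.eventually_gt_atTop (ρ + dist x 0)).filter_mono Nat.hyperfilter_le_atTop).mono
    fun j hj => (closedBall_subset_ball' hj).trans (h.sub j)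

theorem exists_fin (hGood : GoodStmt) (hl : Lim K u v) (he : LimE K u v) (x : ℂ) {a b : ℝ}
    (ha : 0 ≤ a) (hab : a < b) : ∃ ρ ∈ Ioo a b, (limK K ∩ sphere x ρ).Finite := by
  obtain ⟨ρ, h1, h2⟩ := Measure.exists_mem_of_measure_ne_zero_of_ae (μ := volume) (s := Ioo a b)
    (by simpa using hab) (ae_restrict_of_ae (hGood _ v x b hl.cl (he x b).1 (he x b).2.1).1)
  exact ⟨ρ, h1, (h2 ⟨ha.trans_lt h1.1, h1.2⟩).fin⟩

theorem len_ball {L : Set ℂ} {x : ℂ} {ρ : ℝ} (h : (L ∩ sphere x ρ).Finite) :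
    len L (closedBall x ρ) = len L (ball x ρ) := by
  have := Measure.noAtoms_hausdorff ℂ zero_lt_one
  rw [len, len, ← ball_union_sphere, inter_union_distrib_left,
    measure_congr (union_ae_eq_left_of_ae_eq_empty (ae_eq_empty.2 (h.measure_zero _)))]

theorem len_split {L : Set ℂ} {x : ℂ} {r ρ : ℝ} (h : r ≤ ρ) (f1 : μH[1] (L ∩ closedBall x r) < ⊤)
    (f2 : μH[1] (closedBall x ρ ∩ (L \ closedBall x r)) < ⊤) : len L (closedBall x ρ) =
      len L (closedBall x r) + (μH[1] (closedBall x ρ ∩ (L \ closedBall x r))).toReal := by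
  rw [len, len, ← ENNReal.toReal_add f1.ne f2.ne,
    ← measure_inter_add_diff (L ∩ closedBall x ρ) (t := closedBall x r) measurableSet_closedBall,
    inter_assoc, inter_eq_right.2 (closedBall_subset_closedBall h), ← inter_diff_assoc,
    inter_comm (closedBall x ρ)]

theorem En_split {w : ℂ → ℝ} {x : ℂ} {r ρ : ℝ} (h : r ≤ ρ)
    (f1 : IntegrableOn (fun z => ‖pd w z‖ ^ 2) (closedBall x r))
    (f2 : IntegrableOn (fun z => ‖pd w z‖ ^ 2) (closedBall x ρ \ closedBall x r)) :
    En w (closedBall x ρ) = En w (closedBall x r) + En w (closedBall x ρ \ closedBall x r) := by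
  rw [En, En, En, ← setIntegral_union disjoint_sdiff_right
    (measurableSet_closedBall.diff measurableSet_closedBall) f1 f2,
    union_diff_cancel (closedBall_subset_closedBall h)]

theorem right_cont (hl : Lim K u v) (he : LimE K u v) (x : ℂ) (r : ℝ) {ε : ℝ} (hε : 0 < ε) :
    ∃ b, r < b ∧ En v (closedBall x b) ≤ En v (closedBall x r) + ε ∧
      len (limK K) (closedBall x b) ≤ len (limK K) (closedBall x r) + ε := by
  obtain ⟨s, h1, h2, h3⟩ := exists_seq_strictAnti_tendsto r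
  have e : ⋂ n, closedBall x (s n) = closedBall x r := by
    ext z
    simp only [mem_iInter, mem_closedBall]
    exact ⟨fun h => ge_of_tendsto' h3 h, fun h n => h.trans (h2 n).le⟩
  have an : Antitone fun n => closedBall x (s n) := fun _ _ h =>
    closedBall_subset_closedBall (h1.antitone h)
  have t1 := tendsto_setIntegral_of_antitone (fun _ => measurableSet_closedBall) an
    ⟨0, (he x (s 0)).2.1⟩
  have t2 := tendsto_measure_iInter_atTop (μ := μH[1]) (s := fun n => limK K ∩ closedBall x (s n))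
    (fun _ => (hl.cl.measurableSet.inter measurableSet_closedBall).nullMeasurableSet)
    (fun _ _ h => inter_subset_inter_right _ (an h)) ⟨0, (he x (s 0)).1.ne⟩
  rw [← inter_iInter, e] at t2
  rw [e] at t1
  obtain ⟨n, a1, a2⟩ := ((t1.eventually_lt_const (lt_add_of_pos_right _ hε)).and
    (((ENNReal.tendsto_toReal (he x r).1.ne).comp t2).eventually_lt_const
      (lt_add_of_pos_right _ hε))).exists
  exact ⟨s n, h2 n, a1.le, a2.le⟩

theorem triv (hl : Lim K u v) (he : LimE K u v) (x : ℂ) (r : ℝ) :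
    Comp univ (limK K) v x r (limK K) v := by
  have ho : IsOpen (univ \ limK K) := isOpen_univ.sdiff hl.cl
  refine ⟨hl.cl, rfl, fun _ _ _ _ => rfl,
    locLip_of_contDiffOn ho (by rw [← compl_eq_univ_diff]; exact hl.c1), (he x r).2.1, (he x r).1,
    connectedComponentIn (univ \ limK K), fun z hz => ?_, fun _ _ _ _ => rfl⟩
  filter_upwards [ho.connectedComponentIn.mem_nhds (mem_connectedComponentIn hz)] with y hy
  exact (connectedComponentIn_eq hy).symm

theorem low_len (hb : Cpt2bStmt) (h : Seq Ω K u Λ M R) (hl : Lim K u v) (he : LimE K u v)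
    {x : ℂ} {ρ ε : ℝ} (hf : (limK K ∩ sphere x ρ).Finite) (hε : 0 < ε) :
    ∀ᶠ j in hyperfilter ℕ, len (limK K) (closedBall x ρ) ≤ len (K j) (closedBall x ρ) + ε := by
  filter_upwards [hb _ _ _ _ _ _ _ h hl he x ρ ε hε, ev_sub h x ρ] with j h1 h2
  rw [len_ball hf]
  linarith [len_mono ball_subset_closedBall ((h.ms j).fin x ρ h2)]

theorem upper (hb : Cpt2bStmt) (h3 : Cpt3Stmt) (hGood : GoodStmt) (h : Seq Ω K u Λ M R)
    (hl : Lim K u v) (he : LimE K u v) (x : ℂ) (r : ℝ) {ε : ℝ} (hε : 0 < ε) :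
    ∀ᶠ j in hyperfilter ℕ, En (u j) (closedBall x r) ≤ En v (closedBall x r) + ε ∧
      len (K j) (closedBall x r) ≤ len (limK K) (closedBall x r) + ε := by
  rcases lt_or_ge r 0 with hr | hr
  · exact Eventually.of_forall fun j => by simp [En, len, closedBall_eq_empty.2 hr, hε.le]
  have h3ε : 0 < ε / 3 := by positivity
  obtain ⟨b, hb1, hb2, hb3⟩ := right_cont hl he x r h3ε
  obtain ⟨ρ, hρ, hf⟩ := exists_fin hGood hl he x hr hb1
  have s1 : closedBall x ρ ⊆ closedBall x b := closedBall_subset_closedBall hρ.2.le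
  have s2 : closedBall x r ⊆ closedBall x ρ := closedBall_subset_closedBall hρ.1.le
  filter_upwards [h3 _ _ _ _ _ _ _ h hl he x r _ _ (triv hl he x r) ρ (hr.trans_lt hρ.1) hρ.1 hf _
    h3ε, low_len hb h hl he hf h3ε, (he x ρ).2.2 _ h3ε, ev_sub h x ρ] with j a1 a2 a3 a4
  constructor
  · linarith [En_mono s2 ((h.ms j).int x ρ a4), En_mono s1 (he x b).2.1]
  · linarith [len_mono s2 ((h.ms j).fin x ρ a4), len_mono s1 (he x b).1]

theorem min (hb : Cpt2bStmt) (h3 : Cpt3Stmt) (hGood : GoodStmt) (h : Seq Ω K u Λ M R)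
    (hl : Lim K u v) (he : LimE K u v) {x : ℂ} {r : ℝ} {L : Set ℂ} {w : ℂ → ℝ}
    (hc : Comp univ (limK K) v x r L w) : En v (closedBall x r) + len (limK K) (closedBall x r) ≤
      En w (closedBall x r) + len L (closedBall x r) := by
  obtain ⟨ρ, hρ, hf⟩ := exists_fin hGood hl he x (le_max_right r 0) (lt_add_one _)
  have r1 : r < ρ := (le_max_left _ _).trans_lt hρ.1
  have k : En v (closedBall x ρ) + len (limK K) (closedBall x ρ) ≤
      En w (closedBall x ρ) + len L (closedBall x ρ) := le_of_forall_pos_le_add fun ε hε => by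
    have h3ε : 0 < ε / 3 := by positivity
    obtain ⟨j, a1, a2, a3⟩ := ((h3 _ _ _ _ _ _ _ h hl he x r _ _ hc ρ
      ((le_max_right _ _).trans_lt hρ.1) r1 hf _ h3ε).and ((low_len hb h hl he hf h3ε).and
        ((he x ρ).2.2 _ h3ε))).exists
    linarith
  have e : (fun z => ‖pd w z‖ ^ 2) =ᵐ[volume.restrict (closedBall x ρ \ closedBall x r)]
      fun z => ‖pd v z‖ ^ 2 := by
    filter_upwards [ae_restrict_mem (measurableSet_closedBall.diff measurableSet_closedBall),
      ae_restrict_of_ae (measure_eq_zero_iff_ae_notMem.1 (volume_null (he x ρ).1))] with z h1 h2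
    rw [pd_congr]
    filter_upwards [isClosed_closedBall.isOpen_compl.mem_nhds h1.2,
      hl.cl.isOpen_compl.mem_nhds fun hz => h2 ⟨hz, h1.1⟩] with y y1 y2
    exact hc.eq y trivial y1 y2
  have i1 := (he x ρ).2.1.mono_set (diff_subset (t := closedBall x r))
  have f2 : μH[1] (closedBall x ρ ∩ (limK K \ closedBall x r)) < ⊤ :=
    lt_of_le_of_lt (measure_mono fun z hz => mem_inter hz.2.1 hz.1) (he x ρ).1
  have e2 : En w (closedBall x ρ \ closedBall x r) = En v (closedBall x ρ \ closedBall x r) :=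
    integral_congr_ae e
  rw [En_split r1.le (he x r).2.1 i1, En_split r1.le hc.int (i1.congr e.symm),
    len_split r1.le (he x r).1 f2, len_split r1.le hc.fin (by rwa [hc.out]), hc.out, e2] at k
  linarith

theorem red (hb : Cpt2bStmt) (h3 : Cpt3Stmt) (hGood : GoodStmt) (hDens : DensStmt)
    (h : Seq Ω K u Λ M R) (hl : Lim K u v) (he : LimE K u v) {x : ℂ} (hx : x ∈ limK K) {r : ℝ}
    (hr : 0 < r) : 0 < μH[1] (limK K ∩ ball x r) := by
  obtain ⟨c, hc, hD⟩ := hDens
  have t1 : Tendsto (fun j => Λ j * M j * (r / 4)) atTop (𝓝 0) := by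
    simpa using h.small.mul_const (r / 4)
  obtain ⟨j, a1, a2, a3, a4⟩ := ((upper hb h3 hGood h hl he x (r / 2)
    (show 0 < c * r / 8 by positivity)).and ((ev_sub h x (r / 2)).and
      (((t1.eventually_lt_const one_pos).filter_mono Nat.hyperfilter_le_atTop).and
        (Tendsto.eventually_lt_const (show 0 < r / 4 by positivity) hx)))).exists
  obtain ⟨y, hy, hd⟩ := (infDist_lt_iff ⟨0, h.zero j⟩).1 a4
  have s1 : closedBall y (r / 4) ⊆ closedBall x (r / 2) :=
    closedBall_subset_closedBall' (by rw [dist_comm]; linarith)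
  have k1 := hD _ _ _ _ _ (h.ms j) y hy (r / 4) (by positivity) (s1.trans a2) a3.le
  have k2 := len_mono s1 ((h.ms j).fin x _ a2)
  have k3 : 0 < len (limK K) (closedBall x (r / 2)) := by linarith [a1.2, mul_pos hc hr]
  exact (ENNReal.toReal_pos_iff.1 k3).1.trans_le
    (measure_mono (inter_subset_inter_right _ (closedBall_subset_ball (half_lt_self hr))))

end Cpt

theorem cpt_pf (hCpt1a : Cpt1aStmt) (hCpt1b : Cpt1bStmt) (hCpt2a : Cpt2aStmt)
    (hCpt2b : Cpt2bStmt) (hCpt3 : Cpt3Stmt) (hGood : GoodStmt) (hDens : DensStmt)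
    : CptStmt := by
  intro Ω K u Λ M R h
  obtain ⟨P, hP⟩ := hCpt1a _ _ _ _ _ _ h
  obtain ⟨v, hl⟩ := hCpt1b _ _ _ _ _ _ _ h hP
  have he := hCpt2a _ _ _ _ _ _ _ h hl
  refine ⟨v, ⟨isOpen_univ, hl.cl, by rw [← compl_eq_univ_diff]; exact hl.c1, le_rfl, zero_le_one,
    by simp, by simp, fun x r _ => (he x r).2.1, fun x r _ => (he x r).1, fun x r L w _ hc => ?_,
    fun x hx _ r hr => Cpt.red hCpt2b hCpt3 hGood hDens h hl he hx hr⟩, hl, fun x r =>
    ⟨Metric.tendsto_nhds.2 fun ε hε => ?_,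
      fun ε hε => (Cpt.upper hCpt2b hCpt3 hGood h hl he x r hε).mono fun j hj => hj.2⟩⟩
  · rw [zero_mul, add_zero]
    exact Cpt.min hCpt2b hCpt3 hGood h hl he hc
  · filter_upwards [Cpt.upper hCpt2b hCpt3 hGood h hl he x r (half_pos hε),
      (he x r).2.2 _ (half_pos hε)] with j a1 a2
    rw [Real.dist_eq, abs_lt]
    constructor <;> linarith [a1.1]

end Vale.Agent.P128
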