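import Vale.Agent.P128.Stm

open MeasureTheory Set Metric Filter Topology Complex
open scoped ENNReal ComplexConjugate Real

noncomputable section
namespace Vale.Agent.P128

namespace Cpt1a

variable {Ω K : ℕ → Set ℂ} {u : ℕ → ℂ → ℝ} {Λ M R : ℕ → ℝ}

theorem ev_sub (h : Seq Ω K u Λ M R) (x : ℂ) (r : ℝ) : ∀ᶠ j in atTop, closedBall x r ⊆ Ω j :=
  (h.big.eventually_gt_atTop (r + dist x 0)).mono fun j hj =>
    (closedBall_subset_ball' hj).trans (h.sub j)

theorem ev_small (h : Seq Ω K u Λ M R) (s : ℝ) {ε : ℝ} (hε : 0 < ε) :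
    ∀ᶠ j in atTop, Λ j * M j * s ≤ ε := by
  have h1 := h.small.mul_const s
  rw [zero_mul] at h1
  exact h1.eventually (eventually_le_nhds hε)

theorem ev_lam (h : Seq Ω K u Λ M R) {s ε : ℝ} (hs : 0 ≤ s) (hε : 0 < ε) :
    ∀ᶠ j in atTop, Λ j * s ≤ ε := by
  filter_upwards [ev_sub h 0 1, ev_small h s hε] with j h1 h2
  have h3 := (h.ms j).sz 0 1 h1
  rw [Real.sqrt_one, mul_one] at h3
  exact (mul_le_mul_of_nonneg_right h3 hs).trans h2

theorem closed (K : ℕ → Set ℂ) : IsClosed (limK K) := by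
  refine isClosed_of_closure_subset fun z hz => Metric.tendsto_nhds.2 fun ε hε => ?_
  obtain ⟨w, hw, hd⟩ := Metric.mem_closure_iff.1 hz _ (half_pos hε)
  filter_upwards [Metric.tendsto_nhds.1 hw _ (half_pos hε)] with j hj
  rw [Real.dist_eq, sub_zero, abs_of_nonneg infDist_nonneg] at hj ⊢
  linarith [infDist_le_infDist_add_dist (x := z) (y := w) (s := K j)]

theorem away {z : ℂ} (hz : z ∉ limK K) :
    ∃ l, 0 < l ∧ ∀ᶠ j in hyperfilter ℕ, Disjoint (ball z l) (K j) := by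
  have h1 : ¬ ∀ ε > 0, ∀ᶠ j in hyperfilter ℕ, dist (infDist z (K j)) 0 < ε :=
    fun h => hz (Metric.tendsto_nhds.2 h)
  simp only [not_forall] at h1
  obtain ⟨l, hl, h2⟩ := h1
  refine ⟨l, hl, (Ultrafilter.eventually_not.2 h2).mono fun j hj => ?_⟩
  rw [Real.dist_eq, sub_zero, abs_of_nonneg infDist_nonneg, not_lt] at hj
  exact disjoint_ball_infDist.mono_left (ball_subset_ball hj)

theorem far {C : Set ℂ} (hC : IsCompact C) (hs : C ⊆ (limK K)ᶜ) :
    ∀ᶠ j in hyperfilter ℕ, Disjoint C (K j) := by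
  refine hC.induction_on (p := fun C => ∀ᶠ j in hyperfilter ℕ, Disjoint C (K j))
    (Eventually.of_forall fun _ => empty_disjoint _)
    (fun s t hst ht => ht.mono fun j hj => hj.mono_left hst)
    (fun s t h1 h2 => (h1.and h2).mono fun j hj => disjoint_union_left.2 hj) fun z hz => ?_
  obtain ⟨l, hl, h⟩ := away (hs hz)
  exact ⟨_, mem_nhdsWithin_of_mem_nhds (ball_mem_nhds z hl), h⟩

theorem lip {h : ℂ → ℂ} {z : ℂ} {r B : ℝ} (hr : 0 < r) (hd : DifferentiableOn ℂ h (ball z (2 * r)))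
    (hB : ∀ a ∈ ball z (2 * r), ‖h a‖ ≤ B) {a b : ℂ} (ha : a ∈ ball z r) (hb : b ∈ ball z r) :
    ‖h a - h b‖ ≤ B / r * ‖a - b‖ := by
  have hs : ∀ y ∈ ball z r, closedBall y r ⊆ ball z (2 * r) := fun y hy =>
    closedBall_subset_ball' (by linarith [mem_ball.1 hy])
  refine (convex_ball z r).norm_image_sub_le_of_norm_deriv_le (𝕜 := ℂ) (fun y hy => ?_)
    (fun y hy => ?_) hb ha
  · exact hd.differentiableAt (isOpen_ball.mem_nhds (hs y hy (mem_closedBall_self hr.le)))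
  · exact norm_deriv_le_of_forall_mem_sphere_norm_le hr (hd.diffContOnCl_ball (hs y hy))
      fun w hw => hB w (hs y hy (sphere_subset_closedBall hw))

theorem equi (hApx : ApxStmt) (h : Seq Ω K u Λ M R) {z : ℂ} (hz : z ∉ limK K) :
    ∃ r B L : ℝ, 0 < r ∧ 0 < L ∧ ∀ ε, 0 < ε → ∀ᶠ j in hyperfilter ℕ,
      ∀ a ∈ ball z r, ‖pd (u j) a‖ ≤ B ∧
        ∀ b ∈ ball z r, ‖pd (u j) a - pd (u j) b‖ ≤ L * ‖a - b‖ + ε := by
  obtain ⟨C, hC, hA⟩ := hApx.1
  obtain ⟨l, hl, h1⟩ := away hz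
  obtain ⟨r, hr, hrl⟩ : ∃ r, 0 < r ∧ 4 * r < l := ⟨l / 8, by positivity, by linarith⟩
  refine ⟨r, √(C / r), (√(C / r) + 1) / r, hr, by positivity, fun ε hε => ?_⟩
  have hδ : 0 < min ε 1 / 4 := by positivity
  filter_upwards [h1, ((ev_sub h z (4 * r)).and ((ev_small h (2 * r) one_pos).and
    (ev_lam h (by positivity : 0 ≤ C * (2 * r)) hδ))).filter_mono Nat.hyperfilter_le_atTop]
    with j j1 ⟨j2, j3, j4⟩
  have h2 : closedBall z (4 * r) ⊆ Ω j \ K j := fun w hw =>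
    ⟨j2 hw, disjoint_left.1 j1 (closedBall_subset_ball hrl hw)⟩
  have h3 : ∀ a ∈ ball z (2 * r), ‖pd (u j) a‖ ≤ √(C / r) := fun a ha => by
    refine Real.le_sqrt_of_sq_le ((le_div_iff₀ hr).2 ((hA _ _ _ _ _ (h.ms j) a r hr ?_).2 j3))
    exact (closedBall_subset_closedBall' (by linarith [mem_ball.1 ha])).trans h2
  obtain ⟨g, hg, h4⟩ := (hA _ _ _ _ _ (h.ms j) z (2 * r) (by positivity)
    (by rwa [← mul_assoc, show (2 : ℝ) * 2 = 4 by norm_num])).1 _ hδ
  have h5 : ∀ a ∈ ball z (2 * r), ‖pd (u j) a - g a‖ ≤ min ε 1 / 2 := fun a ha => by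
    linarith [h4 a ha]
  have hs : ball z r ⊆ ball z (2 * r) := ball_subset_ball (by linarith)
  have m1 := min_le_left ε 1
  have m2 := min_le_right ε 1
  refine fun a ha => ⟨h3 a (hs ha), fun b hb => ?_⟩
  have h6 := lip (B := √(C / r) + 1) hr hg (fun w hw => by
    linarith [norm_le_insert (pd (u j) w) (g w), h3 w hw, h5 w hw]) ha hb
  have e : pd (u j) a - pd (u j) b = (pd (u j) a - g a) + (g a - g b) - (pd (u j) b - g b) := by
    ring
  rw [e]
  linarith [norm_sub_le (pd (u j) a - g a + (g a - g b)) (pd (u j) b - g b),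
    norm_add_le (pd (u j) a - g a) (g a - g b), h5 a (hs ha), h5 b (hs hb)]

end Cpt1a
open Cpt1a

theorem cpt1a_pf (hApx : ApxStmt) : Cpt1aStmt := by
  intro Ω K u Λ M R h
  set P : ℂ → ℂ := fun a => limUnder (hyperfilter ℕ) fun j => pd (u j) a with hP
  have hlim : ∀ a ∉ limK K, Tendsto (fun j => pd (u j) a) (hyperfilter ℕ) (𝓝 (P a)) := by
    intro a ha
    obtain ⟨r, B, L, hr, -, h1⟩ := equi hApx h ha
    obtain ⟨p, -, hp⟩ := (isCompact_closedBall (0 : ℂ) B).ultrafilter_le_nhds'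
      ((hyperfilter ℕ).map fun j => pd (u j) a)
      ((h1 1 one_pos).mono fun j hj => mem_closedBall_zero_iff.2 (hj a (mem_ball_self hr)).1)
    exact tendsto_nhds_limUnder ⟨p, hp⟩
  have hop := (closed K).isOpen_compl
  have hloc : ∀ z ∉ limK K, ∀ ε, 0 < ε → ∃ t ∈ 𝓝 z, (∀ a ∈ t, ‖P a - P z‖ ≤ ε) ∧
      ∀ᶠ j in hyperfilter ℕ, ∀ a ∈ t, ‖pd (u j) a - pd (u j) z‖ ≤ ε := by
    intro z hz ε hε
    obtain ⟨r, B, L, hr, hL, h1⟩ := equi hApx h hz
    have h2 : ∀ᶠ j in hyperfilter ℕ, ∀ a ∈ ball z r ∩ ball z (ε / 2 / L) ∩ (limK K)ᶜ,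
        ‖pd (u j) a - pd (u j) z‖ ≤ ε := (h1 _ (half_pos hε)).mono fun j hj a ha => by
      have h3 := (hj a ha.1.1).2 z (mem_ball_self hr)
      have h4 := (lt_div_iff₀ hL).1 (mem_ball_iff_norm.1 ha.1.2)
      linarith
    refine ⟨_, inter_mem (inter_mem (ball_mem_nhds z hr) (ball_mem_nhds z (by positivity)))
      (hop.mem_nhds hz), fun a ha => ?_, h2⟩
    exact le_of_tendsto ((hlim a ha.2).sub (hlim z hz)).norm (h2.mono fun j hj => hj a ha)
  refine ⟨P, closed K, fun C hC hs => far hC hs, fun z hz => ?_, fun C hC hs => ?_⟩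
  · refine ContinuousAt.continuousWithinAt (Metric.tendsto_nhds.2 fun ε hε => ?_)
    obtain ⟨t, ht, h1, -⟩ := hloc z hz _ (half_pos hε)
    filter_upwards [ht] with a ha
    rw [dist_eq_norm]
    linarith [h1 a ha]
  · refine (tendstoLocallyUniformlyOn_iff_forall_isCompact hop).1
      (Metric.tendstoLocallyUniformlyOn_iff.2 fun ε hε z hz => ?_) C hs hC
    obtain ⟨t, ht, h1, h2⟩ := hloc z hz (ε / 3) (by positivity)
    refine ⟨t, mem_nhdsWithin_of_mem_nhds ht, ?_⟩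
    filter_upwards [h2, Metric.tendsto_nhds.1 (hlim z hz) (ε / 3) (by positivity)] with j j1 j2 a ha
    have a1 := h1 a ha
    have a2 := j1 a ha
    rw [← dist_eq_norm] at a1 a2
    linarith [dist_triangle4 (P a) (P z) (pd (u j) z) (pd (u j) a), dist_comm (P z) (pd (u j) z),
      dist_comm (pd (u j) z) (pd (u j) a)]

end Vale.Agent.P128
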