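import Vale.Agent.P128.Stm

open MeasureTheory Set Metric Filter Topology Complex
open scoped ENNReal ComplexConjugate Real

noncomputable section
namespace Vale.Agent.P128

namespace Cpt1b

variable {Ω K : ℕ → Set ℂ} {u : ℕ → ℂ → ℝ} {Λ M R : ℕ → ℝ} {P : ℂ → ℂ}

/-- the linear form `e ↦ re (p e)` -/
def LL : ℂ →L[ℝ] ℂ →L[ℝ] ℝ :=
  (ContinuousLinearMap.compL ℝ ℂ ℂ ℝ reCLM).comp (ContinuousLinearMap.mul ℝ ℂ)

theorem LL_apply (p e : ℂ) : LL p e = (p * e).re := rfl

theorem fderiv_LL (w : ℂ → ℝ) (z : ℂ) : fderiv ℝ w z = LL (pd w z) :=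
  ContinuousLinearMap.ext fun e => fderiv_eq_pd w z e

theorem ev_diff (hS : Seq Ω K u Λ M R) (hL : Lim0 K u P) {z : ℂ} {r : ℝ}
    (hr : closedBall z r ⊆ (limK K)ᶜ) :
    ∀ᶠ j in hyperfilter ℕ, ∀ y ∈ closedBall z r, DifferentiableAt ℝ (u j) y := by
  filter_upwards [hL.far _ (isCompact_closedBall z r) hr,
    (hS.big.mono_left Nat.hyperfilter_le_atTop).eventually_gt_atTop (‖z‖ + r)] with j h1 h2 y hy
  refine (hS.ms j).diff ⟨hS.sub j ?_, disjoint_left.1 h1 hy⟩
  rw [mem_ball_zero_iff]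
  exact (norm_le_of_mem_closedBall hy).trans_lt h2

theorem rel_loc (hS : Seq Ω K u Λ M R) (hL : Lim0 K u P) {z : ℂ} {r : ℝ} (hr0 : 0 ≤ r)
    (hr : closedBall z r ⊆ (limK K)ᶜ) {w : ℂ} (hw : w ∈ closedBall z r) :
    ∃ c, Tendsto (fun j => u j w - u j z) (hyperfilter ℕ) (𝓝 c) := by
  obtain ⟨C, hC⟩ := (isCompact_closedBall z r).exists_bound_of_continuousOn (hL.cont.mono hr)
  have h1 := Metric.tendstoUniformlyOn_iff.1 (hL.grad _ (isCompact_closedBall z r) hr) 1 one_pos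
  have h2 : ∀ᶠ j in hyperfilter ℕ, u j w - u j z ∈ closedBall (0 : ℝ) ((C + 1) * ‖w - z‖) := by
    filter_upwards [h1, ev_diff hS hL hr] with j a1 a2
    rw [mem_closedBall_zero_iff]
    refine (convex_closedBall z r).norm_image_sub_le_of_norm_fderiv_le a2 (fun y hy => ?_)
      (mem_closedBall_self hr0) hw
    rw [← norm_pd]
    have h3 := a1 y hy
    rw [dist_comm, dist_eq_norm] at h3
    linarith [norm_le_insert' (pd (u j) y) (P y), hC y hy]
  obtain ⟨c, -, hc⟩ := (isCompact_closedBall (0 : ℝ) ((C + 1) * ‖w - z‖)).ultrafilter_le_nhds'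
    ((hyperfilter ℕ).map fun j => u j w - u j z) h2
  exact ⟨c, hc⟩

theorem rel (hS : Seq Ω K u Λ M R) (hL : Lim0 K u P) {z w : ℂ}
    (hw : w ∈ connectedComponentIn (limK K)ᶜ z) :
    ∃ c, Tendsto (fun j => u j w - u j z) (hyperfilter ℕ) (𝓝 c) := by
  have hz : z ∈ (limK K)ᶜ := connectedComponentIn_nonempty_iff.1 ⟨w, hw⟩
  refine isPreconnected_connectedComponentIn.induction₂
    (fun z w => ∃ c, Tendsto (fun j => u j w - u j z) (hyperfilter ℕ) (𝓝 c)) (fun x hx => ?_)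
    ?_ ?_ (mem_connectedComponentIn hz) hw
  · obtain ⟨r, hr0, hr⟩ := Metric.nhds_basis_closedBall.mem_iff.1
      (hL.cl.isOpen_compl.mem_nhds (connectedComponentIn_subset _ _ hx))
    filter_upwards [mem_nhdsWithin_of_mem_nhds (closedBall_mem_nhds x hr0)] with y hy
    exact rel_loc hS hL hr0.le hr hy
  · rintro x y t - - - ⟨c, hc⟩ ⟨c', hc'⟩
    exact ⟨c' + c, (hc'.add hc).congr fun j => sub_add_sub_cancel _ _ _⟩
  · rintro x y - - ⟨c, hc⟩
    exact ⟨-c, hc.neg.congr fun j => neg_sub _ _⟩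

theorem ex_val (hS : Seq Ω K u Λ M R) (hL : Lim0 K u P) : ∃ v : ℂ → ℝ,
    ∀ z w, w ∈ connectedComponentIn (limK K)ᶜ z →
      Tendsto (fun j => u j w - u j z) (hyperfilter ℕ) (𝓝 (v w - v z)) := by
  let ζ : Set ℂ → ℂ := fun C => Classical.epsilon (· ∈ C)
  have key : ∀ w ∈ (limK K)ᶜ, ∃ c, Tendsto
      (fun j => u j w - u j (ζ (connectedComponentIn (limK K)ᶜ w))) (hyperfilter ℕ) (𝓝 c) := by
    intro w hw
    have h1 : ζ (connectedComponentIn (limK K)ᶜ w) ∈ connectedComponentIn (limK K)ᶜ w :=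
      Classical.epsilon_spec (p := (· ∈ connectedComponentIn (limK K)ᶜ w))
        ⟨w, mem_connectedComponentIn hw⟩
    refine rel hS hL ?_
    rw [← connectedComponentIn_eq h1]
    exact mem_connectedComponentIn hw
  choose! v hv using key
  refine ⟨v, fun z w hw => ?_⟩
  have h1 := hv w (connectedComponentIn_subset _ _ hw)
  rw [← connectedComponentIn_eq hw] at h1
  exact (h1.sub (hv z (connectedComponentIn_nonempty_iff.1 ⟨w, hw⟩))).congr fun j =>
    sub_sub_sub_cancel_right _ _ _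

end Cpt1b

open Cpt1b in
theorem cpt1b_pf : Cpt1bStmt := by
  intro Ω K u Λ M R P hS hL
  obtain ⟨v, hv⟩ := ex_val hS hL
  have hO := hL.cl.isOpen_compl
  have hd : ∀ z ∈ (limK K)ᶜ, HasFDerivAt v (LL (P z)) z := by
    intro z hz
    obtain ⟨r, hr0, hr⟩ := Metric.nhds_basis_closedBall.mem_iff.1 (hO.mem_nhds hz)
    have h1 : TendstoUniformlyOnFilter (fun j y => LL (pd (u j) y)) (fun y => LL (P y))
        (hyperfilter ℕ) (𝓝 z) :=
      (LL.uniformContinuous.comp_tendstoUniformlyOn (hL.grad _ (isCompact_closedBall z r) hr)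
        ).tendstoUniformlyOnFilter.mono_right (le_principal_iff.2 (closedBall_mem_nhds z hr0))
    have h2 := hasFDerivAt_of_tendstoUniformlyOnFilter (f := fun j y => u j y - u j z)
      (g := fun y => v y - v z) h1 (by
        filter_upwards [(ev_diff hS hL hr).prod_mk (closedBall_mem_nhds z hr0)] with q hq
        rw [← fderiv_LL]
        exact (hq.1 _ hq.2).hasFDerivAt.sub_const _) (by
        filter_upwards [connectedComponentIn_mem_nhds (hO.mem_nhds hz)] with y hy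
        exact hv z y hy)
    exact (hasFDerivAt_sub_const_iff _).1 h2
  have hp : ∀ z ∈ (limK K)ᶜ, pd v z = P z := fun z hz =>
    pd_of_fderiv fun e => by rw [(hd z hz).fderiv, LL_apply]
  refine ⟨v, hL.cl, fun z hz => ?_, hL.far, fun C hC hCO => ?_, hv⟩
  · exact (contDiffAt_one_iff.2 ⟨fun y => LL (P y), _, hO.mem_nhds hz,
      LL.continuous.comp_continuousOn hL.cont, hd⟩).contDiffWithinAt
  · exact (hL.grad C hC hCO).congr_right fun z hz => (hp z (hCO hz)).symm

end Vale.Agent.P128
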