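import Vale.Agent.P128.Stm

open MeasureTheory Set Metric Filter Topology Complex
open scoped ENNReal ComplexConjugate Real

noncomputable section
namespace Vale.Agent.P128

namespace Cpt2a

variable {Ω K : ℕ → Set ℂ} {u : ℕ → ℂ → ℝ} {Λ M R : ℕ → ℝ}

theorem ev_sub (h : Seq Ω K u Λ M R) (x : ℂ) {r : ℝ} :
    ∀ᶠ j in hyperfilter ℕ, closedBall x r ⊆ Ω j ∧ Λ j * M j * r ≤ 1 := by
  have h1 := h.small.mul_const r
  rw [zero_mul] at h1
  refine Eventually.filter_mono Nat.hyperfilter_le_atTop (Eventually.and ?_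
    (h1.eventually (eventually_le_nhds one_pos)))
  exact (h.big.eventually_gt_atTop (r + dist x 0)).mono fun j hj =>
    (closedBall_subset_ball' hj).trans (h.sub j)

theorem ev_bd (hUp : UpStmt) (h : Seq Ω K u Λ M R) (x : ℂ) {r : ℝ} (hr : 0 ≤ r) :
    ∀ᶠ j in hyperfilter ℕ, En (u j) (closedBall x r) + len (K j) (closedBall x r) ≤ 4 * π * r :=
  (ev_sub h x).mono fun j hj => by
    have h1 := hUp _ _ _ _ _ (h.ms j) x r hr hj.1
    nlinarith [mul_le_mul_of_nonneg_left hj.2 (by positivity : 0 ≤ 2 * π * r)]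

/-- separated finite subsets -/
def Sep (S : Set ℂ) (s : ℝ) (Y : Finset ℂ) : Prop :=
  (Y : Set ℂ) ⊆ S ∧ (Y : Set ℂ).Pairwise fun a b => s ≤ dist a b

theorem cover {S : Set ℂ} {s C : ℝ} (hs : 0 < s) (h : ∀ Y, Sep S s Y → Y.card * s ≤ C) :
    ∃ Y, Sep S s Y ∧ S ⊆ ⋃ y : Y, closedBall (y : ℂ) s := by
  classical
  have hb : BddAbove {m | ∃ Y, Sep S s Y ∧ Y.card = m} := by
    refine ⟨⌈C / s⌉₊, ?_⟩
    rintro _ ⟨Y, hY, rfl⟩
    exact_mod_cast ((le_div_iff₀ hs).2 (h Y hY)).trans (Nat.le_ceil _)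
  obtain ⟨Y, hY, hm⟩ := Nat.sSup_mem (s := {m | ∃ Y, Sep S s Y ∧ Y.card = m})
    ⟨0, ∅, ⟨by simp, by simp⟩, rfl⟩ hb
  refine ⟨Y, hY, fun z hz => ?_⟩
  by_contra hn
  simp only [mem_iUnion, mem_closedBall, not_exists, not_le, Subtype.forall] at hn
  have h1 : z ∉ Y := fun h1 => by simpa [hs.not_gt] using hn z h1
  have h2 : Sep S s (insert z Y) := by
    refine ⟨by rw [Finset.coe_insert]; exact insert_subset hz hY.1, ?_⟩
    rw [Finset.coe_insert]
    exact hY.2.insert fun b hb _ => ⟨(hn b hb).le, dist_comm z b ▸ (hn b hb).le⟩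
  have h3 := le_csSup hb ⟨_, h2, rfl⟩
  rw [Finset.card_insert_of_notMem h1, ← hm] at h3
  omega

theorem fin_of_pack {S : Set ℂ} {C : ℝ}
    (h : ∀ s, 0 < s → s ≤ 1 → ∀ Y, Sep S s Y → Y.card * s ≤ C) : μH[1] S < ⊤ := by
  have hp : ∀ n : ℕ, 0 < 1 / (n + 1 : ℝ) := fun n => by positivity
  have h1 : ∀ n : ℕ, 1 / (n + 1 : ℝ) ≤ 1 := fun n =>
    (div_le_one (by positivity)).2 (by linarith [(Nat.cast_nonneg n : (0 : ℝ) ≤ n)])
  choose Y hY hc using fun n : ℕ => cover (hp n) (h _ (hp n) (h1 n))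
  have hd : ∀ (n : ℕ) (y : ℂ), ediam (closedBall y (1 / (n + 1 : ℝ))) ≤
      ENNReal.ofReal (2 * (1 / (n + 1 : ℝ))) := fun n y =>
    ediam_le_of_forall_dist_le fun a ha b hb => by
      linarith [dist_triangle_right a b y, mem_closedBall.1 ha, mem_closedBall.1 hb]
  have h2 : Tendsto (fun n : ℕ => ENNReal.ofReal (2 * (1 / (n + 1 : ℝ)))) atTop (𝓝 0) := by
    simpa using ENNReal.tendsto_ofReal
      ((tendsto_one_div_add_atTop_nhds_zero_nat (𝕜 := ℝ)).const_mul 2)
  refine ((Measure.hausdorffMeasure_le_liminf_sum 1 S _ h2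
    (fun n (y : Y n) => closedBall (y : ℂ) (1 / (n + 1 : ℝ)))
    (Eventually.of_forall fun n y => hd n y) (Eventually.of_forall hc)).trans
    (liminf_le_of_frequently_le' (Frequently.of_forall fun n => ?_))).trans_lt
    (ENNReal.ofReal_lt_top (r := 2 * C))
  simp only [ENNReal.rpow_one]
  refine (Finset.sum_le_card_nsmul _ _ _ fun (y : Y n) _ => hd n y).trans ?_
  rw [Finset.card_univ, Fintype.card_coe, ← ENNReal.ofReal_nsmul, nsmul_eq_mul]
  exact ENNReal.ofReal_le_ofReal (by linarith [h _ (hp n) (h1 n) _ (hY n)])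

theorem length (hDens : DensStmt) (hUp : UpStmt) (h : Seq Ω K u Λ M R) (x : ℂ) (r : ℝ) :
    μH[1] (limK K ∩ closedBall x r) < ⊤ := by
  obtain ⟨c, hc, hD⟩ := hDens
  refine fin_of_pack (C := 4 * (4 * π * (|r| + 1)) / c) fun s hs hs1 Y hY => ?_
  have h1 : ∀ᶠ j in hyperfilter ℕ, ∀ y ∈ Y, infDist y (K j) < s / 4 :=
    (eventually_all_finset Y).2 fun y hy =>
      Tendsto.eventually_lt_const (by positivity) (hY.1 hy).1
  obtain ⟨j, j1, ⟨j2, j3⟩, j4⟩ := (h1.and ((ev_sub h x (r := |r| + 1)).and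
    (ev_bd hUp h x (by positivity : 0 ≤ |r| + 1)))).exists
  choose! p hp hd using fun y hy => (infDist_lt_iff ⟨0, h.zero j⟩).1 (j1 y hy)
  have h2 : ∀ y ∈ Y, closedBall (p y) (s / 4) ⊆ closedBall x (|r| + 1) := fun y hy =>
    closedBall_subset_closedBall' (by
      linarith [dist_triangle_left (p y) x y, hd y hy, mem_closedBall.1 (hY.1 hy).2, le_abs_self r])
  have h3 : ∀ y ∈ Y, c * (s / 4) ≤ len (K j) (closedBall (p y) (s / 4)) := fun y hy =>
    hD _ _ _ _ _ (h.ms j) _ (hp y hy) _ (by positivity) ((h2 y hy).trans j2)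
      ((mul_le_mul_of_nonneg_left (by linarith [abs_nonneg r]) (h.ms j).a0).trans j3)
  have hf := ((h.ms j).fin x _ j2).ne
  have h4 := measureReal_biUnion_finset (μ := (μH[1] : Measure ℂ)) (s := Y)
    (f := fun y => K j ∩ closedBall (p y) (s / 4))
    (fun a ha b hb hab => (closedBall_disjoint_closedBall (by
      linarith [dist_triangle4 a (p a) (p b) b, hd a ha, hd b hb, hY.2 ha hb hab,
        dist_comm (p b) b])).mono inter_subset_right inter_subset_right)
    (fun y _ => (h.ms j).cl.measurableSet.inter measurableSet_closedBall)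
    fun y hy => ne_top_of_le_ne_top hf (measure_mono (inter_subset_inter_right _ (h2 y hy)))
  have h5 : (μH[1] : Measure ℂ).real (⋃ y ∈ Y, K j ∩ closedBall (p y) (s / 4)) ≤
      len (K j) (closedBall x (|r| + 1)) :=
    measureReal_mono (iUnion₂_subset fun y hy => inter_subset_inter_right _ (h2 y hy)) hf
  have h6 := Finset.card_nsmul_le_sum Y _ _ h3
  rw [h4] at h5
  rw [nsmul_eq_mul] at h6
  rw [le_div_iff₀ hc]
  have h7 := h6.trans h5
  linarith [En_nonneg (u j) (closedBall x (|r| + 1))]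

theorem energy {v : ℂ → ℝ} (h : Seq Ω K u Λ M R) (hv : Lim K u v) {x : ℂ} {r : ℝ} {C : Set ℂ}
    (hC : IsCompact C) (h1 : C ⊆ closedBall x r) (h2 : C ⊆ (limK K)ᶜ) :
    IntegrableOn (fun z => ‖pd v z‖ ^ 2) C ∧ ∀ ε, 0 < ε →
      ∀ᶠ j in hyperfilter ℕ, En v C ≤ En (u j) (closedBall x r) + ε := by
  have hc := (continuousOn_pd hv.cl.isOpen_compl hv.c1).mono h2
  have hi : IntegrableOn (fun z => ‖pd v z‖ ^ 2) C := (hc.norm.pow 2).integrableOn_compact hC
  obtain ⟨B, hB⟩ := hC.exists_bound_of_continuousOn hc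
  refine ⟨hi, fun ε hε => ?_⟩
  have hV : 0 ≤ volume.real C := measureReal_nonneg
  set δ := ε / (2 * |B| * volume.real C + 1) with hδ
  have hδ0 : 0 < δ := by positivity
  have h3 : volume.real C * (2 * |B| * δ) ≤ ε := by
    have h4 : δ * (2 * |B| * volume.real C + 1) = ε := div_mul_cancel₀ _ (by positivity)
    nlinarith
  filter_upwards [Metric.tendstoUniformlyOn_iff.1 (hv.grad C hC h2) δ hδ0, ev_sub h x (r := r)]
    with j j1 j2
  have hj := (h.ms j).int x r j2.1
  have hk : IntegrableOn (fun _ : ℂ => 2 * |B| * δ) C := integrableOn_const hC.measure_lt_top.ne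
  have h5 : En v C ≤ ∫ z in C, (‖pd (u j) z‖ ^ 2 + 2 * |B| * δ) := by
    refine setIntegral_mono_on hi ((hj.mono_set h1).add hk) hC.measurableSet fun z hz => ?_
    have a1 := (hB z hz).trans (le_abs_self B)
    have a2 := (norm_sub_norm_le (pd v z) (pd (u j) z)).trans
      ((dist_eq_norm _ _).symm.le.trans (j1 z hz).le)
    have a3 := norm_nonneg (pd v z)
    have a4 := norm_nonneg (pd (u j) z)
    rcases le_total ‖pd v z‖ ‖pd (u j) z‖ with a5 | a5
    · nlinarith [mul_nonneg (abs_nonneg B) hδ0.le]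
    · nlinarith
  rw [integral_add (hj.mono_set h1) hk, setIntegral_const, smul_eq_mul] at h5
  have h6 : ∫ z in C, ‖pd (u j) z‖ ^ 2 ≤ En (u j) (closedBall x r) := En_mono h1 hj
  linarith

end Cpt2a
open Cpt2a

theorem cpt2a_pf (hDens : DensStmt) (hUp : UpStmt) : Cpt2aStmt := by
  intro Ω K u Λ M R v h hv x r
  have hl := length hDens hUp h x r
  have h0 : (0 : ℂ) ∈ limK K := by
    simp only [limK, mem_setOf_eq, infDist_zero_of_mem (h.zero _)]
    exact tendsto_const_nhds
  set φ : ℕ → Set ℂ := fun n => closedBall x r ∩ {z | 1 / (n + 1 : ℝ) ≤ infDist z (limK K)} with hφ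
  have hc : ∀ n, IsCompact (φ n) := fun n => (isCompact_closedBall x r).inter_right
    (isClosed_le continuous_const (continuous_infDist_pt _))
  have hE := fun n => energy h hv (hc n) (x := x) (r := r) inter_subset_left fun z hz hz' => by
    have h1 : 1 / (n + 1 : ℝ) ≤ infDist z (limK K) := hz.2
    rw [infDist_zero_of_mem hz'] at h1
    exact h1.not_gt (by positivity)
  have hcov : AECover (volume.restrict (closedBall x r)) atTop φ := by
    refine ⟨(ae_restrict_iff' measurableSet_closedBall).2 ?_, fun n => (hc n).measurableSet⟩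
    filter_upwards [measure_eq_zero_iff_ae_notMem.1 (volume_null hl)] with z hz hz'
    have h1 := (hv.cl.notMem_iff_infDist_pos ⟨0, h0⟩).1 fun h2 => hz ⟨h2, hz'⟩
    exact ((tendsto_one_div_add_atTop_nhds_zero_nat (𝕜 := ℝ)).eventually
      (eventually_le_nhds h1)).mono fun n hn => ⟨hz', hn⟩
  have hr : ∀ n, (volume.restrict (closedBall x r)).restrict (φ n) = volume.restrict (φ n) :=
    fun n => Measure.restrict_restrict_of_subset inter_subset_left
  have hi : IntegrableOn (fun z => ‖pd v z‖ ^ 2) (closedBall x r) := by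
    refine hcov.integrable_of_integral_bounded_of_nonneg_ae (4 * π * |r| + 1)
      (fun n => ?_) (ae_of_all _ fun z => sq_nonneg _) (Eventually.of_forall fun n => ?_)
    · rw [IntegrableOn, hr]
      exact (hE n).1
    · rw [hr]
      obtain ⟨j, j1, j2, j3⟩ := (((hE n).2 1 one_pos).and ((ev_sub h x (r := |r|)).and
        (ev_bd hUp h x (abs_nonneg r)))).exists
      have h1 := En_mono (closedBall_subset_closedBall (le_abs_self r)) ((h.ms j).int x _ j2.1)
      have h2 : En v (φ n) ≤ 4 * π * |r| + 1 := by linarith [len_nonneg (K j) (closedBall x |r|)]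
      exact h2
  refine ⟨hl, hi, fun ε hε => ?_⟩
  obtain ⟨n, hn⟩ := ((hcov.integral_tendsto_of_countably_generated hi).eventually
    (eventually_ge_nhds (sub_lt_self _ (half_pos hε)))).exists
  rw [hr] at hn
  have h1 : En v (closedBall x r) - ε / 2 ≤ En v (φ n) := hn
  exact ((hE n).2 _ (half_pos hε)).mono fun j hj => by linarith

end Vale.Agent.P128
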