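import Vale.Agent.P128.Stm

open MeasureTheory Set Metric Filter Topology Complex
open scoped ENNReal ComplexConjugate Real

noncomputable section
namespace Vale.Agent.P128

namespace Cpt2b

variable {Ω K : ℕ → Set ℂ} {u : ℕ → ℂ → ℝ} {Λ M R : ℕ → ℝ} {v : ℂ → ℝ}

theorem hyp_le : (hyperfilter ℕ : Filter ℕ) ≤ atTop := by
  rw [← Nat.cofinite_eq_atTop]; exact hyperfilter_le_cofinite

theorem ev_sub (hS : Seq Ω K u Λ M R) (y : ℂ) (s : ℝ) :
    ∀ᶠ j in hyperfilter ℕ, closedBall y s ⊆ Ω j := by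
  filter_upwards [hyp_le (hS.big.eventually_gt_atTop (‖y‖ + s))] with j hj z hz
  apply hS.sub j
  rw [mem_closedBall, dist_eq_norm] at hz
  rw [mem_ball_zero_iff]
  have := norm_add_le (z - y) y
  rw [sub_add_cancel] at this
  linarith

theorem ev_small (hS : Seq Ω K u Λ M R) {c : ℝ} (hc : 0 < c) :
    ∀ᶠ j in hyperfilter ℕ, Λ j * M j ≤ c :=
  hyp_le (hS.small.eventually (eventually_le_nhds hc))

theorem amgm (a η : ℝ) (hη : 0 < η) : a ≤ η * a ^ 2 + 1 / (4 * η) := by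
  have h : η * a ^ 2 + 1 / (4 * η) - a = (2 * η * a - 1) ^ 2 / (4 * η) := by
    field_simp; ring
  have h2 : 0 ≤ (2 * η * a - 1) ^ 2 / (4 * η) := by positivity
  linarith

theorem vol_ball (y : ℂ) {s : ℝ} (hs : 0 ≤ s) : volume.real (closedBall y s) = π * s ^ 2 := by
  rw [Measure.real, Complex.volume_closedBall, ENNReal.toReal_mul, ENNReal.toReal_pow,
    ENNReal.toReal_ofReal hs]
  simp [mul_comm]

theorem int_norm {w : ℂ → ℝ} {y : ℂ} {s : ℝ}
    (h : IntegrableOn (fun z => ‖pd w z‖ ^ 2) (closedBall y s)) :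
    IntegrableOn (fun z => ‖pd w z‖) (closedBall y s) := by
  have h1 : IntegrableOn (fun _ : ℂ => (1 / (4 * 1) : ℝ)) (closedBall y s) :=
    integrableOn_const measure_closedBall_lt_top.ne
  refine Integrable.mono' ((h.const_mul 1).add h1)
    (measurable_pd w).norm.aestronglyMeasurable (Eventually.of_forall fun z => ?_)
  rw [norm_norm]
  exact amgm _ 1 one_pos

theorem ev_l1 (hUp : UpStmt) (hS : Seq Ω K u Λ M R) (hL : Lim K u v) (hE : LimE K u v) (y : ℂ)
    {s θ ε : ℝ} (hs : 0 ≤ s) (hθ : 0 < θ) (hε : 0 < ε) :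
    ∀ᶠ j in hyperfilter ℕ, ∫ z in closedBall y s, ‖pd (u j) z‖ ≤
      θ * En v (closedBall y s) + π * s ^ 2 / (4 * θ) + ε := by
  set B := closedBall y s with hB
  have hBf : volume B ≠ ⊤ := measure_closedBall_lt_top.ne
  obtain ⟨η, hη, hη1⟩ : ∃ η : ℝ, 0 < η ∧ η * (2 * π * s + 2 * π * s ^ 2) ≤ ε / 3 := by
    refine ⟨ε / 3 / (2 * π * s + 2 * π * s ^ 2 + 1), by positivity, ?_⟩
    rw [div_mul_eq_mul_div, div_le_iff₀ (by positivity)]
    exact mul_le_mul_of_nonneg_left (by linarith) (by positivity)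
  obtain ⟨τ, hτ, hτ1⟩ : ∃ τ : ℝ, 0 < τ ∧ τ * (π * s ^ 2) ≤ ε / 3 := by
    refine ⟨ε / 3 / (π * s ^ 2 + 1), by positivity, ?_⟩
    rw [div_mul_eq_mul_div, div_le_iff₀ (by positivity)]
    gcongr
    linarith
  have hm : MeasurableSet (B \ limK K) := measurableSet_closedBall.diff hL.cl.measurableSet
  obtain ⟨C, hC1, hC2, hC3⟩ := hm.exists_isCompact_sdiff_lt (μ := volume)
    (ne_top_of_le_ne_top hBf (measure_mono sdiff_subset))
    (ε := ENNReal.ofReal (4 * η * (ε / 3))) (by simp; positivity)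
  have hN : volume.real (B \ C) ≤ 4 * η * (ε / 3) := by
    have h0 := volume_null (hE y s).1
    have h1 : volume (B \ C) ≤ volume ((B \ limK K) \ C) + volume (limK K ∩ B) := by
      refine le_trans (measure_mono fun z hz => ?_) (measure_union_le _ _)
      by_cases hz' : z ∈ limK K
      · exact Or.inr ⟨hz', hz.1⟩
      · exact Or.inl ⟨⟨hz.1, hz'⟩, hz.2⟩
    rw [h0, add_zero] at h1
    exact ENNReal.toReal_le_of_le_ofReal (by positivity) (h1.trans hC3.le)
  have hg := Metric.tendstoUniformlyOn_iff.1 (hL.grad C hC2 fun z hz => (hC1 hz).2) τ hτ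
  filter_upwards [hg, ev_sub hS y s, ev_small hS one_pos] with j hj hsub hsm
  have hms := hS.ms j
  have hup := hUp _ _ _ _ _ hms y s hs hsub
  have hl := len_nonneg (K j) B
  have hEn : En (u j) B ≤ 2 * π * s + 2 * π * s ^ 2 := by
    have : 2 * π * (Λ j * M j) * s ^ 2 ≤ 2 * π * 1 * s ^ 2 := by gcongr
    linarith
  have hmN : MeasurableSet (B \ C) := measurableSet_closedBall.diff hC2.measurableSet
  have i1 : IntegrableOn (fun z => θ * ‖pd v z‖ ^ 2) B := (hE y s).2.1.const_mul θ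
  have i2 : IntegrableOn (fun _ : ℂ => (1 / (4 * θ) + τ : ℝ)) B := integrableOn_const hBf
  have i3 : IntegrableOn (fun z => η * ‖pd (u j) z‖ ^ 2) B := (hms.int y s hsub).const_mul η
  have i4 : IntegrableOn (indicator (B \ C) fun _ : ℂ => (1 / (4 * η) : ℝ)) B :=
    (integrableOn_const hBf).indicator hmN
  have key : ∫ z in B, ‖pd (u j) z‖ ≤ ∫ z in B, (θ * ‖pd v z‖ ^ 2 + (1 / (4 * θ) + τ) +
      η * ‖pd (u j) z‖ ^ 2 + indicator (B \ C) (fun _ : ℂ => (1 / (4 * η) : ℝ)) z) := by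
    refine setIntegral_mono_on (int_norm (hms.int y s hsub)) (((i1.add i2).add i3).add i4)
      measurableSet_closedBall fun z hz => ?_
    have a1 : 0 ≤ θ * ‖pd v z‖ ^ 2 := by positivity
    have a2 : 0 ≤ 1 / (4 * θ) := by positivity
    have a3 : 0 ≤ η * ‖pd (u j) z‖ ^ 2 := by positivity
    by_cases hzC : z ∈ C
    · rw [indicator_of_notMem fun h => h.2 hzC]
      have b1 := hj z hzC
      rw [dist_comm, dist_eq_norm] at b1
      have b2 := norm_add_le (pd (u j) z - pd v z) (pd v z)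
      rw [sub_add_cancel] at b2
      have b3 := amgm ‖pd v z‖ θ hθ
      linarith
    · rw [indicator_of_mem (show z ∈ B \ C from ⟨hz, hzC⟩)]
      have b3 := amgm ‖pd (u j) z‖ η hη
      linarith
  have i12 : IntegrableOn (fun z => θ * ‖pd v z‖ ^ 2 + (1 / (4 * θ) + τ)) B := i1.add i2
  have i123 : IntegrableOn (fun z => θ * ‖pd v z‖ ^ 2 + (1 / (4 * θ) + τ) +
      η * ‖pd (u j) z‖ ^ 2) B := i12.add i3
  rw [integral_add i123 i4, integral_add i12 i3, integral_add i1 i2,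
    integral_const_mul, integral_const_mul, setIntegral_const, setIntegral_indicator hmN,
    setIntegral_const, inter_eq_right.2 sdiff_subset, vol_ball y hs, smul_eq_mul,
    smul_eq_mul] at key
  have c1 : volume.real (B \ C) * (1 / (4 * η)) ≤ ε / 3 := by
    rw [mul_one_div, div_le_iff₀ (by positivity)]; linarith
  have c2 : η * En (u j) B ≤ ε / 3 := le_trans (by gcongr) hη1
  have c3 : π * s ^ 2 * (1 / (4 * θ) + τ) = π * s ^ 2 / (4 * θ) + τ * (π * s ^ 2) := by ring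
  unfold En at c2 ⊢
  linarith

theorem ev_dens (hLow : LowStmt) (hUp : UpStmt) (hS : Seq Ω K u Λ M R) (hL : Lim K u v)
    (hE : LimE K u v) {ε : ℝ} (hε : 0 < ε) (hε1 : ε ≤ 1) : ∃ δ, 0 < δ ∧ ∀ y ∈ limK K, ∀ s, 0 < s →
      En v (closedBall y s) ≤ δ * s →
      ∀ᶠ j in hyperfilter ℕ, (2 - 2 * ε) * s ≤ len (K j) (closedBall y s) := by
  obtain ⟨δ, hδ, hlow⟩ := hLow ε hε
  have hπ := Real.pi_pos
  refine ⟨δ ^ 2 / (64 * π), by positivity, fun y hy s hs hEn => ?_⟩
  have hq : 0 < √s := Real.sqrt_pos.2 hs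
  have hy' : ∀ᶠ j in hyperfilter ℕ, infDist y (K j) < ε * s / 4 :=
    Tendsto.eventually hy (eventually_lt_nhds (by positivity))
  filter_upwards [hy', ev_sub hS y s, ev_small hS (div_pos hδ hs),
    ev_l1 hUp hS hL hE y hs.le (θ := 4 * π / δ * √s) (ε := δ * s * √s / 8) (by positivity)
      (by positivity)] with j h1 h2 h3 h4
  obtain ⟨p, hp, hyp⟩ := (infDist_lt_iff ⟨0, hS.zero j⟩).1 h1
  have hms := hS.ms j
  have hs' : s / 2 ≤ (1 - ε / 4) * s := by nlinarith
  have hs'' : (1 - ε / 4) * s ≤ s := by nlinarith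
  have hsub : closedBall p ((1 - ε / 4) * s) ⊆ closedBall y s := by
    apply closedBall_subset_closedBall'
    rw [dist_comm]; linarith
  have h5 := hlow _ _ _ _ _ hms p hp ((1 - ε / 4) * s) (by linarith) (hsub.trans h2) ?_ ?_
  · refine le_trans ?_ (h5.trans (len_mono hsub (hms.fin y s h2)))
    nlinarith [mul_nonneg (sq_nonneg ε) hs.le, mul_pos hε hs]
  · rw [le_div_iff₀ hs] at h3
    exact le_trans (mul_le_mul_of_nonneg_left hs'' hms.a0) h3
  · refine le_trans (setIntegral_mono_set (int_norm (hms.int y s h2))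
      (Eventually.of_forall fun _ => norm_nonneg _) hsub.eventuallyLE) (h4.trans ?_)
    have e1 : 4 * π / δ * √s * En v (closedBall y s) ≤ δ * s * √s / 16 := by
      refine le_trans (mul_le_mul_of_nonneg_left hEn (by positivity)) (le_of_eq ?_)
      field_simp; ring
    have e2 : π * s ^ 2 / (4 * (4 * π / δ * √s)) = δ * s * √s / 16 := by
      have := Real.mul_self_sqrt hs.le
      field_simp
      nlinarith
    have e3 : √s / 2 ≤ √((1 - ε / 4) * s) := by
      apply Real.le_sqrt_of_sq_le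
      rw [div_pow, Real.sq_sqrt hs.le]; linarith
    have e4 : δ * (s / 2) * (√s / 2) ≤ δ * ((1 - ε / 4) * s) * √((1 - ε / 4) * s) := by
      have : 0 ≤ (1 - ε / 4) * s := by linarith
      gcongr
    linarith

theorem sum_len {L U : Set ℂ} (hL : IsClosed L) (hf : μH[1] (L ∩ U) < ⊤) (T : Finset ℂ)
    (r : ℂ → ℝ) (hsub : ∀ y ∈ T, closedBall y (r y) ⊆ U)
    (hd : (T : Set ℂ).PairwiseDisjoint fun y => closedBall y (r y)) :
    ∑ y ∈ T, len L (closedBall y (r y)) ≤ len L U := by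
  have h1 : μH[1] (⋃ y ∈ T, L ∩ closedBall y (r y)) =
      ∑ y ∈ T, μH[1] (L ∩ closedBall y (r y)) :=
    measure_biUnion_finset (hd.mono fun y => inter_subset_right)
      fun y _ => hL.measurableSet.inter measurableSet_closedBall
  unfold len
  rw [← ENNReal.toReal_sum fun y hy =>
    ne_top_of_le_ne_top hf.ne (measure_mono (inter_subset_inter_right _ (hsub y hy))), ← h1]
  exact ENNReal.toReal_mono hf.ne (measure_mono (iUnion₂_subset fun y hy =>
    inter_subset_inter_right _ (hsub y hy)))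

end Cpt2b

open Cpt2b in
theorem cpt2b_pf (hDz : DzStmt) (hLow : LowStmt) (hCov : CovStmt) (hUp : UpStmt)
    : Cpt2bStmt := by
  intro Ω K u Λ M R v hS hL hE x r ε hε
  have hl0 := len_nonneg (limK K) (ball x r)
  obtain ⟨ε₁, hε₁, hε₁1, hε₁2⟩ : ∃ ε₁ : ℝ, 0 < ε₁ ∧ ε₁ ≤ 1 ∧
      ε₁ * len (limK K) (ball x r) ≤ ε / 2 := by
    refine ⟨min 1 (ε / 2 / (len (limK K) (ball x r) + 1)), by positivity, min_le_left _ _, ?_⟩
    refine le_trans (mul_le_mul_of_nonneg_right (min_le_right _ _) hl0) ?_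
    rw [div_mul_eq_mul_div, div_le_iff₀ (by positivity)]
    gcongr
    linarith
  obtain ⟨δ, hδ, hd⟩ := ev_dens hLow hUp hS hL hE hε₁ hε₁1
  have hm : MeasurableSet (limK K ∩ ball x r) := hL.cl.measurableSet.inter measurableSet_ball
  have hf : μH[1] (limK K ∩ ball x r) < ⊤ :=
    lt_of_le_of_lt (measure_mono (inter_subset_inter_right _ ball_subset_closedBall)) (hE x r).1
  have hz := hDz _ (ball x r) (fun z => ‖pd v z‖ ^ 2) hm hf isOpen_ball inter_subset_right
    ((hE x r).2.1.mono_set ball_subset_closedBall) (fun _ => sq_nonneg _) δ hδ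
  rw [ae_restrict_iff' hm] at hz
  set E : Set ℂ := {y ∈ limK K ∩ ball x r |
    ∀ᶠ s in 𝓝[>] (0 : ℝ), En v (closedBall y s) ≤ δ * s} with hEdef
  have hEf : μH[1] E < ⊤ := lt_of_le_of_lt (measure_mono (sep_subset _ _)) hf
  have hle : len (limK K) (ball x r) ≤ (μH[1] E).toReal := by
    refine ENNReal.toReal_mono hEf.ne (measure_mono_ae ?_)
    filter_upwards [hz] with y hy h1
    exact ⟨h1, hy h1⟩
  obtain ⟨T, ρ, h1, h2, h3⟩ := hCov E (ball x r)
    (fun y => {s | ∀ᶠ j in hyperfilter ℕ, (2 - 2 * ε₁) * s ≤ len (K j) (closedBall y s)}) (ε / 2)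
    hEf isOpen_ball (fun y hy => hy.1.2) (by positivity) fun y hy η hη => by
      obtain ⟨s, hs1, hs2⟩ := (hy.2.and (Ioo_mem_nhdsGT hη)).exists
      exact ⟨s, hd y hy.1.1 s hs2.1 hs1, hs2⟩
  have h4 : ∀ᶠ j in hyperfilter ℕ, ∀ y ∈ T,
      (2 - 2 * ε₁) * ρ y ≤ len (K j) (closedBall y (ρ y)) :=
    (eventually_all_finset T).2 fun y hy => (h1 y hy).2.1
  filter_upwards [h4, ev_sub hS x r] with j hj hsub
  have hms := hS.ms j
  have h5 := sum_len hms.cl (lt_of_le_of_lt (measure_mono (inter_subset_inter_right _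
    ball_subset_closedBall)) (hms.fin x r hsub)) T ρ (fun y hy => (h1 y hy).2.2.2) h2
  have h6 : (1 - ε₁) * ∑ y ∈ T, 2 * ρ y ≤ len (K j) (ball x r) := by
    refine le_trans ?_ ((Finset.sum_le_sum hj).trans h5)
    rw [Finset.mul_sum]
    exact Finset.sum_le_sum fun y _ => le_of_eq (by ring)
  have h7 := mul_le_mul_of_nonneg_left (hle.trans h3) (sub_nonneg.2 hε₁1)
  nlinarith [mul_pos hε₁ hε]

end Vale.Agent.P128
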