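import Vale.Agent.P128.Stm

open MeasureTheory Set Metric Filter Topology Complex
open scoped ENNReal ComplexConjugate Real

noncomputable section
namespace Vale.Agent.P128

namespace Cpt3

/-- Lipschitz near a point -/
def LA (f : ℂ → ℝ) (z : ℂ) : Prop := ∃ C, ∃ t ∈ 𝓝 z, LipschitzOnWith C f t

theorem LA.congr {f g : ℂ → ℝ} {z : ℂ} (h : LA f z) (e : g =ᶠ[𝓝 z] f) : LA g z := by
  obtain ⟨C, t, ht, hl⟩ := h
  refine ⟨C, t ∩ {y | g y = f y}, inter_mem ht e, fun a ha b hb => ?_⟩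
  rw [show g a = f a from ha.2, show g b = f b from hb.2]
  exact hl ha.1 hb.1

theorem LA.add_const {f : ℂ → ℝ} {z : ℂ} (h : LA f z) (c : ℝ) : LA (fun y => f y + c) z := by
  obtain ⟨C, t, ht, hl⟩ := h
  exact ⟨C, t, ht, fun a ha b hb => by simpa only [edist_add_right] using hl ha hb⟩

theorem off {P : Finset ℂ} {δ : ℝ} {z : ℂ} (h1 : z ∉ ⋃ p ∈ P, sphere p δ)
    (h2 : z ∉ ⋃ p ∈ P, ball p δ) : ∀ᶠ y in 𝓝 z, y ∉ ⋃ p ∈ P, ball p δ := by
  have hc : IsClosed (⋃ p ∈ P, closedBall p δ) := isClosed_biUnion_finset fun _ _ => isClosed_closedBall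
  have hz : z ∉ ⋃ p ∈ P, closedBall p δ := fun h => by
    obtain ⟨p, hp, hz⟩ := mem_iUnion₂.1 h
    rcases (mem_closedBall.1 hz).lt_or_eq with h | h
    · exact h2 (mem_iUnion₂.2 ⟨p, hp, h⟩)
    · exact h1 (mem_iUnion₂.2 ⟨p, hp, h⟩)
  filter_upwards [hc.isOpen_compl.mem_nhds hz] with y hy h
  exact hy (iUnion₂_mono (fun _ _ => ball_subset_closedBall) h)

theorem sph (P : Finset ℂ) {δ : ℝ} (hδ : 0 ≤ δ) :
    μH[1] (⋃ p ∈ P, sphere p δ) ≤ ENNReal.ofReal (P.card * (2 * π * δ)) := by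
  refine (measure_biUnion_finset_le _ _).trans
    ((Finset.sum_le_sum fun p _ => sphere_length_le p hδ).trans (le_of_eq ?_))
  rw [Finset.sum_const, nsmul_eq_mul, ENNReal.ofReal_mul (Nat.cast_nonneg _),
    ENNReal.ofReal_natCast]

theorem pd_mix {φ w u : ℂ → ℝ} {z : ℂ} (hφ : DifferentiableAt ℝ φ z) (hw : DifferentiableAt ℝ w z)
    (hu : DifferentiableAt ℝ u z) : pd (fun y => φ y * w y + (1 - φ y) * u y) z =
      pd w z + ((1 - φ z : ℝ) * (pd u z - pd w z) + (w z - u z : ℝ) * pd φ z) := by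
  have h1 : pd (fun y => 1 - φ y) z = -pd φ z := by
    have := pd_const_mul (-1) φ z
    rw [← pd_add_const _ 1] at this
    simpa [sub_eq_neg_add] using this
  rw [pd_add (hφ.fun_mul hw) ((hφ.const_sub 1).fun_mul hu), pd_mul hφ hw,
    pd_mul (hφ.const_sub 1) hu, h1]
  push_cast
  ring

theorem glue {Ω K L : Set ℂ} {u w φ : ℂ → ℝ} {Λ M : ℝ} (h : IsMS Ω K u Λ M) {x : ℂ}
    {ρ' ρ δ η C : ℝ} {P : Finset ℂ} {b : ℂ → Set ℂ} (hδ : 0 < δ) (hρ : ρ' < ρ) (hη : 0 ≤ η)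
    (hΩ : closedBall x (ρ + δ) ⊆ Ω) (hP : ∀ p ∈ P, p ∈ sphere x ρ) (hφ : ContDiff ℝ 1 φ)
    (φ1 : ∀ z ∈ ball x ρ', φ z = 1) (φ0 : ∀ z ∉ closedBall x ρ, φ z = 0)
    (φb : ∀ z, |1 - φ z| ≤ 1) (φC : ∀ z, ‖pd φ z‖ ≤ C) (hL : IsClosed L)
    (hw : ∀ z ∉ L, LA w z) (hb : ∀ z ∉ L, ∀ᶠ y in 𝓝 z, b y = b z)
    (wi : IntegrableOn (fun z => ‖pd w z‖ ^ 2) (closedBall x ρ))
    (Lf : μH[1] (L ∩ closedBall x ρ) < ⊤)
    (hA : ∀ z ∈ closedBall x ρ, z ∉ ball x ρ' → z ∉ ⋃ p ∈ P, ball p δ → z ∉ K ∧ z ∉ L ∧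
      ContDiffAt ℝ 1 w z ∧ b z = connectedComponentIn (Ω \ K) z ∧ |w z - u z| ≤ η ∧
      ‖pd u z - pd w z‖ ≤ η) :
    En u (closedBall x ρ) + len K (closedBall x ρ) ≤
      (1 + (η + η * C)) * En w (closedBall x ρ) +
        ((η + η * C) + (η + η * C) ^ 2) * volume.real (closedBall x ρ) + len L (closedBall x ρ) +
        P.card * (2 * π * δ) + Λ * (2 * M * volume.real (closedBall x (ρ + δ))) := by
  classical
  have hS := sph P hδ.le
  have hoff := @off P δ
  have hDS : ∀ z ∉ closedBall x (ρ + δ), z ∉ ⋃ p ∈ P, ball p δ ∧ z ∉ ⋃ p ∈ P, sphere p δ := by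
    intro z hz
    have k : ∀ p ∈ P, ¬dist z p ≤ δ := fun p hp hd => hz (mem_closedBall.2 (by
      linarith [dist_triangle z p x, mem_sphere.1 (hP p hp)]))
    constructor <;> intro h' <;> obtain ⟨p, hp, hz⟩ := mem_iUnion₂.1 h'
    · exact k p hp (mem_ball.1 hz).le
    · exact k p hp (mem_sphere.1 hz).le
  have hD : IsOpen (⋃ p ∈ P, ball p δ) := isOpen_biUnion fun _ _ => isOpen_ball
  have hSc : IsClosed (⋃ p ∈ P, sphere p δ) := isClosed_biUnion_finset fun _ _ => isClosed_sphere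
  generalize ⋃ p ∈ P, ball p δ = D at hA hoff hDS hD
  generalize ⋃ p ∈ P, sphere p δ = S at hS hoff hDS hSc
  have hC : 0 ≤ C := (norm_nonneg _).trans (φC 0)
  obtain ⟨t, ht⟩ : ∃ t, t = η + η * C := ⟨_, rfl⟩
  have ht0 : 0 ≤ t := by rw [ht]; positivity
  rw [← ht]
  have hBB : closedBall x ρ ⊆ closedBall x (ρ + δ) := closedBall_subset_closedBall (by linarith)
  have hSf : μH[1] S < ⊤ := hS.trans_lt ENNReal.ofReal_lt_top
  have hS0 : ∀ᵐ z, z ∉ S := measure_eq_zero_iff_ae_notMem.1 (volume_null hSf)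
  obtain ⟨G, hG⟩ : ∃ G : ℂ → ℝ, G = fun y => φ y * w y + (1 - φ y) * u y := ⟨_, rfl⟩
  obtain ⟨W, hW⟩ : ∃ W : ℂ → ℝ, W = fun y => if y ∈ D then 0 else G y := ⟨_, rfl⟩
  have e0 : ∀ z ∈ D, W =ᶠ[𝓝 z] fun _ => 0 := fun z hz => by
    filter_upwards [hD.mem_nhds hz] with y hy
    rw [hW]
    exact if_pos hy
  have e1 : ∀ z ∉ S, z ∉ D → W =ᶠ[𝓝 z] G := fun z h1 h2 => by
    filter_upwards [hoff h1 h2] with y hy
    rw [hW]
    exact if_neg hy
  have g1 : ∀ z ∈ ball x ρ', G =ᶠ[𝓝 z] w := fun z hz => by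
    filter_upwards [isOpen_ball.mem_nhds hz] with y hy
    simp [hG, φ1 y hy]
  have g2 : ∀ z ∉ closedBall x ρ, G =ᶠ[𝓝 z] u := fun z hz => by
    filter_upwards [isClosed_closedBall.isOpen_compl.mem_nhds hz] with y hy
    simp [hG, φ0 y hy]
  have hu : ∀ z ∈ Ω, z ∉ K → ContDiffAt ℝ 1 u z := fun z h1 h2 =>
    h.c1.contDiffAt (h.isOpen.mem_nhds ⟨h1, h2⟩)
  have p1 : ∀ z ∉ S, z ∈ closedBall x ρ →
      ‖pd W z‖ ^ 2 ≤ (1 + t) * ‖pd w z‖ ^ 2 + (t + t ^ 2) := by
    intro z h1 h2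
    by_cases h3 : z ∈ D
    · rw [pd_congr (e0 z h3), pd_const, norm_zero, zero_pow two_ne_zero]
      positivity
    have k : ‖pd W z‖ ≤ ‖pd w z‖ + t := by
      rw [pd_congr (e1 z h1 h3)]
      by_cases h4 : z ∈ ball x ρ'
      · rw [pd_congr (g1 z h4)]
        linarith
      obtain ⟨a1, -, a3, -, a5, a6⟩ := hA z h2 h4 h3
      rw [hG, pd_mix (hφ.differentiable one_ne_zero z) (a3.differentiableAt one_ne_zero)
        ((hu z (hΩ (hBB h2)) a1).differentiableAt one_ne_zero), ht]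
      refine (norm_add_le _ _).trans (add_le_add le_rfl ((norm_add_le _ _).trans ?_))
      rw [norm_mul, norm_mul, norm_real, norm_real, Real.norm_eq_abs, Real.norm_eq_abs]
      exact add_le_add ((mul_le_mul (φb z) a6 (norm_nonneg _) zero_le_one).trans (one_mul η).le)
        (mul_le_mul a5 (φC z) (norm_nonneg _) hη)
    have := pow_le_pow_left₀ (norm_nonneg _) k 2
    nlinarith [mul_nonneg ht0 (sq_nonneg (‖pd w z‖ - 1))]
  have p2 : ∀ z ∉ S, z ∉ closedBall x ρ → ‖pd W z‖ ^ 2 ≤ ‖pd u z‖ ^ 2 := by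
    intro z h1 h2
    by_cases h3 : z ∈ D
    · rw [pd_congr (e0 z h3), pd_const, norm_zero, zero_pow two_ne_zero]
      positivity
    · rw [pd_congr ((e1 z h1 h3).trans (g2 z h2))]
  have hm : ∀ μ : Measure ℂ, AEStronglyMeasurable (fun z => ‖pd W z‖ ^ 2) μ := fun μ =>
    ((measurable_pd W).norm.pow_const 2).aestronglyMeasurable
  have mB := measurableSet_closedBall (x := x) (ε := ρ)
  have mR := (measurableSet_closedBall (x := x) (ε := ρ + δ)).diff mB
  have q1 : ∀ᵐ z ∂(volume.restrict (closedBall x ρ)),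
      ‖pd W z‖ ^ 2 ≤ (1 + t) * ‖pd w z‖ ^ 2 + (t + t ^ 2) :=
    (ae_restrict_iff' mB).2 (hS0.mono p1)
  have q2 : ∀ᵐ z ∂(volume.restrict (closedBall x (ρ + δ) \ closedBall x ρ)),
      ‖pd W z‖ ^ 2 ≤ ‖pd u z‖ ^ 2 :=
    (ae_restrict_iff' mR).2 (hS0.mono fun z h1 h2 => p2 z h1 h2.2)
  have ic : IntegrableOn (fun _ : ℂ => t + t ^ 2) (closedBall x ρ) :=
    integrableOn_const measure_closedBall_lt_top.ne
  have iu := h.int x _ hΩ
  have i1 : IntegrableOn (fun z => ‖pd W z‖ ^ 2) (closedBall x ρ) :=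
    ((wi.const_mul (1 + t)).add ic).mono' (hm _)
      (q1.mono fun z hz => by rwa [Real.norm_of_nonneg (sq_nonneg _)])
  have i2 : IntegrableOn (fun z => ‖pd W z‖ ^ 2) (closedBall x (ρ + δ) \ closedBall x ρ) :=
    Integrable.mono' (iu.mono_set sdiff_subset) (hm _)
      (q2.mono fun z hz => by rwa [Real.norm_of_nonneg (sq_nonneg _)])
  have i3 : IntegrableOn (fun z => ‖pd W z‖ ^ 2) (closedBall x (ρ + δ)) := by
    rw [← union_sdiff_cancel hBB]
    exact i1.union i2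
  have hsub : ((L ∩ closedBall x ρ) \ D ∪ K \ (ball x ρ ∪ D) ∪ S) ∩ closedBall x (ρ + δ) ⊆
      L ∩ closedBall x ρ ∪ (K ∩ closedBall x (ρ + δ)) \ closedBall x ρ ∪ S := by
    rintro z ⟨(hz | hz) | hz, hz'⟩
    · exact Or.inl (Or.inl hz.1)
    · refine Or.inl (Or.inr ⟨⟨hz.1, hz'⟩, fun h1 => ?_⟩)
      exact (hA z h1 (fun h2 => hz.2 (Or.inl (ball_subset_ball hρ.le h2)))
        fun h2 => hz.2 (Or.inr h2)).1 hz.1
    · exact Or.inr hz
  have Kf := h.fin x _ hΩ
  have hfin : μH[1] (L ∩ closedBall x ρ ∪ (K ∩ closedBall x (ρ + δ)) \ closedBall x ρ ∪ S) < ⊤ :=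
    measure_union_lt_top (measure_union_lt_top Lf ((measure_mono sdiff_subset).trans_lt Kf)) hSf
  have hno : ∀ z ∉ (L ∩ closedBall x ρ) \ D ∪ K \ (ball x ρ ∪ D) ∪ S, z ∉ D → z ∉ S ∧
      (z ∈ closedBall x ρ → z ∉ L) ∧ (z ∉ closedBall x ρ → z ∉ K) := fun z h1 h2 =>
    ⟨fun h3 => h1 (Or.inr h3), fun h3 h4 => h1 (Or.inl (Or.inl ⟨⟨h4, h3⟩, h2⟩)), fun h3 h4 =>
      h1 (Or.inl (Or.inr ⟨h4, fun h5 => h5.elim (fun h6 => h3 (ball_subset_closedBall h6)) h2⟩))⟩
  have hc : Comp Ω K u x (ρ + δ) ((L ∩ closedBall x ρ) \ D ∪ K \ (ball x ρ ∪ D) ∪ S) W := by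
    refine ⟨(((hL.inter isClosed_closedBall).sdiff hD).union
      (h.cl.sdiff (isOpen_ball.union hD))).union hSc, ?_, fun z _ h1 _ => ?_, fun z hz => ?_, i3,
      (measure_mono hsub).trans_lt hfin, fun z => if z ∈ D then ∅ else if z ∈ closedBall x ρ
        then b z else connectedComponentIn (Ω \ K) z, fun z hz => ?_, fun z _ h1 _ => ?_⟩
    · ext z
      constructor
      · rintro ⟨(hz | hz) | hz, hz'⟩
        · exact absurd (hBB hz.1.2) hz'
        · exact ⟨hz.1, hz'⟩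
        · exact absurd hz (hDS z hz').2
      · exact fun hz => ⟨Or.inl (Or.inr ⟨hz.1, fun h1 => h1.elim
          (fun h2 => hz.2 (hBB (ball_subset_closedBall h2))) (hDS z hz.2).1⟩), hz.2⟩
    · exact ((e1 z (hDS z h1).2 (hDS z h1).1).trans (g2 z fun h2 => h1 (hBB h2))).self_of_nhds
    · suffices k : LA W z by
        obtain ⟨C, t, ht, hl⟩ := k
        exact ⟨C, t, mem_nhdsWithin_of_mem_nhds ht, hl⟩
      by_cases h3 : z ∈ D
      · exact LA.congr (contDiffAt_const (𝕜 := ℝ) (n := 1)).exists_lipschitzOnWith (e0 z h3)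
      obtain ⟨a1, a2, a3⟩ := hno z hz.2 h3
      refine LA.congr ?_ (e1 z a1 h3)
      by_cases h4 : z ∈ closedBall x ρ
      · by_cases h5 : z ∈ ball x ρ'
        · exact (hw z (a2 h4)).congr (g1 z h5)
        · obtain ⟨b1, -, b3, -⟩ := hA z h4 h5 h3
          rw [hG]
          exact ((hφ.contDiffAt.mul b3).add ((contDiffAt_const.sub hφ.contDiffAt).mul
            (hu z hz.1 b1))).exists_lipschitzOnWith
      · exact LA.congr (hu z hz.1 (a3 h4)).exists_lipschitzOnWith (g2 z h4)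
    · by_cases h3 : z ∈ D
      · filter_upwards [hD.mem_nhds h3] with y hy
        rw [if_pos hy, if_pos h3]
      obtain ⟨a1, a2, a3⟩ := hno z hz.2 h3
      have cc : z ∉ K → ∀ᶠ y in 𝓝 z,
          connectedComponentIn (Ω \ K) y = connectedComponentIn (Ω \ K) z := fun hK => by
        filter_upwards [connectedComponentIn_mem_nhds (h.isOpen.mem_nhds ⟨hz.1, hK⟩)] with y hy
        exact (connectedComponentIn_eq hy).symm
      by_cases h4 : z ∈ closedBall x ρ
      · by_cases h5 : z ∈ ball x ρ'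
        · filter_upwards [hoff a1 h3, hb z (a2 h4), isOpen_ball.mem_nhds h5] with y y1 y2 y3
          rw [if_neg y1, if_neg h3, if_pos h4,
            if_pos (ball_subset_closedBall (ball_subset_ball hρ.le y3)), y2]
        · obtain ⟨b1, -, -, b4, -⟩ := hA z h4 h5 h3
          filter_upwards [hoff a1 h3, hb z (a2 h4), cc b1] with y y1 y2 y3
          rw [if_neg y1, if_neg h3, if_pos h4, y2, y3, b4, ite_self]
      · filter_upwards [hoff a1 h3, cc (a3 h4), isClosed_closedBall.isOpen_compl.mem_nhds h4]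
          with y y1 y2 y3
        rw [if_neg y1, if_neg h3, if_neg h4, if_neg y3, y2]
    · exact (if_neg (hDS z h1).1).trans (if_neg fun h2 => h1 (hBB h2))
  have k0 := h.min x _ _ _ hΩ hc
  have k1 : En W (closedBall x ρ) ≤
      (1 + t) * En w (closedBall x ρ) + (t + t ^ 2) * volume.real (closedBall x ρ) := by
    refine (integral_mono_ae i1 ((wi.const_mul (1 + t)).add ic) q1).trans
      ((integral_add (wi.const_mul (1 + t)) ic).trans ?_).le
    rw [integral_const_mul, setIntegral_const, smul_eq_mul, mul_comm (volume.real _), En]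
  have k2 : En W (closedBall x (ρ + δ)) - En W (closedBall x ρ) ≤
      En u (closedBall x (ρ + δ)) - En u (closedBall x ρ) := by
    have := integral_mono_ae i2 (iu.mono_set sdiff_subset) q2
    rwa [setIntegral_sdiff mB i3 hBB, setIntegral_sdiff mB iu hBB] at this
  have k3 := measureReal_inter_add_sdiff (μ := μH[1]) mB Kf.ne
  rw [inter_assoc, inter_eq_right.2 hBB] at k3
  have k4 := (measureReal_mono hsub hfin.ne).trans ((measureReal_union_le _ _).trans
    (add_le_add (measureReal_union_le _ _) (ENNReal.toReal_le_of_le_ofReal (by positivity) hS)))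
  have k5 : ∫ z in closedBall x (ρ + δ), min |W z - u z| (2 * M) ≤
      2 * M * volume.real (closedBall x (ρ + δ)) :=
    (le_abs_self _).trans (norm_setIntegral_le_of_norm_le_const measure_closedBall_lt_top
      fun z _ => (Real.norm_of_nonneg
        (le_min (abs_nonneg _) (mul_nonneg zero_le_two h.M0))).le.trans (min_le_right _ _))
  have k6 := mul_le_mul_of_nonneg_left k5 h.L0
  simp only [len, Measure.real] at k0 k3 k4 k6 k1 ⊢
  linarith

end Cpt3

theorem cpt3_pf (hCpt3a : Cpt3aStmt) : Cpt3Stmt := by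
  intro Ω K u Λ M R v hS hL hE x r L w hc ρ hρ hr hfin ε hε
  obtain ⟨P, hP⟩ := hfin.exists_finset_coe
  obtain ⟨δ, hδ, hδ'⟩ : ∃ δ : ℝ, 0 < δ ∧ P.card * (2 * π * δ) < ε / 3 := by
    have hc : Continuous fun δ : ℝ => P.card * (2 * π * δ) := by fun_prop
    have h1 : ∀ᶠ δ in 𝓝[>] (0 : ℝ), P.card * (2 * π * δ) < ε / 3 :=
      nhdsWithin_le_nhds (hc.continuousAt.eventually_lt continuousAt_const (by simpa using hε))
    exact (eventually_mem_nhdsWithin.and h1).exists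
  have hD : IsOpen (⋃ p ∈ P, ball p δ) := isOpen_biUnion fun _ _ => isOpen_ball
  obtain ⟨ρ', ⟨h0, h1⟩, hs⟩ := exists_pos_lt_subset_ball (x := x) hρ
    (((hL.cl.inter (isClosed_closedBall (x := x) (ε := ρ))).sdiff hD).union
      (isClosed_closedBall (x := x) (ε := r))) (by
      rintro z (hz | hz)
      · refine (mem_closedBall.1 hz.1.2).lt_of_ne fun h => hz.2 (mem_iUnion₂.2 ⟨z, ?_, ?_⟩)
        · rw [← Finset.mem_coe, hP]
          exact ⟨hz.1.1, h⟩
        · exact mem_ball_self hδ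
      · exact closedBall_subset_ball hr hz)
  let φ : ContDiffBump x := ⟨ρ', ρ, h0, h1⟩
  have hφ : ContDiff ℝ 1 φ := φ.contDiff
  obtain ⟨C, hC⟩ : ∃ C, ∀ z, ‖pd φ z‖ ≤ C := by
    simp only [norm_pd]
    exact (hφ.continuous_fderiv one_ne_zero).bounded_above_of_compact_support
      (φ.hasCompactSupport.fderiv ℝ)
  obtain ⟨η, hη, hη'⟩ : ∃ η : ℝ, 0 < η ∧ (η + η * C) * En w (closedBall x ρ) +
      ((η + η * C) + (η + η * C) ^ 2) * volume.real (closedBall x ρ) < ε / 3 := by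
    have hc : Continuous fun η : ℝ => (η + η * C) * En w (closedBall x ρ) +
      ((η + η * C) + (η + η * C) ^ 2) * volume.real (closedBall x ρ) := by fun_prop
    have h1 := nhdsWithin_le_nhds (s := Ioi 0) ((hc.continuousAt (x := 0)).eventually_lt
      (continuousAt_const (y := ε / 3)) (by simpa using hε))
    exact (eventually_mem_nhdsWithin.and h1).exists
  have hAc : IsCompact ((closedBall x ρ \ ball x ρ') \ ⋃ p ∈ P, ball p δ) :=
    ((isCompact_closedBall x ρ).diff isOpen_ball).diff hD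
  have hAs : (closedBall x ρ \ ball x ρ') \ (⋃ p ∈ P, ball p δ) ⊆ (limK K)ᶜ :=
    fun z hz h => hz.1.2 (hs (Or.inl ⟨⟨h, hz.1.1⟩, hz.2⟩))
  obtain ⟨b, hb1, hb2⟩ := hc.lab
  have hwv : ∀ z ∉ closedBall x r, z ∉ limK K → w =ᶠ[𝓝 z] v := fun z z1 z2 => by
    filter_upwards [isClosed_closedBall.isOpen_compl.mem_nhds z1, hL.cl.isOpen_compl.mem_nhds z2]
      with y y1 y2 using hc.eq y trivial y1 y2
  have Lf : μH[1] (L ∩ closedBall x ρ) < ⊤ := by
    refine (measure_mono fun z hz => ?_).trans_lt (measure_union_lt_top hc.fin (hE x ρ).1)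
    by_cases h : z ∈ closedBall x r
    · exact Or.inl ⟨hz.1, h⟩
    · exact Or.inr ⟨(hc.out.subset ⟨hz.1, h⟩).1, hz.2⟩
  have mB := measurableSet_closedBall (x := x) (ε := ρ)
  have wi : IntegrableOn (fun z => ‖pd w z‖ ^ 2) (closedBall x ρ) := by
    refine (hc.int.union (((hE x ρ).2.1.mono_set (sdiff_subset (t := closedBall x r))).congr_fun_ae
      ?_)).mono_set le_sup_sdiff
    refine (ae_restrict_iff' (mB.diff measurableSet_closedBall)).2 ?_
    filter_upwards [measure_eq_zero_iff_ae_notMem.1 (volume_null (hE x ρ).1)] with z z1 z2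
    rw [pd_congr (hwv z z2.2 fun h => z1 ⟨h, z2.1⟩)]
  have hsm : Tendsto (fun j => Λ j * M j * (2 * volume.real (closedBall x (ρ + δ)))) atTop (𝓝 0) := by
    simpa using hS.small.mul_const (2 * volume.real (closedBall x (ρ + δ)))
  obtain ⟨ζ, hζ⟩ : ∃ ζ : Set ℂ → ℂ, ∀ C : Set ℂ, C.Nonempty → ζ C ∈ C :=
    ⟨fun C => Classical.epsilon (· ∈ C), fun C hC => Classical.epsilon_spec hC⟩
  filter_upwards [hCpt3a Ω K u Λ M R v hS hL _ ζ hAc hAs hζ η hη,
    Metric.tendstoUniformlyOn_iff.1 (hL.grad _ hAc hAs) η hη,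
    Nat.hyperfilter_le_atTop (hS.big.eventually_gt_atTop (‖x‖ + (ρ + δ))),
    Nat.hyperfilter_le_atTop (hsm.eventually_lt_const (show 0 < ε / 3 by positivity))]
    with j j1 j2 j3 j4
  obtain ⟨W, hW⟩ : ∃ W : ℂ → ℝ, W = fun z => w z + (u j (ζ (b z)) - v (ζ (b z))) := ⟨_, rfl⟩
  have eW : ∀ z ∉ L, W =ᶠ[𝓝 z] fun y => w y + (u j (ζ (b z)) - v (ζ (b z))) := fun z hz => by
    filter_upwards [hb1 z ⟨trivial, hz⟩] with y hy
    rw [hW, ← hy]
  have pW : ∀ᵐ z ∂(volume.restrict (closedBall x ρ)), ‖pd w z‖ ^ 2 = ‖pd W z‖ ^ 2 := by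
    refine (ae_restrict_iff' mB).2 ?_
    filter_upwards [measure_eq_zero_iff_ae_notMem.1 (volume_null Lf)] with z z1 z2
    rw [pd_congr (eW z fun h => z1 ⟨h, z2⟩), pd_add_const]
  have k := Cpt3.glue (hS.ms j) (x := x) (P := P) (w := W) (φ := φ)
    (b := fun z => connectedComponentIn (Ω j \ K j) (ζ (b z))) hδ h1 hη.le
    (fun z hz => hS.sub j (mem_ball_zero_iff.2 (by
      have := norm_le_norm_add_norm_sub' z x
      rw [mem_closedBall_iff_norm] at hz
      linarith)))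
    (fun p hp => (hP.subset (Finset.mem_coe.2 hp)).2) hφ
    (fun z hz => φ.one_of_mem_closedBall (ball_subset_closedBall hz))
    (fun z hz => φ.zero_of_le_dist (not_le.1 hz).le)
    (fun z => abs_le.2 ⟨by linarith [φ.le_one (x := z)], by linarith [φ.nonneg (x := z)]⟩) hC hc.cl
    (fun z hz => by
      obtain ⟨C, t, ht, hl⟩ := hc.lip ⟨trivial, hz⟩
      rw [(isOpen_univ.sdiff hc.cl).nhdsWithin_eq ⟨trivial, hz⟩] at ht
      exact (Cpt3.LA.add_const ⟨C, t, ht, hl⟩ _).congr (eW z hz))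
    (fun z hz => (hb1 z ⟨trivial, hz⟩).mono fun y hy => by rw [hy]) (wi.congr_fun_ae pW) Lf
    fun z z1 z2 z3 => by
      have zA : z ∈ (closedBall x ρ \ ball x ρ') \ ⋃ p ∈ P, ball p δ := ⟨⟨z1, z2⟩, z3⟩
      have zr : z ∉ closedBall x r := fun h => z2 (hs (Or.inr h))
      have zK := hAs zA
      have zL : z ∉ L := fun h => zK (hc.out.subset ⟨h, zr⟩).1
      have bz := hb2 z trivial zr zK
      rw [← compl_eq_univ_sdiff] at bz
      obtain ⟨c1, c2⟩ := j1 z zA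
      rw [← bz] at c1 c2
      have e := hwv z zr zK
      refine ⟨(connectedComponentIn_subset _ _ c1).2, zL, ?_, connectedComponentIn_eq c1, ?_, ?_⟩
      · refine ContDiffAt.congr_of_eventuallyEq ?_ (eW z zL)
        exact ((hL.c1.contDiffAt (hL.cl.isOpen_compl.mem_nhds zK)).congr_of_eventuallyEq e).add
          contDiffAt_const
      · rw [hW, abs_sub_comm]
        refine le_of_eq_of_le (congrArg _ ?_) c2
        simp only [e.self_of_nhds]
        ring
      · rw [pd_congr (eW z zL), pd_add_const, pd_congr e, ← dist_eq_norm, dist_comm]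
        exact (j2 z zA).le
  rw [show En W (closedBall x ρ) = En w (closedBall x ρ) from (integral_congr_ae pW).symm] at k
  linarith

end Vale.Agent.P128
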