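import Vale.Agent.P128.Stm

open MeasureTheory Set Metric Filter Topology Complex
open scoped ENNReal ComplexConjugate Real

noncomputable section
namespace Vale.Agent.P128

namespace Cpt3a

theorem ev_sub {Ω K : ℕ → Set ℂ} {u : ℕ → ℂ → ℝ} {Λ M R : ℕ → ℝ} {v : ℂ → ℝ}
    (hS : Seq Ω K u Λ M R) (hL : Lim K u v) {D : Set ℂ} (hD : IsCompact D)
    (hDO : D ⊆ (limK K)ᶜ) : ∀ᶠ j in hyperfilter ℕ, D ⊆ Ω j \ K j := by
  obtain ⟨ρ, hρ⟩ := hD.isBounded.subset_ball (0 : ℂ)
  have h1 : ∀ᶠ j in hyperfilter ℕ, ρ ≤ R j :=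
    (hS.big.eventually_ge_atTop ρ).filter_mono
      (by rw [← Nat.cofinite_eq_atTop]; exact hyperfilter_le_cofinite)
  filter_upwards [h1, hL.far D hD hDO] with j hj hd z hz
  exact ⟨hS.sub j (ball_subset_ball hj (hρ hz)), fun hk => disjoint_left.1 hd hz hk⟩

theorem norm_fderiv_sub {f g : ℂ → ℝ} {z : ℂ} (hf : DifferentiableAt ℝ f z)
    (hg : DifferentiableAt ℝ g z) :
    ‖fderiv ℝ (fun y => f y - g y) z‖ ≤ ‖pd f z - pd g z‖ := by
  refine ContinuousLinearMap.opNorm_le_bound _ (norm_nonneg _) fun e => ?_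
  rw [fderiv_fun_sub hf hg, ContinuousLinearMap.sub_apply, fderiv_eq_pd, fderiv_eq_pd,
    ← Complex.sub_re, ← sub_mul, ← norm_mul]
  exact Complex.abs_re_le_norm _

theorem loc {Ω K : ℕ → Set ℂ} {u : ℕ → ℂ → ℝ} {Λ M R : ℕ → ℝ} {v : ℂ → ℝ}
    (hS : Seq Ω K u Λ M R) (hL : Lim K u v) (ζ : Set ℂ → ℂ)
    (hζ : ∀ C : Set ℂ, C.Nonempty → ζ C ∈ C) {ε : ℝ} (hε : 0 < ε) {a : ℂ} (ha : a ∈ (limK K)ᶜ) :
    ∃ r, 0 < r ∧ ∀ᶠ j in hyperfilter ℕ, ∀ z ∈ closedBall a r,
      z ∈ connectedComponentIn (Ω j \ K j) (ζ (connectedComponentIn (limK K)ᶜ z)) ∧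
      |u j z - u j (ζ (connectedComponentIn (limK K)ᶜ z)) -
        (v z - v (ζ (connectedComponentIn (limK K)ᶜ z)))| ≤ ε := by
  have hO : IsOpen (limK K)ᶜ := hL.cl.isOpen_compl
  obtain ⟨r, hr, hB⟩ := nhds_basis_closedBall.mem_iff.1 (hO.mem_nhds ha)
  set C := connectedComponentIn (limK K)ᶜ a with hC
  have haC : a ∈ C := mem_connectedComponentIn ha
  have hCO : C ⊆ (limK K)ᶜ := connectedComponentIn_subset _ _
  have hBC : closedBall a r ⊆ C :=
    (convex_closedBall a r).isPreconnected.subset_connectedComponentIn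
      (mem_closedBall_self hr.le) hB
  have hCz : ∀ z ∈ closedBall a r, connectedComponentIn (limK K)ᶜ z = C := fun z hz =>
    (connectedComponentIn_eq (hBC hz)).symm
  have hbC : ζ C ∈ C := hζ C ⟨a, haC⟩
  have hpc : IsPathConnected C :=
    (hO.connectedComponentIn (x := a)).isConnected_iff_isPathConnected.1
      ⟨⟨a, haC⟩, isPreconnected_connectedComponentIn⟩
  obtain ⟨γ, hγ⟩ := hpc.joinedIn (ζ C) hbC a haC
  have hDc : IsCompact (range γ ∪ closedBall a r) :=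
    (isCompact_range γ.continuous).union (isCompact_closedBall a r)
  have hDp : IsPreconnected (range γ ∪ closedBall a r) :=
    IsPreconnected.union a ⟨1, γ.target⟩ (mem_closedBall_self hr.le)
      (isPreconnected_range γ.continuous) (convex_closedBall a r).isPreconnected
  have hDO : range γ ∪ closedBall a r ⊆ (limK K)ᶜ := by
    rintro z (⟨t, rfl⟩ | hz)
    · exact hCO (hγ t)
    · exact hB hz
  have hval := hL.val (ζ C) a (by rw [← connectedComponentIn_eq hbC]; exact haC)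
  have hval' := Metric.tendsto_nhds.1 hval (ε / 2) (half_pos hε)
  have hgr := Metric.tendstoUniformlyOn_iff.1 (hL.grad _ (isCompact_closedBall a r) hB)
    (ε / 2 / r) (by positivity)
  refine ⟨r, hr, ?_⟩
  filter_upwards [ev_sub hS hL hDc hDO, hval', hgr] with j hj h1 h2 z hz
  rw [hCz z hz]
  refine ⟨hDp.subset_connectedComponentIn (Or.inl ⟨0, γ.source⟩) hj (Or.inr hz), ?_⟩
  have hu : ∀ y ∈ closedBall a r, DifferentiableAt ℝ (u j) y := fun y hy =>
    (hS.ms j).diff (hj (Or.inr hy))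
  have hv : ∀ y ∈ closedBall a r, DifferentiableAt ℝ v y := fun y hy =>
    (hL.c1.contDiffAt (hO.mem_nhds (hB hy))).differentiableAt one_ne_zero
  have h3 := (convex_closedBall a r).norm_image_sub_le_of_norm_fderiv_le (𝕜 := ℝ)
    (f := fun y => u j y - v y) (C := ε / 2 / r) (fun y hy => (hu y hy).sub (hv y hy))
    (fun y hy => (norm_fderiv_sub (hu y hy) (hv y hy)).trans (by
      have := h2 y hy
      rw [dist_comm, dist_eq_norm] at this
      exact this.le)) (mem_closedBall_self hr.le) hz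
  have h4 : ε / 2 / r * ‖z - a‖ ≤ ε / 2 := by
    have : ‖z - a‖ ≤ r := by simpa [dist_eq_norm] using hz
    calc ε / 2 / r * ‖z - a‖ ≤ ε / 2 / r * r := by gcongr
      _ = ε / 2 := by field_simp
  rw [Real.norm_eq_abs] at h3
  rw [Real.dist_eq] at h1
  have h5 := abs_le.1 (h3.trans h4)
  have h6 := abs_lt.1 h1
  rw [abs_le]
  constructor <;> linarith [h5.1, h5.2, h6.1, h6.2]

end Cpt3a

theorem cpt3a_pf : Cpt3aStmt := by
  intro Ω K u Λ M R v hS hL A ζ hA hAO hζ ε hε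
  refine hA.induction_on (p := fun S => ∀ᶠ j in hyperfilter ℕ, ∀ z ∈ S,
    z ∈ connectedComponentIn (Ω j \ K j) (ζ (connectedComponentIn (limK K)ᶜ z)) ∧
    |u j z - u j (ζ (connectedComponentIn (limK K)ᶜ z)) -
      (v z - v (ζ (connectedComponentIn (limK K)ᶜ z)))| ≤ ε) ?_ ?_ ?_ ?_
  · exact Eventually.of_forall fun j z hz => absurd hz (notMem_empty z)
  · intro s t hst ht
    exact ht.mono fun j hj z hz => hj z (hst hz)
  · intro s t hs ht
    filter_upwards [hs, ht] with j h1 h2 z hz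
    exact hz.elim (h1 z) (h2 z)
  · intro a ha
    obtain ⟨r, hr, h⟩ := Cpt3a.loc hS hL ζ hζ hε (hAO ha)
    exact ⟨closedBall a r, mem_nhdsWithin_of_mem_nhds (closedBall_mem_nhds a hr), h⟩

end Vale.Agent.P128
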