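import Vale.Agent.P128.Stm

open MeasureTheory Set Metric Filter Topology Complex
open scoped ENNReal ComplexConjugate Real

noncomputable section
namespace Vale.Agent.P128

namespace Curve

theorem upper {γ : ℝ → ℂ} {L : ℝ → ℝ} {a b : ℝ}
    (h : ∀ x ∈ Icc a b, ∀ y ∈ Icc a b, x ≤ y → ‖γ y - γ x‖ ≤ L y - L x) :
    μH[1] (γ '' Icc a b) ≤ ENNReal.ofReal (L b - L a) := by
  rcases lt_or_ge b a with hab | hab
  · simp [Icc_eq_empty_of_lt hab]
  have h1 : ∀ x ∈ Icc a b, ∀ y ∈ Icc a b, dist (γ x) (γ y) ≤ dist (L x) (L y) := by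
    intro x hx y hy
    rw [Real.dist_eq]
    rcases le_total x y with hxy | hxy
    · rw [dist_comm, dist_eq_norm, abs_sub_comm]
      exact (h x hx y hy hxy).trans (le_abs_self _)
    · rw [dist_eq_norm]
      exact (h y hy x hx hxy).trans (le_abs_self _)
  have h2 : LipschitzOnWith 1 (fun y => γ (Function.invFunOn L (Icc a b) y)) (L '' Icc a b) := by
    refine LipschitzOnWith.of_dist_le_mul fun x hx y hy => ?_
    have := h1 _ (Function.invFunOn_mem hx) _ (Function.invFunOn_mem hy)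
    rwa [Function.invFunOn_eq hx, Function.invFunOn_eq hy, ← one_mul (dist x y)] at this
  have h3 : γ '' Icc a b ⊆ (fun y => γ (Function.invFunOn L (Icc a b) y)) '' (L '' Icc a b) := by
    rintro _ ⟨x, hx, rfl⟩
    have hx' := mem_image_of_mem L hx
    have := h1 _ (Function.invFunOn_mem hx') _ hx
    rw [Function.invFunOn_eq hx', dist_self] at this
    exact ⟨L x, hx', dist_le_zero.1 this⟩
  have h4 : L '' Icc a b ⊆ Icc (L a) (L b) := by
    rintro _ ⟨x, hx, rfl⟩
    exact ⟨sub_nonneg.1 ((norm_nonneg _).trans (h a (left_mem_Icc.2 hab) x hx hx.1)),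
      sub_nonneg.1 ((norm_nonneg _).trans (h x hx b (right_mem_Icc.2 hab) hx.2))⟩
  have h5 := h2.hausdorffMeasure_image_le zero_le_one
  rw [ENNReal.coe_one, ENNReal.one_rpow, one_mul, hausdorffMeasure_real] at h5
  exact (measure_mono h3).trans (h5.trans ((measure_mono h4).trans Real.volume_Icc.le))

theorem chord {γ : ℝ → ℂ} {a b : ℝ} (hab : a ≤ b) (h : ContinuousOn γ (Icc a b)) :
    ENNReal.ofReal ‖γ b - γ a‖ ≤ μH[1] (γ '' Ioc a b) := by
  have h1 := (LipschitzWith.dist_left (γ a)).hausdorffMeasure_image_le zero_le_one (γ '' Ioc a b)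
  rw [ENNReal.coe_one, ENNReal.one_rpow, one_mul, hausdorffMeasure_real, image_image] at h1
  have h2 := intermediate_value_Ioc (f := fun x => dist (γ x) (γ a)) hab
    ((LipschitzWith.dist_left (γ a)).continuous.comp_continuousOn h)
  rw [dist_self, dist_eq_norm] at h2
  refine le_trans ?_ ((measure_mono h2).trans h1)
  rw [Real.volume_Ioc, sub_zero]

theorem lower {γ γ' : ℝ → ℂ} {L : ℝ → ℝ} {s t : ℝ} (hst : s ≤ t)
    (hγ : ∀ x ∈ Icc s t, HasDerivAt γ (γ' x) x) (hL : ∀ x ∈ Icc s t, HasDerivAt L ‖γ' x‖ x)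
    (h : ∀ x ∈ Icc s t, ∀ y ∈ Icc s t, x ≤ y → ‖γ y - γ x‖ ≤ L y - L x) (hi : InjOn γ (Icc s t)) :
    ENNReal.ofReal (L t - L s) ≤ μH[1] (γ '' Icc s t) := by
  have cγ : ContinuousOn γ (Icc s t) := fun x hx => (hγ x hx).continuousAt.continuousWithinAt
  have cL : ContinuousOn L (Icc s t) := fun x hx => (hL x hx).continuousAt.continuousWithinAt
  have up : ∀ a ∈ Icc s t, ∀ b ∈ Icc s t, μH[1] (γ '' Icc a b) ≤ ENNReal.ofReal (L b - L a) :=
    fun a ha b hb => upper fun x hx y hy =>
      h x (Icc_subset_Icc ha.1 hb.2 hx) y (Icc_subset_Icc ha.1 hb.2 hy)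
  have fin : ∀ b ∈ Icc s t, μH[1] (γ '' Icc s b) ≠ ⊤ := fun b hb =>
    ((up s (left_mem_Icc.2 hst) b hb).trans_lt ENNReal.ofReal_lt_top).ne
  set F : ℝ → ℝ := fun b => (μH[1] (γ '' Icc s b)).toReal with hF
  have key : ∀ a ∈ Icc s t, ∀ b ∈ Icc s t, a ≤ b →
      ‖γ b - γ a‖ ≤ F b - F a ∧ F b - F a ≤ L b - L a := by
    intro a ha b hb hab
    have e : μH[1] (γ '' Icc s b) = μH[1] (γ '' Icc s a) + μH[1] (γ '' Ioc a b) := by
      rw [← Icc_union_Ioc_eq_Icc ha.1 hab, image_union]
      refine measure_union' ?_ (isCompact_Icc.image_of_continuousOn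
        (cγ.mono (Icc_subset_Icc_right ha.2))).measurableSet
      refine disjoint_left.2 ?_
      rintro _ ⟨x, hx, rfl⟩ ⟨y, hy, e⟩
      have := hi ⟨ha.1.trans hy.1.le, hy.2.trans hb.2⟩ ⟨hx.1, hx.2.trans ha.2⟩ e
      linarith [hx.2, hy.1]
    have u := (measure_mono (image_mono Ioc_subset_Icc_self)).trans (up a ha b hb)
    have f2 := (u.trans_lt ENNReal.ofReal_lt_top).ne
    have e' : F b - F a = (μH[1] (γ '' Ioc a b)).toReal := by
      simp only [hF]
      rw [e, ENNReal.toReal_add (fin a ha) f2, add_sub_cancel_left]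
    rw [e']
    exact ⟨(ENNReal.ofReal_le_iff_le_toReal f2).1 (chord hab (cγ.mono (Icc_subset_Icc ha.1 hb.2))),
      ENNReal.toReal_le_of_le_ofReal ((norm_nonneg _).trans (h a ha b hb hab)) u⟩
  have cF : ContinuousOn F (Icc s t) := by
    intro x hx
    rw [ContinuousWithinAt, tendsto_iff_dist_tendsto_zero]
    refine squeeze_zero' (Eventually.of_forall fun _ => dist_nonneg) ?_
      (tendsto_iff_dist_tendsto_zero.1 (cL x hx))
    filter_upwards [self_mem_nhdsWithin] with y hy
    rw [Real.dist_eq, Real.dist_eq]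
    rcases le_total x y with hxy | hxy
    · have := key x hx y hy hxy
      exact abs_le_abs this.2 (by linarith [this.1, this.2, norm_nonneg (γ y - γ x)])
    · have := key y hy x hx hxy
      rw [abs_sub_comm, abs_sub_comm (L y)]
      exact abs_le_abs this.2 (by linarith [this.1, this.2, norm_nonneg (γ x - γ y)])
  have main := image_le_of_liminf_slope_right_le_deriv_boundary (f := fun x => -F x) cF.neg
    (B := fun x => L s - L x) (B' := fun x => -‖γ' x‖)
    (by simpa only [sub_self, neg_nonpos] using ENNReal.toReal_nonneg)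
    (continuousOn_const.sub cL)
    (fun x hx => ((hL x (Ico_subset_Icc_self hx)).const_sub _).hasDerivWithinAt)
    (fun x hx r hr => by
      have hx' := Ico_subset_Icc_self hx
      have h1 := ((hasDerivAt_iff_tendsto_slope.1 (hγ x hx')).mono_left
        (nhdsGT_le_nhdsNE x)).norm.neg
      refine Eventually.frequently ?_
      filter_upwards [h1.eventually_lt_const hr, Ioc_mem_nhdsGT hx.2] with z h2 hz
      refine lt_of_le_of_lt ?_ h2
      have h3 := (key x hx' z ⟨hx.1.trans hz.1.le, hz.2⟩ hz.1.le).1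
      have h4 := inv_pos.2 (sub_pos.2 hz.1)
      rw [slope_def_module, slope_def_module, norm_smul, Real.norm_of_nonneg h4.le, smul_eq_mul]
      nlinarith) (right_mem_Icc.2 hst)
  exact (ENNReal.ofReal_le_iff_le_toReal (fin t (right_mem_Icc.2 hst))).2
    (show L t - L s ≤ F t by linarith)

end Curve

open Curve in
theorem curve_pf : CurveStmt := by
  intro γ γ' s t hst hγ hc
  have c1 : Continuous fun x => ‖γ' (projIcc s t hst x)‖ :=
    (hc.comp_continuous (continuous_subtype_val.comp continuous_projIcc)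
      fun x => (projIcc s t hst x).2).norm
  have e : ∀ x ∈ Icc s t, ‖γ' (projIcc s t hst x)‖ = ‖γ' x‖ := fun x hx => by
    rw [projIcc_of_mem hst hx]
  set L : ℝ → ℝ := fun y => ∫ x in s..y, ‖γ' (projIcc s t hst x)‖ with hL
  have h1 : ∀ x ∈ Icc s t, ∀ y ∈ Icc s t, L y - L x = ∫ ρ in x..y, ‖γ' ρ‖ := by
    intro x hx y hy
    simp only [hL]
    rw [intervalIntegral.integral_interval_sub_left (c1.intervalIntegrable _ _)
      (c1.intervalIntegrable _ _)]
    exact intervalIntegral.integral_congr fun ρ hρ => e ρ (uIcc_subset_Icc hx hy hρ)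
  have h2 : ∀ x ∈ Icc s t, ∀ y ∈ Icc s t, x ≤ y → ‖γ y - γ x‖ ≤ L y - L x := by
    intro x hx y hy hxy
    rw [h1 x hx y hy, ← intervalIntegral.integral_eq_sub_of_hasDerivAt
      (fun ρ hρ => hγ ρ (uIcc_subset_Icc hx hy hρ))
      (hc.mono (uIcc_subset_Icc hx hy)).intervalIntegrable]
    exact intervalIntegral.norm_integral_le_integral_norm hxy
  rw [← h1 s (left_mem_Icc.2 hst) t (right_mem_Icc.2 hst)]
  exact ⟨upper h2, fun hi => le_antisymm (upper h2) (lower hst hγ
    (fun x hx => e x hx ▸ (c1.integral_hasStrictDerivAt s x).hasDerivAt) h2 hi)⟩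

end Vale.Agent.P128
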