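import Vale.Agent.P128.Stm

open MeasureTheory Set Metric Filter Topology Complex
open scoped ENNReal ComplexConjugate Real

noncomputable section
namespace Vale.Agent.P128

namespace Cut

theorem pre {F S : Set ℂ} {z₀ q : ℂ} (hS : IsPreconnected S) (h : S ⊆ F) (hq : q ∈ S)
    (hq' : q ∈ connectedComponentIn F z₀) : S ⊆ connectedComponentIn F z₀ := by
  rw [connectedComponentIn_eq hq']
  exact hS.subset_connectedComponentIn hq h

/-- going down from a point outside `K` and the component one meets `K` in the rectangle -/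
theorem down {K : Set ℂ} {z₀ p : ℂ} {a b c d m : ℝ}
    (hs : ∀ z : ℂ, (z.re ∈ Icc a b ∧ z.im = c) ∨ ((z.re = a ∨ z.re = b) ∧ z.im ∈ Icc c d) →
      z ∈ connectedComponentIn Kᶜ z₀) (hm : 0 ≤ m) (h1 : p.re ∈ Ioo a b) (h2 : p.im ∈ Ioc c d)
    (hK : p ∉ K) (hU : p ∉ connectedComponentIn Kᶜ z₀) :
    ∃ z ∈ K ∩ Ioo a b ×ℂ Ioo c d, z.re ≤ p.re ∧ z.re - m * z.im = p.re - m * p.im := by
  obtain ⟨s₀, h0, h3, h4, h5⟩ : ∃ s₀ : ℝ, 0 < s₀ ∧ s₀ ≤ p.im - c ∧ m * s₀ ≤ p.re - a ∧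
      (s₀ = p.im - c ∨ m * s₀ = p.re - a) := by
    rcases le_or_gt (m * (p.im - c)) (p.re - a) with h | h
    · exact ⟨_, sub_pos.2 h2.1, le_rfl, h, .inl rfl⟩
    · have h6 := sub_pos.2 h1.1
      have h7 : 0 < m := (pos_iff_pos_of_mul_pos (h6.trans h)).2 (sub_pos.2 h2.1)
      have e : m * ((p.re - a) / m) = p.re - a := by field_simp
      exact ⟨(p.re - a) / m, div_pos h6 h7, by rw [div_le_iff₀' h7]; exact h.le, e.le, .inr e⟩
  have hq : p - s₀ * (m + I) ∈ connectedComponentIn Kᶜ z₀ := by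
    have := mul_nonneg hm h0.le
    refine hs _ (h5.imp (fun h => ⟨⟨?_, ?_⟩, ?_⟩) fun h => ⟨.inl ?_, ?_, ?_⟩) <;> simp <;>
      linarith [h1.2, h2.2]
  by_contra hc
  refine hU (pre (S := (fun s : ℝ => p - s * (m + I)) '' Icc 0 s₀)
    (isPreconnected_Icc.image _ (by fun_prop)) ?_ ⟨s₀, right_mem_Icc.2 h0.le, rfl⟩ hq
    ⟨0, left_mem_Icc.2 h0.le, by simp⟩)
  rintro _ ⟨s, ⟨h6, h7⟩, rfl⟩ h8
  rcases h6.eq_or_lt with rfl | h6
  · exact hK (by simpa using h8)
  rcases h7.eq_or_lt with rfl | h7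
  · exact connectedComponentIn_subset _ _ hq h8
  have h9 := mul_nonneg hm h6.le
  have h10 : m * s < p.re - a := by
    rcases hm.eq_or_lt with rfl | hm
    · simpa using h1.1
    · exact (mul_lt_mul_of_pos_left h7 hm).trans_le h4
  refine hc ⟨_, ⟨h8, ⟨?_, ?_⟩, ?_, ?_⟩, ?_, ?_⟩ <;> simp <;> linarith [h1.2, h2.2]

theorem proj (m d : ℝ) (S : Set ℂ) : volume ((fun z : ℂ => z.re - m * z.im + m * d) '' S) ≤
    ENNReal.ofReal (1 + m ^ 2) * μH[1] S := by
  have h : LipschitzWith (1 + m ^ 2).toNNReal fun z : ℂ => z.re - m * z.im + m * d :=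
    LipschitzWith.of_dist_le' fun z w => by
      have e : z.re - m * z.im + m * d - (w.re - m * w.im + m * d) =
          (((1 : ℝ) + m * I) * (z - w)).re := by simp; ring
      rw [Real.dist_eq, dist_eq_norm, e]
      refine (abs_re_le_norm _).trans ?_
      rw [norm_mul, norm_add_mul_I]
      gcongr
      exact Real.sqrt_le_iff.2 ⟨by positivity, by nlinarith [sq_nonneg m]⟩
  have := h.hausdorffMeasure_image_le zero_le_one S
  rwa [hausdorffMeasure_real, ENNReal.rpow_one] at this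

theorem line (d : ℝ) {S : Set ℂ} (h : ∀ z ∈ S, z.im = d) :
    μH[1] S ≤ volume ((fun t : ℝ => (t : ℂ) + d * I) ⁻¹' S) := by
  have hi : Isometry fun t : ℝ => (t : ℂ) + d * I :=
    Isometry.of_dist_eq fun s t => by rw [dist_add_right, isometry_ofReal.dist_eq]
  rw [← hausdorffMeasure_real, ← hi.hausdorffMeasure_image (.inl zero_le_one)]
  exact measure_mono fun z hz => ⟨z.re, by rwa [mem_preimage, ← h z hz, re_add_im],
    by simp only [← h z hz, re_add_im]⟩

theorem anx (hAnx : AnxStmt) {K : Set ℂ} {u : ℂ → ℝ} (h : GM K u) {z₀ : ℂ} {a b c d : ℝ}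
    (h0 : ∀ z ∈ connectedComponentIn Kᶜ z₀, pd u z = 0) (hab : a < b) (hcd : c < d)
    (hs : ∀ z : ℂ, (z.re ∈ Icc a b ∧ z.im = c) ∨ ((z.re = a ∨ z.re = b) ∧ z.im ∈ Icc c d) →
      z ∈ connectedComponentIn Kᶜ z₀) :
    μH[1] (K ∩ Ioo a b ×ℂ Ioo c d) ≤ volume {t : ℝ | t ∈ Ioo a b ∧
      (t : ℂ) + d * I ∉ connectedComponentIn Kᶜ z₀ ∧ (t : ℂ) + d * I ∉ K} := by
  have hU : IsOpen (connectedComponentIn Kᶜ z₀) := h.cl.isOpen_compl.connectedComponentIn
  obtain ⟨k, hk⟩ := hU.exists_is_const_of_fderiv_eq_zero (𝕜 := ℝ) (f := u)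
    isPreconnected_connectedComponentIn (fun z hz => (h.diff
      ⟨trivial, connectedComponentIn_subset _ _ hz⟩).differentiableWithinAt)
    fun z hz => norm_eq_zero.1 (by rw [← norm_pd, h0 z hz, norm_zero])
  have hb : Bornology.IsBounded (Ioo a b ×ℂ Ioo c d) :=
    (isBounded_Ioo a b).reProdIm (isBounded_Ioo c d)
  have hf : frontier (Ioo a b ×ℂ Ioo c d) = Icc a b ×ℂ {c, d} ∪ {a, b} ×ℂ Icc c d := by
    rw [frontier_reProdIm, closure_Ioo hab.ne, closure_Ioo hcd.ne, frontier_Ioo hab,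
      frontier_Ioo hcd]
  have hJ : μH[1] (Icc a b ×ℂ {d} \ connectedComponentIn Kᶜ z₀) < ⊤ := by
    refine (line d fun z hz => hz.1.2).trans_lt
      ((measure_mono (t := Icc a b) fun t ht => ?_).trans_lt measure_Icc_lt_top)
    simpa using ht.1.1
  have e := hAnx K u h z₀ _ univ _ (fun _ => k) (isOpen_Ioo.reProdIm isOpen_Ioo) hb isOpen_univ
    (subset_univ _) (locLip_of_contDiffOn isOpen_univ contDiffOn_const)
    (fun z hz => (hk z hz.2).symm) ((isClosed_Icc.reProdIm isClosed_singleton).sdiff hU)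
    (fun z hz => hf ▸ .inl ⟨hz.1.1, .inr hz.1.2⟩) (fun z hz => by
      by_cases hz' : z ∈ connectedComponentIn Kᶜ z₀
      · exact .inl (.inl hz')
      rw [hf] at hz
      rcases hz with ⟨h1, h2 | h2⟩ | h1
      · exact (hz' (hs z (.inl ⟨h1, h2⟩))).elim
      · exact .inl (.inr ⟨⟨h1, h2⟩, hz'⟩)
      · exact (hz' (hs z (.inr h1))).elim) hJ
  obtain ⟨R, hR⟩ := hb.subset_closedBall 0
  have e0 : En (fun _ => k) (Ioo a b ×ℂ Ioo c d) = 0 := by simp [En, pd_const]
  rw [e0, add_zero] at e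
  refine ((ENNReal.toReal_le_toReal ((measure_mono (inter_subset_inter_right _ hR)).trans_lt
    (h.fin 0 R (subset_univ _))).ne ((measure_mono sdiff_subset).trans_lt hJ).ne).1
    ((le_add_of_nonneg_right (En_nonneg u _)).trans e)).trans
    ((line d fun z hz => hz.1.1.2).trans (measure_mono fun t ht => ⟨?_, ht.1.2, ht.2⟩))
  have h1 : t ∈ Icc a b := by simpa using ht.1.1.1
  have h2 : ¬ (t = a ∨ t = b) := fun h2 =>
    ht.1.2 (hs _ (.inr ⟨by simpa using h2, by simpa using hcd.le⟩))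
  exact ⟨h1.1.lt_of_ne fun h => h2 (.inl h.symm), h1.2.lt_of_ne fun h => h2 (.inr h)⟩

end Cut

theorem cut_pf (hAnx : AnxStmt) : CutStmt := by
  intro K u h z₀ a b c d h0 hab hcd hs z hz1 hz2 hz
  have e := Cut.anx hAnx h h0 hab hcd hs
  set E := K ∩ Ioo a b ×ℂ Ioo c d
  set A := {t : ℝ | t ∈ Ioo a b ∧
    (t : ℂ) + d * I ∉ connectedComponentIn Kᶜ z₀ ∧ (t : ℂ) + d * I ∉ K}
  obtain ⟨r, hr, hrQ⟩ := Metric.isOpen_iff.1 (isOpen_Ioo.reProdIm isOpen_Ioo) z ⟨hz1, hz2⟩
  obtain ⟨x, hx⟩ := nonempty_of_measure_ne_zero (((h.red z hz trivial r hr).trans_le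
    (measure_mono (inter_subset_inter_right _ hrQ))).trans_le e).ne'
  obtain ⟨ρ, hρ, hρK⟩ := Metric.isOpen_iff.1 h.cl.isOpen_compl _ hx.2.2
  have hA : volume A ≠ ⊤ := ((measure_mono fun t ht => ht.1).trans_lt measure_Ioo_lt_top).ne
  obtain ⟨α, hα, eα⟩ : ∃ α, 0 ≤ α ∧ volume A = ENNReal.ofReal α :=
    ⟨_, ENNReal.toReal_nonneg, (ENNReal.ofReal_toReal hA).symm⟩
  have hρ' : 0 < min ρ (d - c) := lt_min hρ (sub_pos.2 hcd)
  obtain ⟨m, hm, hm'⟩ : ∃ m, 0 < m ∧ m * α < min ρ (d - c) :=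
    ⟨min ρ (d - c) / (α + 1), by positivity, by
      rw [div_mul_eq_mul_div, div_lt_iff₀ (by positivity)]
      exact mul_lt_mul_of_pos_left (lt_add_one α) hρ'⟩
  have h2 : volume (A \ Iic x) ≤ μH[1] (E \ re ⁻¹' Iic x) := by
    refine (measure_mono fun t ht => ?_).trans ((Cut.proj 0 d (E \ re ⁻¹' Iic x)).trans (by simp))
    obtain ⟨w, hw, -, hw'⟩ := Cut.down (p := t + d * I) hs le_rfl (by simpa using ht.1.1)
      (by simpa using hcd) ht.1.2.2 ht.1.2.1
    have e1 : w.re = t := by simpa using hw'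
    exact ⟨w, ⟨hw, fun h => ht.2 (e1 ▸ h)⟩, by simpa using e1⟩
  have h1 : volume (A ∩ Iic x) + ENNReal.ofReal (m * min ρ (d - c)) ≤
      ENNReal.ofReal (1 + m ^ 2) * μH[1] (E ∩ re ⁻¹' Iic x) := by
    rw [← add_sub_cancel_left x (m * min ρ (d - c)), ← Real.volume_Ioo,
      ← measure_union (disjoint_left.2 fun t ht ht' => ht'.1.not_ge ht.2) measurableSet_Ioo]
    refine (measure_mono ?_).trans (Cut.proj m d _)
    rintro t (ht | ht)
    · obtain ⟨w, hw, h3, h4⟩ := Cut.down (p := t + d * I) hs hm.le (by simpa using ht.1.1)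
        (by simpa using hcd) ht.1.2.2 ht.1.2.1
      simp only [add_re, ofReal_re, mul_re, I_re, mul_zero, ofReal_im, I_im, mul_one, sub_self,
        add_zero, add_im, mul_im, zero_add] at h3 h4
      exact ⟨w, ⟨hw, h3.trans ht.2⟩, by linarith⟩
    · have h5 : 0 < (t - x) / m := div_pos (sub_pos.2 ht.1) hm
      have h6 : (t - x) / m < min ρ (d - c) := by
        rw [div_lt_iff₀' hm]
        linarith [ht.2]
      have h7 : (x : ℂ) + (d - (t - x) / m : ℝ) * I ∈ ball ((x : ℂ) + d * I) ρ := by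
        rw [mem_ball, dist_of_re_eq (by simp), Real.dist_eq]
        simp only [add_im, ofReal_im, mul_im, ofReal_re, I_im, mul_one, I_re, mul_zero, add_zero,
          zero_add, sub_sub_cancel_left, abs_neg, abs_of_pos h5]
        exact h6.trans_le (min_le_left _ _)
      obtain ⟨w, hw, h3, h4⟩ := Cut.down hs hm.le (by simpa using hx.1) (by
          simp only [add_im, ofReal_im, mul_im, ofReal_re, I_im, mul_one, I_re, mul_zero, add_zero,
            zero_add]
          exact ⟨by linarith [min_le_right ρ (d - c)], by linarith⟩) (hρK h7) fun h8 =>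
        hx.2.1 (Cut.pre (convex_ball _ _).isPreconnected hρK h7 h8 (mem_ball_self hρ))
      simp only [add_re, ofReal_re, mul_re, I_re, mul_zero, ofReal_im, I_im, mul_one, sub_self,
        add_zero, add_im, mul_im, zero_add] at h3 h4
      have h9 : m * ((t - x) / m) = t - x := by field_simp
      exact ⟨w, ⟨hw, h3⟩, by linarith⟩
  have h3 : volume A + ENNReal.ofReal (m * min ρ (d - c)) ≤
      ENNReal.ofReal (1 + m ^ 2) * volume A := by
    refine le_trans ?_ (mul_le_mul_right e _)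
    rw [← measure_inter_add_sdiff A measurableSet_Iic, add_right_comm,
      ← measure_inter_add_sdiff E (measurableSet_Iic.preimage measurable_re), mul_add]
    exact add_le_add h1 (h2.trans (le_mul_of_one_le_left zero_le
      (ENNReal.one_le_ofReal.2 (le_add_of_nonneg_right (sq_nonneg m)))))
  rw [eα, ← ENNReal.ofReal_add hα (by positivity), ← ENNReal.ofReal_mul (by positivity),
    ENNReal.ofReal_le_ofReal_iff (by positivity)] at h3
  nlinarith [mul_lt_mul_of_pos_left hm' hm]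

end Vale.Agent.P128
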