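import Vale.Agent.P128.Stm

/-! Smooth cutoff functions and Wirtinger calculus. -/

open MeasureTheory Set Metric Filter Topology Complex
open scoped ENNReal ComplexConjugate Real

noncomputable section
namespace Vale.Agent.P128

theorem exists_cut : ∃ C : ℝ, 0 ≤ C ∧ ∀ (x : ℂ) (R : ℝ), 0 < R → ∃ ζ : ℂ → ℝ,
    ContDiff ℝ (⊤ : ℕ∞) ζ ∧ HasCompactSupport ζ ∧ (∀ z, 0 ≤ ζ z ∧ ζ z ≤ 1) ∧
    (∀ z, ‖z - x‖ ≤ R → ζ z = 1) ∧ (∀ z, 2 * R ≤ ‖z - x‖ → ζ z = 0) ∧
    ∀ z, ‖fderiv ℝ ζ z‖ ≤ C / R := by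
  let b : ContDiffBump (0 : ℂ) := ⟨1, 2, one_pos, one_lt_two⟩
  have hb : ContDiff ℝ (⊤ : ℕ∞) b := b.contDiff
  obtain ⟨C, hC⟩ := ((hb.continuous_fderiv (by simp)).norm).bddAbove_range_of_hasCompactSupport
    (b.hasCompactSupport.fderiv ℝ).norm
  have hC' : ∀ z, ‖fderiv ℝ b z‖ ≤ C := fun z => hC ⟨z, rfl⟩
  refine ⟨C, (norm_nonneg _).trans (hC' 0), fun x R hR => ?_⟩
  have hn : ∀ z : ℂ, ‖R⁻¹ • (z - x)‖ = ‖z - x‖ / R := fun z => by
    rw [norm_smul, Real.norm_of_nonneg (by positivity), inv_mul_eq_div]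
  have h0 : ∀ z, 2 * R ≤ ‖z - x‖ → b (R⁻¹ • (z - x)) = 0 := fun z hz => b.zero_of_le_dist (by
    rw [dist_zero_right, hn]; exact (le_div_iff₀ hR).2 hz)
  refine ⟨fun z => b (R⁻¹ • (z - x)), hb.comp (by fun_prop), ?_, fun z => ⟨b.nonneg, b.le_one⟩,
    fun z hz => b.one_of_mem_closedBall ?_, h0, fun z => ?_⟩
  · refine HasCompactSupport.intro (isCompact_closedBall x (2 * R)) fun z hz => h0 z ?_
    rw [mem_closedBall, dist_eq_norm] at hz
    exact (not_le.1 hz).le
  · rw [mem_closedBall, dist_zero_right, hn]; exact (div_le_one hR).2 hz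
  · have h1 : HasFDerivAt (fun z : ℂ => R⁻¹ • (z - x)) (R⁻¹ • ContinuousLinearMap.id ℝ ℂ) z :=
      ((hasFDerivAt_id z).sub_const x).const_smul R⁻¹
    have h2 := ((hb.differentiable (by simp)) (R⁻¹ • (z - x))).hasFDerivAt.comp z h1
    rw [show (fun z => b (R⁻¹ • (z - x))) = b ∘ fun z : ℂ => R⁻¹ • (z - x) from rfl, h2.fderiv]
    refine (ContinuousLinearMap.opNorm_comp_le _ _).trans ?_
    rw [norm_smul, ContinuousLinearMap.norm_id, mul_one, Real.norm_of_nonneg (by positivity),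
      div_eq_mul_inv]
    exact mul_le_mul_of_nonneg_right (hC' _) (by positivity)

theorem dz_db_congr {f g : ℂ → ℂ} {z : ℂ} (h : f =ᶠ[𝓝 z] g) :
    dz f z = dz g z ∧ db f z = db g z := by
  simp only [dz, db, h.fderiv_eq, and_self]

theorem dz_db_const (c z : ℂ) : dz (fun _ => c) z = 0 ∧ db (fun _ => c) z = 0 := by
  simp [dz, db]

theorem dz_db_add {f g : ℂ → ℂ} {z : ℂ} (hf : DifferentiableAt ℝ f z)
    (hg : DifferentiableAt ℝ g z) : dz (fun w => f w + g w) z = dz f z + dz g z ∧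
      db (fun w => f w + g w) z = db f z + db g z := by
  apply dz_db_of_fderiv; intro e
  rw [fderiv_fun_add hf hg, add_apply, fderiv_eq_dz_db, fderiv_eq_dz_db]; ring

theorem dz_db_mul {f g : ℂ → ℂ} {z : ℂ} (hf : DifferentiableAt ℝ f z)
    (hg : DifferentiableAt ℝ g z) : dz (fun w => f w * g w) z = f z * dz g z + g z * dz f z ∧
      db (fun w => f w * g w) z = f z * db g z + g z * db f z := by
  apply dz_db_of_fderiv; intro e
  rw [fderiv_fun_mul hf hg, add_apply, smul_apply, smul_apply, fderiv_eq_dz_db, fderiv_eq_dz_db,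
    smul_eq_mul, smul_eq_mul]; ring

theorem dz_db_conj {f : ℂ → ℂ} {z : ℂ} (hf : DifferentiableAt ℝ f z) :
    dz (fun w => conj (f w)) z = conj (db f z) ∧ db (fun w => conj (f w)) z = conj (dz f z) := by
  apply dz_db_of_fderiv; intro e
  have := (conjCLE.hasFDerivAt.comp z hf.hasFDerivAt).fderiv
  rw [show (fun w => conj (f w)) = conjCLE ∘ f from rfl, this]
  simp [fderiv_eq_dz_db, add_comm]

theorem dz_db_of_notMem {f : ℂ → ℂ} {z : ℂ} (h : z ∉ tsupport f) : dz f z = 0 ∧ db f z = 0 := by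
  simp [dz, db, fderiv_of_notMem_tsupport ℝ h]

theorem norm_dz_le (f : ℂ → ℂ) (z : ℂ) : ‖dz f z‖ ≤ ‖fderiv ℝ f z‖ := by
  rw [norm_fderiv_eq]; linarith [norm_nonneg (db f z)]

theorem norm_db_le (f : ℂ → ℂ) (z : ℂ) : ‖db f z‖ ≤ ‖fderiv ℝ f z‖ := by
  rw [norm_fderiv_eq]; linarith [norm_nonneg (dz f z)]

theorem norm_fderiv_ofReal_le (ζ : ℂ → ℝ) {z : ℂ} (h : DifferentiableAt ℝ ζ z) :
    ‖fderiv ℝ (fun w => (ζ w : ℂ)) z‖ ≤ ‖fderiv ℝ ζ z‖ := by
  have := (ofRealCLM.hasFDerivAt.comp z h.hasFDerivAt).fderiv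
  rw [show (fun w => (ζ w : ℂ)) = ofRealCLM ∘ ζ from rfl, this]
  refine (ContinuousLinearMap.opNorm_comp_le _ _).trans ?_
  rw [ofRealCLM_norm, one_mul]

theorem integrable_dz_sq {f : ℂ → ℂ} (h : Integrable fun z => ‖fderiv ℝ f z‖ ^ 2) :
    Integrable (fun z => ‖dz f z‖ ^ 2) ∧ Integrable fun z => ‖db f z‖ ^ 2 := by
  have h1 := measurable_dz f
  have h2 := measurable_db f
  constructor <;> refine h.mono' (Measurable.aestronglyMeasurable (by fun_prop))
      (Eventually.of_forall fun z => ?_) <;> rw [Real.norm_of_nonneg (sq_nonneg _)]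
  · exact pow_le_pow_left₀ (norm_nonneg _) (norm_dz_le _ _) 2
  · exact pow_le_pow_left₀ (norm_nonneg _) (norm_db_le _ _) 2

theorem integrable_fderiv_sq {f : ℂ → ℂ} (h : ContDiff ℝ 1 f) (hc : HasCompactSupport f) :
    Integrable fun z => ‖fderiv ℝ f z‖ ^ 2 := by
  have h1 : Continuous fun z => ‖fderiv ℝ f z‖ ^ 2 := (h.continuous_fderiv one_ne_zero).norm.pow 2
  refine h1.integrable_of_hasCompactSupport (HasCompactSupport.intro hc fun z hz => ?_)
  rw [fderiv_of_notMem_tsupport ℝ hz]; simp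

theorem Test.ae_diff {K D : Set ℂ} {φ : ℂ → ℂ} (h : Test K D φ) (hK : IsClosed K)
    (h0 : volume K = 0) : ∀ᵐ z, DifferentiableAt ℝ φ z := by
  filter_upwards [ae_differentiableAt hK.isOpen_compl h.lip,
    measure_eq_zero_iff_ae_notMem.1 h0] with z h1 h2 using h1 h2

/-- the derivatives of a test function are integrable -/
theorem Test.integrable {K D : Set ℂ} {φ : ℂ → ℂ} (h : Test K D φ) :
    Integrable (dz φ) ∧ Integrable (db φ) := by
  have key : ∀ g : ℂ → ℂ, Measurable g → (Integrable fun z => ‖g z‖ ^ 2) →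
      (∀ z ∉ tsupport φ, g z = 0) → Integrable g := by
    intro g hg hi h0
    refine (integrableOn_iff_integrable_of_support_subset (s := tsupport φ)
      fun z hz => by_contra fun h' => hz (h0 z h')).1 ?_
    have h1 : IntegrableOn (fun z => 1 + ‖g z‖ ^ 2) (tsupport φ) :=
      (integrableOn_const h.cpt.measure_lt_top.ne).add hi.integrableOn
    refine h1.mono' hg.aestronglyMeasurable (Eventually.of_forall fun z => ?_)
    nlinarith [sq_nonneg (‖g z‖ - 1)]
  exact ⟨key _ (measurable_dz φ) (integrable_dz_sq h.int).1 fun z hz => (dz_db_of_notMem hz).1,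
    key _ (measurable_db φ) (integrable_dz_sq h.int).2 fun z hz => (dz_db_of_notMem hz).2⟩

/-- a function continuous on `D` times the derivative of a test function -/
theorem Test.integrable_mul {K D : Set ℂ} {φ κ g : ℂ → ℂ} (h : Test K D φ)
    (hκ : ContinuousOn κ D) (hg : Integrable g) (h0 : ∀ z ∉ tsupport φ, g z = 0) :
    Integrable fun z => κ z * g z := by
  refine (integrableOn_iff_integrable_of_support_subset (s := tsupport φ)
    fun z hz => by_contra fun h' => hz (by simp [h0 z h'])).1 ?_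
  exact hg.integrableOn.continuousOn_mul (hκ.mono h.sub) h.cpt

theorem Test.add_smooth {K D : Set ℂ} {φ A : ℂ → ℂ} (h : Test K D φ) (hK : IsClosed K)
    (h0 : volume K = 0) (hA : ContDiff ℝ 1 A) (hc : HasCompactSupport A) :
    Test K univ fun z => A z + φ z := by
  refine ⟨(locLip_of_contDiffOn hK.isOpen_compl hA.contDiffOn).add h.lip, hc.add h.cpt,
    subset_univ _, ?_, ?_⟩
  · refine (((integrable_fderiv_sq hA hc).const_mul 2).add (h.int.const_mul 2)).mono'
      ((measurable_fderiv ℝ _).norm.pow_const 2).aestronglyMeasurable ?_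
    filter_upwards [h.ae_diff hK h0] with z hz
    rw [Real.norm_of_nonneg (sq_nonneg _), fderiv_fun_add (hA.differentiable one_ne_zero z) hz,
      Pi.add_apply]
    have := pow_le_pow_left₀ (norm_nonneg _) (norm_add_le (fderiv ℝ A z) (fderiv ℝ φ z)) 2
    nlinarith [sq_nonneg (‖fderiv ℝ A z‖ - ‖fderiv ℝ φ z‖)]
  · obtain ⟨B, hB⟩ := h.bd
    obtain ⟨C, hC⟩ := hA.continuous.norm.bddAbove_range_of_hasCompactSupport hc.norm
    exact ⟨C + B, fun z => (norm_add_le _ _).trans (add_le_add (hC ⟨z, rfl⟩) (hB z))⟩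

theorem integrable_inv_pow {n : ℕ} (hn : 2 < n) : Integrable fun z : ℂ => 1 / (1 + ‖z‖) ^ n := by
  have := integrable_one_add_norm (E := ℂ) (μ := volume) (r := n)
    (by rw [finrank_real_complex]; exact_mod_cast hn)
  refine this.congr (Eventually.of_forall fun z => ?_)
  simp only [Real.rpow_neg (show 0 ≤ 1 + ‖z‖ by positivity), Real.rpow_natCast, one_div]

end Vale.Agent.P128
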