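import Vale.Agent.P128.Stm

open MeasureTheory Set Metric Filter Topology Complex
open scoped ENNReal ComplexConjugate Real

noncomputable section
namespace Vale.Agent.P128

namespace Decay

theorem int_norm_le {u : ℂ → ℝ} {x : ℂ} {r d e : ℝ} (hr : 0 < r) (hd : 0 < d)
    (he : π * e ≤ d ^ 2) (hi : IntegrableOn (fun z => ‖pd u z‖ ^ 2) (closedBall x r))
    (hE : En u (closedBall x r) ≤ e * r) :
    ∫ z in closedBall x r, ‖pd u z‖ ≤ d * r * √r := by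
  have hs : 0 < √r := Real.sqrt_pos.2 hr
  have hπ := Real.pi_pos
  obtain ⟨t, ht⟩ : ∃ t, t = π / d * √r := ⟨_, rfl⟩
  have ht0 : 0 < t := by rw [ht]; positivity
  have hc : IntegrableOn (fun _ : ℂ => 1 / (2 * t)) (closedBall x r) :=
    integrableOn_const (measure_closedBall_lt_top.ne)
  have h1 : ∫ z in closedBall x r, ‖pd u z‖ ≤
      ∫ z in closedBall x r, (t / 2 * ‖pd u z‖ ^ 2 + 1 / (2 * t)) := by
    refine integral_mono_of_nonneg (Eventually.of_forall fun z => norm_nonneg _)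
      ((hi.const_mul _).add hc) (Eventually.of_forall fun z => ?_)
    have : t / 2 * ‖pd u z‖ ^ 2 + 1 / (2 * t) - ‖pd u z‖ = (t * ‖pd u z‖ - 1) ^ 2 / (2 * t) := by
      field_simp; ring
    have h2 : 0 ≤ (t * ‖pd u z‖ - 1) ^ 2 / (2 * t) := by positivity
    simp only
    linarith
  rw [integral_add (hi.const_mul _) hc, integral_const_mul, setIntegral_const, measureReal_def,
    Complex.volume_closedBall, ENNReal.toReal_mul, ENNReal.toReal_pow, ENNReal.toReal_ofReal hr.le,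
    ENNReal.coe_toReal, NNReal.coe_real_pi, smul_eq_mul] at h1
  have h2 : t / 2 * En u (closedBall x r) ≤ d * r * √r / 2 := by
    calc t / 2 * En u (closedBall x r) ≤ t / 2 * (e * r) := by gcongr
      _ = π * e * (r * √r / (2 * d)) := by rw [ht]; field_simp
      _ ≤ d ^ 2 * (r * √r / (2 * d)) := by gcongr
      _ = d * r * √r / 2 := by field_simp
  have h3 : r ^ 2 * π * (1 / (2 * t)) = d * r * √r / 2 := by
    rw [ht]
    field_simp
    rw [Real.sq_sqrt hr.le]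
  unfold En at h2
  linarith

/-- the differential inequality on good circles -/
theorem point (hBon : BonStmt) (hRem : RemStmt) (hCirc : CircStmt) {d e : ℝ} (hd : 0 < d)
    (he : π * e ≤ d ^ 2) (he' : e ≤ 1 / 100000)
    (hLow : ∀ Ω K u Λ M, IsMS Ω K u Λ M → ∀ x ∈ K, ∀ r,
      0 < r → closedBall x r ⊆ Ω → Λ * M * r ≤ d →
      ∫ z in closedBall x r, ‖pd u z‖ ≤ d * r * √r → (2 - 1 / 10) * r ≤ len K (closedBall x r))
    {Ω K : Set ℂ} {u : ℂ → ℝ} {Λ M A : ℝ} (h : IsReg Ω K u Λ M A) {y : ℂ} (hy : y ∈ K) {ρ : ℝ}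
    (hg : Good K u y ρ) (hΩ : closedBall y (A * ρ) ⊆ Ω) (ha : Λ * M * ρ ≤ d)
    (ha' : Λ * M * ρ ≤ e) (hE : ∀ s ∈ Ioc 0 ρ, En u (closedBall y s) ≤ e * s) :
    En u (closedBall y ρ) ≤
      ρ * ce u y ρ / (4 / 3) + ρ ^ 2 * (7 * (1 + cnt K y ρ) * A ^ 2 * (Λ * M)) := by
  have hρ := hg.pos
  have hπ := Real.pi_pos
  have hπ3 := Real.pi_lt_d2
  have ha0 := h.ms.a0
  have hA := h.A1
  have hΩ' : closedBall y ρ ⊆ Ω :=
    (closedBall_subset_closedBall (by nlinarith)).trans hΩ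
  by_cases hfree : ∀ α β, Free K y ρ α β → β - α ≤ 3 * π / 2
  · have := (hBon Ω K u Λ M h.ms y ρ hg).2 A (3 * π / 2) hA hΩ (h.conn y ρ hρ hΩ) hfree
    refine this.trans (le_of_eq ?_)
    field_simp
    ring
  push Not at hfree
  obtain ⟨α, β, hf, hαβ⟩ := hfree
  have hf' : Free K y ρ α (α + 3 * π / 2) := fun θ hθ => hf θ ⟨hθ.1, by linarith [hθ.2]⟩
  have h1 := (hRem Ω K u Λ M h.ms y ρ 1 (1 / 20) hρ hΩ' one_pos le_rfl (by norm_num)
    (by norm_num)).2 α (α + 3 * π / 2) hg (by linarith) (by linarith) hf'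
  have h2 := (hCirc Ω K u y ρ h.ms.isOpen h.ms.c1 (sphere_subset_closedBall.trans hΩ')
    hg).2.2.2.1
  have hr : 0 < 9 / 10 * ρ := by positivity
  have hΩ'' : closedBall y (9 / 10 * ρ) ⊆ Ω :=
    (closedBall_subset_closedBall (by linarith)).trans hΩ'
  have h3 := hLow Ω K u Λ M h.ms y hy (9 / 10 * ρ) hr hΩ'' (by nlinarith)
    (int_norm_le hr hd he (h.ms.int _ _ hΩ'') (hE _ ⟨hr, by linarith⟩))
  have h4 : len K (closedBall y (9 / 10 * ρ)) ≤ len K (ball y ((1 - 1 / 20) * ρ)) := by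
    refine len_mono (closedBall_subset_ball (by linarith)) ?_
    refine lt_of_le_of_lt (measure_mono (inter_subset_inter_right _ ?_)) (h.ms.fin y ρ hΩ')
    exact ball_subset_closedBall.trans (closedBall_subset_closedBall (by linarith))
  have h5 := hE ρ ⟨hρ, le_rfl⟩
  have hce := ce_nonneg u y hρ.le
  have hcnt : 0 ≤ cnt K y ρ := Nat.cast_nonneg _
  obtain ⟨S, hS⟩ : ∃ S, S = (∫ θ in (0 : ℝ)..2 * π, ‖cg u y ρ θ‖) ^ 2 := ⟨_, rfl⟩
  rw [← hS] at h1 h2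
  have h6 : 4 * π * S / (1 * (1 / 20)) ≤ 1600 * (ρ * ce u y ρ) := by
    have hq : 0 ≤ ρ * ce u y ρ := by positivity
    calc 4 * π * S / (1 * (1 / 20)) = 80 * π * S := by ring
      _ ≤ 80 * π * (2 * π * ρ * ce u y ρ) := by gcongr
      _ = 160 * π ^ 2 * (ρ * ce u y ρ) := by ring
      _ ≤ 1600 * (ρ * ce u y ρ) := by gcongr; nlinarith
  have h7 : 2 * π * (Λ * M) * ρ ^ 2 ≤ 7 * (e * ρ) := by
    calc 2 * π * (Λ * M) * ρ ^ 2 = 2 * π * ((Λ * M * ρ) * ρ) := by ring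
      _ ≤ 7 * (e * ρ) := by gcongr; linarith
  have h8 : e * ρ ≤ 1 / 100000 * ρ := by gcongr
  have h9 : (2 * π - (α + 3 * π / 2 - α)) * ρ ≤ 1575 / 1000 * ρ := by
    gcongr; linarith
  have h10 : 0 ≤ ρ ^ 2 * (7 * (1 + cnt K y ρ) * A ^ 2 * (Λ * M)) := by positivity
  linarith

end Decay

theorem decay_pf (hMono : MonoStmt) (hLow : LowStmt) (hBon : BonStmt) (hGron : GronStmt)
    (hGood : GoodStmt) (hRem : RemStmt) (hUp : UpStmt) (hCirc : CircStmt) : DecayStmt := by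
  intro A
  obtain ⟨d, hd, hL⟩ := hLow (1 / 10) (by norm_num)
  have hπ := Real.pi_pos
  obtain ⟨e, he0, he, he', hed⟩ : ∃ e, 0 < e ∧ π * e ≤ d ^ 2 ∧ e ≤ 1 / 100000 ∧ e ≤ d := by
    refine ⟨min (d ^ 2 / π) (min (1 / 100000) d), by positivity, ?_,
      (min_le_right _ _).trans (min_le_left _ _), (min_le_right _ _).trans (min_le_right _ _)⟩
    rw [← le_div_iff₀' hπ]
    exact min_le_left _ _
  have hA0 : 0 < 1 + 100 * A ^ 2 := by positivity
  refine ⟨e / (1 + 100 * A ^ 2), 14 * A ^ 2 + 112 * π * A ^ 2, by positivity, by positivity, ?_⟩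
  intro Ω K u Λ M h y hy b hb hΩ hE ha s hs
  obtain ⟨δ, hδ⟩ : ∃ δ, δ = e / (1 + 100 * A ^ 2) := ⟨_, rfl⟩
  rw [← hδ] at hE ha
  have hδe : δ * (1 + 100 * A ^ 2) = e := by rw [hδ]; field_simp
  have hδ0 : 0 < δ := by rw [hδ]; positivity
  have hδe' : δ ≤ e := by nlinarith [sq_nonneg A]
  have ha0 := h.ms.a0
  have hA := h.A1
  have hΩ' : closedBall y b ⊆ Ω := (closedBall_subset_closedBall (by nlinarith)).trans hΩ
  have hE' : ∀ t ∈ Ioc 0 b, En u (closedBall y t) ≤ e * t := by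
    intro t ht
    have h1 := hMono Ω K u Λ M A h y t b ht.1 ht.2 hΩ
    rw [div_le_iff₀ ht.1] at h1
    refine h1.trans (mul_le_mul_of_nonneg_right ?_ ht.1.le)
    have h2 : En u (closedBall y b) / b ≤ δ := by rwa [div_le_iff₀ hb]
    have h3 : 100 * A ^ 2 * (Λ * M * b) ≤ 100 * A ^ 2 * δ := by gcongr
    nlinarith
  obtain ⟨hg, hce, hcnt, hint⟩ := hGood K u y b h.ms.cl (h.ms.fin y b hΩ') (h.ms.int y b hΩ')
  have hii : ∀ {g : ℝ → ℝ}, IntegrableOn g (Ioo 0 b) → ∀ t ∈ Icc s b,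
      IntervalIntegrable g volume s t := by
    intro g hg t ht
    rw [intervalIntegrable_iff_integrableOn_Ioo_of_le ht.1]
    exact hg.mono_set (Ioo_subset_Ioo hs.1.le ht.2)
  have hcnt0 : ∀ ρ, 0 ≤ cnt K y ρ := fun ρ => Nat.cast_nonneg _
  have hH : ∀ t ∈ Icc s b, IntervalIntegrable (fun ρ => ρ * cnt K y ρ) volume s t :=
    fun t ht => (hii hcnt t ht).continuousOn_mul continuousOn_id
  have hHle : ∀ t ∈ Icc s b, ∫ ρ in s..t, ρ * cnt K y ρ ≤ 4 * π * t ^ 2 := by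
    intro t ht
    have ht0 : 0 < t := hs.1.trans_le ht.1
    have hΩt : closedBall y t ⊆ Ω := (closedBall_subset_closedBall ht.2).trans hΩ'
    have h1 : ∫ ρ in s..t, ρ * cnt K y ρ ≤ ∫ ρ in s..t, t * cnt K y ρ :=
      intervalIntegral.integral_mono_on ht.1 (hH t ht) ((hii hcnt t ht).const_mul t)
        fun ρ hρ => mul_le_mul_of_nonneg_right hρ.2 (hcnt0 ρ)
    rw [intervalIntegral.integral_const_mul] at h1
    have h2 := (hint s t hs.1.le ht.1 ht.2).2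
    have h3 := hUp Ω K u Λ M h.ms y t ht0.le hΩt
    have h4 := h.small y t hΩt
    have h5 := En_nonneg u (closedBall y t)
    have h6 := len_nonneg K (closedBall y s)
    have h7 : 2 * π * (Λ * M) * t ^ 2 ≤ 2 * π * t := by
      calc 2 * π * (Λ * M) * t ^ 2 = 2 * π * t * (Λ * M * t) := by ring
        _ ≤ 2 * π * t * 1 := by gcongr
        _ = 2 * π * t := mul_one _
    have h8 : ∫ ρ in s..t, cnt K y ρ ≤ 4 * π * t := by linarith
    calc _ ≤ t * ∫ ρ in s..t, cnt K y ρ := h1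
      _ ≤ t * (4 * π * t) := by gcongr
      _ = 4 * π * t ^ 2 := by ring
  obtain ⟨κ, hκ⟩ : ∃ κ, κ = 7 * A ^ 2 * (Λ * M) := ⟨_, rfl⟩
  have hκ0 : 0 ≤ κ := by rw [hκ]; positivity
  have key := hGron (fun t => En u (closedBall y t) + 4 / 3 * κ * ∫ ρ in s..t, ρ * cnt K y ρ)
    (fun ρ => ce u y ρ + 4 / 3 * κ * (ρ * cnt K y ρ)) (fun _ => κ + 4 / 3 * κ * (4 * π)) s b
    (4 / 3) hs.1 hs.2 (by norm_num)
    ((hii hce b ⟨hs.2, le_rfl⟩).add ((hH b ⟨hs.2, le_rfl⟩).const_mul _))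
    intervalIntegrable_const ?_ ?_
  rotate_left
  · intro t ht
    rw [intervalIntegral.integral_add (hii hce t ht) ((hH t ht).const_mul _),
      intervalIntegral.integral_const_mul, intervalIntegral.integral_same,
      (hint s t hs.1.le ht.1 ht.2).1]
    ring
  · filter_upwards [hg] with ρ hρ hρ'
    have hρ0 : 0 < ρ := hs.1.trans hρ'.1
    have hρa : Λ * M * ρ ≤ e := le_trans (by gcongr; exact hρ'.2.le) (ha.trans hδe')
    have h1 := Decay.point hBon hRem hCirc hd he he' hL h hy (hρ ⟨hρ0, hρ'.2⟩)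
      ((closedBall_subset_closedBall (by gcongr; exact hρ'.2.le)).trans hΩ) (hρa.trans hed) hρa
      fun t ht => hE' t ⟨ht.1, ht.2.trans hρ'.2.le⟩
    have h2 : 4 / 3 * κ * ∫ r in s..ρ, r * cnt K y r ≤ 4 / 3 * κ * (4 * π * ρ ^ 2) := by
      gcongr; exact hHle ρ ⟨hρ'.1.le, hρ'.2.le⟩
    have h3 : ρ ^ 2 * (7 * (1 + cnt K y ρ) * A ^ 2 * (Λ * M)) = ρ ^ 2 * κ * (1 + cnt K y ρ) := by
      rw [hκ]; ring
    have h4 : ρ * (ce u y ρ + 4 / 3 * κ * (ρ * cnt K y ρ)) / (4 / 3) +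
        ρ ^ 2 * (κ + 4 / 3 * κ * (4 * π)) = ρ * ce u y ρ / (4 / 3) + ρ ^ 2 * κ * (1 + cnt K y ρ) +
        4 / 3 * κ * (4 * π * ρ ^ 2) := by ring
    rw [h4]
    linarith
  simp only [intervalIntegral.integral_same, mul_zero, add_zero] at key
  rw [intervalIntegral.integral_mul_const, integral_rpow (Or.inl (by norm_num))] at key
  obtain ⟨B, hB⟩ : ∃ B, B = b ^ (1 / 3 : ℝ) := ⟨_, rfl⟩
  obtain ⟨S, hS⟩ : ∃ S, S = s ^ (1 / 3 : ℝ) := ⟨_, rfl⟩
  have hB0 : 0 < B := by rw [hB]; positivity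
  have hS0 : 0 < S := by rw [hS]; exact Real.rpow_pos_of_pos hs.1 _
  have e1 : b ^ (4 / 3 : ℝ) = B * b := by
    rw [hB, ← Real.rpow_add_one hb.ne']; norm_num
  have e2 : s ^ (4 / 3 : ℝ) = S * s := by
    rw [hS, ← Real.rpow_add_one hs.1.ne']; norm_num
  have e3 : b ^ (1 - 4 / 3 + 1 : ℝ) = b / B := by
    rw [hB, eq_div_iff (by positivity), ← Real.rpow_add hb]; norm_num
  have e4 : 0 ≤ s ^ (1 - 4 / 3 + 1 : ℝ) := Real.rpow_nonneg hs.1.le _
  rw [e1, e2, e3, div_le_iff₀ (mul_pos hS0 hs.1)] at key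
  rw [Real.div_rpow hs.1.le hb.le, ← hB, ← hS]
  refine key.trans ?_
  have h1 : (En u (closedBall y b) + 4 / 3 * κ * ∫ ρ in s..b, ρ * cnt K y ρ) / (B * b) ≤
      (En u (closedBall y b) + 4 / 3 * κ * (4 * π * b ^ 2)) / (B * b) := by
    gcongr; exact hHle b ⟨hs.2, le_rfl⟩
  have h2 : 4 / 3 * ((b / B - s ^ (1 - 4 / 3 + 1 : ℝ)) / (1 - 4 / 3 + 1) *
      (κ + 4 / 3 * κ * (4 * π))) ≤ 4 / 3 * ((b / B) / (1 - 4 / 3 + 1) *
      (κ + 4 / 3 * κ * (4 * π))) := by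
    gcongr; linarith
  have hs0 := hs.1
  calc _ ≤ ((En u (closedBall y b) + 4 / 3 * κ * (4 * π * b ^ 2)) / (B * b) +
        4 / 3 * ((b / B) / (1 - 4 / 3 + 1) * (κ + 4 / 3 * κ * (4 * π)))) * (S * s) := by
        gcongr
    _ = _ := by rw [hκ]; field_simp; ring

end Vale.Agent.P128
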