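import Vale.Agent.P128.Stm

open MeasureTheory Set Metric Filter Topology Complex
open scoped ENNReal ComplexConjugate Real

noncomputable section
namespace Vale.Agent.P128

namespace Def0

theorem det_eq (L : ℂ →L[ℝ] ℂ) (A B : ℂ) (h : ∀ e, L e = A * e + B * conj e) :
    L.det = ‖A‖ ^ 2 - ‖B‖ ^ 2 := by
  rw [ContinuousLinearMap.det, ← LinearMap.det_toMatrix basisOneI, Matrix.det_fin_two,
    ← normSq_eq_norm_sq, ← normSq_eq_norm_sq]
  simp [LinearMap.toMatrix_apply, h, normSq_apply]
  ring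

theorem jac_bd {X : ℂ → ℂ} {z : ℂ} (h : ‖fderiv ℝ X z‖ ≤ 1 / 2) :
    1 / 4 ≤ jac X z ∧ jac X z ≤ 9 / 4 := by
  rw [norm_fderiv_eq] at h
  have h1 := norm_add_le 1 (dz X z)
  have h2 := norm_sub_le (1 + dz X z) (dz X z)
  rw [add_sub_cancel_right, norm_one] at h2
  rw [norm_one] at h1
  have h3 := norm_nonneg (dz X z)
  have h4 := norm_nonneg (db X z)
  have h5 := norm_nonneg (1 + dz X z)
  unfold jac
  constructor <;> nlinarith

theorem exists_homeo {X : ℂ → ℂ} (hX : ContDiff ℝ 1 X) (hb : ∀ z, ‖fderiv ℝ X z‖ ≤ 1 / 2) :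
    ∃ W : ℂ ≃ₜ ℂ, (∀ z, W z = z + X z) ∧ LipschitzWith 2 W.symm := by
  have hL : LipschitzWith (1 / 2) X :=
    lipschitzWith_of_nnnorm_fderiv_le (hX.differentiable one_ne_zero) fun z => by
      rw [← NNReal.coe_le_coe]; simpa using hb z
  have hA : ApproximatesLinearOn (fun z => z + X z)
      ((ContinuousLinearEquiv.refl ℝ ℂ : ℂ ≃L[ℝ] ℂ) : ℂ →L[ℝ] ℂ) univ (1 / 2) := by
    intro x _ y _
    have := hL.dist_le_mul x y
    rw [dist_eq_norm, dist_eq_norm] at this
    have e : x + X x - (y + X y) - (x - y) = X x - X y := by ring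
    exact (congrArg norm e).le.trans this
  have hc : Subsingleton ℂ ∨ (1 / 2 : NNReal) <
      ‖((ContinuousLinearEquiv.refl ℝ ℂ).symm : ℂ →L[ℝ] ℂ)‖₊⁻¹ := by
    right
    rw [ContinuousLinearEquiv.refl_symm, ContinuousLinearEquiv.coe_refl,
      ContinuousLinearMap.nnnorm_id]
    norm_num
  refine ⟨ApproximatesLinearOn.toHomeomorph _ hA hc, fun _ => rfl, ?_⟩
  have hanti : AntilipschitzWith 2 (fun z => z + X z) := by
    refine AntilipschitzWith.of_le_mul_dist fun x y => ?_
    have h1 := hL.dist_le_mul x y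
    simp only [dist_eq_norm, NNReal.coe_div, NNReal.coe_one, NNReal.coe_ofNat] at h1 ⊢
    have h2 := norm_sub_le (x + X x - (y + X y)) (X x - X y)
    have e : x + X x - (y + X y) - (X x - X y) = x - y := by ring
    rw [e] at h2
    linarith
  exact hanti.to_rightInverse (ApproximatesLinearOn.toHomeomorph _ hA hc).apply_symm_apply

theorem alg (α β Q : ℂ) (hj : 0 < ‖1 + α‖ ^ 2 - ‖β‖ ^ 2) :
    (‖1 + α‖ ^ 2 - ‖β‖ ^ 2) * ‖Q‖ ^ 2 = dd α β (Q * (1 + α) + conj Q * conj β) := by
  have e : conj (1 + α) * (Q * (1 + α) + conj Q * conj β) -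
      conj β * conj (Q * (1 + α) + conj Q * conj β) =
      ((‖1 + α‖ ^ 2 - ‖β‖ ^ 2 : ℝ) : ℂ) * Q := by
    generalize 1 + α = A
    rw [map_add, map_mul, map_mul, conj_conj, conj_conj, ← normSq_eq_norm_sq,
      ← normSq_eq_norm_sq, ofReal_sub, normSq_eq_conj_mul_self, normSq_eq_conj_mul_self]
    ring
  unfold dd
  rw [e, norm_mul, norm_real, Real.norm_of_nonneg hj.le]
  field_simp

end Def0

theorem def0_pf : Def0Stmt := by
  intro X hX hb
  obtain ⟨W, hW, hlip⟩ := Def0.exists_homeo hX hb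
  have hWe : (W : ℂ → ℂ) = fun z => z + X z := funext hW
  have hd : ∀ z, HasFDerivAt W (ContinuousLinearMap.id ℝ ℂ + fderiv ℝ X z) z := fun z => by
    rw [hWe]
    exact (hasFDerivAt_id z).add (hX.differentiable one_ne_zero z).hasFDerivAt
  have hL : ∀ z e, (ContinuousLinearMap.id ℝ ℂ + fderiv ℝ X z) e =
      (1 + dz X z) * e + db X z * conj e := fun z e => by
    rw [_root_.add_apply, fderiv_eq_dz_db, ContinuousLinearMap.id_apply]
    ring
  have hdet : ∀ z, (ContinuousLinearMap.id ℝ ℂ + fderiv ℝ X z).det = jac X z := fun z =>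
    Def0.det_eq _ _ _ (hL z)
  have hj : ∀ z, 0 < jac X z := fun z => lt_of_lt_of_le (by norm_num) (Def0.jac_bd (hb z)).1
  have habs : ∀ z, |(ContinuousLinearMap.id ℝ ℂ + fderiv ℝ X z).det| = jac X z := fun z => by
    rw [hdet, abs_of_pos (hj z)]
  have hsymm : ContDiff ℝ 1 W.symm := by
    refine W.contDiff_symm (f₀' := fun z =>
      (ContinuousLinearMap.id ℝ ℂ + fderiv ℝ X z).toContinuousLinearEquivOfDetNeZero
        (by rw [hdet]; exact (hj z).ne')) (fun z => ?_) ?_
    · rw [ContinuousLinearMap.coe_toContinuousLinearEquivOfDetNeZero]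
      exact hd z
    · rw [hWe]
      exact contDiff_id.add hX
  refine ⟨W, hW, hlip, hsymm, fun z => Def0.jac_bd (hb z), fun h S hS => ?_,
    fun h S hS => ⟨?_, ?_⟩, fun f z => ?_⟩
  · rw [lintegral_image_eq_lintegral_abs_det_fderiv_mul volume hS
      (fun z _ => (hd z).hasFDerivWithinAt) W.injective.injOn]
    simp only [habs]
  · rw [integrableOn_image_iff_integrableOn_abs_det_fderiv_smul volume hS
      (fun z _ => (hd z).hasFDerivWithinAt) W.injective.injOn]
    simp only [habs, smul_eq_mul]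
  · rw [integral_image_eq_integral_abs_det_fderiv_smul volume hS
      (fun z _ => (hd z).hasFDerivWithinAt) W.injective.injOn]
    simp only [habs, smul_eq_mul]
  · by_cases hg : DifferentiableAt ℝ (f ∘ W.symm) (W z)
    · have h1 := hg.hasFDerivAt.comp z (hd z)
      have e : (f ∘ W.symm) ∘ W = f := by
        funext y; simp
      rw [e] at h1
      have h2 : pd f z = pd (f ∘ W.symm) (W z) * (1 + dz X z) +
          conj (pd (f ∘ W.symm) (W z)) * conj (db X z) := by
        refine pd_of_fderiv fun v => ?_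
        rw [h1.fderiv, ContinuousLinearMap.comp_apply, hL, fderiv_eq_pd]
        simp only [mul_re, add_re, mul_im, add_im, conj_re, conj_im]
        ring
      rw [dens, h2]
      exact Def0.alg _ _ _ (hj z)
    · have hf : ¬ DifferentiableAt ℝ f z := fun hf => hg (by
        refine DifferentiableAt.comp (W z) ?_ (hsymm.differentiable one_ne_zero _)
        rwa [W.symm_apply_apply])
      simp [dens, dd, pd, fderiv_zero_of_not_differentiableAt hg,
        fderiv_zero_of_not_differentiableAt hf]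

end Vale.Agent.P128
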