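import Vale.Agent.P128.Stm

open MeasureTheory Set Metric Filter Topology Complex
open scoped ENNReal ComplexConjugate Real

noncomputable section
namespace Vale.Agent.P128

namespace Defc

theorem aesm {f : ℂ → ℝ} {O B : Set ℂ} (hO : IsOpen O) (hf : ContinuousOn f O)
    (hB : MeasurableSet B) (h : ∀ᵐ z, z ∈ B → z ∈ O) :
    AEStronglyMeasurable f (volume.restrict B) := by
  have h1 : B =ᵐ[volume] (B ∩ O : Set ℂ) := by
    filter_upwards [h] with z hz
    exact propext ⟨fun a => ⟨a, hz a⟩, fun a => a.1⟩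
  rw [Measure.restrict_congr_set h1]
  exact (hf.mono inter_subset_right).aestronglyMeasurable (hB.inter hO.measurableSet)

theorem meas {X P : ℂ → ℂ} (hP : Measurable P) : Measurable fun z => dens X (P z) z := by
  have h1 := measurable_dz X
  have h2 := measurable_db X
  have h3 : Measurable fun z : ℂ => conj z := continuous_conj.measurable
  unfold dens dd
  refine Measurable.div ?_ (by fun_prop)
  refine (Measurable.norm ?_).pow_const 2
  exact ((h3.comp (measurable_const.add h1)).mul hP).sub ((h3.comp h2).mul (h3.comp hP))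

theorem lipc {f : ℂ → ℝ} {V : ℂ → ℂ} {O O' : Set ℂ} (hf : LocallyLipschitzOn O f)
    (hV : LipschitzWith 2 V) (hm : MapsTo V O' O) : LocallyLipschitzOn O' (f ∘ V) := by
  intro z hz
  obtain ⟨C, t, ht, hl⟩ := hf (hm hz)
  refine ⟨C * 2, V ⁻¹' t, (hV.continuous.continuousWithinAt.tendsto_nhdsWithin hm) ht, ?_⟩
  exact hl.comp hV.lipschitzOnWith (mapsTo_preimage V t)

end Defc

open Defc in
theorem defc_pf (hDef0 : Def0Stmt) (hAlg : AlgStmt) : DefcStmt := by
  intro Ω K u Λ M h x r X ϑ hB hX hX2 hout hϑ hϑi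
  obtain ⟨W, hW, hWl, -, hj, -, hcv, hpd⟩ := hDef0 X hX hX2
  obtain ⟨C, -, hC⟩ := hAlg
  set B := closedBall x r with hBd
  have hBm : MeasurableSet B := measurableSet_closedBall
  have hW1 : ∀ z, z ∉ B → W z = z := fun z hz => by rw [hW, (hout z hz).1, add_zero]
  have hW2 : ∀ z, z ∉ B → W.symm z = z := fun z hz => by
    conv_lhs => rw [← hW1 z hz]
    exact W.symm_apply_apply z
  have hW3 : ∀ z ∈ B, W z ∈ B := fun z hz => by
    by_contra h1
    have h2 := hW2 _ h1
    rw [W.symm_apply_apply] at h2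
    exact h1 (h2 ▸ hz)
  have hW4 : ∀ z ∈ B, W.symm z ∈ B := fun z hz => by
    by_contra h1
    have h2 := hW1 _ h1
    rw [W.apply_symm_apply] at h2
    exact h1 (h2 ▸ hz)
  have hWB : W '' B = B := by
    refine Subset.antisymm ?_ fun z hz => ⟨_, hW4 z hz, W.apply_symm_apply z⟩
    rintro _ ⟨z, hz, rfl⟩
    exact hW3 z hz
  have hmap : MapsTo W.symm (Ω \ W.symm ⁻¹' K) (Ω \ K) := fun z hz => by
    refine ⟨?_, hz.2⟩
    by_cases h1 : z ∈ B
    · exact hB (hW4 z h1)
    · rw [hW2 z h1]; exact hz.1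
  set f : ℂ → ℝ := fun z => u z + ϑ z with hf
  have hfl : LocallyLipschitzOn (Ω \ K) f := h.lip.add hϑ
  have hae : ∀ᵐ z, z ∈ B → z ∈ Ω \ K := by
    filter_upwards [h.ae_notMem hB] with z hz hzB using ⟨hB hzB, hz hzB⟩
  have hpf : ∀ᵐ z, z ∈ B → pd f z = pd u z + pd ϑ z := by
    filter_upwards [hae, ae_differentiableAt h.isOpen hϑ] with z h1 h2 hz
    exact pd_add (h.diff (h1 hz)) (h2 (h1 hz))
  have hint : IntegrableOn (fun z => dens X (pd u z + pd ϑ z) z) B := by
    refine Integrable.mono' (((h.int x r hB).add hϑi).const_mul 6)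
      (meas ((measurable_pd u).add (measurable_pd ϑ))).aestronglyMeasurable
      (Eventually.of_forall fun z => ?_)
    have h1 : ‖dz X z‖ + ‖db X z‖ ≤ 1 / 2 := norm_fderiv_eq X z ▸ hX2 z
    have h2 := abs_le.1 (hC _ _ (pd u z + pd ϑ z) h1).1
    have h3 := norm_add_le (pd u z) (pd ϑ z)
    have h4 : ‖pd u z + pd ϑ z‖ ^ 2 ≤ (‖pd u z‖ + ‖pd ϑ z‖) ^ 2 := by gcongr
    have h5 : 4 * (‖dz X z‖ + ‖db X z‖) * ‖pd u z + pd ϑ z‖ ^ 2 ≤
        2 * ‖pd u z + pd ϑ z‖ ^ 2 := by gcongr; linarith
    rw [Real.norm_eq_abs, abs_le]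
    simp only [Pi.add_apply, dens]
    constructor <;> nlinarith [sq_nonneg (‖pd u z‖ - ‖pd ϑ z‖), sq_nonneg ‖pd u z + pd ϑ z‖]
  refine ⟨hint, ?_⟩
  have hcong : ∀ᵐ z, z ∈ B → jac X z * ‖pd (f ∘ W.symm) (W z)‖ ^ 2 =
      dens X (pd u z + pd ϑ z) z := by
    filter_upwards [hpf] with z hz hzB
    rw [hpd, hz hzB]
  have hLB : W.symm ⁻¹' K ∩ B = (fun z => z + X z) '' (K ∩ B) := by
    ext z
    constructor
    · intro hz
      exact ⟨W.symm z, ⟨hz.1, hW4 z hz.2⟩, (hW _).symm.trans (W.apply_symm_apply z)⟩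
    · rintro ⟨y, hy, rfl⟩
      simp only [← hW]
      exact ⟨by simpa using hy.1, hW3 y hy.2⟩
  have hXl : LipschitzWith 1 X := lipschitzWith_of_nnnorm_fderiv_le
    (hX.differentiable one_ne_zero) fun z => by
      have := hX2 z
      rw [← NNReal.coe_le_coe, coe_nnnorm, NNReal.coe_one]
      linarith
  have hfin : ∀ (V : ℂ → ℂ) (c : NNReal), LipschitzWith c V → μH[1] (V '' (K ∩ B)) < ⊤ := by
    intro V c hV
    refine (hV.hausdorffMeasure_image_le zero_le_one _).trans_lt ?_
    rw [ENNReal.rpow_one]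
    exact ENNReal.mul_lt_top ENNReal.coe_lt_top (h.fin x r hB)
  have hcomp : Comp Ω K u x r (W.symm ⁻¹' K) (f ∘ W.symm) := by
    refine ⟨h.cl.preimage W.symm.continuous, ?_, fun z _ hz _ => ?_, lipc hfl hWl hmap, ?_, ?_,
      fun z => connectedComponentIn (Ω \ K) (W.symm z), fun z hz => ?_, fun z _ hz _ => ?_⟩
    · ext z
      refine and_congr_left fun hz => ?_
      rw [mem_preimage, hW2 z hz]
    · simp only [Function.comp, hf]
      rw [hW2 z hz, (hout z hz).2, add_zero]
    · have h1 := (hcv (fun z => ‖pd (f ∘ W.symm) z‖ ^ 2) B hBm).1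
      rw [hWB] at h1
      exact h1.2 (hint.congr ((ae_restrict_iff' hBm).2 (hcong.mono fun z hz a => (hz a).symm)))
    · rw [hLB]
      exact hfin _ _ (LipschitzWith.id.add hXl)
    · filter_upwards [W.symm.continuous.continuousAt.eventually
        (connectedComponentIn_mem_nhds (h.isOpen.mem_nhds (hmap hz)))] with y hy
      exact (connectedComponentIn_eq hy).symm
    · simp only
      rw [hW2 z hz]
  have hmin := h.min x r _ _ hB hcomp
  have hE : En (f ∘ W.symm) B = ∫ z in B, dens X (pd u z + pd ϑ z) z := by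
    have h1 := (hcv (fun z => ‖pd (f ∘ W.symm) z‖ ^ 2) B hBm).2
    rw [hWB] at h1
    exact h1.trans (setIntegral_congr_ae hBm hcong)
  have hM := h.M0
  have hF : ∫ z in B, min |(f ∘ W.symm) z - u z| (2 * M) ≤
      3 * ∫ z in B, min |u (z + X z) - u z - ϑ z| (2 * M) := by
    have h1 := (hcv (fun z => min |(f ∘ W.symm) z - u z| (2 * M)) B hBm).2
    rw [hWB] at h1
    rw [h1, ← integral_const_mul]
    have hnn : ∀ s : ℝ, 0 ≤ min |s| (2 * M) := fun s => le_min (abs_nonneg _) (by linarith)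
    refine integral_mono_of_nonneg (Eventually.of_forall fun z => ?_) (Integrable.const_mul ?_ 3)
      (Eventually.of_forall fun z => ?_)
    · exact mul_nonneg (by linarith [(hj z).1]) (hnn _)
    · have hc := h.c1.continuousOn
      have a1 : AEStronglyMeasurable (fun z => u (z + X z)) (volume.restrict B) := by
        simp only [← hW]
        refine aesm (h.isOpen.preimage W.continuous)
          (hc.comp W.continuous.continuousOn (mapsTo_preimage _ _)) hBm ?_
        filter_upwards [measure_eq_zero_iff_ae_notMem.1 (volume_null (hfin _ _ hWl))]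
          with z hz hzB
        exact ⟨hB (hW3 z hzB), fun hK => hz ⟨W z, ⟨hK, hW3 z hzB⟩, W.symm_apply_apply z⟩⟩
      have a2 := aesm h.isOpen hc hBm hae
      have a3 := aesm h.isOpen hϑ.continuousOn hBm hae
      refine ⟨?_, .restrict_of_bounded (C := 2 * M) measure_closedBall_lt_top ?_⟩
      · exact (show Continuous fun s : ℝ => min |s| (2 * M) by fun_prop).comp_aestronglyMeasurable
          ((a1.sub a2).sub a3)
      · refine Eventually.of_forall fun z => ?_
        rw [Real.norm_eq_abs, abs_of_nonneg (hnn _)]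
        exact min_le_right _ _
    · simp only [Function.comp, W.symm_apply_apply, hf]
      rw [hW, abs_sub_comm, ← sub_sub]
      exact mul_le_mul_of_nonneg_right (by linarith [(hj z).2]) (hnn _)
  have hL := mul_le_mul_of_nonneg_left hF h.L0
  rw [hE] at hmin
  unfold len at hmin ⊢
  rw [hLB] at hmin
  linarith

end Vale.Agent.P128
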