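import Mathlib

/-! Definitions used in the statement of the Mumford-Shah conjecture.  The plane is `ℂ`. -/

open MeasureTheory Set
open scoped ENNReal

namespace Vale.Agent.P128

/-- `G` (a vector, written as a complex number) is a weak gradient of `u` in the open set `O`. -/
def IsWeakGrad (O : Set ℂ) (u : ℂ → ℝ) (G : ℂ → ℂ) : Prop :=
  ∀ φ : ℂ → ℝ, ContDiff ℝ (⊤ : ℕ∞) φ → HasCompactSupport φ → tsupport φ ⊆ O → ∀ e : ℂ,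
    ∫ z in O, u z * fderiv ℝ φ z e = -∫ z in O, inner ℝ (G z) e * φ z

/-- admissible pair `(u, K)`, with `G` the weak gradient of `u` in `Ω \ K` -/
structure Adm (Ω : Set ℂ) (u : ℂ → ℝ) (G : ℂ → ℂ) (K : Set ℂ) : Prop where
  sub : K ⊆ Ω
  closed : IsOpen (Ω \ K)
  fin : μH[1] K < ⊤
  l2 : MemLp u 2 (volume.restrict Ω)
  gl2 : MemLp G 2 (volume.restrict (Ω \ K))
  grad : IsWeakGrad (Ω \ K) u G

/-- the Mumford-Shah functional in `V` -/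
noncomputable def msF (g u : ℂ → ℝ) (G : ℂ → ℂ) (K V : Set ℂ) : ℝ≥0∞ :=
  (∫⁻ z in V \ K, ‖G z‖ₑ ^ 2) + μH[1] (K ∩ V) + ∫⁻ z in V, ‖u z - g z‖ₑ ^ 2

/-- minimizers -/
def IsMin (Ω : Set ℂ) (g u : ℂ → ℝ) (G : ℂ → ℂ) (K : Set ℂ) : Prop :=
  Adm Ω u G K ∧ ∀ V : Set ℂ, IsOpen V → IsCompact (closure V) → closure V ⊆ Ω →
    ∀ (w : ℂ → ℝ) (G' : ℂ → ℂ) (L : Set ℂ), Adm Ω w G' L →
      (∃ C : Set ℂ, IsCompact C ∧ C ⊆ V ∧ symmDiff L K ⊆ C ∧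
        ∀ᵐ z ∂(volume.restrict (Ω \ C)), w z = u z) →
      msF g u G K V ≤ msF g w G' L V

/-- every disk centred on `K` and compactly contained in `Ω` meets `K` in positive length -/
def Reduced (Ω K : Set ℂ) : Prop :=
  ∀ x ∈ K, ∀ r : ℝ, 0 < r → Metric.closedBall x r ⊆ Ω → 0 < μH[1] (K ∩ Metric.ball x r)

/-- `γ : [0,1] → ℂ` is an embedded `C^{1,α}` arc with velocity `γ'` -/
def IsArc (α : ℝ) (γ γ' : ℝ → ℂ) : Prop :=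
  InjOn γ (Icc 0 1) ∧ (∀ t ∈ Icc (0 : ℝ) 1, HasDerivWithinAt γ (γ' t) (Icc 0 1) t ∧ γ' t ≠ 0) ∧
    ∃ C : ℝ, ∀ s ∈ Icc (0 : ℝ) 1, ∀ t ∈ Icc (0 : ℝ) 1, ‖γ' s - γ' t‖ ≤ C * |s - t| ^ α

/-- `S` is (i) an embedded `C^{1,α}` arc with `x` in its interior, (ii) an embedded `C^{1,α}` arc
ending at `x`, or (iii) three such arcs meeting only at `x` at pairwise angles `2π/3` -/
def IsModel (α : ℝ) (x : ℂ) (S : Set ℂ) : Prop :=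
  (∃ γ γ' : ℝ → ℂ, IsArc α γ γ' ∧ (∃ t ∈ Ioo (0 : ℝ) 1, γ t = x) ∧ S = γ '' Icc 0 1) ∨
  (∃ γ γ' : ℝ → ℂ, IsArc α γ γ' ∧ γ 0 = x ∧ S = γ '' Icc 0 1) ∨
  ∃ γ γ' : Fin 3 → ℝ → ℂ, (∀ i, IsArc α (γ i) (γ' i) ∧ γ i 0 = x) ∧
    (∀ i j, i ≠ j → γ i '' Icc 0 1 ∩ γ j '' Icc 0 1 = {x} ∧
      InnerProductGeometry.angle (γ' i 0) (γ' j 0) = 2 * Real.pi / 3) ∧
    S = ⋃ i, γ i '' Icc 0 1

end Vale.Agent.P128
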