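import Vale.Agent.P128.Stm

open MeasureTheory Set Metric Filter Topology Complex
open scoped ENNReal ComplexConjugate Real

noncomputable section
namespace Vale.Agent.P128

namespace Dens

variable {Ω K : Set ℂ} {u : ℂ → ℝ} {Λ M : ℝ}

theorem cnt_nonneg (K : Set ℂ) (x : ℂ) (ρ : ℝ) : 0 ≤ cnt K x ρ := Nat.cast_nonneg _

theorem cnt_cases {x : ℂ} {ρ : ℝ} (h : Good K u x ρ) :
    K ∩ sphere x ρ = ∅ ∨ 1 ≤ cnt K x ρ := by
  rcases (K ∩ sphere x ρ).eq_empty_or_nonempty with h0 | h0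
  · exact Or.inl h0
  · refine Or.inr ?_
    have := (ncard_pos h.fin).2 h0
    unfold cnt
    exact_mod_cast this

theorem ii {g : ℝ → ℝ} {s t : ℝ} (h : IntegrableOn g (Ioo 0 t)) (hs : 0 ≤ s) (hst : s ≤ t) :
    IntervalIntegrable g volume s t :=
  (intervalIntegrable_iff_integrableOn_Ioo_of_le hst).2 (h.mono_set (Ioo_subset_Ioo_left hs))

/-- decay of the energy when the set is short -/
theorem energy (hGood : GoodStmt) (hBon : BonStmt) (hGron : GronStmt) (h : IsMS Ω K u Λ M)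
    (y : ℂ) (t : ℝ) (ht : 0 < t) (hΩ : closedBall y t ⊆ Ω)
    (hl : len K (closedBall y t) ≤ t / 128) :
    En u (closedBall y (t / 4)) ≤ En u (closedBall y t) / 8 + 7 / 2 * (Λ * M) * t ^ 2 := by
  obtain ⟨g1, g2, g3, g4⟩ := hGood K u y t h.cl (h.fin y t hΩ) (h.int y t hΩ)
  obtain ⟨s, hs⟩ : ∃ s, s = t / 4 := ⟨_, rfl⟩
  have s0 : 0 < s := by rw [hs]; positivity
  have st : s ≤ t := by rw [hs]; linarith
  obtain ⟨a, ha⟩ : ∃ a, a = Λ * M := ⟨_, rfl⟩
  have a0 : 0 ≤ a := ha ▸ h.a0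
  obtain ⟨F, hF⟩ : ∃ F, F = En u (closedBall y t) := ⟨_, rfl⟩
  have F0 : 0 ≤ F := hF ▸ En_nonneg _ _
  have i1 := ii g2 s0.le st
  have i2 := ii g3 s0.le st
  have i3 : IntervalIntegrable (fun ρ => 7 * a + F / s ^ 2 * cnt K y ρ) volume s t :=
    intervalIntegrable_const.add (i2.const_mul _)
  have h0 : ∀ ρ, 0 ≤ 7 * a + F / s ^ 2 * cnt K y ρ := fun ρ =>
    add_nonneg (by positivity) (mul_nonneg (by positivity) (cnt_nonneg _ _ _))
  have k := hGron (fun ρ => En u (closedBall y ρ)) (ce u y)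
    (fun ρ => 7 * a + F / s ^ 2 * cnt K y ρ) s t 2 s0 st two_pos i1 i3
    (fun ρ hρ => (g4 s ρ s0.le hρ.1 hρ.2).1) (by
      filter_upwards [g1] with ρ hρ hm
      have hg := hρ ⟨s0.trans hm.1, hm.2⟩
      have hsub : closedBall y ρ ⊆ closedBall y t := closedBall_subset_closedBall hm.2.le
      have c0 := cnt_nonneg K y ρ
      have r0 : 0 ≤ ρ := hg.pos.le
      rcases cnt_cases hg with h1 | h1
      · have h2 := (hBon Ω K u Λ M h y ρ hg).1 (hsub.trans hΩ) h1
        rw [← ha] at h2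
        have h3 : 0 ≤ ρ ^ 2 * (F / s ^ 2 * cnt K y ρ) := by positivity
        nlinarith
      · have h2 : En u (closedBall y ρ) ≤ F := hF ▸ En_mono hsub (h.int y t hΩ)
        have h3 : 0 ≤ ρ * ce u y ρ / 2 := by
          have := ce_nonneg u y r0
          positivity
        have h4 : F = s ^ 2 * (F / s ^ 2 * 1) := by field_simp
        have h5 : s ^ 2 * (F / s ^ 2 * 1) ≤ ρ ^ 2 * (F / s ^ 2 * cnt K y ρ) := by
          have := hm.1.le
          gcongr
        have h6 : 0 ≤ ρ ^ 2 * (7 * a) := by positivity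
        nlinarith)
  have b1 : ∫ ρ in s..t, ρ ^ (1 - 2 : ℝ) * (7 * a + F / s ^ 2 * cnt K y ρ) ≤
      ∫ ρ in s..t, s⁻¹ * (7 * a + F / s ^ 2 * cnt K y ρ) := by
    refine intervalIntegral.integral_mono_on st (i3.continuousOn_mul ?_) (i3.const_mul _)
      fun ρ hρ => mul_le_mul_of_nonneg_right ?_ (h0 ρ)
    · refine continuousOn_id.rpow_const fun ρ hρ => Or.inl ?_
      rw [uIcc_of_le st] at hρ
      exact (s0.trans_le hρ.1).ne'
    · rw [show (1 - 2 : ℝ) = -1 by norm_num, Real.rpow_neg_one]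
      exact inv_anti₀ s0 hρ.1
  rw [intervalIntegral.integral_const_mul, intervalIntegral.integral_add intervalIntegrable_const
    (i2.const_mul _), intervalIntegral.integral_const, intervalIntegral.integral_const_mul,
    smul_eq_mul] at b1
  have b2 : ∫ ρ in s..t, cnt K y ρ ≤ t / 128 := by
    have := (g4 s t s0.le st le_rfl).2
    have := len_nonneg K (closedBall y s)
    linarith
  have b3 : s⁻¹ * ((t - s) * (7 * a) + F / s ^ 2 * ∫ ρ in s..t, cnt K y ρ) ≤
      s⁻¹ * (t * (7 * a) + F / s ^ 2 * (t / 128)) := by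
    have : t - s ≤ t := by linarith
    gcongr
  simp only [Real.rpow_two] at k
  rw [← hF] at k ⊢
  rw [← hs, ← ha]
  have b4 : En u (closedBall y s) / s ^ 2 ≤
      F / t ^ 2 + 2 * (s⁻¹ * (t * (7 * a) + F / s ^ 2 * (t / 128))) := by linarith
  rw [div_le_iff₀ (by positivity)] at b4
  refine b4.trans (le_of_eq ?_)
  rw [hs]
  field_simp
  ring

/-- the length is controlled by the energy when the set is short -/
theorem length (hGood : GoodStmt) (hRem : RemStmt) (hCirc : CircStmt) (h : IsMS Ω K u Λ M)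
    (y : ℂ) (t φ : ℝ) (ht : 0 < t) (hφ : 0 < φ) (hΩ : closedBall y t ⊆ Ω)
    (hl : len K (closedBall y t) ≤ t / 128)
    (he : En u (closedBall y t) + 56 * (Λ * M) * t ^ 2 ≤ φ * t) :
    len K (closedBall y (t / 4)) ≤ 1025 * φ * t := by
  obtain ⟨g1, g2, g3, g4⟩ := hGood K u y t h.cl (h.fin y t hΩ) (h.int y t hΩ)
  have a0 := h.a0
  have s0 : 0 < t / 2 := by positivity
  have st : t / 2 ≤ t := by linarith
  have i1 := ii g2 s0.le st
  have i2 := ii g3 s0.le st
  have hat : 0 ≤ Λ * M * t ^ 2 := by positivity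
  obtain ⟨ρ, hm, hg, hρ⟩ : ∃ ρ ∈ Ioo (t / 2) t, Good K u y ρ ∧
      (4 * φ)⁻¹ * ce u y ρ + cnt K y ρ < 1 := by
    by_contra hc
    push Not at hc
    have h1 : ∫ _ in (t / 2)..t, (1 : ℝ) ≤
        ∫ ρ in (t / 2)..t, ((4 * φ)⁻¹ * ce u y ρ + cnt K y ρ) := by
      refine intervalIntegral.integral_mono_ae_restrict st intervalIntegrable_const
        ((i1.const_mul _).add i2) ?_
      rw [← Measure.restrict_congr_set Ioo_ae_eq_Icc]
      refine (ae_restrict_iff' measurableSet_Ioo).2 ?_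
      filter_upwards [g1] with ρ hρ hm
      exact hc ρ hm (hρ ⟨s0.trans hm.1, hm.2⟩)
    rw [intervalIntegral.integral_add (i1.const_mul _) i2, intervalIntegral.integral_const_mul,
      intervalIntegral.integral_const, smul_eq_mul] at h1
    obtain ⟨h2, h3⟩ := g4 (t / 2) t s0.le st le_rfl
    have h4 := En_nonneg u (closedBall y (t / 2))
    have h5 := len_nonneg K (closedBall y (t / 2))
    have h6 : (4 * φ)⁻¹ * ∫ ρ in (t / 2)..t, ce u y ρ ≤ (4 * φ)⁻¹ * (φ * t) :=
      mul_le_mul_of_nonneg_left (by linarith) (by positivity)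
    have h7 : (4 * φ)⁻¹ * (φ * t) = t / 4 := by field_simp
    linarith
  have r0 := hg.pos
  have c0 := ce_nonneg u y r0.le
  have c1 : 0 ≤ (4 * φ)⁻¹ * ce u y ρ := by positivity
  have c2 := cnt_nonneg K y ρ
  have hsub : closedBall y ρ ⊆ closedBall y t := closedBall_subset_closedBall hm.2.le
  have hemp : K ∩ sphere y ρ = ∅ := (cnt_cases hg).resolve_right (by linarith)
  have hfree : Free K y ρ 0 (2 * π) := fun θ _ hK =>
    (hemp ▸ notMem_empty _ : circleMap y ρ θ ∉ K ∩ sphere y ρ)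
      ⟨hK, circleMap_mem_sphere y r0.le θ⟩
  have c3 : ce u y ρ ≤ 4 * φ := by
    have : (4 * φ)⁻¹ * ce u y ρ ≤ 1 := by linarith
    rwa [inv_mul_le_iff₀ (by positivity), mul_one] at this
  have k1 := (hRem Ω K u Λ M h y ρ 1 (1 / 2) r0 (hsub.trans hΩ) one_pos le_rfl (by norm_num)
    (by norm_num)).2 0 (2 * π) hg Real.two_pi_pos (by linarith) hfree
  have k2 := (hCirc Ω K u y ρ h.isOpen h.c1 (sphere_subset_closedBall.trans (hsub.trans hΩ))
    hg).2.2.2.1
  have k3 : len K (closedBall y (t / 4)) ≤ len K (ball y ((1 - 1 / 2) * ρ)) := by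
    refine len_mono (closedBall_subset_ball (by linarith [hm.1])) (lt_of_le_of_lt
      (measure_mono (inter_subset_inter_right _ ?_)) (h.fin y t hΩ))
    exact ball_subset_closedBall.trans (closedBall_subset_closedBall (by linarith [hm.2]))
  have k4 : En u (closedBall y ρ) ≤ En u (closedBall y t) := En_mono hsub (h.int y t hΩ)
  have p0 := Real.pi_pos
  have p4 := Real.pi_le_four
  have rt := hm.2.le
  have k5 : 2 * π * ρ * ce u y ρ ≤ 2 * 4 * t * (4 * φ) := by gcongr
  have k6 : 4 * π * (∫ θ in (0 : ℝ)..2 * π, ‖cg u y ρ θ‖) ^ 2 / (1 * (1 / 2)) ≤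
      4 * 4 * (2 * 4 * t * (4 * φ)) / (1 * (1 / 2)) := by
    have := k2.trans k5
    gcongr
  have k7 : 2 * π * (Λ * M) * ρ ^ 2 ≤ 2 * 4 * (Λ * M) * t ^ 2 := by gcongr
  have k8 : 4 * 4 * (2 * 4 * t * (4 * φ)) / (1 * (1 / 2)) = 1024 * φ * t := by ring
  have k9 : (2 * π - (2 * π - 0)) * ρ = 0 := by ring
  rw [k9] at k1
  rw [k8] at k6
  linarith

/-- the iteration -/
theorem iter (hGood : GoodStmt) (hBon : BonStmt) (hGron : GronStmt) (hRem : RemStmt)
    (hUp : UpStmt) (hCirc : CircStmt) (h : IsMS Ω K u Λ M) (y : ℂ) (t : ℝ) (ht : 0 < t)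
    (hΩ : closedBall y t ⊆ Ω) (ha : Λ * M * t ≤ 1 / 2)
    (hl : len K (closedBall y t) ≤ t / (128 * 4 ^ 25)) (k : ℕ) :
    En u (closedBall y (t / 4 ^ k)) + 56 * (Λ * M) * (t / 4 ^ k) ^ 2 ≤ 40 / 2 ^ k * (t / 4 ^ k) ∧
      len K (closedBall y (t / 4 ^ k)) ≤ t / 4 ^ k / 128 := by
  have a0 := h.a0
  have hsub : ∀ k : ℕ, closedBall y (t / 4 ^ k) ⊆ closedBall y t := fun k =>
    closedBall_subset_closedBall (div_le_self ht.le (one_le_pow₀ (by norm_num)))
  have first : ∀ k : ℕ, k ≤ 25 → len K (closedBall y (t / 4 ^ k)) ≤ t / 4 ^ k / 128 := by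
    intro k hk
    refine (len_mono (hsub k) (h.fin y t hΩ)).trans (hl.trans ?_)
    rw [div_div, mul_comm (4 ^ k : ℝ)]
    gcongr
    norm_num
  induction k with
  | zero =>
    refine ⟨?_, first 0 (by norm_num)⟩
    have k1 := hUp Ω K u Λ M h y t ht.le hΩ
    have k2 := len_nonneg K (closedBall y t)
    have p0 := Real.pi_pos
    have p4 := Real.pi_le_four
    have k3 : 2 * π * t ≤ 2 * 4 * t := by gcongr
    have k4 : 2 * π * (Λ * M) * t ^ 2 ≤ 2 * 4 * (Λ * M) * t ^ 2 := by gcongr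
    have k5 : Λ * M * t * t ≤ 1 / 2 * t := by gcongr
    simp only [pow_zero, div_one]
    nlinarith
  | succ k ih =>
    obtain ⟨s, hs⟩ : ∃ s, s = t / 4 ^ k := ⟨_, rfl⟩
    have e : t / 4 ^ (k + 1) = s / 4 := by rw [hs, pow_succ, div_div]
    have s0 : 0 < s := by rw [hs]; positivity
    have hΩ' : closedBall y s ⊆ Ω := hs ▸ (hsub k).trans hΩ
    rw [← hs] at ih
    refine ⟨?_, ?_⟩
    · have k1 := energy hGood hBon hGron h y s s0 hΩ' ih.2
      have k2 : (40 : ℝ) / 2 ^ (k + 1) * (s / 4) = 40 / 2 ^ k * s / 8 := by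
        rw [pow_succ]; field_simp; norm_num
      rw [e, k2]
      nlinarith [ih.1]
    · by_cases hk : k + 1 ≤ 25
      · exact first _ hk
      · have k1 := length hGood hRem hCirc h y s (40 / 2 ^ k) s0 (by positivity) hΩ' ih.2 ih.1
        have k2 : (40 : ℝ) / 2 ^ k ≤ 40 / 2 ^ 25 := by
          gcongr
          · norm_num
          · omega
        have k3 : 1025 * (40 / 2 ^ k) * s ≤ 1025 * (40 / 2 ^ 25) * s := by gcongr
        rw [e]
        linarith

/-- small density at all scales -/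
theorem small (hGood : GoodStmt) (hBon : BonStmt) (hGron : GronStmt) (hRem : RemStmt)
    (hUp : UpStmt) (hCirc : CircStmt) (h : IsMS Ω K u Λ M) (y : ℂ) (t : ℝ) (ht : 0 < t)
    (hΩ : closedBall y t ⊆ Ω) (ha : Λ * M * t ≤ 1 / 2)
    (hl : len K (closedBall y t) ≤ t / (128 * 4 ^ 25)) (s : ℝ) (hs : 0 ≤ s) (hst : s ≤ t) :
    2 * μH[1] (K ∩ closedBall y s) ≤ ENNReal.ofReal s := by
  rcases hs.eq_or_lt with rfl | s0
  · have := Measure.nullSingletonClass_hausdorff ℂ (d := 1) one_pos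
    have : μH[1] (K ∩ closedBall y 0) = 0 := by
      rw [closedBall_zero]
      exact measure_mono_null inter_subset_right (measure_singleton y)
    rw [this, mul_zero]
    exact zero_le
  obtain ⟨k, k1, k2⟩ := exists_nat_pow_near (x := t / s) (y := (4 : ℝ))
    ((one_le_div s0).2 hst) (by norm_num)
  have k3 : s ≤ t / 4 ^ k := by
    rw [le_div_iff₀ s0] at k1
    rw [le_div_iff₀ (by positivity)]
    linarith
  have k4 : t / 4 ^ k ≤ 4 * s := by
    rw [div_lt_iff₀ s0, pow_succ] at k2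
    rw [div_le_iff₀ (by positivity)]
    linarith
  have hf : ∀ s', s' ≤ t → μH[1] (K ∩ closedBall y s') < ⊤ := fun s' hs' =>
    h.fin y s' ((closedBall_subset_closedBall hs').trans hΩ)
  have k5 := (iter hGood hBon hGron hRem hUp hCirc h y t ht hΩ ha hl k).2
  have k6 := len_mono (K := K) (closedBall_subset_closedBall (x := y) k3)
    (hf _ (div_le_self ht.le (one_le_pow₀ (by norm_num))))
  have k7 : 2 * len K (closedBall y s) ≤ s := by linarith
  rw [← ENNReal.ofReal_toReal (hf s hst).ne, ← ENNReal.ofReal_ofNat 2,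
    ← ENNReal.ofReal_mul (by norm_num)]
  exact ENNReal.ofReal_le_ofReal k7

end Dens

theorem dens_pf (hGood : GoodStmt) (hBon : BonStmt) (hGron : GronStmt) (hRem : RemStmt)
    (hUp : UpStmt) (hCirc : CircStmt) : DensStmt := by
  refine ⟨1 / (256 * 4 ^ 25), by positivity, fun Ω K u Λ M h x hx r hr hΩ ha => ?_⟩
  by_contra hc
  push Not at hc
  have r2 : 0 < r / 2 := by positivity
  have hT : MeasurableSet (K ∩ ball x (r / 2)) := h.cl.measurableSet.inter measurableSet_ball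
  have key : (2 : ℝ≥0∞) • (μH[1] : Measure ℂ).restrict (K ∩ ball x (r / 2)) ≤ μH[1] := by
    refine Measure.le_hausdorffMeasure 1 _ (ENNReal.ofReal (r / 2)) (ENNReal.ofReal_pos.2 r2)
      fun S hS => ?_
    rw [Measure.smul_apply, Measure.restrict_apply' hT, smul_eq_mul, ENNReal.rpow_one]
    rcases (S ∩ (K ∩ ball x (r / 2))).eq_empty_or_nonempty with h0 | ⟨y, hyS, -, hy⟩
    · rw [h0, measure_empty, mul_zero]
      exact zero_le
    have hne : ediam S ≠ ⊤ := ne_top_of_le_ne_top ENNReal.ofReal_ne_top hS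
    have hsub : closedBall y (r / 2) ⊆ closedBall x r :=
      closedBall_subset_closedBall' (by linarith [mem_ball.1 hy])
    have k := Dens.small hGood hBon hGron hRem hUp hCirc h y (r / 2) r2 (hsub.trans hΩ)
      (by linarith) (by
        have := len_mono hsub (h.fin x r hΩ)
        linarith) (diam S) diam_nonneg (ENNReal.toReal_le_of_le_ofReal r2.le hS)
    rw [diam, ENNReal.ofReal_toReal hne] at k
    refine le_trans (mul_le_mul_right (measure_mono ?_) 2) k
    rintro z ⟨hz, hzK, -⟩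
    exact ⟨hzK, dist_le_diam_of_mem' hne hz hyS⟩
  have h1 := key (K ∩ ball x (r / 2))
  rw [Measure.smul_apply, Measure.restrict_apply_self, smul_eq_mul] at h1
  have h2 := h.red x hx (hΩ (mem_closedBall_self hr.le)) (r / 2) r2
  have h3 : μH[1] (K ∩ ball x (r / 2)) < ⊤ := lt_of_le_of_lt (measure_mono
    (inter_subset_inter_right _ (ball_subset_closedBall.trans
      (closedBall_subset_closedBall (by linarith))))) (h.fin x r hΩ)
  rw [two_mul] at h1
  exact absurd h1 (not_le.2 (ENNReal.lt_add_right h3.ne h2.ne'))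

end Vale.Agent.P128
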