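import Vale.Agent.P128.DivA

open MeasureTheory Set Metric Filter Topology Complex
open scoped ENNReal NNReal ComplexConjugate Real

noncomputable section
namespace Vale.Agent.P128

namespace Div

variable {Ω K : Set ℂ} {u : ℂ → ℝ} {Λ M : ℝ} {x : ℂ} {ρ R σ B : ℝ} {φ : ℂ → ℝ}

theorem avg {F a : ℝ → ℝ} {F0 : ℝ} (hσ : σ * σ = 1)
    (hF : Tendsto (fun t => F (ρ + σ * t)) (𝓝[>] 0) (𝓝 F0))
    (ha : ∀ᶠ δ in 𝓝[>] 0, IntervalIntegrable F volume (a δ) (a δ + δ) ∧
      ∀ s, a δ < s → s ≤ a δ + δ → 0 < σ * (s - ρ) ∧ σ * (s - ρ) ≤ 2 * δ) :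
    Tendsto (fun δ => δ⁻¹ * ∫ s in a δ..a δ + δ, F s) (𝓝[>] 0) (𝓝 F0) := by
  rw [Metric.tendsto_nhds] at hF ⊢
  intro ε hε
  obtain ⟨τ, hτ, h1⟩ := mem_nhdsGT_iff_exists_Ioo_subset.1 (hF _ (half_pos hε))
  filter_upwards [ha, Ioo_mem_nhdsGT (half_pos (mem_Ioi.1 hτ))] with δ h2 hδ
  have h3 := intervalIntegral.norm_integral_le_of_norm_le_const (a := a δ) (b := a δ + δ)
    (C := ε / 2) (f := fun s => F s - F0) fun s hs => ?_
  · rw [intervalIntegral.integral_sub h2.1 intervalIntegrable_const,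
      intervalIntegral.integral_const, add_sub_cancel_left, abs_of_pos hδ.1, smul_eq_mul,
      Real.norm_eq_abs] at h3
    have e : δ⁻¹ * (∫ s in a δ..a δ + δ, F s) - F0 =
        δ⁻¹ * ((∫ s in a δ..a δ + δ, F s) - δ * F0) := by
      have := hδ.1.ne'
      field_simp
    rw [Real.dist_eq, e, abs_mul, abs_of_pos (inv_pos.2 hδ.1), inv_mul_lt_iff₀ hδ.1]
    nlinarith [mul_pos hδ.1 hε]
  · rw [uIoc_of_le (by linarith [hδ.1])] at hs
    obtain ⟨a1, a2⟩ := h2.2 s hs.1 hs.2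
    have h4 : dist (F (ρ + σ * (σ * (s - ρ)))) F0 < ε / 2 := h1 ⟨a1, by linarith [hδ.2]⟩
    rw [← mul_assoc, hσ, one_mul, add_sub_cancel, dist_eq_norm] at h4
    exact h4.le

/-- The radial flux density. -/
def GG (u φ : ℂ → ℝ) (x z : ℂ) : ℝ := φ z * ((z - x) * pd u z).re / ‖z - x‖

/-- The flux through a circle. -/
def FF (u φ : ℂ → ℝ) (x : ℂ) (s : ℝ) : ℝ :=
  ∫ θ in (0 : ℝ)..2 * π, φ (circleMap x s θ) * (cg u x s θ).re

theorem GG_int (hM : IsMS Ω K u Λ M) (hR : closedBall x R ⊆ Ω) (h : Tf Ω K x ρ R σ B φ) :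
    IntegrableOn (GG u φ x) (closedBall x R) := by
  have hB0 : 0 ≤ B := (abs_nonneg _).trans (h.bd 0)
  have hc : IntegrableOn (fun _ => (1 : ℝ)) (closedBall x R) :=
    integrableOn_const measure_closedBall_lt_top.ne
  have hm : Measurable (GG u φ x) := by
    have h1 := h.me
    have h2 := measurable_pd u
    unfold GG
    fun_prop
  refine Integrable.mono' (((hM.int x R hR).add hc).const_mul B) hm.aestronglyMeasurable
    (Eventually.of_forall fun z => ?_)
  rw [GG, Real.norm_eq_abs, mul_div_assoc, abs_mul, abs_div, abs_norm, Pi.add_apply]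
  refine mul_le_mul (h.bd z) (div_le_of_le_mul₀ (norm_nonneg _) (by positivity)
    ((abs_re_le_norm _).trans ?_)) (by positivity) hB0
  rw [norm_mul, mul_comm]
  refine mul_le_mul_of_nonneg_right ?_ (norm_nonneg _)
  nlinarith [sq_nonneg (‖pd u z‖ - 1)]

theorem GG_circ (u φ : ℂ → ℝ) (x : ℂ) {s : ℝ} (hs : 0 < s) :
    s • ∫ θ in (0 : ℝ)..2 * π, GG u φ x (circleMap x s θ) = FF u φ x s := by
  rw [smul_eq_mul, ← intervalIntegral.integral_const_mul]
  refine intervalIntegral.integral_congr fun θ _ => ?_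
  simp only [GG, cg]
  rw [circleMap_sub_center, norm_circleMap_zero, abs_of_pos hs, mul_div_cancel₀ _ hs.ne']

theorem polar (hPol : PolStmt) (hM : IsMS Ω K u Λ M) (hR : closedBall x R ⊆ Ω)
    (h : Tf Ω K x ρ R σ B φ) {s t : ℝ} (hs : 0 < s) (hst : s ≤ t) (ht : t < R) :
    IntervalIntegrable (FF u φ x) volume s t ∧
      ∫ z in closedBall x t \ closedBall x s, GG u φ x z = ∫ r in s..t, FF u φ x r := by
  obtain ⟨-, h1, h2⟩ := hPol.2.1 ℝ (GG u φ x) x R (GG_int hM hR h)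
  constructor
  · rw [intervalIntegrable_iff_integrableOn_Ioc_of_le hst]
    exact (h1.mono_set fun r hr => ⟨hs.trans hr.1, hr.2.trans_lt ht⟩).congr_fun
      (fun r hr => GG_circ u φ x (hs.trans hr.1)) measurableSet_Ioc
  · rw [h2 s t hs.le hst ht.le]
    refine intervalIntegral.integral_congr fun r hr => GG_circ u φ x ?_
    rw [uIcc_of_le hst] at hr
    exact hs.trans_le hr.1

theorem ae_ne (x : ℂ) (r : ℝ) : ∀ᵐ z : ℂ, ‖z - x‖ ≠ r := by
  filter_upwards [measure_eq_zero_iff_ae_notMem.1 (Measure.addHaar_sphere volume x r)] with z hz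
  rwa [mem_sphere_iff_norm] at hz

theorem ann (u φ : ℂ → ℝ) {δ a : ℝ} (hδ : 0 < δ) (ha : 0 < a) (haR : a + δ ≤ R)
    (h1 : ∀ s, a < s → s < a + δ → δ < σ * (s - ρ) ∧ σ * (s - ρ) < 2 * δ)
    (h2 : ∀ s, s < a ∨ a + δ < s → σ * (s - ρ) < δ ∨ 2 * δ < σ * (s - ρ))
    (h3 : ∀ s, a < s → s ≤ a + δ → 0 < σ * (s - ρ)) :
    ∫ z in SS x ρ R σ, φ z * (pd u z * conj (pd (ct (sd x ρ σ) δ) z)).re =
      σ * (δ⁻¹ * ∫ z in closedBall x (a + δ) \ closedBall x a, GG u φ x z) := by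
  have hA : ∀ z, z ∈ closedBall x (a + δ) \ closedBall x a ↔ a < ‖z - x‖ ∧ ‖z - x‖ ≤ a + δ :=
    fun z => by rw [mem_diff, mem_closedBall_iff_norm, mem_closedBall_iff_norm, not_le, and_comm]
  rw [setIntegral_eq_of_subset_of_ae_sdiff_eq_zero (s := closedBall x (a + δ) \ closedBall x a)
    (SS_me x ρ R σ).nullMeasurableSet, ← integral_const_mul, ← integral_const_mul]
  · refine setIntegral_congr_ae (measurableSet_closedBall.diff measurableSet_closedBall) ?_
    filter_upwards [ae_ne x (a + δ)] with z hz hz'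
    obtain ⟨a1, a2⟩ := (hA z).1 hz'
    obtain ⟨a3, a4⟩ := h1 _ a1 (lt_of_le_of_ne a2 hz)
    have a5 : z ≠ x := fun e => by
      rw [e, sub_self, norm_zero] at a1
      exact lt_asymm a1 ha
    rw [pd_congr (ct_mid (sd_cont x ρ σ) hδ a3 a4), pd_add_const, pd_const_mul, pd_sd a5, map_mul,
      map_mul, map_div₀, conj_ofReal, conj_ofReal, conj_ofReal, conj_conj, mul_left_comm (pd u z),
      re_ofReal_mul, mul_left_comm (pd u z), re_ofReal_mul, ← mul_div_assoc, div_ofReal_re, GG,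
      mul_comm (pd u z)]
    ring
  · intro z hz
    obtain ⟨a1, a2⟩ := (hA z).1 hz
    exact ⟨mem_closedBall_iff_norm.2 (a2.trans haR), h3 _ a1 a2⟩
  · filter_upwards [ae_ne x a] with z hz hz'
    have a1 : ‖z - x‖ < a ∨ a + δ < ‖z - x‖ := by
      by_contra a2
      rw [not_or, not_lt, not_lt] at a2
      exact hz'.2 ((hA z).2 ⟨lt_of_le_of_ne a2.1 hz.symm, a2.2⟩)
    rcases h2 _ a1 with a2 | a2
    · simp [pd_congr (ct_lo (sd_cont x ρ σ) hδ a2), pd_const]
    · simp [pd_congr (ct_hi (sd_cont x ρ σ) hδ a2), pd_const]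

theorem ae_circ (hG : Good K u x ρ) {P : Set ℂ} (hP : P.Finite) : ∀ᵐ θ, circleMap x ρ θ ∉ P :=
  measure_eq_zero_iff_ae_notMem.1
    ((hP.countable.preimage_circleMap x hG.pos.ne').measure_zero volume)

theorem circ_mem (hG : Good K u x ρ) (hR : closedBall x R ⊆ Ω) (hρ : ρ < R) (θ : ℝ) :
    circleMap x ρ θ ∈ Ω :=
  hR (closedBall_subset_closedBall hρ.le (circleMap_mem_closedBall x hG.pos.le θ))

theorem circ_lim (x : ℂ) (ρ σ θ : ℝ) :
    Tendsto (fun t => circleMap x (ρ + σ * t) θ) (𝓝[>] 0) (𝓝 (circleMap x ρ θ)) := by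
  have : Continuous fun t : ℝ => circleMap x (ρ + σ * t) θ := by
    unfold circleMap
    fun_prop
  simpa using (this.tendsto 0).mono_left (nhdsWithin_le_nhds (s := Ioi 0))

theorem me_cg (u : ℂ → ℝ) (x : ℂ) (s : ℝ) : Measurable fun θ => (cg u x s θ).re := by
  have h1 := (measurable_pd u).comp (continuous_circleMap x s).measurable
  have h2 := (continuous_circleMap x s).measurable
  exact measurable_re.comp ((h2.sub_const x).mul h1)

theorem stepA (hEl : ElStmt) (hPol : PolStmt) (hM : IsMS Ω K u Λ M) (hR : closedBall x R ⊆ Ω)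
    (hρ : ρ < R) (hG : Good K u x ρ) (hσ : σ = 1 ∨ σ = -1) (h : Tf Ω K x ρ R σ B φ) {φ₀ : ℝ → ℝ}
    (hl : ∀ᵐ θ, Tendsto (fun t => φ (circleMap x (ρ + σ * t) θ)) (𝓝[>] 0) (𝓝 (φ₀ θ))) {C : ℝ}
    (hC : ∀ᶠ t in 𝓝[>] 0, ∀ θ,
      |φ (circleMap x (ρ + σ * t) θ) * (cg u x (ρ + σ * t) θ).re| ≤ C) :
    |(∫ z in SS x ρ R σ, (pd u z * conj (pd φ z)).re) +
      σ * ∫ θ in (0 : ℝ)..2 * π, φ₀ θ * (cg u x ρ θ).re| ≤ ∫ z in SS x ρ R σ, |Λ * φ z| := by
  have hF : Tendsto (fun t => FF u φ x (ρ + σ * t)) (𝓝[>] 0)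
      (𝓝 (∫ θ in (0 : ℝ)..2 * π, φ₀ θ * (cg u x ρ θ).re)) := by
    refine intervalIntegral.tendsto_integral_filter_of_dominated_convergence (fun _ => C)
      (Eventually.of_forall fun t => ((h.me.comp (continuous_circleMap x _).measurable).mul
        (me_cg u x _)).aestronglyMeasurable)
      (hC.mono fun t ht => Eventually.of_forall fun θ _ => ht θ) intervalIntegrable_const ?_
    filter_upwards [hl, ae_circ hG hG.fin] with θ h1 h2 _
    have h3 : circleMap x ρ θ ∈ Ω \ K :=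
      ⟨circ_mem hG hR hρ θ, fun a => h2 ⟨a, circleMap_mem_sphere x hG.pos.le θ⟩⟩
    have h4 := ((continuousOn_pd hM.isOpen hM.c1).continuousAt (hM.isOpen.mem_nhds h3)).tendsto.comp
      (circ_lim x ρ σ θ)
    exact h1.mul ((continuous_re.tendsto _).comp (((circ_lim x ρ σ θ).sub_const x).mul h4))
  have h0 := hG.pos
  have hev : ∀ᶠ δ in 𝓝[>] (0 : ℝ), 0 < δ ∧ 2 * δ < ρ ∧ 2 * δ < R - ρ := by
    filter_upwards [Ioo_mem_nhdsGT (half_pos h0), Ioo_mem_nhdsGT (half_pos (sub_pos.2 hρ))]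
      with δ h1 h2
    exact ⟨h1.1, by linarith [h1.2], by linarith [h2.2]⟩
  have hp : ∀ δ : ℝ, 0 < δ ∧ 2 * δ < ρ ∧ 2 * δ < R - ρ →
      0 < ρ + (3 * σ - 1) / 2 * δ ∧ ρ + (3 * σ - 1) / 2 * δ + δ < R := fun δ ⟨a1, a2, a3⟩ => by
    rcases hσ with rfl | rfl <;> constructor <;> linarith
  have hA := avg (a := fun δ => ρ + (3 * σ - 1) / 2 * δ)
    (by rcases hσ with rfl | rfl <;> norm_num) hF (hev.mono fun δ hδ =>
      ⟨(polar hPol hM hR h (hp δ hδ).1 (by linarith [hδ.1]) (hp δ hδ).2).1, fun s a1 a2 => by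
        have := hδ.1
        rcases hσ with rfl | rfl <;> constructor <;> linarith⟩)
  have hT := h.lim1 hM hR (sd_cont x ρ σ) ((ae_OO hM hR).mono fun z hz => hz.1.2)
  refine le_of_tendsto (hT.add (hA.const_mul σ)).abs (hev.mono fun δ hδ => ?_)
  have hd := hδ.1
  have hc := ct_lip (sd_lip x ρ hσ) hd
  have h1 := (h.mul hM hR hc (ct_abs _ δ)).el hEl hM hR hd fun z hz => by
    rw [ct_zero hd hz.le, mul_zero]
  rw [h.split hM hR hc (ct_abs _ δ), ann u φ hd (hp δ hδ).1 (hp δ hδ).2.le,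
    (polar hPol hM hR h (hp δ hδ).1 (by linarith) (hp δ hδ).2).2] at h1
  · exact h1.trans (h.lam (ct_abs _ δ))
  · intro s a1 a2
    rcases hσ with rfl | rfl <;> constructor <;> linarith
  · intro s a1
    rcases hσ with rfl | rfl <;> rcases a1 with a1 | a1
    exacts [Or.inl (by linarith), Or.inr (by linarith), Or.inr (by linarith), Or.inl (by linarith)]
  · intro s a1 a2
    rcases hσ with rfl | rfl <;> linarith

theorem dom (hM : IsMS Ω K u Λ M) (hR : closedBall x R ⊆ Ω) (hρ : ρ < R) (hG : Good K u x ρ)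
    (hσ : σ = 1 ∨ σ = -1) (hB : ∀ z, |φ z| ≤ B) {P : Set ℂ} (hP : K ∩ sphere x ρ ⊆ P) {ε : ℝ}
    (hε : 0 < ε) (h0 : ∀ z, infDist z P ≤ ε → φ z = 0) : ∃ C, ∀ᶠ t in 𝓝[>] 0, ∀ θ,
      |φ (circleMap x (ρ + σ * t) θ) * (cg u x (ρ + σ * t) θ).re| ≤ C := by
  have hc : IsCompact (sphere x ρ ∩ {z | ε / 2 ≤ infDist z P}) :=
    (isCompact_sphere x ρ).inter_right (isClosed_le continuous_const (continuous_infDist_pt P))
  obtain ⟨δ, hδ, h1⟩ := hc.exists_cthickening_subset_open hM.isOpen fun z hz =>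
    ⟨hR (closedBall_subset_closedBall hρ.le (sphere_subset_closedBall hz.1)), fun a => by
      have := hz.2
      rw [mem_setOf_eq, infDist_zero_of_mem (hP ⟨a, hz.1⟩)] at this
      linarith⟩
  obtain ⟨N, hN⟩ := hc.cthickening.exists_bound_of_continuousOn
    ((continuousOn_pd hM.isOpen hM.c1).mono h1)
  have hB0 : 0 ≤ B := (abs_nonneg _).trans (hB 0)
  have hs : |σ| = 1 := by rcases hσ with rfl | rfl <;> simp
  refine ⟨B * ((ρ + δ) * |N|), ?_⟩
  have h2 := hG.pos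
  filter_upwards [Ioo_mem_nhdsGT hδ, Ioo_mem_nhdsGT (half_pos hε)] with t a1 a2 θ
  rcases le_or_gt (infDist (circleMap x (ρ + σ * t) θ) P) ε with a | a
  · rw [h0 _ a, zero_mul, abs_zero]
    positivity
  have hd : dist (circleMap x (ρ + σ * t) θ) (circleMap x ρ θ) = t := by
    have : circleMap x (ρ + σ * t) θ - circleMap x ρ θ = circleMap 0 (σ * t) θ := by
      simp only [circleMap]
      push_cast
      ring
    rw [dist_eq_norm, this, norm_circleMap_zero, abs_mul, hs, one_mul, abs_of_pos a1.1]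
  have hm : circleMap x (ρ + σ * t) θ ∈ cthickening δ (sphere x ρ ∩ {z | ε / 2 ≤ infDist z P}) := by
    refine mem_cthickening_of_dist_le _ (circleMap x ρ θ) _ _
      ⟨circleMap_mem_sphere x h2.le θ, ?_⟩ (hd.le.trans a1.2.le)
    have := infDist_le_infDist_add_dist (x := circleMap x (ρ + σ * t) θ) (y := circleMap x ρ θ)
      (s := P)
    rw [mem_setOf_eq]
    linarith [a2.2]
  rw [abs_mul]
  refine mul_le_mul (hB _) ((abs_re_le_norm _).trans ?_) (abs_nonneg _) hB0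
  rw [cg, norm_mul, circleMap_sub_center, norm_circleMap_zero]
  refine mul_le_mul ((abs_add_le _ _).trans ?_) ((hN _ hm).trans (le_abs_self _)) (norm_nonneg _)
    (by positivity)
  rw [abs_mul, hs, one_mul, abs_of_pos h2, abs_of_pos a1.1]
  linarith [a1.2]

theorem area {P : Set ℂ} (hP : P.Finite) (hne : P.Nonempty) : ∃ N : ℝ, 0 ≤ N ∧ ∀ ε : ℝ, 0 < ε →
    ∀ S : Set ℂ, (volume.restrict S).real {z | infDist z P ≤ 2 * ε} ≤ N * ε ^ 2 := by
  refine ⟨hP.toFinset.card * (4 * π), by positivity, fun ε hε S => ?_⟩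
  have h1 : {z | infDist z P ≤ 2 * ε} ⊆ ⋃ p ∈ hP.toFinset, closedBall p (2 * ε) := fun z hz => by
    obtain ⟨p, hp, e⟩ := hP.isCompact.exists_infDist_eq_dist hne z
    exact mem_iUnion₂.2 ⟨p, hP.mem_toFinset.2 hp, mem_closedBall.2 (e ▸ hz)⟩
  have h2 : ∀ p : ℂ, (volume.restrict S) (closedBall p (2 * ε)) ≤ volume (closedBall p (2 * ε)) :=
    fun p => Measure.restrict_le_self _
  refine (measureReal_mono h1 ((measure_biUnion_finset_le _ _).trans_lt (ENNReal.sum_lt_top.2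
    fun p _ => (h2 p).trans_lt measure_closedBall_lt_top)).ne).trans
    ((measureReal_biUnion_finset_le _ _).trans ?_)
  rw [mul_assoc, ← nsmul_eq_mul, ← Finset.sum_const]
  refine Finset.sum_le_sum fun p _ =>
    (ENNReal.toReal_mono measure_closedBall_lt_top.ne (h2 p)).trans (le_of_eq ?_)
  rw [Complex.volume_closedBall, ENNReal.toReal_mul, ENNReal.toReal_pow,
    ENNReal.toReal_ofReal (by positivity), ENNReal.coe_toReal, NNReal.coe_real_pi]
  ring

theorem ae_pos {P : Set ℂ} (hP : P.Finite) (hne : P.Nonempty) : ∀ᵐ z : ℂ, 0 < infDist z P := by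
  filter_upwards [measure_eq_zero_iff_ae_notMem.1 (hP.measure_zero volume)] with z hz
  exact (hP.isClosed.notMem_iff_infDist_pos hne).1 hz

theorem lim2 (hM : IsMS Ω K u Λ M) (hR : closedBall x R ⊆ Ω) (h : Tf Ω K x ρ R σ B φ)
    {P : Set ℂ} (hP : P.Finite) (hne : P.Nonempty) :
    Tendsto (fun ε => ∫ z in SS x ρ R σ, φ z * (pd u z * conj (pd (ct (infDist · P) ε) z)).re)
      (𝓝[>] 0) (𝓝 0) := by
  have hB0 : 0 ≤ B := (abs_nonneg _).trans (h.bd 0)
  have hU : ∀ ε, MeasurableSet {z : ℂ | infDist z P ≤ 2 * ε} := fun ε =>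
    (isClosed_le (continuous_infDist_pt P) continuous_const).measurableSet
  have hi := intu (ρ := ρ) (σ := σ) hM hR
  have hE : Tendsto (fun ε => ∫ z in SS x ρ R σ, {z : ℂ | infDist z P ≤ 2 * ε}.indicator
      (fun z => ‖pd u z‖ ^ 2) z) (𝓝[>] 0) (𝓝 (∫ _ in SS x ρ R σ, 0)) := by
    refine tendsto_integral_filter_of_dominated_convergence _
      (Eventually.of_forall fun ε => hi.1.indicator (hU ε))
      (Eventually.of_forall fun ε => Eventually.of_forall fun z => norm_indicator_le_norm_self _ _)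
      hi.norm ?_
    filter_upwards [ae_restrict_of_ae (ae_pos hP hne)] with z hz
    refine tendsto_const_nhds.congr' ?_
    filter_upwards [Ioo_mem_nhdsGT (half_pos hz)] with ε hε
    exact (indicator_of_notMem (fun a => by linarith [hε.2, mem_setOf_eq ▸ a]) _).symm
  rw [integral_zero] at hE
  obtain ⟨N, hN, hA⟩ := area hP hne
  rw [Metric.tendsto_nhds]
  intro κ hκ
  obtain ⟨η, hη, h1⟩ : ∃ η : ℝ, 0 < η ∧ B * (η * N) < κ / 2 := by
    refine ⟨κ / 2 / (B * N + 1), by positivity, ?_⟩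
    rw [mul_left_comm, div_mul_eq_mul_div, div_lt_iff₀ (by positivity)]
    nlinarith
  have h2 := ((hE.const_mul η⁻¹).const_mul B).eventually
    (gt_mem_nhds (show B * (η⁻¹ * 0) < κ / 2 by simpa using hκ))
  filter_upwards [h2, self_mem_nhdsWithin] with ε h3 (hε : 0 < ε)
  have i1 : Integrable ({z : ℂ | infDist z P ≤ 2 * ε}.indicator fun _ => η / ε ^ 2)
      (volume.restrict (SS x ρ R σ)) := (integrable_const _).indicator (hU ε)
  have i2 := (Integrable.indicator hi (hU ε)).const_mul η⁻¹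
  rw [dist_zero_right]
  refine (norm_integral_le_of_norm_le ((i1.add i2).const_mul B)
    (Eventually.of_forall fun z => ?_)).trans_lt ?_
  · rcases le_or_gt (infDist z P) (2 * ε) with a | a
    · rw [Pi.add_apply, indicator_of_mem (show z ∈ {z : ℂ | infDist z P ≤ 2 * ε} from a),
        indicator_of_mem (show z ∈ {z : ℂ | infDist z P ≤ 2 * ε} from a), norm_mul]
      refine mul_le_mul (h.bd z) ((re_le _ _).trans ((mul_le_mul_of_nonneg_left
        (pd_le (ct_lip (lipschitz_infDist_pt P) hε) z) (norm_nonneg _)).trans ?_))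
        (norm_nonneg _) hB0
      change ‖pd u z‖ * ε⁻¹ ≤ _
      have e : η / ε ^ 2 + η⁻¹ * ‖pd u z‖ ^ 2 - 2 * (‖pd u z‖ * ε⁻¹) =
          η⁻¹ * (η / ε - ‖pd u z‖) ^ 2 := by
        field_simp
        ring
      have a1 : 0 ≤ η⁻¹ * (η / ε - ‖pd u z‖) ^ 2 := by positivity
      have a2 : 0 ≤ ‖pd u z‖ * ε⁻¹ := by positivity
      linarith
    · have a1 : z ∉ {z : ℂ | infDist z P ≤ 2 * ε} := not_le.2 a
      simp [pd_congr (ct_hi (continuous_infDist_pt P) hε a), pd_const, indicator_of_notMem a1]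
  · simp only [Pi.add_apply]
    rw [integral_const_mul, integral_add i1 i2, integral_const_mul,
      integral_indicator_const _ (hU ε), smul_eq_mul, mul_add]
    have a1 := mul_le_mul_of_nonneg_right (hA ε hε (SS x ρ R σ))
      (show 0 ≤ η / ε ^ 2 by positivity)
    have e : N * ε ^ 2 * (η / ε ^ 2) = η * N := by field_simp
    have a2 := mul_le_mul_of_nonneg_left (a1.trans e.le) hB0
    linarith

theorem stepB (hEl : ElStmt) (hPol : PolStmt) (hCirc : CircStmt) (hM : IsMS Ω K u Λ M)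
    (hR : closedBall x R ⊆ Ω) (hρ : ρ < R) (hG : Good K u x ρ) (hσ : σ = 1 ∨ σ = -1)
    (h : Tf Ω K x ρ R σ B φ) {φ₀ : ℝ → ℝ}
    (hl : ∀ᵐ θ, Tendsto (fun t => φ (circleMap x (ρ + σ * t) θ)) (𝓝[>] 0) (𝓝 (φ₀ θ))) :
    |(∫ z in SS x ρ R σ, (pd u z * conj (pd φ z)).re) +
      σ * ∫ θ in (0 : ℝ)..2 * π, φ₀ θ * (cg u x ρ θ).re| ≤ ∫ z in SS x ρ R σ, |Λ * φ z| := by
  obtain ⟨P, hP, hne, hKP⟩ : ∃ P : Set ℂ, P.Finite ∧ P.Nonempty ∧ K ∩ sphere x ρ ⊆ P :=
    ⟨insert 0 _, hG.fin.insert 0, insert_nonempty _ _, subset_insert _ _⟩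
  have hc : ∀ ε, Continuous (ct (infDist · P) ε) := fun ε => by
    have := continuous_infDist_pt P
    unfold ct
    fun_prop
  have hm : AEStronglyMeasurable φ₀ volume := aestronglyMeasurable_of_tendsto_ae (𝓝[>] 0)
    (fun t => (h.me.comp (continuous_circleMap x _).measurable).aestronglyMeasurable) hl
  have hI := ((hCirc Ω K u x ρ hM.isOpen hM.c1 (fun z hz => hR (closedBall_subset_closedBall
    hρ.le (sphere_subset_closedBall hz))) hG).2.1 0 (2 * π)).1
  have hF : Tendsto (fun ε => ∫ θ in (0 : ℝ)..2 * π,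
      φ₀ θ * ct (infDist · P) ε (circleMap x ρ θ) * (cg u x ρ θ).re) (𝓝[>] 0)
      (𝓝 (∫ θ in (0 : ℝ)..2 * π, φ₀ θ * (cg u x ρ θ).re)) := by
    refine intervalIntegral.tendsto_integral_filter_of_dominated_convergence _
      (Eventually.of_forall fun ε => (hm.restrict.mul ((hc ε).comp
        (continuous_circleMap x ρ)).aestronglyMeasurable).mul (me_cg u x _).aestronglyMeasurable)
      (Eventually.of_forall fun ε => ?_) (hI.norm.const_mul B) ?_
    · filter_upwards [hl] with θ h1 _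
      have h2 : |φ₀ θ| ≤ B := le_of_tendsto' h1.abs fun t => h.bd _
      rw [norm_mul, norm_mul]
      exact mul_le_mul ((mul_le_of_le_one_right (norm_nonneg _) (ct_abs _ _ _)).trans h2)
        (abs_re_le_norm _) (norm_nonneg _) ((abs_nonneg _).trans h2)
    · filter_upwards [ae_circ hG hP] with θ h1 _
      have h2 := ct_lim (g := (infDist · P)) ((hP.isClosed.notMem_iff_infDist_pos hne).1 h1)
      simpa using (h2.const_mul (φ₀ θ)).mul_const (cg u x ρ θ).re
  have hT := ((h.lim1 hM hR (continuous_infDist_pt P) (ae_restrict_of_ae (ae_pos hP hne))).add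
    (lim2 hM hR h hP hne)).add (hF.const_mul σ)
  rw [add_zero] at hT
  refine le_of_tendsto hT.abs ?_
  filter_upwards [self_mem_nhdsWithin] with ε (hε : 0 < ε)
  have hL := ct_lip (lipschitz_infDist_pt P) hε
  have h1 := h.mul hM hR hL (ct_abs _ ε)
  obtain ⟨C, hC⟩ := dom hM hR hρ hG hσ h1.bd hKP hε fun z hz => by
    rw [ct_zero hε hz, mul_zero]
  have h2 := stepA hEl hPol hM hR hρ hG hσ h1
    (φ₀ := fun θ => φ₀ θ * ct (infDist · P) ε (circleMap x ρ θ))
    (hl.mono fun θ hθ => hθ.mul (((hc ε).tendsto _).comp (circ_lim x ρ σ θ))) hC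
  rw [h.split hM hR hL (ct_abs _ ε)] at h2
  exact h2.trans (h.lam (ct_abs _ ε))

end Div

open Div in
theorem div_pf (hEl : ElStmt) (hPol : PolStmt) (hCirc : CircStmt) : DivStmt := by
  classical
  intro Ω K u Λ M hM x ρ R σ B φ φ₀ hR hρ hG hσ h1 h2 h3 h4 h5
  have hO := OO_op hM x ρ σ
  have e : ∀ z ∈ OO Ω K x ρ σ, (OO Ω K x ρ σ).piecewise φ (fun _ => 0) =ᶠ[𝓝 z] φ := fun z hz =>
    (show ∀ᶠ y in 𝓝 z, y ∈ OO Ω K x ρ σ from hO.mem_nhds hz).mono fun y hy =>
      piecewise_eq_of_mem _ _ _ hy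
  have hT : Tf Ω K x ρ R σ B ((OO Ω K x ρ σ).piecewise φ fun _ => 0) := by
    refine ⟨ContinuousOn.measurable_piecewise (s := OO Ω K x ρ σ) h1.continuousOn
      continuousOn_const hO.measurableSet,
      locLip_of_local fun z hz => ⟨φ, _, hO, hz, h1, e z hz⟩, fun z a1 a2 => ?_, fun z => ?_,
      Integrable.congr h4 ((ae_OO hM hR).mono fun z hz => by simp only [pd_congr (e z hz)])⟩
    · by_cases hz : z ∈ OO Ω K x ρ σ
      · rw [piecewise_eq_of_mem _ _ _ hz, h2 z a1 a2]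
      · rw [piecewise_eq_of_notMem _ _ _ hz]
    · by_cases hz : z ∈ OO Ω K x ρ σ
      · rw [piecewise_eq_of_mem _ _ _ hz]
        exact h3 z
      · rw [piecewise_eq_of_notMem _ _ _ hz, abs_zero]
        exact (abs_nonneg _).trans (h3 0)
  have h6 := stepB hEl hPol hCirc hM hR hρ hG hσ hT (φ₀ := φ₀) ?_
  · rwa [integral_congr_ae (g := fun z => (pd u z * conj (pd φ z)).re)
      ((ae_OO hM hR).mono fun z hz => by simp only [pd_congr (e z hz)]),
      integral_congr_ae (f := fun z => |Λ * (OO Ω K x ρ σ).piecewise φ (fun _ => 0) z|)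
      (g := fun z => |Λ * φ z|)
      ((ae_OO hM hR).mono fun z hz => by simp only [(e z hz).eq_of_nhds])] at h6
  · filter_upwards [h5, ae_circ hG hG.fin] with θ a1 a2
    have a3 : circleMap x ρ θ ∈ Ω \ K :=
      ⟨circ_mem hG hR hρ θ, fun a => a2 ⟨a, circleMap_mem_sphere x hG.pos.le θ⟩⟩
    refine a1.congr' ?_
    filter_upwards [(circ_lim x ρ σ θ).eventually (hM.isOpen.mem_nhds a3),
      Ioo_mem_nhdsGT hG.pos] with t a4 a5
    refine (piecewise_eq_of_mem (OO Ω K x ρ σ) _ _ ⟨⟨a4.1, ?_⟩, a4.2⟩).symm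
    rw [sd, circleMap_sub_center, norm_circleMap_zero]
    have := a5.1
    have := a5.2
    rcases hσ with rfl | rfl
    · rw [abs_of_pos (by linarith)]
      linarith
    · rw [abs_of_pos (by linarith)]
      linarith

end Vale.Agent.P128
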