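import Vale.Agent.P128.Stm

open MeasureTheory Set Metric Filter Topology Complex
open scoped ENNReal NNReal ComplexConjugate Real

noncomputable section
namespace Vale.Agent.P128

namespace Div

/-- A cutoff built from a function `g`. -/
def ct (g : ℂ → ℝ) (δ : ℝ) (z : ℂ) : ℝ := max 0 (min 1 (g z / δ - 1))

section ct
variable {g : ℂ → ℝ} {δ : ℝ} {z : ℂ}

theorem ct_lip (hg : LipschitzWith 1 g) (hδ : 0 < δ) :
    LipschitzWith ⟨δ⁻¹, (inv_pos.2 hδ).le⟩ (ct g δ) := by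
  refine LipschitzWith.const_max (LipschitzWith.const_min
    (LipschitzWith.of_dist_le_mul fun a b => ?_) 1) 0
  have := hg.dist_le_mul a b
  rw [NNReal.coe_one, one_mul, Real.dist_eq] at this
  rw [Real.dist_eq, sub_sub_sub_cancel_right, ← sub_div, abs_div, abs_of_pos hδ, div_eq_inv_mul]
  exact mul_le_mul_of_nonneg_left this (inv_pos.2 hδ).le

theorem ct_abs (g : ℂ → ℝ) (δ : ℝ) (z : ℂ) : |ct g δ z| ≤ 1 := by
  rw [ct, abs_of_nonneg (le_max_left _ _)]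
  exact max_le zero_le_one (min_le_left _ _)

theorem ct_zero (hδ : 0 < δ) (h : g z ≤ δ) : ct g δ z = 0 :=
  max_eq_left ((min_le_right _ _).trans (by rwa [sub_nonpos, div_le_one hδ]))

theorem ct_one (hδ : 0 < δ) (h : 2 * δ ≤ g z) : ct g δ z = 1 := by
  have : 1 ≤ g z / δ - 1 := by
    rw [le_sub_iff_add_le, le_div_iff₀ hδ]
    linarith
  rw [ct, min_eq_left this, max_eq_right zero_le_one]

theorem ct_lo (hg : Continuous g) (hδ : 0 < δ) (h : g z < δ) : ct g δ =ᶠ[𝓝 z] fun _ => 0 := by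
  filter_upwards [hg.continuousAt.eventually_lt continuousAt_const h] with y hy
  exact ct_zero hδ hy.le

theorem ct_hi (hg : Continuous g) (hδ : 0 < δ) (h : 2 * δ < g z) :
    ct g δ =ᶠ[𝓝 z] fun _ => 1 := by
  filter_upwards [continuousAt_const.eventually_lt hg.continuousAt h] with y hy
  exact ct_one hδ hy.le

theorem ct_mid (hg : Continuous g) (hδ : 0 < δ) (h : δ < g z) (h' : g z < 2 * δ) :
    ct g δ =ᶠ[𝓝 z] fun y => δ⁻¹ * g y + -1 := by
  filter_upwards [continuousAt_const.eventually_lt hg.continuousAt h,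
    hg.continuousAt.eventually_lt continuousAt_const h'] with y h1 h2
  have a1 : g y / δ - 1 ≤ 1 := by
    rw [sub_le_iff_le_add, div_le_iff₀ hδ]
    linarith
  have a2 : 0 ≤ g y / δ - 1 := by
    rw [sub_nonneg, le_div_iff₀ hδ]
    linarith
  rw [ct, min_eq_right a1, max_eq_right a2, div_eq_inv_mul, sub_eq_add_neg]

theorem ct_lim (h : 0 < g z) : Tendsto (fun δ => ct g δ z) (𝓝[>] 0) (𝓝 1) := by
  refine tendsto_const_nhds.congr' ?_
  filter_upwards [Ioo_mem_nhdsGT (half_pos h)] with δ hδ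
  exact (ct_one hδ.1 (by linarith [hδ.2])).symm

end ct

theorem pd_le {χ : ℂ → ℝ} {C : ℝ≥0} (h : LipschitzWith C χ) (z : ℂ) : ‖pd χ z‖ ≤ C := by
  rw [norm_pd]
  exact norm_fderiv_le_of_lipschitz ℝ h

theorem pd_norm {x z : ℂ} (h : z ≠ x) :
    pd (fun y => ‖y - x‖) z = conj (z - x) / (‖z - x‖ : ℝ) := by
  have h0 : ‖z - x‖ ≠ 0 := norm_ne_zero_iff.2 (sub_ne_zero.2 h)
  have h1 := (((hasFDerivAt_id (𝕜 := ℝ) z).sub_const x).norm_sq).sqrt (pow_ne_zero 2 h0)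
  simp only [id, Real.sqrt_sq (norm_nonneg _)] at h1
  refine pd_of_fderiv fun e => ?_
  rw [h1.fderiv, div_mul_eq_mul_div, div_ofReal_re]
  simp only [ContinuousLinearMap.smul_apply, ContinuousLinearMap.comp_apply,
    ContinuousLinearMap.id_apply, innerSL_apply_apply, Complex.inner, smul_eq_mul, nsmul_eq_mul,
    mul_comm e]
  field_simp
  norm_num

theorem re_le (a b : ℂ) : |(a * conj b).re| ≤ ‖a‖ * ‖b‖ := by
  refine (abs_re_le_norm _).trans (le_of_eq ?_)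
  rw [norm_mul, norm_conj]

/-- The signed distance to the circle. -/
def sd (x : ℂ) (ρ σ : ℝ) (z : ℂ) : ℝ := σ * (‖z - x‖ - ρ)

theorem sd_lip (x : ℂ) (ρ : ℝ) {σ : ℝ} (hσ : σ = 1 ∨ σ = -1) : LipschitzWith 1 (sd x ρ σ) := by
  refine LipschitzWith.of_dist_le_mul fun a b => ?_
  have h1 : |σ| = 1 := by rcases hσ with rfl | rfl <;> simp
  rw [NNReal.coe_one, one_mul, Real.dist_eq, sd, sd, ← mul_sub, abs_mul, h1, one_mul,
    sub_sub_sub_cancel_right, dist_eq_norm, ← sub_sub_sub_cancel_right a b x]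
  exact abs_norm_sub_norm_le _ _

theorem sd_cont (x : ℂ) (ρ σ : ℝ) : Continuous (sd x ρ σ) := by
  unfold sd
  fun_prop

theorem pd_sd {x z : ℂ} (h : z ≠ x) (ρ σ : ℝ) :
    pd (sd x ρ σ) z = σ * (conj (z - x) / (‖z - x‖ : ℝ)) := by
  rw [← pd_norm h, ← pd_add_const (fun y => ‖y - x‖) (-ρ), ← pd_const_mul]
  rfl

/-- The side of the circle. -/
def SS (x : ℂ) (ρ R σ : ℝ) : Set ℂ := {z ∈ closedBall x R | 0 < sd x ρ σ z}

def OO (Ω K : Set ℂ) (x : ℂ) (ρ σ : ℝ) : Set ℂ := {z ∈ Ω | 0 < sd x ρ σ z} \ K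

theorem SS_me (x : ℂ) (ρ R σ : ℝ) : MeasurableSet (SS x ρ R σ) :=
  measurableSet_closedBall.inter (isOpen_lt continuous_const (sd_cont x ρ σ)).measurableSet

instance SS_fin (x : ℂ) (ρ R σ : ℝ) : IsFiniteMeasure (volume.restrict (SS x ρ R σ)) :=
  ⟨by
    rw [Measure.restrict_apply_univ]
    exact (measure_mono (sep_subset _ _)).trans_lt measure_closedBall_lt_top⟩

variable {Ω K : Set ℂ} {u : ℂ → ℝ} {Λ M : ℝ} {x : ℂ} {ρ R σ B : ℝ} {φ : ℂ → ℝ}

theorem OO_op (hM : IsMS Ω K u Λ M) (x : ℂ) (ρ σ : ℝ) : IsOpen (OO Ω K x ρ σ) :=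
  (hM.op.inter (isOpen_lt continuous_const (sd_cont x ρ σ))).sdiff hM.cl

theorem ae_OO (hM : IsMS Ω K u Λ M) (hR : closedBall x R ⊆ Ω) :
    ∀ᵐ z ∂volume.restrict (SS x ρ R σ), z ∈ OO Ω K x ρ σ := by
  rw [ae_restrict_iff' (SS_me x ρ R σ)]
  filter_upwards [hM.ae_notMem hR] with z h1 h2
  exact ⟨⟨hR h2.1, h2.2⟩, h1 h2.1⟩

/-- Admissible test functions. -/
structure Tf (Ω K : Set ℂ) (x : ℂ) (ρ R σ B : ℝ) (φ : ℂ → ℝ) : Prop where
  me : Measurable φ
  lip : LocallyLipschitzOn (OO Ω K x ρ σ) φ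
  ze : ∀ z, 0 < sd x ρ σ z → z ∉ closedBall x R → φ z = 0
  bd : ∀ z, |φ z| ≤ B
  int : IntegrableOn (fun z => ‖pd φ z‖ ^ 2) (SS x ρ R σ)

theorem locLip_mul {O : Set ℂ} {χ : ℂ → ℝ} {C : ℝ≥0} (h : LocallyLipschitzOn O φ)
    (hB : ∀ z, |φ z| ≤ B) (hχ : LipschitzWith C χ) (h1 : ∀ z, |χ z| ≤ 1) :
    LocallyLipschitzOn O fun z => φ z * χ z := by
  intro z hz
  obtain ⟨L, t, ht, hl⟩ := h hz
  have hB0 : 0 ≤ B := (abs_nonneg _).trans (hB 0)
  refine ⟨L + ⟨B, hB0⟩ * C, t, ht, LipschitzOnWith.of_dist_le_mul fun a ha b hb => ?_⟩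
  have a1 := hl.dist_le_mul a ha b hb
  have a2 := hχ.dist_le_mul a b
  rw [Real.dist_eq] at a1 a2 ⊢
  have e : φ a * χ a - φ b * χ b = (φ a - φ b) * χ a + φ b * (χ a - χ b) := by ring
  rw [e]
  refine (abs_add_le _ _).trans ?_
  rw [abs_mul, abs_mul]
  have a3 := mul_le_mul a1 (h1 a) (abs_nonneg _) ((abs_nonneg _).trans a1)
  have a4 := mul_le_mul (hB b) a2 (abs_nonneg _) hB0
  change _ ≤ ((L : ℝ) + B * C) * dist a b
  linarith

theorem Tf.pdm (hM : IsMS Ω K u Λ M) (hR : closedBall x R ⊆ Ω) (h : Tf Ω K x ρ R σ B φ)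
    {χ : ℂ → ℝ} {C : ℝ≥0} (hχ : LipschitzWith C χ) : ∀ᵐ z ∂volume.restrict (SS x ρ R σ),
      pd (fun z => φ z * χ z) z = φ z * pd χ z + χ z * pd φ z := by
  filter_upwards [ae_OO hM hR, ae_restrict_of_ae (ae_differentiableAt (OO_op hM x ρ σ) h.lip),
    ae_restrict_of_ae (hχ.ae_differentiableAt (μ := volume))] with z h1 h2 h3
  exact pd_mul (h2 h1) h3

theorem Tf.mul (hM : IsMS Ω K u Λ M) (hR : closedBall x R ⊆ Ω) (h : Tf Ω K x ρ R σ B φ)
    {χ : ℂ → ℝ} {C : ℝ≥0} (hχ : LipschitzWith C χ) (h1 : ∀ z, |χ z| ≤ 1) :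
    Tf Ω K x ρ R σ B fun z => φ z * χ z := by
  have hB0 : 0 ≤ B := (abs_nonneg _).trans (h.bd 0)
  refine ⟨h.me.mul hχ.continuous.measurable, locLip_mul h.lip h.bd hχ h1,
    fun z a1 a2 => by rw [h.ze z a1 a2, zero_mul], fun z => ?_, ?_⟩
  · rw [abs_mul]
    exact (mul_le_of_le_one_right (abs_nonneg _) (h1 z)).trans (h.bd z)
  · refine Integrable.mono' ((integrable_const (2 * (B * C) ^ 2)).add (h.int.const_mul 2))
      ((measurable_pd _).norm.pow_const 2).aestronglyMeasurable ?_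
    filter_upwards [h.pdm hM hR hχ] with z hz
    have a1 : ‖(φ z : ℂ) * pd χ z + χ z * pd φ z‖ ≤ B * C + ‖pd φ z‖ := by
      refine (norm_add_le _ _).trans (add_le_add ?_ ?_)
      · rw [norm_mul, norm_real, Real.norm_eq_abs]
        exact mul_le_mul (h.bd z) (pd_le hχ z) (norm_nonneg _) hB0
      · rw [norm_mul, norm_real, Real.norm_eq_abs]
        exact mul_le_of_le_one_left (norm_nonneg _) (h1 z)
    rw [hz, Real.norm_eq_abs, abs_of_nonneg (sq_nonneg _), Pi.add_apply]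
    refine (pow_le_pow_left₀ (norm_nonneg _) a1 2).trans ?_
    nlinarith [sq_nonneg (B * C - ‖pd φ z‖)]

theorem me_re (u v : ℂ → ℝ) : Measurable fun z => (pd u z * conj (pd v z)).re :=
  measurable_re.comp ((measurable_pd u).mul (continuous_conj.measurable.comp (measurable_pd v)))

theorem intu (hM : IsMS Ω K u Λ M) (hR : closedBall x R ⊆ Ω) :
    IntegrableOn (fun z => ‖pd u z‖ ^ 2) (SS x ρ R σ) := (hM.int x R hR).mono_set (sep_subset _ _)

theorem Tf.int1 (hM : IsMS Ω K u Λ M) (hR : closedBall x R ⊆ Ω) (h : Tf Ω K x ρ R σ B φ) :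
    IntegrableOn (fun z => (pd u z * conj (pd φ z)).re) (SS x ρ R σ) := by
  refine Integrable.mono' ((intu hM hR).add h.int) (me_re u φ).aestronglyMeasurable
    (Eventually.of_forall fun z => (re_le _ _).trans ?_)
  rw [Pi.add_apply]
  nlinarith [sq_nonneg (‖pd u z‖ - ‖pd φ z‖), mul_nonneg (norm_nonneg (pd u z)) (norm_nonneg (pd φ z))]

theorem Tf.int2 (hM : IsMS Ω K u Λ M) (hR : closedBall x R ⊆ Ω) (h : Tf Ω K x ρ R σ B φ)
    {χ : ℂ → ℝ} {C : ℝ≥0} (hχ : LipschitzWith C χ) :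
    IntegrableOn (fun z => φ z * (pd u z * conj (pd χ z)).re) (SS x ρ R σ) := by
  have hB0 : 0 ≤ B := (abs_nonneg _).trans (h.bd 0)
  refine Integrable.mono' (((intu hM hR).add (integrable_const ((C : ℝ) ^ 2))).const_mul B)
    (h.me.mul (me_re u χ)).aestronglyMeasurable (Eventually.of_forall fun z => ?_)
  rw [Real.norm_eq_abs, abs_mul, Pi.add_apply]
  refine mul_le_mul (h.bd z) ((re_le _ _).trans ((mul_le_mul_of_nonneg_left (pd_le hχ z)
    (norm_nonneg _)).trans ?_)) (abs_nonneg _) hB0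
  nlinarith [sq_nonneg (‖pd u z‖ - C), mul_nonneg (norm_nonneg (pd u z)) C.2]

theorem Tf.split (hM : IsMS Ω K u Λ M) (hR : closedBall x R ⊆ Ω) (h : Tf Ω K x ρ R σ B φ)
    {χ : ℂ → ℝ} {C : ℝ≥0} (hχ : LipschitzWith C χ) (h1 : ∀ z, |χ z| ≤ 1) :
    ∫ z in SS x ρ R σ, (pd u z * conj (pd (fun z => φ z * χ z) z)).re =
      (∫ z in SS x ρ R σ, χ z * (pd u z * conj (pd φ z)).re) +
        ∫ z in SS x ρ R σ, φ z * (pd u z * conj (pd χ z)).re := by
  rw [← integral_add ((h.int1 hM hR).bdd_mul hχ.continuous.aestronglyMeasurable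
    (Eventually.of_forall h1)) (h.int2 hM hR hχ)]
  refine integral_congr_ae ?_
  filter_upwards [h.pdm hM hR hχ] with z hz
  rw [hz, map_add, map_mul, map_mul, conj_ofReal, conj_ofReal, mul_add, add_re, mul_left_comm,
    re_ofReal_mul, mul_left_comm, re_ofReal_mul, add_comm]

theorem Tf.lim1 (hM : IsMS Ω K u Λ M) (hR : closedBall x R ⊆ Ω) (h : Tf Ω K x ρ R σ B φ)
    {g : ℂ → ℝ} (hg : Continuous g) (h0 : ∀ᵐ z ∂volume.restrict (SS x ρ R σ), 0 < g z) :
    Tendsto (fun δ => ∫ z in SS x ρ R σ, ct g δ z * (pd u z * conj (pd φ z)).re) (𝓝[>] 0)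
      (𝓝 (∫ z in SS x ρ R σ, (pd u z * conj (pd φ z)).re)) := by
  refine tendsto_integral_filter_of_dominated_convergence _ (Eventually.of_forall fun δ => ?_)
    (Eventually.of_forall fun δ => Eventually.of_forall fun z => ?_) (h.int1 hM hR).norm ?_
  · have : Continuous (ct g δ) := by
      unfold ct
      fun_prop
    exact (this.measurable.mul (me_re u φ)).aestronglyMeasurable
  · rw [norm_mul]
    exact mul_le_of_le_one_left (norm_nonneg _) (ct_abs g δ z)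
  · filter_upwards [h0] with z hz
    simpa using (ct_lim hz).mul_const (pd u z * conj (pd φ z)).re

theorem Tf.intL (h : Tf Ω K x ρ R σ B φ) : IntegrableOn (fun z => Λ * φ z) (SS x ρ R σ) :=
  (Integrable.mono' (integrable_const B) h.me.aestronglyMeasurable
    (Eventually.of_forall h.bd)).const_mul Λ

theorem Tf.lam (h : Tf Ω K x ρ R σ B φ) {χ : ℂ → ℝ} (h1 : ∀ z, |χ z| ≤ 1) :
    ∫ z in SS x ρ R σ, |Λ * (φ z * χ z)| ≤ ∫ z in SS x ρ R σ, |Λ * φ z| := by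
  refine integral_mono_of_nonneg (Eventually.of_forall fun z => abs_nonneg _) h.intL.abs
    (Eventually.of_forall fun z => ?_)
  change |Λ * (φ z * χ z)| ≤ |Λ * φ z|
  rw [← mul_assoc, abs_mul _ (χ z)]
  exact mul_le_of_le_one_right (abs_nonneg _) (h1 z)

/-- The weak equation for functions vanishing near the circle. -/
theorem Tf.el (hEl : ElStmt) (hM : IsMS Ω K u Λ M) (hR : closedBall x R ⊆ Ω)
    (h : Tf Ω K x ρ R σ B φ) {δ : ℝ} (hδ : 0 < δ) (h0 : ∀ z, sd x ρ σ z < δ → φ z = 0) :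
    |∫ z in SS x ρ R σ, (pd u z * conj (pd φ z)).re| ≤ ∫ z in SS x ρ R σ, |Λ * φ z| := by
  have h1 : ∀ z, sd x ρ σ z < δ → φ =ᶠ[𝓝 z] fun _ => 0 := fun z hz =>
    ((sd_cont x ρ σ).continuousAt.eventually_lt continuousAt_const hz).mono h0
  have h2 : ∀ z ∈ closedBall x R \ SS x ρ R σ, sd x ρ σ z < δ := fun z hz =>
    (not_lt.1 fun a => hz.2 ⟨hz.1, a⟩).trans_lt hδ
  have h3 : ∀ z ∈ closedBall x R \ SS x ρ R σ, pd φ z = 0 := fun z hz => by
    rw [pd_congr (h1 z (h2 z hz)), pd_const]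
  have hs : SS x ρ R σ ⊆ closedBall x R := sep_subset _ _
  have := hEl Ω K u Λ M hM x R φ hR (locLip_of_local fun z hz => ?_) (fun z hz => ?_)
    (h.int.of_forall_sdiff_eq_zero measurableSet_closedBall fun z hz => by simp [h3 z hz])
    (h.intL.of_forall_sdiff_eq_zero measurableSet_closedBall fun z hz => by simp [h0 z (h2 z hz)])
  · rwa [setIntegral_eq_of_subset_of_forall_sdiff_eq_zero measurableSet_closedBall hs
      (fun z hz => by simp [h3 z hz]), setIntegral_eq_of_subset_of_forall_sdiff_eq_zero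
      measurableSet_closedBall hs (fun z hz => by simp [h0 z (h2 z hz)])] at this
  · rcases lt_or_ge (sd x ρ σ z) δ with a | a
    · exact ⟨fun _ => 0, univ, isOpen_univ, trivial,
        (LipschitzWith.const (0 : ℝ)).locallyLipschitz.locallyLipschitzOn, h1 z a⟩
    · exact ⟨φ, _, OO_op hM x ρ σ, ⟨⟨hz.1, hδ.trans_le a⟩, hz.2⟩, h.lip, EventuallyEq.rfl⟩
  · rcases lt_or_ge (sd x ρ σ z) δ with a | a
    · exact h0 z a
    · exact h.ze z (hδ.trans_le a) hz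

end Div

end Vale.Agent.P128
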