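import Vale.Agent.P128.Stm

open MeasureTheory Set Metric Filter Topology Complex
open scoped ENNReal ComplexConjugate Real

noncomputable section
namespace Vale.Agent.P128

theorem dz_pf (hCov : CovStmt) : DzStmt := by
  intro E O g hE hfin hO hEO hg g0 δ hδ
  rw [ae_restrict_iff' hE, ae_iff]
  set B := {y | ¬(y ∈ E → ∀ᶠ s in 𝓝[>] (0 : ℝ), ∫ z in closedBall y s, g z ≤ δ * s)} with hB
  have BE : B ⊆ E := fun y hy => (Classical.not_imp.1 hy).1
  have Bf : μH[1] B < ⊤ := (measure_mono BE).trans_lt hfin
  have key : ∀ η : ℝ, 0 < η → (μH[1] B).toReal ≤ η * (1 + 2 / δ) := fun η hη => by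
    have : IsFiniteMeasure ((volume.restrict O).withDensity fun z => ENNReal.ofReal (g z)) :=
      isFiniteMeasure_withDensity_ofReal hg.2
    obtain ⟨U, hU1, hU2, hU3⟩ := E.exists_isOpen_lt_of_lt
      (μ := (volume.restrict O).withDensity fun z => ENNReal.ofReal (g z)) (ENNReal.ofReal η) (by
        rw [withDensity_absolutelyContinuous _ _ (Measure.restrict_le_self.absolutelyContinuous
          (volume_null hfin))]
        exact ENNReal.ofReal_pos.2 hη)
    have iU : IntegrableOn g (U ∩ O) := hg.mono_set inter_subset_right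
    rw [withDensity_apply _ hU2.measurableSet, Measure.restrict_restrict hU2.measurableSet,
      ← ofReal_integral_eq_lintegral_ofReal iU (.of_forall g0), ENNReal.ofReal_lt_ofReal_iff hη]
      at hU3
    obtain ⟨T, r, h1, h2, h3⟩ := hCov B (U ∩ O) (fun y => {s | δ * s < ∫ z in closedBall y s, g z})
      η Bf (hU2.inter hO) (BE.trans (subset_inter hU1 hEO)) hη fun y hy ε hε => by
        obtain ⟨s, s1, s2⟩ := ((not_eventually.1 (Classical.not_imp.1 hy).2).and_eventually
          (Ioo_mem_nhdsGT hε)).exists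
        exact ⟨s, not_le.1 s1, s2⟩
    have k1 : δ * ∑ y ∈ T, r y ≤ η := by
      rw [Finset.mul_sum]
      refine (Finset.sum_le_sum fun y hy => (h1 y hy).2.1.le).trans ?_
      rw [← integral_biUnion_finset T (fun y _ => measurableSet_closedBall) h2
        fun y hy => iU.mono_set (h1 y hy).2.2.2]
      exact (setIntegral_mono_set iU (.of_forall g0)
        (iUnion₂_subset fun y hy => (h1 y hy).2.2.2).eventuallyLE).trans hU3.le
    rw [← Finset.mul_sum] at h3
    have k2 : ∑ y ∈ T, r y ≤ η / δ := (le_div_iff₀' hδ).2 k1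
    have k3 : η * (1 + 2 / δ) = η + 2 * (η / δ) := by ring
    linarith
  have h0 : (μH[1] B).toReal ≤ 0 := le_of_forall_pos_le_add fun ε hε => by
    have := key (ε / (1 + 2 / δ)) (by positivity)
    rwa [div_mul_cancel₀ _ (by positivity), ← zero_add ε] at this
  exact ((ENNReal.toReal_eq_zero_iff _).1 (h0.antisymm ENNReal.toReal_nonneg)).resolve_right Bf.ne

end Vale.Agent.P128
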