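import Vale.Agent.P128.Stm

open MeasureTheory Set Metric Filter Topology Complex
open scoped ENNReal ComplexConjugate Real

noncomputable section
namespace Vale.Agent.P128

namespace Eid

variable {Ω K : Set ℂ} {u : ℂ → ℝ} {Λ M : ℝ} {x : ℂ} {ρ : ℝ}

/-- the divergence identity from the inside -/
theorem div_in (hDiv : DivStmt) (h : IsMS Ω K u Λ M) (hsub : closedBall x ρ ⊆ Ω)
    (hG : Good K u x ρ) {φ : ℂ → ℝ} {φ₀ : ℝ → ℝ} {B D : ℝ}
    (h1 : LocallyLipschitzOn (ball x ρ \ K) φ) (h2 : ∀ z, |φ z| ≤ B)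
    (h3 : IntegrableOn (fun z => ‖pd φ z‖ ^ 2) (ball x ρ))
    (h4 : ∀ᵐ θ, Tendsto (fun t => φ (circleMap x (ρ + -1 * t) θ)) (𝓝[>] 0) (𝓝 (φ₀ θ)))
    (h5 : ∀ z ∈ Ω \ K, |Λ * φ z| ≤ D) :
    |(∫ z in ball x ρ, (pd u z * conj (pd φ z)).re) -
      ∫ θ in (0 : ℝ)..2 * π, φ₀ θ * (cg u x ρ θ).re| ≤ π * D * ρ ^ 2 := by
  have hρ := hG.pos
  obtain ⟨δ, hδ, hR⟩ := (isCompact_closedBall x ρ).exists_cthickening_subset_open h.op hsub
  rw [cthickening_closedBall hδ.le hρ.le] at hR
  have e0 : ∀ z : ℂ, 0 < -1 * (‖z - x‖ - ρ) ↔ z ∈ ball x ρ := by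
    intro z
    rw [mem_ball_iff_norm]
    constructor <;> intro h <;> linarith
  have e1 : {z ∈ Ω | 0 < -1 * (‖z - x‖ - ρ)} = ball x ρ := by
    ext z
    simp only [mem_ofPred_eq, e0]
    exact ⟨fun h => h.2, fun h => ⟨hsub (ball_subset_closedBall h), h⟩⟩
  have hb : ball x ρ ⊆ closedBall x (δ + ρ) :=
    ball_subset_closedBall.trans (closedBall_subset_closedBall (by linarith))
  have e2 : {z ∈ closedBall x (δ + ρ) | 0 < -1 * (‖z - x‖ - ρ)} = ball x ρ := by
    ext z
    simp only [mem_ofPred_eq, e0]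
    exact ⟨fun h => h.2, fun h => ⟨hb h, h⟩⟩
  have key := hDiv Ω K u Λ M h x ρ (δ + ρ) (-1) B φ φ₀ hR (by linarith) hG (Or.inr rfl)
    (by rwa [e1]) (fun z hz hz' => absurd (hb ((e0 z).1 hz)) hz') h2 (by rwa [e2]) h4
  rw [e2, neg_one_mul, ← sub_eq_add_neg] at key
  refine key.trans ?_
  have h6 := norm_setIntegral_le_of_norm_le_const_ae' (μ := volume) (s := ball x ρ)
    (f := fun z => |Λ * φ z|) (C := D) measure_ball_lt_top (by
      filter_upwards [h.ae_notMem hsub] with z hz hzb
      rw [Real.norm_eq_abs, abs_abs]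
      exact h5 z ⟨hsub (ball_subset_closedBall hzb), hz (ball_subset_closedBall hzb)⟩)
  refine (le_abs_self _).trans (h6.trans (le_of_eq ?_))
  rw [Measure.real, Complex.volume_ball, ENNReal.toReal_mul, ENNReal.toReal_pow,
    ENNReal.toReal_ofReal hρ.le, ENNReal.coe_toReal, NNReal.coe_real_pi]
  ring

/-- truncation -/
def cl (T s : ℝ) : ℝ := max (-T) (min s T)

theorem cl_lip (T : ℝ) : LipschitzWith 1 (cl T) := (LipschitzWith.id.min_const T).const_max (-T)

theorem cl_eq {T s : ℝ} (h : |s| ≤ T) : cl T s = s := by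
  rw [cl, min_eq_left (abs_le.1 h).2, max_eq_right (abs_le.1 h).1]

theorem abs_cl_le {T : ℝ} (hT : 0 ≤ T) (s : ℝ) : |cl T s| ≤ T :=
  abs_le.2 ⟨le_max_left _ _, max_le (by linarith) (min_le_right _ _)⟩

theorem abs_cl_le' {T : ℝ} (hT : 0 ≤ T) (s : ℝ) : |cl T s| ≤ |s| := by
  have h := (cl_lip T).dist_le_mul s 0
  rwa [cl_eq (s := 0) (by rwa [abs_zero]), NNReal.coe_one, one_mul, Real.dist_eq, Real.dist_eq,
    sub_zero, sub_zero] at h

end Eid

open _root_.Vale.Agent.P128.Eid in
theorem eid_pf (hDiv : DivStmt) (hCirc : CircStmt) : EidStmt := by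
  intro Ω K u Λ M h x ρ hsub hG
  have hρ := hG.pos
  have hsph : sphere x ρ ⊆ Ω := sphere_subset_closedBall.trans hsub
  constructor
  · obtain ⟨-, -, -, -, ⟨T, hT⟩, -⟩ := hCirc Ω K u x ρ h.isOpen h.c1 hsph hG
    have hae : ∀ᵐ z ∂(volume.restrict (ball x ρ)), z ∈ Ω \ K := by
      rw [ae_restrict_iff' measurableSet_ball]
      filter_upwards [h.ae_notMem hsub] with z hz hzb
      exact ⟨hsub (ball_subset_closedBall hzb), hz (ball_subset_closedBall hzb)⟩
    have hint : IntegrableOn (fun z => ‖pd u z‖ ^ 2) (ball x ρ) :=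
      (h.int x ρ hsub).mono_set ball_subset_closedBall
    have hθ : ∀ᵐ θ, circleMap x ρ θ ∉ K := by
      have h1 := (hG.fin.countable.preimage_circleMap x hρ.ne').measure_zero volume
      filter_upwards [measure_eq_zero_iff_ae_notMem.1 h1] with θ h2 h3
      exact h2 ⟨h3, circleMap_mem_sphere x hρ.le θ⟩
    have hn : ∀ᶠ n : ℕ in atTop,
        |(∫ z in ball x ρ, (pd u z * conj (pd (fun y => cl n (u y)) z)).re) -
          ∫ θ in (0 : ℝ)..2 * π, u (circleMap x ρ θ) * (cg u x ρ θ).re| ≤
          π * (Λ * M) * ρ ^ 2 := by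
      filter_upwards [tendsto_natCast_atTop_atTop.eventually_ge_atTop T] with n hnT
      have n0 : (0 : ℝ) ≤ n := Nat.cast_nonneg n
      refine div_in hDiv h hsub hG (B := n) ?_ (fun z => abs_cl_le n0 _) ?_ ?_ ?_
      · intro z hz
        obtain ⟨C, t, ht, hl⟩ := h.lip.mono
          (sdiff_subset_sdiff_left (ball_subset_closedBall.trans hsub)) hz
        exact ⟨1 * C, t, ht, (cl_lip n).comp_lipschitzOnWith hl⟩
      · refine hint.mono' ((measurable_pd _).norm.pow_const 2).aestronglyMeasurable ?_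
        filter_upwards [hae] with z hz
        rw [Real.norm_eq_abs, abs_of_nonneg (sq_nonneg _)]
        exact pow_le_pow_left₀ (norm_nonneg _) (norm_pd_comp_le (cl_lip n) (h.diff hz)) 2
      · filter_upwards [hθ] with θ h1
        have h2 : circleMap x ρ θ ∈ sphere x ρ := circleMap_mem_sphere x hρ.le θ
        have h3 : ContinuousAt (fun y => cl n (u y)) (circleMap x ρ θ) :=
          (cl_lip n).continuous.continuousAt.comp (h.diff ⟨hsph h2, h1⟩).continuousAt
        have h4 : Tendsto (fun t : ℝ => circleMap x (ρ + -1 * t) θ) (𝓝[>] 0)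
            (𝓝 (circleMap x ρ θ)) := by
          have h5 : Continuous fun t : ℝ => circleMap x (ρ + -1 * t) θ := by
            unfold circleMap
            fun_prop
          have h6 := h5.tendsto 0
          rw [mul_zero, add_zero] at h6
          exact h6.mono_left nhdsWithin_le_nhds
        have h7 := h3.tendsto.comp h4
        rw [cl_eq ((hT _ h2 h1).trans hnT)] at h7
        exact h7
      · intro z hz
        rw [abs_mul, abs_of_nonneg h.L0]
        exact (mul_le_mul_of_nonneg_left (abs_cl_le' n0 _) h.L0).trans (h.bd z hz)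
    have hlim : Tendsto
        (fun n : ℕ => ∫ z in ball x ρ, (pd u z * conj (pd (fun y => cl n (u y)) z)).re) atTop
        (𝓝 (∫ z in ball x ρ, ‖pd u z‖ ^ 2)) := by
      refine tendsto_integral_of_dominated_convergence _ (fun n => ?_) hint (fun n => ?_) ?_
      · exact (Complex.measurable_re.comp ((measurable_pd u).mul
          (Complex.continuous_conj.measurable.comp (measurable_pd _)))).aestronglyMeasurable
      · filter_upwards [hae] with z hz
        rw [Real.norm_eq_abs]
        refine (abs_re_le_norm _).trans ?_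
        rw [norm_mul, Complex.norm_conj, sq]
        exact mul_le_mul_of_nonneg_left (norm_pd_comp_le (cl_lip n) (h.diff hz)) (norm_nonneg _)
      · filter_upwards [hae] with z hz
        refine tendsto_const_nhds.congr' ?_
        filter_upwards [tendsto_natCast_atTop_atTop.eventually_gt_atTop |u z|] with n hn
        have h1 : (fun y => cl n (u y)) =ᶠ[𝓝 z] u := by
          filter_upwards [(h.diff hz).continuousAt.abs.eventually (Iio_mem_nhds hn)] with y hy
          exact cl_eq (le_of_lt hy)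
        rw [pd_congr h1, mul_conj, ofReal_re, normSq_eq_norm_sq]
    have he : En u (closedBall x ρ) = ∫ z in ball x ρ, ‖pd u z‖ ^ 2 :=
      (setIntegral_congr_set (ae_eq_of_subset_of_measure_ge ball_subset_closedBall
        (Measure.addHaar_closedBall_eq_addHaar_ball volume x ρ).le
        measurableSet_ball.nullMeasurableSet measure_closedBall_lt_top.ne)).symm
    rw [he]
    exact le_of_tendsto (hlim.sub_const _).abs hn
  · have key := div_in hDiv h hsub hG (φ := fun _ => 1) (φ₀ := fun _ => 1) (B := 1) (D := Λ)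
      (LipschitzWith.const 1).locallyLipschitz.locallyLipschitzOn (fun _ => by simp)
      (by simp [pd_const]) (Eventually.of_forall fun _ => tendsto_const_nhds)
      (fun z _ => by rw [mul_one, abs_of_nonneg h.L0])
    simpa [pd_const] using key

end Vale.Agent.P128
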