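import Vale.Agent.P128.Stm

open MeasureTheory Set Metric Filter Topology Complex
open scoped ENNReal ComplexConjugate Real

noncomputable section
namespace Vale.Agent.P128

namespace Eil

theorem exists_cover {S : Set ℂ} {c r : ℝ≥0∞} (hc : μH[1] S < c) (hr : 0 < r) :
    ∃ t : ℕ → Set ℂ, S ⊆ ⋃ n, t n ∧ (∀ n, ediam (t n) ≤ r) ∧ ∑' n, ediam (t n) < c := by
  rw [Measure.hausdorffMeasure_apply] at hc
  have h1 := lt_of_le_of_lt (le_iSup₂ (f := fun (r : ℝ≥0∞) (_ : 0 < r) =>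
    ⨅ (t : ℕ → Set ℂ) (_ : S ⊆ ⋃ n, t n) (_ : ∀ n, ediam (t n) ≤ r),
      ∑' n, ⨆ _ : (t n).Nonempty, ediam (t n) ^ (1 : ℝ)) r hr) hc
  simp only [iInf_lt_iff] at h1
  obtain ⟨t, h2, h3, h4⟩ := h1
  refine ⟨t, h2, h3, lt_of_le_of_lt (ENNReal.tsum_le_tsum fun n => ?_) h4⟩
  rcases (t n).eq_empty_or_nonempty with h | h
  · simp [h]
  · simp [h]

theorem encard_le {A : Set ℂ} {L : ℝ≥0∞}
    (h : ∀ F : Finset ℂ, (F : Set ℂ) ⊆ A → (F.card : ℝ≥0∞) ≤ L) : (A.encard : ℝ≥0∞) ≤ L := by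
  rcases A.finite_or_infinite with hA | hA
  · have := h hA.toFinset (by simp)
    rw [← hA.coe_toFinset, encard_coe_eq_coe_finsetCard]
    simpa using this
  · have hL : L = ⊤ := by
      rw [eq_top_iff, ← ENNReal.iSup_natCast]
      refine iSup_le fun n => ?_
      obtain ⟨F, hF, rfl⟩ := hA.exists_subset_card_eq n
      exact h F hF
    simp [hL]

theorem card_le_encard {A : Set ℂ} {F : Finset ℂ} (h : (F : Set ℂ) ⊆ A) :
    (F.card : ℝ≥0∞) ≤ (A.encard : ℝ≥0∞) := by
  have := encard_le_encard h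
  rw [encard_coe_eq_coe_finsetCard] at this
  simpa using ENat.toENNReal_le.2 this

theorem card_le_tsum {S : Set ℂ} {f : ℂ → ℝ} {U : ℕ → Set ℂ} {r : ℝ≥0∞} {t : ℝ}
    (hS : S ⊆ ⋃ n, U n) (hU : ∀ n, ediam (U n) ≤ r) (F : Finset ℂ)
    (hF : (F : Set ℂ) ⊆ S ∩ f ⁻¹' {t}) (hr : ∀ x ∈ F, ∀ y ∈ F, x ≠ y → r < edist x y) :
    (F.card : ℝ≥0∞) ≤ ∑' n, (closure (f '' U n)).indicator (fun _ => (1 : ℝ≥0∞)) t := by
  classical
  have h1 : ∀ x : ℂ, ∃ n, x ∈ S → x ∈ U n := fun x => by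
    by_cases hx : x ∈ S
    · obtain ⟨n, hn⟩ := mem_iUnion.1 (hS hx)
      exact ⟨n, fun _ => hn⟩
    · exact ⟨0, fun h => absurd h hx⟩
  choose idx hidx using h1
  have hinj : Set.InjOn idx F := by
    intro x hx y hy hxy
    by_contra hne
    have a1 := hidx x (hF hx).1
    have a2 := hidx y (hF hy).1
    rw [← hxy] at a2
    exact absurd ((edist_le_ediam_of_mem a1 a2).trans (hU _)) (not_le.2 (hr x hx y hy hne))
  rw [← Finset.card_image_of_injOn hinj]
  refine le_trans (le_of_eq ?_) (ENNReal.sum_le_tsum (F.image idx))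
  rw [Finset.card_eq_sum_ones, Nat.cast_sum]
  refine Finset.sum_congr rfl fun n hn => ?_
  obtain ⟨x, hx, rfl⟩ := Finset.mem_image.1 hn
  have hm : t ∈ f '' U (idx x) := ⟨x, hidx x (hF hx).1, (hF hx).2⟩
  rw [indicator_of_mem (subset_closure hm)]
  simp

theorem partA (S : Set ℂ) (f : ℂ → ℝ) (g : ℝ → ℝ≥0∞) (hf : LipschitzWith 1 f)
    (hg : ∀ᵐ t, g t ≤ ((S ∩ f ⁻¹' {t}).encard : ℝ≥0∞)) : ∫⁻ t, g t ≤ μH[1] S := by
  refine le_of_forall_gt_imp_ge_of_dense fun c hc => ?_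
  have h1 : ∀ k : ℕ, ∃ t : ℕ → Set ℂ, S ⊆ ⋃ n, t n ∧ (∀ n, ediam (t n) ≤ (k : ℝ≥0∞)⁻¹) ∧
      ∑' n, ediam (t n) < c := fun k => exists_cover hc (by simp)
  choose U hU1 hU2 hU3 using h1
  have hm : ∀ k n, Measurable ((closure (f '' U k n)).indicator (fun _ => (1 : ℝ≥0∞))) :=
    fun k n => measurable_const.indicator isClosed_closure.measurableSet
  have hN : ∀ k, Measurable fun t =>
      ∑' n, (closure (f '' U k n)).indicator (fun _ => (1 : ℝ≥0∞)) t :=
    fun k => Measurable.tsum (hm k)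
  have hI : ∀ k, ∫⁻ t, ∑' n, (closure (f '' U k n)).indicator (fun _ => (1 : ℝ≥0∞)) t ≤ c := by
    intro k
    rw [lintegral_tsum fun n => (hm k n).aemeasurable]
    refine le_trans (ENNReal.tsum_le_tsum fun n => ?_) (hU3 k).le
    rw [lintegral_indicator_const isClosed_closure.measurableSet, one_mul]
    refine (Real.volume_le_diam _).trans ?_
    rw [Metric.ediam_closure]
    simpa using hf.ediam_image_le (U k n)
  calc ∫⁻ t, g t ≤ ∫⁻ t, liminf (fun k =>
        ∑' n, (closure (f '' U k n)).indicator (fun _ => (1 : ℝ≥0∞)) t) atTop := by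
        refine lintegral_mono_ae (hg.mono fun t ht => ht.trans (encard_le fun F hF => ?_))
        refine le_liminf_of_le (by isBoundedDefault) ?_
        have he : ∀ᶠ k : ℕ in atTop, ∀ x ∈ F, ∀ y ∈ F, x ≠ y → (k : ℝ≥0∞)⁻¹ < edist x y := by
          simp only [Filter.eventually_all_finset]
          intro x _ y _
          by_cases hxy : x = y
          · exact Eventually.of_forall fun k h => absurd hxy h
          · exact (ENNReal.tendsto_inv_nat_nhds_zero.eventually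
              (gt_mem_nhds (edist_pos.2 hxy))).mono fun k hk _ => hk
        exact he.mono fun k hk => card_le_tsum (hU1 k) (hU2 k) F hF hk
    _ ≤ liminf (fun k => ∫⁻ t,
        ∑' n, (closure (f '' U k n)).indicator (fun _ => (1 : ℝ≥0∞)) t) atTop :=
        lintegral_liminf_le hN
    _ ≤ c := liminf_le_of_frequently_le' (Frequently.of_forall hI)

/-- the levels with at least `m` points -/
def A (S : Set ℂ) (f : ℂ → ℝ) (m : ℕ) : Set ℝ :=
  {t | ∃ z : Fin m → ℂ, Function.Injective z ∧ ∀ i, z i ∈ S ∧ f (z i) = t}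

/-- a compact exhaustion -/
def B (S : Set ℂ) (f : ℂ → ℝ) (m k : ℕ) : Set ((Fin m → ℂ) × ℝ) :=
  closedBall 0 k ∩ ((⋂ i, {p | p.1 i ∈ S} ∩ {p | f (p.1 i) = p.2}) ∩
    ⋂ i, ⋂ j, ⋂ (_ : i ≠ j), {p | 1 / ((k : ℝ) + 1) ≤ dist (p.1 i) (p.1 j)})

theorem B_compact {S : Set ℂ} {f : ℂ → ℝ} (hS : IsClosed S) (hf : Continuous f) (m k : ℕ) :
    IsCompact (B S f m k) := by
  refine (isCompact_closedBall _ _).inter_right (IsClosed.inter ?_ ?_)
  · exact isClosed_iInter fun i => (hS.preimage (by fun_prop)).inter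
      (isClosed_eq (by fun_prop) (by fun_prop))
  · exact isClosed_iInter fun i => isClosed_iInter fun j => isClosed_iInter fun _ =>
      isClosed_le continuous_const (by fun_prop)

theorem A_eq (S : Set ℂ) (f : ℂ → ℝ) (m : ℕ) : A S f m = ⋃ k, Prod.snd '' B S f m k := by
  ext t
  simp only [A, B, mem_iUnion, mem_image, mem_inter_iff, mem_iInter, mem_ofPred_eq]
  constructor
  · rintro ⟨z, hz, h⟩
    have e1 : ∀ᶠ k : ℕ in atTop, (z, t) ∈ closedBall (0 : (Fin m → ℂ) × ℝ) k :=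
      (tendsto_natCast_atTop_atTop.eventually_ge_atTop (dist (z, t) 0)).mono fun k hk => hk
    have e2 : ∀ᶠ k : ℕ in atTop, ∀ i j, i ≠ j → 1 / ((k : ℝ) + 1) ≤ dist (z i) (z j) := by
      simp only [Filter.eventually_all]
      intro i j hij
      exact (tendsto_one_div_add_atTop_nhds_zero_nat.eventually
        (ge_mem_nhds (dist_pos.2 fun h => hij (hz h))))
    obtain ⟨k, h1, h2⟩ := (e1.and e2).exists
    exact ⟨k, (z, t), ⟨h1, h, h2⟩, rfl⟩
  · rintro ⟨k, ⟨z, s⟩, ⟨-, h1, h2⟩, rfl⟩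
    refine ⟨z, fun i j hij => ?_, h1⟩
    by_contra hne
    have : 1 / ((k : ℝ) + 1) ≤ dist (z i) (z j) := h2 i j hne
    rw [hij, dist_self] at this
    exact absurd this (not_le.2 (by positivity))

theorem partB (S : Set ℂ) (f : ℂ → ℝ) (hS : IsClosed S) (hf : Continuous f) :
    Measurable fun t => ((S ∩ f ⁻¹' {t}).encard : ℝ≥0∞) := by
  classical
  have hA : ∀ m, MeasurableSet (A S f m) := fun m => by
    rw [A_eq]
    exact MeasurableSet.iUnion fun k =>
      ((B_compact hS hf m k).image continuous_snd).isClosed.measurableSet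
  have e : (fun t => ((S ∩ f ⁻¹' {t}).encard : ℝ≥0∞)) =
      fun t => ⨆ m : ℕ, (A S f m).indicator (fun _ => (m : ℝ≥0∞)) t := by
    funext t
    refine le_antisymm (encard_le fun F hF => ?_) (iSup_le fun m => ?_)
    · refine le_iSup_of_le F.card (le_of_eq ?_)
      rw [indicator_of_mem]
      exact ⟨fun i => F.equivFin.symm i, fun i j hij =>
        F.equivFin.symm.injective (Subtype.ext hij), fun i => hF (F.equivFin.symm i).2⟩
    · by_cases ht : t ∈ A S f m
      · rw [indicator_of_mem ht]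
        obtain ⟨z, hz, h⟩ := ht
        have h1 : ((Finset.univ.image z : Finset ℂ) : Set ℂ) ⊆ S ∩ f ⁻¹' {t} := by
          intro x hx
          obtain ⟨i, -, rfl⟩ := Finset.mem_image.1 hx
          exact h i
        have h2 := card_le_encard h1
        rwa [Finset.card_image_of_injective _ hz, Finset.card_univ, Fintype.card_fin] at h2
      · rw [indicator_of_notMem ht]; exact zero_le
  rw [e]
  exact Measurable.iSup fun m => measurable_const.indicator (hA m)

end Eil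

theorem eil_pf : EilStmt :=
  ⟨fun S f g hf _ hg => Eil.partA S f g hf hg, Eil.partB⟩

end Vale.Agent.P128
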