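import Vale.Agent.P128.Stm

open MeasureTheory Set Metric Filter Topology Complex
open scoped ENNReal ComplexConjugate Real

noncomputable section
namespace Vale.Agent.P128

namespace El

theorem sq_add (a b : ℂ) (t : ℝ) :
    ‖a + t * b‖ ^ 2 = ‖a‖ ^ 2 + 2 * t * (a * conj b).re + t ^ 2 * ‖b‖ ^ 2 := by
  simp only [← normSq_eq_norm_sq, normSq_apply, add_re, add_im, mul_re, mul_im, ofReal_re,
    ofReal_im, conj_re, conj_im]
  ring

end El

theorem el_pf : ElStmt := by
  intro Ω K u Λ M h x r φ hsub hφ h0 i1 i2
  have i0 := h.int x r hsub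
  have i3 : IntegrableOn (fun z => (pd u z * conj (pd φ z)).re) (closedBall x r) := by
    refine (i0.add i1).mono' (measurable_re.comp ((measurable_pd u).mul
      (continuous_conj.measurable.comp (measurable_pd φ)))).aestronglyMeasurable
      (.of_forall fun z => ?_)
    refine (abs_re_le_norm _).trans ?_
    rw [norm_mul, Complex.norm_conj, Pi.add_apply]
    nlinarith [sq_nonneg (‖pd u z‖ - ‖pd φ z‖), mul_nonneg (norm_nonneg (pd u z))
      (norm_nonneg (pd φ z))]
  set J := ∫ z in closedBall x r, |Λ * φ z| with hJ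
  set P := ∫ z in closedBall x r, (pd u z * conj (pd φ z)).re with hP
  have J0 : 0 ≤ J := integral_nonneg fun z => abs_nonneg _
  have E0 := En_nonneg φ (closedBall x r)
  have key : ∀ t : ℝ, 0 ≤ 2 * t * P + t ^ 2 * En φ (closedBall x r) + |t| * J := fun t => by
    have e : ∀ᵐ z ∂(volume.restrict (closedBall x r)), ‖pd u z‖ ^ 2 +
        2 * t * (pd u z * conj (pd φ z)).re + t ^ 2 * ‖pd φ z‖ ^ 2 =
          ‖pd (fun z => u z + t * φ z) z‖ ^ 2 := by
      rw [ae_restrict_iff' measurableSet_closedBall]
      filter_upwards [ae_differentiableAt h.isOpen hφ, h.ae_notMem hsub] with z z1 z2 hz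
      have hm : z ∈ Ω \ K := ⟨hsub hz, z2 hz⟩
      rw [pd_add (h.diff hm) ((z1 hm).const_mul t), pd_const_mul, El.sq_add]
    have i4 : IntegrableOn (fun z => ‖pd u z‖ ^ 2 + 2 * t * (pd u z * conj (pd φ z)).re)
      (closedBall x r) := i0.add (i3.const_mul (2 * t))
    have k := h.min x r K (fun z => u z + t * φ z) hsub
      ⟨h.cl, rfl, fun z _ hz _ => by rw [h0 z hz, mul_zero, add_zero],
        h.lip.add (locallyLipschitzOn_iff_restrict.2
          ((contDiff_const.mul contDiff_id : ContDiff ℝ 1 fun s : ℝ => t * s).locallyLipschitz.comp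
            hφ.restrict)),
        (i4.add (i1.const_mul (t ^ 2))).congr e, h.fin x r hsub,
        fun z => connectedComponentIn (Ω \ K) z, fun z hz => by
          filter_upwards [h.isOpen.connectedComponentIn.mem_nhds (mem_connectedComponentIn hz)]
            with y hy using (connectedComponentIn_eq hy).symm,
        fun _ _ _ _ => rfl⟩
    have k1 : En (fun z => u z + t * φ z) (closedBall x r) =
        En u (closedBall x r) + 2 * t * P + t ^ 2 * En φ (closedBall x r) := by
      rw [En, ← integral_congr_ae e, integral_add i4 (i1.const_mul _),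
        integral_add i0 (i3.const_mul _), integral_const_mul, integral_const_mul]
      rfl
    have k2 : Λ * ∫ z in closedBall x r, min |u z + t * φ z - u z| (2 * M) ≤ |t| * J := by
      rw [hJ, ← integral_const_mul, ← integral_const_mul]
      refine integral_mono_of_nonneg (.of_forall fun z => mul_nonneg h.L0 (le_min (abs_nonneg _)
        (mul_nonneg zero_le_two h.M0))) (i2.abs.const_mul _) (.of_forall fun z => ?_)
      refine (mul_le_mul_of_nonneg_left (min_le_left _ _) h.L0).trans_eq ?_
      simp only [add_sub_cancel_left, abs_mul, abs_of_nonneg h.L0]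
      ring
    linarith
  refine le_of_forall_pos_le_add fun ε hε => ?_
  have s0 : 0 < ε / (En φ (closedBall x r) + 1) := by positivity
  have s1 : ε / (En φ (closedBall x r) + 1) * (En φ (closedBall x r) + 1) = ε :=
    div_mul_cancel₀ _ (by positivity)
  generalize ε / (En φ (closedBall x r) + 1) = s at s0 s1
  have k1 := key s
  have k2 := key (-s)
  rw [abs_neg] at k2
  rw [abs_of_pos s0] at k1 k2
  have k3 : 0 ≤ 2 * P + s * En φ (closedBall x r) + J :=
    le_of_mul_le_mul_left (by linarith) s0
  have k4 : 0 ≤ -(2 * P) + s * En φ (closedBall x r) + J :=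
    le_of_mul_le_mul_left (by linarith) s0
  exact abs_le.2 ⟨by linarith, by linarith⟩

end Vale.Agent.P128
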