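import Vale.Agent.P128.Stm

open MeasureTheory Set Metric Filter Topology Complex
open scoped ENNReal ComplexConjugate Real

noncomputable section
namespace Vale.Agent.P128

namespace El0

variable {E : Type*} [NormedAddCommGroup E] [InnerProductSpace ℝ E] {μ : Measure ℂ} {F H : ℂ → E}

theorem lin (hF : MemLp F 2 μ) : ∫⁻ z, ‖F z‖ₑ ^ 2 ∂μ = ENNReal.ofReal (∫ z, ‖F z‖ ^ 2 ∂μ) := by
  rw [ofReal_integral_eq_lintegral_ofReal ((memLp_two_iff_integrable_sq_norm hF.1).1 hF)
    (.of_forall fun z => sq_nonneg _)]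
  simp only [ENNReal.ofReal_pow (norm_nonneg _), ofReal_norm]

theorem int_inner (hF : MemLp F 2 μ) (hH : MemLp H 2 μ) :
    Integrable (fun z => inner ℝ (F z) (H z)) μ :=
  (hF.norm.integrable_mul hH.norm).mono' (hF.1.inner hH.1)
    (.of_forall fun _ => norm_inner_le_norm _ _)

theorem expand (hF : MemLp F 2 μ) (hH : MemLp H 2 μ) (t : ℝ) :
    ∫ z, ‖F z + t • H z‖ ^ 2 ∂μ = (∫ z, ‖F z‖ ^ 2 ∂μ) + 2 * t * (∫ z, inner ℝ (F z) (H z) ∂μ) +
      t ^ 2 * ∫ z, ‖H z‖ ^ 2 ∂μ := by
  have i1 := (memLp_two_iff_integrable_sq_norm hF.1).1 hF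
  have i2 := (int_inner hF hH).const_mul (2 * t)
  have i3 := ((memLp_two_iff_integrable_sq_norm hH.1).1 hH).const_mul (t ^ 2)
  have i12 : Integrable (fun z => ‖F z‖ ^ 2 + 2 * t * inner ℝ (F z) (H z)) μ := i1.add i2
  rw [← integral_const_mul, ← integral_const_mul, ← integral_add i1 i2, ← integral_add i12 i3]
  refine integral_congr_ae (.of_forall fun z => ?_)
  simp only [norm_add_sq_real, inner_smul_right, norm_smul, mul_pow, Real.norm_eq_abs, sq_abs]
  ring

theorem zero_of {a b : ℝ} (h : ∀ t : ℝ, 0 ≤ 2 * t * a + t ^ 2 * b) (hb : 0 ≤ b) : a = 0 := by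
  have := h (-a / (b + 1))
  have e : 2 * (-a / (b + 1)) * a + (-a / (b + 1)) ^ 2 * b = -(a ^ 2 * (b + 2) / (b + 1) ^ 2) := by
    field_simp; ring
  rw [e, neg_nonneg, div_nonpos_iff] at this
  rcases this with h | h
  · nlinarith [h.2]
  · exact pow_eq_zero_iff two_ne_zero |>.1 (by nlinarith [h.1, sq_nonneg a])

theorem inner_pd (φ : ℂ → ℝ) (z e : ℂ) : inner ℝ (conj (pd φ z)) e = fderiv ℝ φ z e := by
  rw [fderiv_eq_pd, Complex.inner, conj_conj, mul_comm]

end El0

open El0 in
theorem el0_pf : El0Stmt := by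
  intro Ω g u G K hΩ hg ⟨ad, hmin⟩ φ hφ c hs
  obtain ⟨V, oV, CV, VU, cV⟩ := exists_open_between_and_isCompact_closure c ad.closed hs
  have VO : V ⊆ Ω \ K := subset_closure.trans VU
  have h1 : ContDiff ℝ 1 φ := hφ.of_le (by simp)
  have pc : Continuous fun z => conj (pd φ z) :=
    continuous_conj.comp (continuousOn_univ.1 (continuousOn_pd isOpen_univ h1.contDiffOn))
  have pk : HasCompactSupport fun z => conj (pd φ z) := by
    refine (c.fderiv ℝ).mono fun z hz h => hz ?_
    rw [← norm_eq_zero, Complex.norm_conj, norm_pd, h, norm_zero]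
  have lφ : ∀ S, MemLp φ 2 (volume.restrict S) := fun S =>
    (hφ.continuous.memLp_of_hasCompactSupport c).restrict S
  have lP : ∀ S, MemLp (fun z => conj (pd φ z)) 2 (volume.restrict S) := fun S =>
    (pc.memLp_of_hasCompactSupport pk).restrict S
  have z0 : ∀ z, z ∉ V → φ z = 0 := fun z hz => image_eq_zero_of_notMem_tsupport fun h => hz (CV h)
  have adm : ∀ t : ℝ, Adm Ω (fun z => u z + t • φ z) (fun z => G z + t • conj (pd φ z)) K := by
    refine fun t => ⟨ad.sub, ad.closed, ad.fin, ad.l2.add ((lφ _).const_smul t),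
      ad.gl2.add ((lP _).const_smul t), fun ψ hψ cψ sψ e => ?_⟩
    have k1 : ContDiff ℝ 1 ψ := hψ.of_le (by simp)
    have dc : ∀ {f : ℂ → ℝ}, ContDiff ℝ 1 f → Continuous fun z => fderiv ℝ f z e := fun hf =>
      (hf.continuous_fderiv one_ne_zero).clm_apply continuous_const
    have lD : MemLp (fun z => fderiv ℝ ψ z e) 2 (volume.restrict (Ω \ K)) :=
      ((dc k1).memLp_of_hasCompactSupport (cψ.fderiv_apply ℝ e)).restrict _
    have lψ : MemLp (fun z => ψ z • e) 2 (volume.restrict (Ω \ K)) :=
      ((hψ.continuous.smul continuous_const).memLp_of_hasCompactSupport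
        (cψ.smul_right (f' := fun _ => e))).restrict _
    have j1 : Integrable (fun z => u z * fderiv ℝ ψ z e) _ :=
      (ad.l2.mono_measure (Measure.restrict_mono sdiff_subset le_rfl)).integrable_mul lD
    have j2 : Integrable (fun z => t * (φ z * fderiv ℝ ψ z e)) _ :=
      ((lφ _).integrable_mul lD).const_mul t
    have j3 := int_inner ad.gl2 lψ
    have j4 := (int_inner (lP _) lψ).const_mul t
    have ib : ∫ z in Ω \ K, φ z * fderiv ℝ ψ z e = -∫ z in Ω \ K, fderiv ℝ φ z e * ψ z := by
      rw [setIntegral_eq_integral_of_forall_compl_eq_zero fun z hz => by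
          rw [z0 z fun h => hz (VO h), zero_mul],
        setIntegral_eq_integral_of_forall_compl_eq_zero fun z hz => by
          rw [image_eq_zero_of_notMem_tsupport fun h => hz (sψ h), mul_zero]]
      exact integral_mul_fderiv_eq_neg_fderiv_mul_of_integrable
        (((dc h1).mul hψ.continuous).integrable_of_hasCompactSupport cψ.mul_left)
        ((hφ.continuous.mul (dc k1)).integrable_of_hasCompactSupport c.mul_right)
        ((hφ.continuous.mul hψ.continuous).integrable_of_hasCompactSupport c.mul_right)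
        (fun z _ => h1.differentiable one_ne_zero z) fun z _ => k1.differentiable one_ne_zero z
    have := ad.grad ψ hψ cψ sψ e
    simp only [inner_smul_right, inner_pd, map_smul, smul_eq_mul, mul_comm (ψ _)] at j3 j4
    simp only [smul_eq_mul, add_mul, inner_add_left, real_inner_smul_left, inner_pd, mul_assoc]
    rw [integral_add j1 j2, integral_add j3 j4, integral_const_mul, integral_const_mul, this, ib]
    ring
  have fm : IsFiniteMeasure (volume.restrict V) :=
    isFiniteMeasure_restrict.2 ((measure_mono subset_closure).trans_lt cV.measure_lt_top).ne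
  have lG := ad.gl2.mono_measure (Measure.restrict_mono VO le_rfl)
  have r1 : volume.restrict V ≤ volume.restrict Ω := Measure.restrict_mono (VO.trans sdiff_subset) le_rfl
  have lu : MemLp (fun z => u z - g z) 2 (volume.restrict V) :=
    (ad.l2.mono_measure r1).sub ((hg.mono_measure r1).mono_exponent le_top)
  have e1 : V \ K = V := (disjoint_left.2 fun z hz => (VO hz).2).sdiff_eq_left
  have e2 : K ∩ V = ∅ := eq_empty_of_forall_notMem fun z hz => (VO hz.2).2 hz.1
  have key := zero_of (a := (∫ z in V, inner ℝ (G z) (conj (pd φ z))) +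
      ∫ z in V, inner ℝ (u z - g z) (φ z))
    (b := (∫ z in V, ‖conj (pd φ z)‖ ^ 2) + ∫ z in V, ‖φ z‖ ^ 2) (fun t => by
      have := hmin V oV cV (VU.trans sdiff_subset) _ _ K (adm t) ⟨_, c, CV, by simp,
        ae_restrict_of_forall_mem (hΩ.measurableSet.diff (isClosed_tsupport φ).measurableSet)
          fun z hz => by simp [image_eq_zero_of_notMem_tsupport hz.2]⟩
      simp only [msF, e1, e2, measure_empty, add_zero, add_sub_right_comm] at this
      rw [lin lG, lin lu, lin (F := fun z => G z + t • conj (pd φ z)) (lG.add ((lP _).const_smul t)),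
        lin (F := fun z => u z - g z + t • φ z) (lu.add ((lφ _).const_smul t)),
        ← ENNReal.ofReal_add (by positivity) (by positivity),
        ← ENNReal.ofReal_add (by positivity) (by positivity),
        ENNReal.ofReal_le_ofReal_iff (by positivity)] at this
      rw [expand lG (lP _), expand lu (lφ _)] at this
      linarith) (by positivity)
  rw [setIntegral_eq_of_subset_of_forall_sdiff_eq_zero ad.closed.measurableSet VO fun z hz => by
      rw [fderiv_of_notMem_tsupport ℝ fun h => hz.2 (CV h)]; rfl,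
    setIntegral_eq_of_subset_of_forall_sdiff_eq_zero ad.closed.measurableSet VO fun z hz => by
      rw [z0 z hz.2, mul_zero]]
  simp only [real_inner_comm (conj (pd φ _)), inner_pd, RCLike.inner_apply, conj_trivial,
    mul_comm (φ _)] at key
  linarith

end Vale.Agent.P128
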