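import Vale.Agent.P128.Cut0

open MeasureTheory Set Metric Filter Topology Complex
open scoped ENNReal ComplexConjugate Real

noncomputable section
namespace Vale.Agent.P128

namespace Ext

theorem hol {K O : Set ℂ} {c θ p : ℂ → ℂ} (hK : IsClosed K) (hc : Differentiable ℝ c)
    (hθ : Differentiable ℝ θ) (hp : DifferentiableOn ℂ p Kᶜ)
    (hdb : ∀ z ∈ O, db c z = -(db θ z * p z)) (hO : ∀ z ∈ O, z ∈ K → θ =ᶠ[𝓝 z] fun _ => 0) :
    DifferentiableOn ℂ (fun z => c z + θ z * p z) O := by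
  intro z hz
  refine DifferentiableAt.differentiableWithinAt ?_
  by_cases hzK : z ∈ K
  · have h1 := hO z hz hzK
    have h2 : db c z = 0 := by
      rw [hdb z hz, (dz_db_congr h1).2, (dz_db_const 0 z).2, zero_mul, neg_zero]
    refine (hasDerivAt_of_db (hc z) h2).differentiableAt.congr_of_eventuallyEq ?_
    filter_upwards [h1] with w hw
    rw [hw, zero_mul, add_zero]
  · have h1 : DifferentiableAt ℂ p z := hp.differentiableAt (hK.isOpen_compl.mem_nhds hzK)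
    have h2 : DifferentiableAt ℝ p z := h1.restrictScalars ℝ
    refine (hasDerivAt_of_db ((hc z).add ((hθ z).mul h2)) ?_).differentiableAt
    refine ((dz_db_add (hc z) ((hθ z).fun_mul h2)).2).trans ?_
    rw [(dz_db_mul (hθ z) h2).2, (dz_db_of_hasDerivAt h1.hasDerivAt).2, hdb z hz]
    ring

theorem near1 {K₁ : Set ℂ} {χ : ℂ → ℝ} (hχ : IsChi K₁ χ) {z w : ℂ} (hz : z ∈ K₁)
    (hw : w ∈ ball z (1 / 4)) : χ w = 1 :=
  hχ.one w ((infDist_le_dist_of_mem hz).trans (mem_ball.1 hw).le)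

theorem near2 {K K₁ K₂ : Set ℂ} {χ : ℂ → ℝ} (hS : Split K K₁ K₂) (hχ : IsChi K₁ χ) {z w : ℂ}
    (hz : z ∈ K₂) (hw : w ∈ ball z (1 / 4)) : χ w = 0 := by
  refine hχ.zero w ((le_infDist ⟨0, hS.m1⟩).2 fun y hy => ?_)
  have h1 := hS.far y hy z hz
  rw [← dist_eq_norm] at h1
  linarith [dist_triangle_left y z w, mem_ball.1 hw]

end Ext

open Ext in
theorem ext_pf (hPsi : PsiStmt) (hCau : CauStmt) (hHolk : HolkStmt) (hApx : ApxStmt)
    : ExtStmt := by
  intro K K₁ K₂ u χ hG hS hχ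
  obtain ⟨hψs, hψi, -, hψ0⟩ := hPsi K K₁ K₂ u χ hG hS hχ
  have hp := hApx.2 K u hG
  obtain ⟨C, -, hcut⟩ := exists_cut
  obtain ⟨η, hηs, hηc, hη01, hη1, hη0, -⟩ := hcut 0 3 (by norm_num)
  set ψ₀ : ℂ → ℂ := fun z => db (fun w => (χ w : ℂ)) z * pd u z with hψ₀
  have hηs' : ContDiff ℝ (⊤ : ℕ∞) fun z => (η z : ℂ) := ofRealCLM.contDiff.comp hηs
  have s1 : ContDiff ℝ (⊤ : ℕ∞) fun z => (η z : ℂ) * ψ₀ z := hηs'.mul hψs
  have c1 : HasCompactSupport fun z => (η z : ℂ) * ψ₀ z :=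
    HasCompactSupport.intro hηc fun z hz => by
      rw [image_eq_zero_of_notMem_tsupport hz, ofReal_zero, zero_mul]
  have hint : ∀ θ : ℂ → ℝ, Continuous θ → (∀ z, 0 ≤ θ z ∧ θ z ≤ 1) →
      AEStronglyMeasurable (fun z => (θ z : ℂ) * ψ₀ z) ∧
      Integrable fun z => ‖(θ z : ℂ) * ψ₀ z‖ / (1 + ‖z‖) ^ 2 := fun θ hθ h01 => by
    have h1 : Continuous fun z => (θ z : ℂ) * ψ₀ z :=
      (continuous_ofReal.comp hθ).mul hψs.continuous
    refine ⟨h1.aestronglyMeasurable, hψi.mono' (h1.norm.div (by fun_prop) fun z => by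
      positivity).aestronglyMeasurable (ae_of_all _ fun z => ?_)⟩
    rw [Real.norm_of_nonneg (by positivity), norm_mul, norm_real,
      Real.norm_of_nonneg (h01 z).1]
    exact div_le_div_of_nonneg_right (mul_le_of_le_one_left (norm_nonneg _) (h01 z).2)
      (by positivity)
  obtain ⟨m1, i1⟩ := hint η hηs.continuous hη01
  obtain ⟨m2, i2⟩ := hint (fun z => 1 - η z) (continuous_const.sub hηs.continuous)
    fun z => ⟨by linarith [(hη01 z).2], by linarith [(hη01 z).1]⟩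
  have hη3 : ∀ z ∈ ball (0 : ℂ) 3, η z = 1 := fun z hz =>
    hη1 z (by rw [sub_zero]; exact (mem_ball_zero_iff.1 hz).le)
  obtain ⟨j2, hT⟩ := hHolk.1 _ (ball 0 3) m2 i2 isOpen_ball fun z hz => by
    simp only [hη3 z hz, sub_self, ofReal_zero, zero_mul]
  obtain ⟨hcs, hcdb, -⟩ := hCau _ s1 c1
  have hcd : Differentiable ℝ (cau fun z => (η z : ℂ) * ψ₀ z) := hcs.differentiable (by simp)
  have hχd : Differentiable ℝ fun w => (χ w : ℂ) :=
    (ofRealCLM.contDiff.comp hχ.sm).differentiable (by simp)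
  have d2 : Differentiable ℝ fun w => -1 * (χ w : ℂ) := hχd.const_mul _
  have d1 : Differentiable ℝ fun w => 1 + -1 * (χ w : ℂ) := d2.const_add _
  have e2 : ∀ z, db (fun w => -1 * (χ w : ℂ)) z = -db (fun w => (χ w : ℂ)) z := fun z => by
    rw [(dz_db_mul (differentiableAt_const _) (hχd z)).2, (dz_db_const _ z).2]; ring
  have e1 : ∀ z, db (fun w => 1 + -1 * (χ w : ℂ)) z = -db (fun w => (χ w : ℂ)) z := fun z => by
    rw [(dz_db_add (differentiableAt_const _) (d2 z)).2, (dz_db_const _ z).2, e2, zero_add]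
  have b1 : ball (0 : ℂ) 1 ⊆ ball 0 3 := ball_subset_ball (by norm_num)
  have b2 : ball I 1 ⊆ ball (0 : ℂ) 3 := ball_subset_ball' (by simp; norm_num)
  have H1 := hol (O := ball 0 1) hG.cl hcd d1 hp (fun z hz => by
      rw [hcdb, e1, hη3 z (b1 hz), hψ₀]; simp) (fun z hz hzK => by
      rcases hS.eq ▸ hzK with h | h
      · filter_upwards [ball_mem_nhds z (show (0 : ℝ) < 1 / 4 by norm_num)] with w hw
        rw [near1 hχ h hw]; simp
      · have := hS.far 0 hS.m1 z h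
        rw [zero_sub, norm_neg] at this
        exact absurd (mem_ball_zero_iff.1 hz) this.not_gt)
  have H2 := hol (O := ball I 1) hG.cl hcd d2 hp (fun z hz => by
      rw [hcdb, e2, hη3 z (b2 hz), hψ₀]; simp) (fun z hz hzK => by
      rcases hS.eq ▸ hzK with h | h
      · exact absurd (mem_ball_iff_norm.1 hz) (hS.far z h I hS.m2).not_gt
      · filter_upwards [ball_mem_nhds z (show (0 : ℝ) < 1 / 4 by norm_num)] with w hw
        rw [near2 hS hχ h hw]; simp)
  have key : ∀ (c : ℂ) (θ : ℂ → ℂ), ball c (1 / 4) ⊆ ball 0 (1 / 4) ∪ ball I (1 / 4) →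
      ball c (1 / 4) ⊆ ball 0 3 → (∀ w ∈ ball c (1 / 4), θ w = 0) → ∀ a ∈ ball c (1 / 4),
      deriv (fun z => cau (fun z => (η z : ℂ) * ψ₀ z) z + θ z * pd u z) a +
        -(1 / π : ℂ) * ∫ z, ((1 - η z : ℝ) : ℂ) * ψ₀ z / (a - z) ^ 2 = kap χ (pd u) a := by
    intro c θ hc hc3 hθ a ha
    have z1 : ∀ z ∈ ball c (1 / 4), (η z : ℂ) * ψ₀ z = 0 := fun z hz => by
      simp only [hψ₀, hψ0 z (hc hz), zero_mul, mul_zero]
    have h1 := (hHolk.2 _ 6 (s1.continuous.integrable_of_hasCompactSupport c1) (by norm_num)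
      fun z hz => by
        rw [hη0 z (by rw [sub_zero]; linarith), ofReal_zero, zero_mul]).1 _ isOpen_ball z1 a ha
    have h2 : (fun z => cau (fun z => (η z : ℂ) * ψ₀ z) z + θ z * pd u z) =ᶠ[𝓝 a]
        cau fun z => (η z : ℂ) * ψ₀ z := by
      filter_upwards [isOpen_ball.mem_nhds ha] with w hw
      rw [hθ w hw, zero_mul, add_zero]
    rw [h2.deriv_eq, h1.deriv, ← mul_add,
      ← integral_add ((hHolk.1 _ _ m1 i1 isOpen_ball z1).1 a ha) (j2 a (hc3 ha)), kap]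
    congr 2
    funext z
    simp only [hψ₀]
    push_cast
    ring
  refine ⟨fun a => deriv (fun z => cau (fun z => (η z : ℂ) * ψ₀ z) z +
      (1 + -1 * (χ z : ℂ)) * pd u z) a +
      -(1 / π : ℂ) * ∫ z, ((1 - η z : ℝ) : ℂ) * ψ₀ z / (a - z) ^ 2,
    fun a => deriv (fun z => cau (fun z => (η z : ℂ) * ψ₀ z) z + (-1 * (χ z : ℂ)) * pd u z) a +
      -(1 / π : ℂ) * ∫ z, ((1 - η z : ℝ) : ℂ) * ψ₀ z / (a - z) ^ 2,
    (H1.deriv isOpen_ball).add ((hT.mono b1).const_mul _),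
    (H2.deriv isOpen_ball).add ((hT.mono b2).const_mul _),
    key 0 _ subset_union_left (ball_subset_ball (by norm_num)) fun w hw => ?_,
    key I _ subset_union_right ((ball_subset_ball (by norm_num)).trans b2) fun w hw => ?_,
    fun a ha => ?_⟩
  · rw [near1 hχ hS.m1 hw]; simp
  · rw [near2 hS hχ hS.m2 hw]; simp
  · simp only [add_sub_add_right_eq_sub]
    rw [← deriv_fun_sub (H1.differentiableAt (isOpen_ball.mem_nhds ha.1))
      (H2.differentiableAt (isOpen_ball.mem_nhds ha.2))]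
    congr 1
    funext z
    ring

end Vale.Agent.P128
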