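import Vale.Agent.P128.Stm

open MeasureTheory Set Metric Filter Topology Complex
open scoped ENNReal ComplexConjugate Real

noncomputable section
namespace Vale.Agent.P128

namespace Fid

/-- a maximal separated set -/
theorem net (S : Set ℂ) {t N : ℝ} (ht : 0 ≤ t) (hN : ∀ Y : Finset ℂ, (Y : Set ℂ) ⊆ S →
    (Y : Set ℂ).Pairwise (fun a b => t < dist a b) → (Y.card : ℝ) ≤ N) :
    ∃ Y : Finset ℂ, (Y.card : ℝ) ≤ N ∧ ∀ w ∈ S, ∃ y ∈ Y, dist w y ≤ t := by
  classical
  set A : Set ℕ := {n | ∃ Y : Finset ℂ, (Y : Set ℂ) ⊆ S ∧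
    (Y : Set ℂ).Pairwise (fun a b => t < dist a b) ∧ Y.card = n} with hA
  have hb : BddAbove A := by
    refine ⟨⌈N⌉₊, ?_⟩
    rintro n ⟨Y, h1, h2, rfl⟩
    exact_mod_cast (hN Y h1 h2).trans (Nat.le_ceil N)
  obtain ⟨Y, h1, h2, h3⟩ := Nat.sSup_mem (s := A) ⟨0, ∅, by simp, by simp, rfl⟩ hb
  refine ⟨Y, hN Y h1 h2, fun w hw => ?_⟩
  by_contra hc
  push Not at hc
  have hwY : w ∉ Y := fun h => by simpa using (hc w h).trans_le' ht
  have h4 : Y.card + 1 ∈ A := by
    refine ⟨insert w Y, ?_, ?_, Finset.card_insert_of_notMem hwY⟩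
    · rw [Finset.coe_insert]; exact insert_subset hw h1
    · rw [Finset.coe_insert]
      exact h2.insert fun b hb _ => ⟨hc b hb, by rw [dist_comm]; exact hc b hb⟩
  have := le_csSup hb h4
  omega

theorem card_le {K : Set ℂ} (hK : IsClosed K) {x : ℂ} {R t l : ℝ}
    (hf : μH[1] (K ∩ closedBall x R) < ⊤) (Y : Finset ℂ)
    (hs : (Y : Set ℂ).Pairwise (fun a b => t < dist a b))
    (hY : ∀ y ∈ Y, closedBall y (t / 3) ⊆ closedBall x R ∧ l ≤ len K (closedBall y (t / 3)))
    (ht : 0 ≤ t) : Y.card * l ≤ len K (closedBall x R) := by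
  have h1 : (Y : Set ℂ).PairwiseDisjoint (fun y => K ∩ closedBall y (t / 3)) := by
    intro a ha b hb hab
    refine Disjoint.mono inter_subset_right inter_subset_right (closedBall_disjoint_closedBall ?_)
    have := hs ha hb hab
    linarith
  have h2 := measure_biUnion_finset (μ := (μH[1] : Measure ℂ)) h1
    fun b _ => (hK.inter isClosed_closedBall).measurableSet
  have h3 : ENNReal.ofReal (Y.card * l) ≤ μH[1] (K ∩ closedBall x R) := by
    calc ENNReal.ofReal (Y.card * l) = ∑ _y ∈ Y, ENNReal.ofReal l := by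
          rw [Finset.sum_const, nsmul_eq_mul, ENNReal.ofReal_mul (Nat.cast_nonneg _),
            ENNReal.ofReal_natCast]
      _ ≤ ∑ y ∈ Y, μH[1] (K ∩ closedBall y (t / 3)) :=
          Finset.sum_le_sum fun y hy => ENNReal.ofReal_le_of_le_toReal (hY y hy).2
      _ ≤ _ := by
          rw [← h2]
          exact measure_mono (iUnion₂_subset fun y hy => inter_subset_inter_right _ (hY y hy).1)
  exact (ENNReal.ofReal_le_iff_le_toReal hf.ne).1 h3

theorem vol_ball (a : ℂ) {r : ℝ} (hr : 0 ≤ r) :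
    volume (closedBall a r) = ENNReal.ofReal (π * r ^ 2) := by
  rw [Complex.volume_closedBall, ENNReal.ofReal_mul Real.pi_pos.le, ENNReal.ofReal_pow hr,
    mul_comm, ← NNReal.coe_real_pi, ENNReal.ofReal_coe_nnreal]

theorem ftc {O : Set ℂ} (hO : IsOpen O) {u : ℂ → ℝ} (hu : ContDiffOn ℝ 1 u O) {z v : ℂ} {t : ℝ}
    (hv : ‖v‖ ≤ t) (hs : ∀ s ∈ Icc (0 : ℝ) 1, z + s • v ∈ O) :
    ‖u (z + v) - u z‖ₑ ≤ ENNReal.ofReal t * ∫⁻ s in Icc (0 : ℝ) 1, ‖pd u (z + s • v)‖ₑ := by
  have h1 : ContDiffOn ℝ 1 (fun s : ℝ => u (z + s • v)) (Icc 0 1) :=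
    hu.comp (f := fun s : ℝ => z + s • v) (by fun_prop) hs
  have h2 := enorm_sub_le_lintegral_deriv_of_contDiffOn_Icc h1 zero_le_one
  simp only [one_smul, zero_smul, add_zero] at h2
  refine h2.trans ?_
  rw [← lintegral_const_mul' _ _ ENNReal.ofReal_ne_top]
  refine setLIntegral_mono' measurableSet_Icc fun s hs' => ?_
  have h3 : HasDerivAt (fun s : ℝ => z + s • v) v s := by
    simpa using ((hasDerivAt_id s).smul_const v).const_add z
  have h4 : DifferentiableAt ℝ u (z + s • v) :=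
    (hu.contDiffAt (hO.mem_nhds (hs s hs'))).differentiableAt one_ne_zero
  have h5 : HasDerivAt (fun s : ℝ => u (z + s • v)) (fderiv ℝ u (z + s • v) v) s :=
    h4.hasFDerivAt.comp_hasDerivAt s h3
  rw [h5.deriv, ← ofReal_norm, ← ofReal_norm, ← ENNReal.ofReal_mul ((norm_nonneg _).trans hv),
    norm_pd]
  refine ENNReal.ofReal_le_ofReal (((fderiv ℝ u (z + s • v)).le_opNorm v).trans ?_)
  rw [mul_comm]
  gcongr

theorem push (hDef0 : Def0Stmt) {X : ℂ → ℂ} (hX : ContDiff ℝ 1 X)
    (hd : ∀ z, ‖fderiv ℝ X z‖ ≤ 1 / 2) (h : ℂ → ℝ≥0∞) {S T : Set ℂ} (hS : MeasurableSet S)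
    (hT : ∀ z ∈ S, z + X z ∈ T) : ∫⁻ z in S, h (z + X z) ≤ 4 * ∫⁻ z in T, h z := by
  obtain ⟨W, hW, -, -, hj, hl, -⟩ := hDef0 X hX hd
  have h1 : ∫⁻ z in W '' S, h z ≤ ∫⁻ z in T, h z :=
    lintegral_mono_set (by rintro _ ⟨z, hz, rfl⟩; rw [hW]; exact hT z hz)
  refine le_trans ?_ (mul_le_mul_right h1 4)
  rw [hl h S hS, ← lintegral_const_mul' _ _ (by norm_num)]
  refine lintegral_mono fun z => ?_
  rw [hW, ← mul_assoc]
  refine le_mul_of_one_le_left' ?_
  rw [← ENNReal.ofReal_ofNat 4, ← ENNReal.ofReal_mul (by norm_num), ENNReal.one_le_ofReal]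
  linarith [(hj z).1]

theorem grad_le {u : ℂ → ℝ} {x : ℂ} {r : ℝ} (hr : 0 < r)
    (hi : IntegrableOn (fun z => ‖pd u z‖ ^ 2) (closedBall x (2 * r)))
    (hE : En u (closedBall x (2 * r)) ≤ 8 * π * r) :
    ∫⁻ z in closedBall x (2 * r), ‖pd u z‖ₑ ≤ ENNReal.ofReal (6 * π * r * √r) := by
  have hs : 0 < √r := Real.sqrt_pos.2 hr
  have hss : √r * √r = r := Real.mul_self_sqrt hr.le
  have hc : IntegrableOn (fun _ : ℂ => 1 / (2 * √r)) (closedBall x (2 * r)) :=
    integrableOn_const measure_closedBall_lt_top.ne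
  have hi2 : IntegrableOn (fun z => √r / 2 * ‖pd u z‖ ^ 2 + 1 / (2 * √r))
      (closedBall x (2 * r)) := (hi.const_mul _).add hc
  calc ∫⁻ z in closedBall x (2 * r), ‖pd u z‖ₑ
      ≤ ∫⁻ z in closedBall x (2 * r), ENNReal.ofReal (√r / 2 * ‖pd u z‖ ^ 2 + 1 / (2 * √r)) := by
        refine lintegral_mono fun z => ?_
        rw [← ofReal_norm]
        refine ENNReal.ofReal_le_ofReal ?_
        have e : √r / 2 * ‖pd u z‖ ^ 2 + 1 / (2 * √r) - ‖pd u z‖ =
            (√r * ‖pd u z‖ - 1) ^ 2 / (2 * √r) := by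
          field_simp
          ring
        have : 0 ≤ (√r * ‖pd u z‖ - 1) ^ 2 / (2 * √r) := by positivity
        linarith
    _ = ENNReal.ofReal (∫ z in closedBall x (2 * r), (√r / 2 * ‖pd u z‖ ^ 2 + 1 / (2 * √r))) :=
        (ofReal_integral_eq_lintegral_ofReal hi2
          (Eventually.of_forall fun z => by positivity)).symm
    _ ≤ _ := by
        refine ENNReal.ofReal_le_ofReal ?_
        rw [integral_add (hi.const_mul _) hc, integral_const_mul, setIntegral_const,
          Measure.real, vol_ball x (by positivity), ENNReal.toReal_ofReal (by positivity),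
          smul_eq_mul]
        have e : π * (2 * r) ^ 2 * (1 / (2 * √r)) = 2 * π * r * √r := by
          field_simp
          rw [Real.sq_sqrt hr.le]
        rw [e]
        have := mul_le_mul_of_nonneg_left hE (by positivity : 0 ≤ √r / 2)
        unfold En at this
        linarith

end Fid

theorem fid_pf (hDens : DensStmt) (hUp : UpStmt) (hDef0 : Def0Stmt) : FidStmt := by
  obtain ⟨c, hc, hDens⟩ := hDens
  refine ⟨192 * π ^ 2 / c + 24 * π, by positivity,
    fun Ω K u Λ M h x r t X ht htr hΩ ha hX hd hXt => ?_⟩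
  have hr : 0 < r := by linarith
  have ha0 := h.a0
  have hM := h.M0
  have hup : En u (closedBall x (2 * r)) + len K (closedBall x (2 * r)) ≤ 8 * π * r := by
    refine (hUp Ω K u Λ M h x (2 * r) (by positivity) hΩ).trans ?_
    have := mul_le_mul_of_nonneg_left ha (by positivity : 0 ≤ 4 * π * r)
    nlinarith
  have hE := En_nonneg u (closedBall x (2 * r))
  have hl := len_nonneg K (closedBall x (2 * r))
  obtain ⟨Y, hY, hcov⟩ := Fid.net (K ∩ closedBall x (r + t)) (N := 24 * π * r / (c * t)) ht.le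
    (fun Y h1 h2 => by
      have h3 := Fid.card_le h.cl (h.fin x _ hΩ) Y h2 (l := c * (t / 3)) (fun y hy => by
        have h4 : closedBall y (t / 3) ⊆ closedBall x (2 * r) :=
          closedBall_subset_closedBall' (by linarith [mem_closedBall.1 (h1 hy).2])
        refine ⟨h4, hDens Ω K u Λ M h y (h1 hy).1 _ (by positivity) (h4.trans hΩ) ?_⟩
        exact le_trans (mul_le_mul_of_nonneg_left (by linarith) ha0) ha) ht.le
      rw [le_div_iff₀ (by positivity)]
      linarith)
  set N : Set ℂ := ⋃ y ∈ Y, closedBall y (2 * t) with hN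
  have hNm : MeasurableSet N := Finset.measurableSet_biUnion _ fun _ _ => measurableSet_closedBall
  have hNv : volume N ≤ ENNReal.ofReal (96 * π ^ 2 / c * t * r) := by
    refine (measure_biUnion_finset_le _ _).trans ?_
    rw [Finset.sum_congr rfl fun y _ => Fid.vol_ball y (by positivity : 0 ≤ 2 * t),
      Finset.sum_const, nsmul_eq_mul, ← ENNReal.ofReal_natCast,
      ← ENNReal.ofReal_mul (Nat.cast_nonneg _)]
    refine ENNReal.ofReal_le_ofReal ((mul_le_mul_of_nonneg_right hY (by positivity)).trans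
      (le_of_eq ?_))
    field_simp
    ring
  have hin : ∀ z ∈ closedBall x r, ∀ s ∈ Icc (0 : ℝ) 1,
      dist z (z + s • X z) ≤ t ∧ z + s • X z ∈ closedBall x (r + t) := by
    intro z hz s hs
    have h1 : dist z (z + s • X z) ≤ t := by
      rw [dist_self_add_right, norm_smul, Real.norm_of_nonneg hs.1]
      nlinarith [hXt z, norm_nonneg (X z), hs.1, hs.2]
    refine ⟨h1, mem_closedBall.2 ?_⟩
    linarith [dist_triangle_left (z + s • X z) x z, mem_closedBall.1 hz]
  have hsub : closedBall x (r + t) ⊆ closedBall x (2 * r) :=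
    closedBall_subset_closedBall (by linarith)
  have hpt : ∀ z ∈ closedBall x r, ‖min |u (z + X z) - u z| (2 * M)‖ₑ ≤
      N.indicator (fun _ => ENNReal.ofReal (2 * M)) z +
        ENNReal.ofReal t * ∫⁻ s in Icc (0 : ℝ) 1, ‖pd u (z + s • X z)‖ₑ := by
    intro z hz
    rw [Real.enorm_eq_ofReal (le_min (abs_nonneg _) (by positivity))]
    by_cases hzN : z ∈ N
    · rw [indicator_of_mem hzN]
      exact (ENNReal.ofReal_le_ofReal (min_le_right _ _)).trans le_self_add
    · refine le_trans ?_ le_add_self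
      refine (ENNReal.ofReal_le_ofReal (min_le_left _ _)).trans ?_
      rw [← Real.enorm_eq_ofReal_abs]
      refine Fid.ftc h.isOpen h.c1 (hXt z) fun s hs => ⟨hΩ (hsub (hin z hz s hs).2), fun hK => ?_⟩
      obtain ⟨y, hy, hd⟩ := hcov _ ⟨hK, (hin z hz s hs).2⟩
      refine hzN (mem_iUnion₂.2 ⟨y, hy, mem_closedBall.2 ?_⟩)
      linarith [dist_triangle z (z + s • X z) y, (hin z hz s hs).1]
  have hmeas : Measurable (Function.uncurry fun (z : ℂ) (s : ℝ) => ‖pd u (z + s • X z)‖ₑ) := by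
    have := hX.continuous
    exact (measurable_pd u).enorm.comp
      (f := fun p : ℂ × ℝ => p.1 + p.2 • X p.1) (Continuous.measurable (by fun_prop))
  have hswap : ∫⁻ z in closedBall x r, ∫⁻ s in Icc (0 : ℝ) 1, ‖pd u (z + s • X z)‖ₑ ≤
      4 * ENNReal.ofReal (6 * π * r * √r) := by
    rw [lintegral_lintegral_swap hmeas.aemeasurable]
    calc _ ≤ ∫⁻ _s in Icc (0 : ℝ) 1, 4 * ENNReal.ofReal (6 * π * r * √r) := by
          refine setLIntegral_mono' measurableSet_Icc fun s hs => ?_
          refine (Fid.push hDef0 (X := fun z => s • X z) (hX.const_smul s) (fun z => ?_)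
            (fun z => ‖pd u z‖ₑ) measurableSet_closedBall
            (fun z hz => hsub (hin z hz s hs).2)).trans ?_
          · rw [fderiv_fun_const_smul (hX.differentiable one_ne_zero z), norm_smul,
              Real.norm_of_nonneg hs.1]
            nlinarith [hd z, norm_nonneg (fderiv ℝ X z), hs.1, hs.2]
          · exact mul_le_mul_right (Fid.grad_le hr (h.int x _ hΩ) (by linarith)) 4
      _ = _ := by simp
  have hint : ‖∫ z in closedBall x r, min |u (z + X z) - u z| (2 * M)‖ₑ ≤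
      ENNReal.ofReal (2 * M * (96 * π ^ 2 / c * t * r) + t * (4 * (6 * π * r * √r))) := by
    refine (enorm_integral_le_lintegral_enorm _).trans
      ((setLIntegral_mono' measurableSet_closedBall hpt).trans ?_)
    rw [lintegral_add_left (measurable_const.indicator hNm),
      lintegral_const_mul' _ _ ENNReal.ofReal_ne_top,
      ENNReal.ofReal_add (by positivity) (by positivity),
      ENNReal.ofReal_mul (q := 96 * π ^ 2 / c * t * r) (by positivity), ENNReal.ofReal_mul ht.le, ENNReal.ofReal_mul (by norm_num : (0 : ℝ) ≤ 4),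
      ENNReal.ofReal_ofNat 4]
    refine add_le_add ?_ (mul_le_mul_right hswap _)
    refine (lintegral_indicator_const_le _ _).trans (mul_le_mul_right ?_ _)
    exact (Measure.restrict_apply_le _ _).trans hNv
  rw [← ofReal_norm, ENNReal.ofReal_le_ofReal_iff (by positivity)] at hint
  have h1 := mul_le_mul_of_nonneg_left ((le_abs_self _).trans hint) h.L0
  have h2 := mul_le_mul_of_nonneg_left
    (h.sz x r ((closedBall_subset_closedBall (by linarith)).trans hΩ))
    (by positivity : 0 ≤ 24 * π * t * r)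
  refine h1.trans ?_
  have e : Λ * (2 * M * (96 * π ^ 2 / c * t * r) + t * (4 * (6 * π * r * √r))) =
      192 * π ^ 2 / c * (Λ * M) * t * r + 24 * π * t * r * (Λ * √r) := by ring
  rw [e]
  linarith

end Vale.Agent.P128
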