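import Vale.Agent.P128.Stm

open MeasureTheory Set Metric Filter Topology Complex
open scoped ENNReal ComplexConjugate Real

noncomputable section
namespace Vale.Agent.P128

namespace Fl

theorem im_le {d τ : ℂ} (hd : ‖d‖ = 1) (hτ : ‖τ‖ = 1) : |(conj τ * d).im| ≤ ‖d ^ 2 - τ ^ 2‖ := by
  have h1 : d * conj d = 1 := by rw [mul_conj, normSq_eq_norm_sq, hd]; simp
  have h2 : τ * conj τ = 1 := by rw [mul_conj, normSq_eq_norm_sq, hτ]; simp
  have e : d ^ 2 - τ ^ 2 = d * τ * (conj τ * d - conj (conj τ * d)) := by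
    rw [map_mul, conj_conj]
    linear_combination (-d ^ 2) * h2 + τ ^ 2 * h1
  rw [e, sub_conj, norm_mul, norm_mul, norm_mul, hd, hτ, norm_I, norm_real, Real.norm_eq_abs,
    abs_mul, abs_two]
  linarith [abs_nonneg (conj τ * d).im]

theorem tan {K : Set ℂ} {y Φ : ℂ} {b ε γ : ℝ} (h : Ray K y 2 b ε γ Φ) : ∃ τ, Tan K y b ε γ τ := by
  obtain ⟨τ, hτ⟩ := IsAlgClosed.exists_pow_nat_eq Φ two_pos
  have hu : ‖τ‖ = 1 := by
    have := h.unit
    rw [← hτ, norm_pow] at this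
    exact (pow_eq_one_iff_of_nonneg (norm_nonneg _) two_ne_zero).1 this
  refine ⟨τ, hu, fun z hz hb => ?_, fun s hs hb => ?_⟩
  · by_cases e : z = y
    · simp [e]
    have n0 : 0 < ‖z - y‖ := norm_pos_iff.2 (sub_ne_zero.2 e)
    have hd : ‖dir y z‖ = 1 := by
      rw [dir, norm_div, norm_real, norm_norm, div_self n0.ne']
    have e1 : conj τ * (z - y) = (‖z - y‖ : ℝ) * (conj τ * dir y z) := by
      have : ((‖z - y‖ : ℝ) : ℂ) ≠ 0 := ofReal_ne_zero.2 n0.ne'
      rw [dir]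
      field_simp
    rw [e1, im_ofReal_mul, abs_mul, abs_of_pos n0, mul_comm]
    exact mul_le_mul_of_nonneg_right ((im_le hd hu).trans (hτ ▸ h.near z hz e hb)) n0.le
  · rcases hs.lt_or_gt with hs | hs
    · rw [abs_of_neg hs] at hb ⊢
      obtain ⟨z, hz, h1⟩ := h.hit (-τ) (by rw [neg_sq, hτ]) (-s) ⟨neg_pos.2 hs, hb⟩
      exact ⟨z, hz, by simpa using h1⟩
    · rw [abs_of_pos hs] at hb ⊢
      exact h.hit τ hτ s ⟨hs, hb⟩

end Fl

theorem fl_pf (hTh : ThStmt) (hUpn : UpnStmt) (hRay : RayStmt) : FlStmt := by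
  intro ε' hε'
  obtain ⟨εR, hR, hray⟩ := hRay (1 / 6) ε' (by norm_num) (by norm_num) hε'
  obtain ⟨εU, hU, hup⟩ := hUpn εR hR
  refine ⟨min (min εU εR) (1 / 200), by positivity, fun K y b hy hb hA hlen => ?_⟩
  have e1 : min (min εU εR) (1 / 200) ≤ εU := (min_le_left _ _).trans (min_le_left _ _)
  have e2 : min (min εU εR) (1 / 200) ≤ εR := (min_le_left _ _).trans (min_le_right _ _)
  have e3 : min (min εU εR) (1 / 200) ≤ 1 / 200 := min_le_right _ _
  have e0 : 0 < min (min εU εR) (1 / 200) := by positivity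
  generalize min (min εU εR) (1 / 200) = ε at hA e0 e1 e2 e3
  have Ay := hA y ⟨hy, mem_closedBall_self hb.le⟩
  obtain ⟨t1, t2, -⟩ := hTh K y b ε Ay
  have hc := hup K y b 2 (Or.inl rfl) (Ay.mono_eps e1) fun r hr => by
    have r0 := hr.1
    have k1 := t1 r hr
    have k2 := t2 r b r0 hr.2 le_rfl
    have k3 : (r / b) ^ (1 / 3 : ℝ) ≤ 1 :=
      Real.rpow_le_one (by positivity) ((div_le_one hb).2 hr.2) (by norm_num)
    have k4 : ε * (r / b) ^ (1 / 3 : ℝ) ≤ 1 / 200 := (mul_le_of_le_one_right e0.le k3).trans e3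
    have k5 := mul_le_mul_of_nonneg_right k4 r0.le
    have k6 := (div_le_iff₀ hb).2 hlen
    rw [div_self hb.ne', Real.one_rpow] at k2
    have k7 : len K (closedBall y r) ≤ 9 / 4 * r := (div_le_iff₀ r0).1 (by linarith)
    push_cast
    exact ⟨by linarith, by linarith⟩
  have hl : LB K y (b / 4) εR (1 / 6) := fun z hz hne hzb t ht _ => by
    have t0 := ht.1
    have n0 := norm_nonneg (z - y)
    have k1 := (hTh K z b ε (hA z ⟨hz, mem_closedBall_iff_norm.2 (by linarith)⟩)).1 t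
      ⟨t0, by linarith [ht.2]⟩
    have k2 : (t / b) ^ (1 / 3 : ℝ) ≤ (‖z - y‖ / (b / 4)) ^ (1 / 6 : ℝ) :=
      (Real.rpow_le_rpow (by positivity) (div_le_div₀ n0 (by linarith [ht.2]) (by positivity)
        (by linarith)) (by norm_num)).trans (Real.rpow_le_rpow_of_exponent_ge' (by positivity)
          ((div_le_one (by positivity)).2 hzb) (by norm_num) (by norm_num))
    have k3 := mul_le_mul (mul_le_mul e2 k2 (by positivity) hR.le)
      (show 2 * t ≤ ‖z - y‖ by linarith [ht.2]) (by positivity) (by positivity)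
    linarith
  obtain ⟨Φ, hΦ⟩ := hray K y 2 (b / 4) one_le_two (by norm_num) hc hl
  rw [show b / 4 / 4 = b / 16 by ring, show (1 / 6 / 2 : ℝ) = 1 / 12 by norm_num] at hΦ
  exact Fl.tan hΦ

end Vale.Agent.P128
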