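import Vale.Agent.P128.BrA

open MeasureTheory Set Metric Filter Topology Complex
open scoped ENNReal ComplexConjugate Real

noncomputable section
namespace Vale.Agent.P128

namespace Flat

open Br

theorem slope {K : Set ℂ} {z τ : ℂ} {b γ : ℝ} (hb : 0 < b) (hγ : 0 < γ)
    (h0 : Tan K 0 b (1 / 100) γ 1) (hz : z ∈ K) (hzb : ‖z‖ ≤ b / 2)
    (h : Tan K z b (1 / 100) γ τ) : |τ.im| ≤ 1 / 20 := by
  have near : ∀ w ∈ K, ‖w‖ ≤ b → |w.im| ≤ ‖w‖ / 100 := by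
    intro w hw hwb
    have h1 := h0.near w hw (by simpa using hwb)
    simp only [map_one, sub_zero, one_mul] at h1
    have h2 := rpow_le_one' (norm_nonneg w) hwb hb hγ
    have h3 := mul_le_mul_of_nonneg_right h2 (norm_nonneg w)
    linarith
  have hs : |2 / 5 * b| = 2 / 5 * b := abs_of_pos (by positivity)
  obtain ⟨w, hw, hws⟩ := h.hit (2 / 5 * b) (by positivity) (by rw [hs]; linarith)
  rw [hs] at hws
  have hq := rpow_le_one' (a := 2 / 5 * b) (by positivity) (by linarith) hb hγ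
  have h1 : ‖w - z - ((2 / 5 * b : ℝ) : ℂ) * τ‖ ≤ 2 / 5 * b / 100 := by
    have := mul_le_mul_of_nonneg_right hq (by positivity : (0 : ℝ) ≤ 2 / 5 * b)
    linarith
  have h2 : ‖w‖ ≤ ‖w - z - ((2 / 5 * b : ℝ) : ℂ) * τ‖ + ‖z‖ + ‖((2 / 5 * b : ℝ) : ℂ) * τ‖ := by
    have := norm_add₃_le (a := w - z - ((2 / 5 * b : ℝ) : ℂ) * τ) (b := z)
      (c := ((2 / 5 * b : ℝ) : ℂ) * τ)
    have e : w - z - ((2 / 5 * b : ℝ) : ℂ) * τ + z + ((2 / 5 * b : ℝ) : ℂ) * τ = w := by ring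
    rwa [e] at this
  rw [norm_mul, h.unit, Complex.norm_real, Real.norm_eq_abs, hs] at h2
  have h3 := near w hw (by linarith)
  have h4 := near z hz (by linarith)
  have h5 : |w.im - z.im - 2 / 5 * b * τ.im| ≤ 2 / 5 * b / 100 := by
    have := (Complex.abs_im_le_norm _).trans h1
    simpa using this
  have h6 : 2 / 5 * b * |τ.im| ≤ 2 / 5 * b * (1 / 20) := by
    have e : 2 / 5 * b * |τ.im| = |2 / 5 * b * τ.im| := by rw [abs_mul, hs]
    rw [e]
    have h7 := abs_le.1 h5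
    have h8 := abs_le.1 h3
    have h9 := abs_le.1 h4
    rw [abs_le]
    constructor <;> linarith [h7.1, h7.2, h8.1, h8.2, h9.1, h9.2]
  exact le_of_mul_le_mul_left h6 (by positivity)

theorem norm_le {K : Set ℂ} {z : ℂ} {b γ : ℝ} (hb : 0 < b) (hγ : 0 < γ)
    (h0 : Tan K 0 b (1 / 100) γ 1) (hz : z ∈ K) (hzb : ‖z‖ ≤ b) :
    ‖z‖ ≤ 11 / 10 * |z.re| := by
  have h1 := (tan_lip h0 hb hγ (by simp) hz (by simpa using hzb)).1
  simp only [Complex.zero_im, Complex.zero_re, sub_zero] at h1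
  have := Complex.norm_le_abs_re_add_abs_im z
  linarith

theorem surj {K : Set ℂ} {b γ : ℝ} (hK : IsClosed K) (hK0 : (0 : ℂ) ∈ K) (hb : 0 < b)
    (hγ : 0 < γ) (h0 : Tan K 0 b (1 / 100) γ 1)
    (h : ∀ z ∈ K, ‖z‖ ≤ b / 2 → ∃ τ, Tan K z b (1 / 100) γ τ) {s : ℝ} (hs : |s| ≤ b / 4) :
    ∃ z ∈ K, ‖z‖ ≤ b / 2 ∧ z.re = s := by
  obtain ⟨σ, hσ, hσs⟩ : ∃ σ : ℝ, |σ| = 1 ∧ σ * s = |s| := by
    rcases le_total 0 s with h1 | h1
    · exact ⟨1, abs_one, by rw [abs_of_nonneg h1, one_mul]⟩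
    · exact ⟨-1, by simp, by rw [abs_of_nonpos h1]; ring⟩
  have hσ2 : σ * σ = 1 := by rw [← abs_mul_abs_self, hσ, mul_one]
  have hf : Continuous (fun z : ℂ => σ * z.re) := by fun_prop
  have hA : IsCompact ((closedBall (0 : ℂ) (b / 2) ∩ K) ∩
      (fun z : ℂ => σ * z.re) ⁻¹' Icc 0 |s|) :=
    ((isCompact_closedBall _ _).inter_right hK).inter_right (isClosed_Icc.preimage hf)
  obtain ⟨z, ⟨⟨hz1, hz2⟩, -⟩, hz3⟩ := surj_aux hA hf (s := |s|)
    ⟨0, ⟨mem_closedBall_self (by linarith), hK0⟩, by simp⟩ (fun z hz => hz.2.2) (by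
      rintro z ⟨⟨hz1, hz2⟩, hz3, hz4⟩ hlt
      simp only at hz3 hz4 hlt ⊢
      rw [mem_closedBall_zero_iff] at hz1
      obtain ⟨τ, hτ⟩ := h z hz2 hz1
      obtain ⟨t, ht0, ht1, ht2⟩ : ∃ t : ℝ, 0 < t ∧ t ≤ (|s| - σ * z.re) / 2 ∧ t ≤ b / 20 :=
        ⟨min ((|s| - σ * z.re) / 2) (b / 20), lt_min (by linarith) (by linarith),
          min_le_left _ _, min_le_right _ _⟩
      have hσt : |σ * t| = t := by rw [abs_mul, hσ, one_mul, abs_of_pos ht0]
      obtain ⟨w, hw, hw1, hw2⟩ := tan_step (t := σ * t) hτ hγ (slope hb hγ h0 hz2 hz1 hτ)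
        (by intro h'; rw [h', abs_zero] at hσt; exact ht0.ne hσt) (by rw [hσt]; linarith)
      rw [hσt] at hw2
      have h1 : σ * z.re < σ * w.re := by
        have : 0 < t * (σ * w.re - σ * z.re) := by linarith
        have := (mul_pos_iff_of_pos_left ht0).1 this
        linarith
      have h2 : |σ * w.re - σ * z.re| ≤ 2 * t := by
        rw [← mul_sub, abs_mul, hσ, one_mul]
        exact le_trans (by simpa using Complex.abs_re_le_norm (w - z)) hw2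
      have h3 : |z.re| ≤ b / 4 := by
        have : |z.re| = |σ * z.re| := by rw [abs_mul, hσ, one_mul]
        rw [this, abs_of_nonneg hz3]; linarith
      have h4 := norm_le hb hγ h0 hz2 (by linarith)
      have h5 : ‖w‖ ≤ ‖w - z‖ + ‖z‖ := by simpa using norm_add_le (w - z) z
      refine ⟨w, ⟨⟨mem_closedBall_zero_iff.2 (by linarith), hw⟩, ?_, ?_⟩, h1⟩
      · change 0 ≤ σ * w.re
        linarith
      · change σ * w.re ≤ |s|
        linarith [(abs_le.1 h2).2])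
  refine ⟨z, hz2, mem_closedBall_zero_iff.1 hz1, ?_⟩
  have h1 : σ * (σ * z.re) = σ * (σ * s) := by rw [hz3, hσs]
  rwa [← mul_assoc, ← mul_assoc, hσ2, one_mul, one_mul] at h1

theorem main {K : Set ℂ} {b γ : ℝ} (hK : IsClosed K) (hK0 : (0 : ℂ) ∈ K) (hb : 0 < b)
    (hγ : 0 < γ) (h0 : Tan K 0 b (1 / 100) γ 1)
    (h : ∀ z ∈ K, ‖z‖ ≤ b / 2 → ∃ τ, Tan K z b (1 / 100) γ τ) :
    ∃ (Z : ℝ → ℂ) (m : ℝ → ℝ) (H : ℝ),
      (∀ u ∈ Icc (-(b / 4)) (b / 4), (Z u).re = u ∧ Z u ∈ K ∧ ‖Z u‖ ≤ b / 2) ∧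
      (∀ u ∈ Icc (-(b / 4)) (b / 4),
        HasDerivWithinAt Z (1 + m u * I) (Icc (-(b / 4)) (b / 4)) u) ∧
      (∀ u ∈ Icc (-(b / 4)) (b / 4), ∀ v ∈ Icc (-(b / 4)) (b / 4),
        |m u - m v| ≤ H * |u - v| ^ γ) ∧
      ∀ z ∈ K, ‖z‖ ≤ b / 4 → Z z.re = z := by
  have hex : ∀ s : ℝ, ∃ z τ : ℂ, s ∈ Icc (-(b / 4)) (b / 4) →
      z.re = s ∧ z ∈ K ∧ ‖z‖ ≤ b / 2 ∧ Tan K z b (1 / 100) γ τ := by
    intro s
    by_cases hs : s ∈ Icc (-(b / 4)) (b / 4)
    · obtain ⟨z, hz, hz1, hz2⟩ := surj hK hK0 hb hγ h0 h (abs_le.2 hs)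
      obtain ⟨τ, hτ⟩ := h z hz hz1
      exact ⟨z, τ, fun _ => ⟨hz2, hz, hz1, hτ⟩⟩
    · exact ⟨0, 0, fun h' => absurd h' hs⟩
  choose Z τ hZ using hex
  have key : ∀ u ∈ Icc (-(b / 4)) (b / 4), ∀ w ∈ K, ‖w‖ ≤ b / 2 →
      |w.im - (Z u).im - (τ u).im / (τ u).re * (w.re - u)| ≤
        (2 / b) ^ γ * |w.re - u| ^ γ * |w.re - u| := by
    intro u hu w hw hwb
    obtain ⟨h1, h2, h3, h4⟩ := hZ u hu
    have h5 : ‖w - Z u‖ ≤ b := (norm_sub_le _ _).trans (by linarith)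
    have h6 := (tan_lip h4 hb hγ (slope hb hγ h0 h2 h3 h4) hw h5).2
    rw [h1] at h6
    rw [← Real.mul_rpow (by positivity) (abs_nonneg _)]
    have e : 2 / b * |w.re - u| = 2 * |w.re - u| / b := by ring
    rw [e]; exact h6
  refine ⟨Z, fun u => (τ u).im / (τ u).re, 2 * (2 / b) ^ γ,
    fun u hu => ⟨(hZ u hu).1, (hZ u hu).2.1, (hZ u hu).2.2.1⟩, ?_, ?_, ?_⟩
  · intro u hu
    refine deriv_of_est (A := (2 / b) ^ γ) hu (fun v hv => (hZ v hv).1) one_pos hγ ?_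
    intro v hv _
    have := key u hu (Z v) (hZ v hv).2.1 (hZ v hv).2.2.1
    rwa [(hZ v hv).1] at this
  · intro u hu v hv
    rcases eq_or_ne u v with rfl | huv
    · simp only [sub_self, abs_zero, Real.zero_rpow hγ.ne', mul_zero, le_refl]
    · have h1 := key u hu (Z v) (hZ v hv).2.1 (hZ v hv).2.2.1
      have h2 := key v hv (Z u) (hZ u hu).2.1 (hZ u hu).2.2.1
      rw [(hZ v hv).1] at h1
      rw [(hZ u hu).1, abs_sub_comm u v] at h2
      have h3 := slope_two (a := v - u) (c := (Z v).im - (Z u).im)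
        (m := (τ u).im / (τ u).re) (m' := (τ v).im / (τ v).re)
        (sub_ne_zero.2 huv.symm) h1 (by rw [neg_sub, neg_sub]; exact h2)
      rw [abs_sub_comm u v]
      linarith
  · intro z hz hzb
    have hu : z.re ∈ Icc (-(b / 4)) (b / 4) := abs_le.1 ((Complex.abs_re_le_norm z).trans hzb)
    have h1 := key z.re hu z hz (by linarith)
    simp only [sub_self, abs_zero, mul_zero, sub_zero] at h1
    apply Complex.ext (hZ _ hu).1
    have := abs_nonpos_iff.1 h1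
    linarith

end Flat

theorem flat_pf : FlatStmt := by
  intro K y b γ hK hy hb hγ _ h
  obtain ⟨e, he⟩ := h y ⟨hy, mem_closedBall_self hb.le⟩
  have h1 := Br.mul_conj_one he.unit
  have h0 := Br.tan_transfer (x := y) he.unit he
  rw [sub_self, mul_zero, mul_comm (conj e) e, h1] at h0
  have hn : ∀ w : ℂ, ‖y + e * w - y‖ = ‖w‖ := by
    intro w; rw [add_sub_cancel_left, norm_mul, he.unit, one_mul]
  obtain ⟨Z, m, H, hZ, hd, hH, hinj⟩ := Flat.main (K := (fun w => y + e * w) ⁻¹' K)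
    (hK.preimage (by fun_prop)) (by simpa using hy) hb hγ h0 (by
      intro z hz hzb
      obtain ⟨τ, hτ⟩ := h (y + e * z) ⟨hz, by
        rw [mem_closedBall_iff_norm, hn]; linarith⟩
      have h2 := Br.tan_transfer (x := y) he.unit hτ
      have e2 : conj e * (y + e * z - y) = z := by linear_combination z * h1
      rw [e2] at h2
      exact ⟨_, h2⟩)
  have hpq : -(b / 4) < b / 4 := by linarith
  refine ⟨b / 4, γ, _, by linarith, hγ, Or.inl ⟨_, _,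
    Br.arc_of_graph y he.unit hpq (fun u hu => (hZ u hu).1) hd hH, ⟨1 / 2, ⟨by norm_num,
      by norm_num⟩, ?_⟩, rfl⟩, ?_, ?_⟩
  · have e1 : -(b / 4) + (b / 4 - -(b / 4)) * (1 / 2) = (0 : ℂ).re := by simp; ring
    rw [e1, hinj 0 (by simpa using hy) (by simp; linarith)]
    simp
  · rw [Br.image_aff y e hpq]
    rintro z ⟨hz, hzb⟩
    have e2 : y + e * (conj e * (z - y)) = z := by linear_combination (z - y) * h1
    have h2 : ‖conj e * (z - y)‖ ≤ b / 4 := by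
      rw [← hn, e2]; exact (mem_ball_iff_norm.1 hzb).le
    refine ⟨conj e * (z - y), ⟨_, abs_le.1 ((Complex.abs_re_le_norm _).trans h2),
      hinj _ ?_ h2⟩, e2⟩
    change y + e * (conj e * (z - y)) ∈ K
    rw [e2]; exact hz
  · rw [Br.image_aff y e hpq]
    rintro _ ⟨_, ⟨u, hu, rfl⟩, rfl⟩
    refine ⟨(hZ u hu).2.1, ?_⟩
    rw [mem_closedBall_iff_norm, hn]
    linarith [(hZ u hu).2.2]

end Vale.Agent.P128
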