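import Vale.Agent.P128.Stm

open MeasureTheory Set Metric Filter Topology Complex
open scoped ENNReal ComplexConjugate Real

noncomputable section
namespace Vale.Agent.P128

namespace Flx

variable {χ : ℂ → ℝ} {x : ℂ} {ρ σ s θ : ℝ}

/-- `χ` has the value `s` near `z` on one side of the circle -/
def Q (χ : ℂ → ℝ) (x : ℂ) (ρ σ : ℝ) (z : ℂ) (s : ℝ) : Prop :=
  ∀ᶠ w in 𝓝 z, 0 < σ * (‖w - x‖ - ρ) → χ w = s

/-- the one-sided boundary value -/
def ph (χ : ℂ → ℝ) (x : ℂ) (ρ σ θ : ℝ) : ℝ :=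
  limUnder (𝓝[>] (0 : ℝ)) fun t => χ (circleMap x (ρ + σ * t) θ)

theorem Q.ev (hρ : 0 < ρ) (hσ : σ = 1 ∨ σ = -1) (h : Q χ x ρ σ (circleMap x ρ θ) s) :
    ∀ᶠ t in 𝓝[>] (0 : ℝ), χ (circleMap x (ρ + σ * t) θ) = s := by
  have h1 : Continuous fun t : ℝ => circleMap x (ρ + σ * t) θ := by
    unfold circleMap
    fun_prop
  have h2 := h1.tendsto 0
  rw [mul_zero, add_zero] at h2
  filter_upwards [nhdsWithin_le_nhds (h2.eventually h), Ioo_mem_nhdsGT hρ] with t ht h3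
  refine ht ?_
  rw [circleMap_sub_center, norm_circleMap_zero]
  rcases hσ with rfl | rfl
  · rw [abs_of_pos (by linarith [h3.1])]
    linarith [h3.1]
  · rw [abs_of_pos (by linarith [h3.2])]
    linarith [h3.1]

theorem Q.lim (hρ : 0 < ρ) (hσ : σ = 1 ∨ σ = -1) (h : Q χ x ρ σ (circleMap x ρ θ) s) :
    Tendsto (fun t => χ (circleMap x (ρ + σ * t) θ)) (𝓝[>] 0) (𝓝 s) :=
  tendsto_const_nhds.congr' ((h.ev hρ hσ).mono fun _ ht => ht.symm)

theorem Q.eq (hρ : 0 < ρ) (hσ : σ = 1 ∨ σ = -1) (h : Q χ x ρ σ (circleMap x ρ θ) s) :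
    ph χ x ρ σ θ = s := (h.lim hρ hσ).limUnder_eq

theorem Q.cont (hρ : 0 < ρ) (hσ : σ = 1 ∨ σ = -1) (h : Q χ x ρ σ (circleMap x ρ θ) s) :
    ContinuousAt (ph χ x ρ σ) θ := by
  have h1 : ∀ᶠ t in 𝓝 θ, ph χ x ρ σ t = s :=
    (((continuous_circleMap x ρ).tendsto θ).eventually (Eventually.eventually_nhds h)).mono
      fun t ht => Q.eq hρ hσ ht
  exact continuousAt_const.congr (h1.mono fun t ht => ht.symm)

theorem Q.val (hρ : 0 < ρ) (hσ : σ = 1 ∨ σ = -1) (h : Q χ x ρ σ (circleMap x ρ θ) s)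
    (h01 : ∀ z, χ z = 0 ∨ χ z = 1) : s = 0 ∨ s = 1 := by
  obtain ⟨t, ht⟩ := (h.ev hρ hσ).exists
  exact ht ▸ h01 _

theorem ph_per (χ : ℂ → ℝ) (x : ℂ) (ρ σ : ℝ) : Function.Periodic (ph χ x ρ σ) (2 * π) :=
  fun θ => by simp only [ph, periodic_circleMap x _ θ]

theorem ph_int {g : ℝ → ℝ} {a b : ℝ} (hρ : 0 < ρ) (hσ : σ = 1 ∨ σ = -1)
    (h01 : ∀ z, χ z = 0 ∨ χ z = 1) (h : ∀ᵐ θ, ∃ s, Q χ x ρ σ (circleMap x ρ θ) s)
    (hg : IntervalIntegrable g volume a b) :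
    IntervalIntegrable (fun θ => ph χ x ρ σ θ * g θ) volume a b := by
  have h1 : AEStronglyMeasurable (ph χ x ρ σ) volume := by
    rw [← Measure.restrict_eq_self_of_ae_mem (μ := volume)
      (s := {θ | ContinuousAt (ph χ x ρ σ) θ}) (h.mono fun θ ⟨s, hs⟩ => hs.cont hρ hσ)]
    exact ContinuousOn.aestronglyMeasurable (fun θ hθ => ContinuousAt.continuousWithinAt hθ)
      (measurableSet_of_continuousAt _)
  rw [intervalIntegrable_iff] at hg ⊢
  refine Integrable.bdd_mul (c := 1) hg h1.restrict (ae_restrict_of_ae (h.mono fun θ ⟨s, hs⟩ => ?_))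
  rw [hs.eq hρ hσ]
  rcases hs.val hρ hσ h01 with rfl | rfl <;> simp

theorem side (hDiv : DivStmt) {Ω K : Set ℂ} {u : ℂ → ℝ} {Λ M R : ℝ} (h : IsMS Ω K u Λ M)
    (hR : closedBall x R ⊆ Ω) (hρ : ρ ≤ R) (hg : Good K u x ρ) (hσ : σ = 1 ∨ σ = -1)
    (h01 : ∀ z, χ z = 0 ∨ χ z = 1) (hc : ∀ z, z ∉ K → ‖z - x‖ ≠ ρ → ∀ᶠ w in 𝓝 z, χ w = χ z)
    (h0 : ∀ z, z ∉ closedBall x R → χ z = 0) (hq : ∀ᵐ θ, ∃ s, Q χ x ρ σ (circleMap x ρ θ) s) :
    |∫ θ in (0 : ℝ)..2 * π, ph χ x ρ σ θ * (cg u x ρ θ).re| ≤ π * Λ * R ^ 2 := by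
  have hR0 : 0 ≤ R := hg.pos.le.trans hρ
  obtain ⟨δ, hδ, h1⟩ := (isCompact_closedBall x R).exists_cthickening_subset_open h.op hR
  rw [cthickening_closedBall hδ.le hR0] at h1
  have hne : ∀ z, 0 < σ * (‖z - x‖ - ρ) → ‖z - x‖ ≠ ρ := fun z hz h2 => by
    rw [h2, sub_self, mul_zero] at hz
    exact hz.false
  have hb : ∀ z, |χ z| ≤ 1 := fun z => by rcases h01 z with h2 | h2 <;> simp [h2]
  have hS : MeasurableSet {z ∈ closedBall x (δ + R) | 0 < σ * (‖z - x‖ - ρ)} :=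
    measurableSet_closedBall.inter (isOpen_lt continuous_const
      (by fun_prop : Continuous fun z : ℂ => σ * (‖z - x‖ - ρ))).measurableSet
  have hp : ∀ᵐ z ∂volume.restrict {z ∈ closedBall x (δ + R) | 0 < σ * (‖z - x‖ - ρ)},
      pd χ z = 0 := by
    rw [ae_restrict_iff' hS]
    filter_upwards [h.ae_notMem h1] with z hz h2
    rw [pd_congr (hc z (hz h2.1) (hne z h2.2)), pd_const]
  have h2 := hDiv Ω K u Λ M h x ρ (δ + R) σ 1 χ (ph χ x ρ σ) h1 (by linarith) hg hσ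
    (locLip_of_local fun z hz => ⟨fun _ => χ z, univ, isOpen_univ, mem_univ z,
      (LipschitzWith.const _).locallyLipschitz.locallyLipschitzOn, hc z hz.2 (hne z hz.1.2)⟩)
    (fun z _ hz => h0 z fun h3 => hz (closedBall_subset_closedBall (by linarith) h3)) hb
    ((integrable_zero _ _ _).congr (hp.mono fun z hz => by simp [hz]))
    (hq.mono fun θ ⟨s, hs⟩ => by
      rw [hs.eq hg.pos hσ]
      exact hs.lim hg.pos hσ)
  rw [integral_congr_ae (g := fun _ => 0) (hp.mono fun z hz => by simp [hz]), integral_zero,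
    zero_add, abs_mul, show |σ| = 1 by rcases hσ with rfl | rfl <;> simp, one_mul] at h2
  refine h2.trans ?_
  have h3 : Integrable ((closedBall x R).indicator fun _ => Λ) :=
    (integrable_indicator_iff measurableSet_closedBall).2
      (integrableOn_const measure_closedBall_lt_top.ne)
  refine (integral_mono_of_nonneg (Eventually.of_forall fun z => abs_nonneg _) h3.integrableOn
    (Eventually.of_forall fun z => ?_)).trans ((setIntegral_le_integral h3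
      (Eventually.of_forall fun z => indicator_nonneg (fun _ _ => h.L0) z)).trans_eq ?_)
  · by_cases hz : z ∈ closedBall x R
    · simp only [indicator_of_mem hz, abs_mul, abs_of_nonneg h.L0]
      exact mul_le_of_le_one_right h.L0 (hb z)
    · simp [indicator_of_notMem hz, h0 z hz]
  · rw [integral_indicator_const _ measurableSet_closedBall, measureReal_def,
      Complex.volume_closedBall, ENNReal.toReal_mul, ENNReal.toReal_pow,
      ENNReal.toReal_ofReal hR0, ENNReal.coe_toReal, NNReal.coe_real_pi, smul_eq_mul]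
    ring

end Flx

theorem flx_pf (hDiv : DivStmt) (hPar : ParStmt) (hCirc : CircStmt) : FlxStmt := by
  intro Ω K u Λ M h x ρ R α β C hR hρ hg hlt hle hF hC hC' hCK hα hβ
  have hρ0 := hg.pos
  obtain ⟨χ, h01, hc, h0, hj⟩ := hPar C x ρ α β hC hC' hρ0 hlt hle hα hβ
  have hnC : ∀ z, z ∉ K → z ∉ C := fun z hz h1 => hz (hCK h1).1
  have hin : ∀ θ ∈ Ioo α β, ∃ s, Flx.Q χ x ρ 1 (circleMap x ρ θ) (1 - s) ∧
      Flx.Q χ x ρ (-1) (circleMap x ρ θ) s := fun θ hθ => by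
    obtain ⟨s, hs⟩ := hj θ hθ (hnC _ (hF θ hθ))
    exact ⟨s, hs.mono fun w hw h1 => hw.2 (by linarith), hs.mono fun w hw h1 => hw.1 (by linarith)⟩
  have hout : ∀ σ z, z ∉ K → z ∉ circleMap x ρ '' Icc α β → Flx.Q χ x ρ σ z (χ z) :=
    fun σ z h1 h2 => (hc z (hnC z h1) h2).mono fun w hw _ => hw
  have hae : ∀ᵐ θ, circleMap x ρ θ ∉ K :=
    ((hg.fin.countable.preimage_circleMap x hρ0.ne').ae_notMem _).mono fun θ h1 h2 =>
      h1 ⟨h2, circleMap_mem_sphere x hρ0.le θ⟩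
  have hq : ∀ σ, σ = 1 ∨ σ = -1 → ∀ᵐ θ, ∃ s, Flx.Q χ x ρ σ (circleMap x ρ θ) s := by
    refine fun σ hσ => hae.mono fun θ h1 => ?_
    by_cases h2 : circleMap x ρ θ ∈ circleMap x ρ '' Icc α β
    · obtain ⟨t, ht, h3⟩ := h2
      rw [← h3] at h1 ⊢
      obtain ⟨s, h4, h5⟩ := hin t ⟨lt_of_le_of_ne ht.1 fun h6 => h1 (h6 ▸ (hCK hα).1),
        lt_of_le_of_ne ht.2 fun h6 => h1 (h6 ▸ (hCK hβ).1)⟩
      rcases hσ with rfl | rfl
      exacts [⟨_, h4⟩, ⟨_, h5⟩]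
    · exact ⟨_, hout σ _ h1 h2⟩
  have harc : circleMap x ρ '' Icc α β ⊆ sphere x ρ := by
    rintro _ ⟨t, _, rfl⟩
    exact circleMap_mem_sphere x hρ0.le t
  have hs := fun σ hσ => Flx.side hDiv h hR hρ hg hσ h01
    (fun z h1 h2 => hc z (hnC z h1) fun h3 => h2 (mem_sphere_iff_norm.1 (harc h3)))
    (h0 x R (union_subset (fun z hz => (hCK hz).2)
      (harc.trans (sphere_subset_closedBall.trans (closedBall_subset_closedBall hρ))))) (hq σ hσ)
  have hi : ∀ σ, σ = 1 ∨ σ = -1 → ∀ a b, IntervalIntegrable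
      (fun θ => Flx.ph χ x ρ σ θ * (cg u x ρ θ).re) volume a b := fun σ hσ a b => by
    have h1 := ((hCirc Ω K u x ρ h.isOpen h.c1 (sphere_subset_closedBall.trans
      ((closedBall_subset_closedBall hρ).trans hR)) hg).2.1 a b).1
    exact Flx.ph_int hρ0 hσ h01 (hq σ hσ) ⟨h1.1.re, h1.2.re⟩
  have hp : ∀ σ, σ = 1 ∨ σ = -1 → ∫ θ in (0 : ℝ)..2 * π, Flx.ph χ x ρ σ θ * (cg u x ρ θ).re =
      (∫ θ in α..β, Flx.ph χ x ρ σ θ * (cg u x ρ θ).re) +
        ∫ θ in β..α + 2 * π, χ (circleMap x ρ θ) * (cg u x ρ θ).re := fun σ hσ => by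
    have h1 : Function.Periodic (fun θ => Flx.ph χ x ρ σ θ * (cg u x ρ θ).re) (2 * π) :=
      fun θ => by simp only [Flx.ph_per χ x ρ σ θ, cg, periodic_circleMap x ρ θ]
    have h2 := h1.intervalIntegral_add_eq 0 α
    rw [zero_add] at h2
    rw [h2, ← intervalIntegral.integral_add_adjacent_intervals (hi σ hσ α β) (hi σ hσ β _)]
    congr 1
    refine intervalIntegral.integral_congr_ae ?_
    filter_upwards [hae, Measure.ae_ne volume (α + 2 * π)] with θ h3 h4 h5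
    rw [uIoc_of_le hle] at h5
    rw [(hout σ _ h3 fun ⟨t, ht, h6⟩ => ?_).eq hρ0 hσ]
    have h7 := lt_of_le_of_ne h5.2 h4
    have h8 := eq_of_circleMap_eq hρ0.ne' (abs_lt.2 ⟨by linarith [ht.1], by
      linarith [ht.2, h5.1, Real.two_pi_pos]⟩) h6
    linarith [ht.2, h5.1]
  have hD : ∃ d : ℝ, |d| = 1 ∧ ∀ θ ∈ Ioo α β, Flx.ph χ x ρ 1 θ - Flx.ph χ x ρ (-1) θ = d := by
    have h1 := (isPreconnected_Ioo (a := α) (b := β)).eq_one_or_eq_neg_one_of_sq_eq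
      (f := fun θ => Flx.ph χ x ρ 1 θ - Flx.ph χ x ρ (-1) θ) (fun θ hθ => by
        obtain ⟨s, h2, h3⟩ := hin θ hθ
        exact ((h2.cont hρ0 (.inl rfl)).sub (h3.cont hρ0 (.inr rfl))).continuousWithinAt)
      fun θ hθ => by
        obtain ⟨s, h2, h3⟩ := hin θ hθ
        simp only [Pi.pow_apply, Pi.one_apply, h2.eq hρ0 (.inl rfl), h3.eq hρ0 (.inr rfl)]
        rcases h3.val hρ0 (.inr rfl) h01 with rfl | rfl <;> norm_num
    rcases h1 with h1 | h1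
    exacts [⟨1, abs_one, h1⟩, ⟨-1, by simp, h1⟩]
  obtain ⟨d, hd, hd'⟩ := hD
  have h1 : (∫ θ in α..β, Flx.ph χ x ρ 1 θ * (cg u x ρ θ).re) -
      ∫ θ in α..β, Flx.ph χ x ρ (-1) θ * (cg u x ρ θ).re = d * ∫ θ in α..β, (cg u x ρ θ).re := by
    rw [← intervalIntegral.integral_sub (hi _ (.inl rfl) α β) (hi _ (.inr rfl) α β),
      ← intervalIntegral.integral_const_mul]
    refine intervalIntegral.integral_congr_ae ?_
    filter_upwards [Measure.ae_ne volume β] with θ h2 h3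
    rw [uIoc_of_le hlt.le] at h3
    rw [← hd' θ ⟨h3.1, lt_of_le_of_ne h3.2 h2⟩, sub_mul]
  have h2 := abs_le.1 (hs 1 (.inl rfl))
  have h3 := abs_le.1 (hs (-1) (.inr rfl))
  rw [hp _ (.inl rfl)] at h2
  rw [hp _ (.inr rfl)] at h3
  rw [← one_mul |_|, ← hd, ← abs_mul, ← h1, abs_le]
  constructor <;> linarith [h2.1, h2.2, h3.1, h3.2]

end Vale.Agent.P128
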