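import Vale.Agent.P128.Stm

open MeasureTheory Set Metric Filter Topology Complex
open scoped ENNReal ComplexConjugate Real

noncomputable section
namespace Vale.Agent.P128

namespace G1

theorem freq {P : ℝ → Prop} (h : ∀ᵐ ρ : ℝ, 0 < ρ → P ρ) {r : ℝ} (hr : 0 ≤ r) :
    ∃ᶠ ρ in 𝓝 r, 0 < ρ ∧ P ρ := by
  rw [Filter.Frequently]
  intro hev
  obtain ⟨ε, hε, hb⟩ := Metric.eventually_nhds_iff.1 hev
  have h0 : volume (Ioo r (r + ε)) = 0 := by
    refine measure_mono_null (fun ρ hρ => ?_) (ae_iff.1 h)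
    have h1 : 0 < ρ := hr.trans_lt hρ.1
    have h2 : dist ρ r < ε := by
      rw [Real.dist_eq, abs_lt]; constructor <;> linarith [hρ.1, hρ.2]
    intro h3
    exact hb h2 ⟨h1, h3 h1⟩
  rw [Real.volume_Ioo, ENNReal.ofReal_eq_zero] at h0
  linarith

theorem tend (z : ℂ) : Tendsto (fun ρ : ℝ => circleMap 0 ρ (arg z)) (𝓝 ‖z‖) (𝓝 z) := by
  have h : Continuous fun ρ : ℝ => circleMap 0 ρ (arg z) := by
    simp only [circleMap]; fun_prop
  have h2 := h.tendsto ‖z‖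
  rwa [circleMap, zero_add, norm_mul_exp_arg_mul_I] at h2

theorem lc {X : Type} {G : Set ℂ} (hG : IsOpen G) {P : ℝ → Prop} (hP : ∀ᵐ ρ : ℝ, 0 < ρ → P ρ)
    (φ : ℂ → X) (hφ : ∀ z ∈ G, ∀ᶠ w in 𝓝 z, φ w = φ z)
    (h1 : ∀ ρ, 0 < ρ → P ρ → ∀ z ∈ G, ∀ w ∈ G, ‖z‖ = ρ → ‖w‖ = ρ → φ z = φ w)
    (h2 : ∀ ρ, 0 < ρ → ∃ z ∈ G, ‖z‖ = ρ) (h0 : (0 : ℂ) ∉ G) :
    ∀ z ∈ G, ∀ w ∈ G, φ z = φ w := by
  have key : ∀ z ∈ G, ∀ᶠ ρ in 𝓝 ‖z‖, 0 < ρ → P ρ → ∀ w ∈ G, ‖w‖ = ρ → φ w = φ z := by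
    intro z hz
    filter_upwards [(tend z).eventually (hφ z hz), (tend z).eventually (hG.mem_nhds hz)]
      with ρ ha hb hρ hp w hw hn
    rw [← ha]
    exact h1 ρ hρ hp w hw _ hb hn (by rw [norm_circleMap_zero, abs_of_pos hρ])
  have near : ∀ z ∈ G, ∀ᶠ s in 𝓝 ‖z‖, ∀ w ∈ G, ‖w‖ = s → φ w = φ z := by
    intro z hz
    filter_upwards [(key z hz).eventually_nhds] with s hs w hw hn
    subst hn
    obtain ⟨ρ, ⟨hρ, hp⟩, ha, hb⟩ :=
      ((freq hP (norm_nonneg w)).and_eventually (hs.and (key w hw))).exists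
    obtain ⟨y, hy, hyn⟩ := h2 ρ hρ
    rw [← ha hρ hp y hy hyn, ← hb hρ hp y hy hyn]
  choose! c hc hcn using h2
  have hcc : ∀ s ∈ Ioi (0 : ℝ), ∀ t ∈ Ioi (0 : ℝ), φ (c s) = φ (c t) := by
    intro s hs t ht
    refine isPreconnected_Ioi.induction₂' (fun s t => φ (c s) = φ (c t)) (fun x hx => ?_)
      (fun _ _ _ _ _ _ ha hb => ha.trans hb) hs ht
    have h3 := near (c x) (hc x hx)
    rw [hcn x hx] at h3
    filter_upwards [mem_nhdsWithin_of_mem_nhds h3, self_mem_nhdsWithin] with y hy hy0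
    have := hy (c y) (hc y hy0) (hcn y hy0)
    exact ⟨this.symm, this⟩
  have hz : ∀ z ∈ G, φ z = φ (c ‖z‖) ∧ 0 < ‖z‖ := by
    intro z hz
    have hp : 0 < ‖z‖ := norm_pos_iff.2 fun h => h0 (h ▸ hz)
    exact ⟨((near z hz).self_of_nhds _ (hc _ hp) (hcn _ hp)).symm, hp⟩
  intro z hz' w hw
  rw [(hz z hz').1, (hz w hw).1]
  exact hcc _ (hz z hz').2 _ (hz w hw).2

/-- every circle has a point off `K` in the open arc -/
theorem gap (hUp : UpStmt) (hCurve : CurveStmt) {K : Set ℂ} {v : ℂ → ℝ} {D : ℝ} (h : GM K v)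
    (hD : 0 < D) (hE : ∀ ρ, 0 < ρ → En v (closedBall 0 ρ) = D * ρ) :
    D ≤ 2 * π ∧ ∀ ρ, 0 < ρ → ∀ α : ℝ, ∃ θ ∈ Ioo α (α + 2 * π), circleMap 0 ρ θ ∉ K := by
  have hup : ∀ ρ, 0 < ρ → D * ρ + len K (closedBall 0 ρ) ≤ 2 * π * ρ := by
    intro ρ hρ
    have := hUp _ _ _ _ _ h 0 ρ hρ.le (subset_univ _)
    rw [hE ρ hρ] at this
    simpa using this
  have hD2 : D ≤ 2 * π := by
    have h1 := hup 1 one_pos
    have h2 := len_nonneg K (closedBall 0 1)
    linarith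
  refine ⟨hD2, fun ρ hρ α => ?_⟩
  by_contra hcon
  push Not at hcon
  have hpi := Real.pi_pos
  have hst : α + D / 4 ≤ α + 2 * π - D / 4 := by linarith
  have hc := (hCurve (circleMap 0 ρ) (fun θ => circleMap 0 ρ θ * I) _ _ hst
    (fun θ _ => hasDerivAt_circleMap 0 ρ θ)
    ((continuous_circleMap 0 ρ).mul continuous_const).continuousOn).2 (by
      intro a ha b hb hab
      refine eq_of_circleMap_eq hρ.ne' ?_ hab
      rw [abs_lt]; constructor <;> linarith [ha.1, ha.2, hb.1, hb.2])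
  simp only [norm_mul, norm_circleMap_zero, norm_I, mul_one, abs_of_pos hρ,
    intervalIntegral.integral_const, smul_eq_mul] at hc
  have hsub : circleMap 0 ρ '' Icc (α + D / 4) (α + 2 * π - D / 4) ⊆ K ∩ closedBall 0 ρ := by
    rintro _ ⟨θ, hθ, rfl⟩
    refine ⟨hcon θ ⟨by linarith [hθ.1], by linarith [hθ.2]⟩, ?_⟩
    rw [mem_closedBall_zero_iff, norm_circleMap_zero, abs_of_pos hρ]
  have h3 := ENNReal.toReal_mono (h.fin 0 ρ (subset_univ _)).ne (measure_mono hsub)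
  rw [hc, ENNReal.toReal_ofReal (by nlinarith)] at h3
  have h4 := hup ρ hρ
  unfold len at h4
  nlinarith

theorem slit {e z : ℂ} (he : ‖e‖ = 1) (hz : -conj e * z ∉ slitPlane) :
    z = (‖z‖ : ℝ) * e := by
  rw [mem_slitPlane_iff] at hz
  push Not at hz
  have h1 : -conj e * z = ((-conj e * z).re : ℝ) := Complex.ext (by simp) (by rw [hz.2]; simp)
  have h2 : ‖-conj e * z‖ = ‖z‖ := by rw [norm_mul, norm_neg, Complex.norm_conj, he, one_mul]
  rw [h1, Complex.norm_real, Real.norm_eq_abs, abs_of_nonpos hz.1] at h2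
  have h3 : e * conj e = 1 := by rw [mul_conj, normSq_eq_norm_sq, he]; simp
  rw [← h2]
  push_cast
  rw [← h1]
  linear_combination (-z) * h3

theorem not_slit {e : ℂ} (he : ‖e‖ = 1) {t : ℝ} (ht : 0 ≤ t) : -conj e * (t * e) ∉ slitPlane := by
  have h3 : e * conj e = 1 := by rw [mul_conj, normSq_eq_norm_sq, he]; simp
  have : -conj e * (t * e) = -(t : ℂ) := by linear_combination (-t : ℂ) * h3
  rw [this, neg_ofReal_mem_slitPlane]
  exact not_lt.2 ht

/-- the crack tip function -/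
def tip (e c z : ℂ) : ℂ := c * exp (log (-conj e * z) / 2)

theorem tip_der {e z : ℂ} (c : ℂ) (hz : -conj e * z ∈ slitPlane) :
    HasDerivAt (tip e c) (tip e c z / (2 * z)) z := by
  have h0 := slitPlane_ne_zero hz
  have hz0 : z ≠ 0 := right_ne_zero_of_mul h0
  have he0 : conj e ≠ 0 := neg_ne_zero.1 (left_ne_zero_of_mul h0)
  have h1 : HasDerivAt (fun z => -conj e * z) (-conj e) z := by
    simpa using (hasDerivAt_id z).const_mul (-conj e)
  have h2 := (((h1.clog hz).div_const 2).cexp).const_mul c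
  refine h2.congr_deriv ?_
  unfold tip
  field_simp

theorem tip_sq {e z : ℂ} (c : ℂ) (hz : -conj e * z ∈ slitPlane) :
    tip e c z ^ 2 = c ^ 2 * (-conj e * z) := by
  unfold tip
  rw [mul_pow, sq (exp _), ← Complex.exp_add, add_halves, exp_log (slitPlane_ne_zero hz)]

theorem re_der {f : ℂ → ℂ} {z p : ℂ} (h : HasDerivAt f p z) :
    DifferentiableAt ℝ (fun z => (f z).re) z ∧ pd (fun z => (f z).re) z = p := by
  have h1 := reCLM.hasFDerivAt.comp z (h.hasFDerivAt.restrictScalars ℝ)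
  refine ⟨h1.differentiableAt, pd_of_fderiv fun e => ?_⟩
  have h2 : fderiv ℝ (fun z => (f z).re) z = _ := h1.fderiv
  rw [h2]
  simp [mul_comm]

/-- the last step -/
theorem fin (hAnx : AnxStmt) {K G S : Set ℂ} {v w : ℂ → ℝ} (h : GM K v) (hS : IsOpen S)
    (hG : G = S \ K) (hc : IsPreconnected G) (hne : G.Nonempty) (hw : ContDiffOn ℝ 1 w S)
    (he : ∀ z ∈ G, w z = v z) : ∀ y ∈ K, y ∉ S := by
  intro y hy hyS
  obtain ⟨z₀, hz₀⟩ := hne
  obtain ⟨t, ht, hb⟩ := Metric.isOpen_iff.1 hS y hyS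
  have hGo : IsOpen G := hG ▸ hS.sdiff h.cl
  have hGK : G ⊆ Kᶜ := fun z hz => (hG ▸ hz : z ∈ S \ K).2
  have hcl : closure (ball y (t / 2)) ⊆ S :=
    closure_ball_subset_closedBall.trans ((closedBall_subset_ball (by linarith)).trans hb)
  have h1 := hAnx K v h z₀ (ball y (t / 2)) S ∅ w isOpen_ball isBounded_ball hS hcl
    (locLip_of_contDiffOn hS hw)
    (fun z hz => he z (hG ▸ ⟨hz.1, connectedComponentIn_subset _ _ hz.2⟩)) isClosed_empty
    (empty_subset _) (fun z hz => by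
      by_cases hzK : z ∈ K
      · exact Or.inr hzK
      · exact Or.inl (Or.inl (hc.subset_connectedComponentIn hz₀ hGK
          (hG ▸ ⟨hcl (frontier_subset_closure hz), hzK⟩)))) (by simp)
  have h2 : En w (ball y (t / 2)) = En v (ball y (t / 2)) := by
    refine setIntegral_congr_ae measurableSet_ball ?_
    filter_upwards [measure_eq_zero_iff_ae_notMem.1 h.null] with z hz hzb
    have hzG : z ∈ G := hG ▸ ⟨hcl (subset_closure hzb), hz⟩
    rw [pd_congr (show w =ᶠ[𝓝 z] v by filter_upwards [hGo.mem_nhds hzG] with a ha using he a ha)]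
  have h3 : 0 < len K (ball y (t / 2)) :=
    ENNReal.toReal_pos (h.red y hy (mem_univ _) _ (by linarith)).ne'
      (lt_of_le_of_lt (measure_mono (inter_subset_inter_right _ ball_subset_closedBall))
        (h.fin y (t / 2) (subset_univ _))).ne
  rw [h2] at h1
  simp only [empty_diff, measure_empty, ENNReal.toReal_zero] at h1
  linarith

end G1

open G1 in
theorem g1_pf (hG1a : G1aStmt) (hApx : ApxStmt) (hUp : UpStmt) (hCurve : CurveStmt)
    (hAnx : AnxStmt) : G1Stmt := by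
  intro K v D h hD hE
  have hP := hG1a K v D h hD hE
  obtain ⟨hD2, hgap⟩ := gap hUp hCurve h hD hE
  have hKo : IsOpen Kᶜ := h.cl.isOpen_compl
  have hpd := hApx.2 K v h
  have hpi := Real.pi_pos
  set F : ℂ → ℂ := fun z => z * pd v z ^ 2 with hF
  have hFd : DifferentiableOn ℂ F Kᶜ := differentiableOn_id.mul (hpd.pow 2)
  have hFn : ∀ z ∈ Kᶜ, ‖F z‖ = D / (2 * π) := by
    intro z hz
    have h1 : Tendsto (fun ρ : ℝ => ‖F (circleMap 0 ρ (arg z))‖) (𝓝 ‖z‖) (𝓝 ‖F z‖) :=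
      ((hFd.continuousOn.continuousAt (hKo.mem_nhds hz)).tendsto.comp (tend z)).norm
    refine tendsto_nhds_unique_of_frequently_eq h1 tendsto_const_nhds ?_
    refine ((freq hP (norm_nonneg z)).and_eventually
      ((tend z).eventually (hKo.mem_nhds hz))).mono ?_
    rintro ρ ⟨⟨hρ, α, -, h2⟩, h3⟩
    have h4 := h2 _ (by simpa [abs_of_pos hρ] using circleMap_mem_sphere 0 hρ.le (arg z)) h3
    have h5 : ‖exp (-α * I)‖ = 1 := by simpa using norm_exp_ofReal_mul_I (-α)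
    change ‖circleMap 0 ρ (arg z) * pd v (circleMap 0 ρ (arg z)) ^ 2‖ = _
    rw [h4, norm_mul, h5, mul_one, norm_div, Complex.norm_real, Real.norm_eq_abs, abs_of_pos hD]
    simp [abs_of_pos hpi]
  refine ⟨?_, fun z hz => ?_⟩
  swap
  · have h1 := hFn z hz
    simp only [hF, norm_mul, norm_pow] at h1
    rw [h1, div_le_one (by positivity)]
    exact hD2
  have hFl : ∀ z ∈ Kᶜ, ∀ᶠ w in 𝓝 z, F w = F z := by
    intro z hz
    refine eventually_eq_of_isLocalMax_norm ?_ ?_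
    · filter_upwards [hKo.mem_nhds hz] with w hw using hFd.differentiableAt (hKo.mem_nhds hw)
    · filter_upwards [hKo.mem_nhds hz] with w hw
      simp only [Function.comp]
      rw [hFn w hw, hFn z hz]
  have h0 : (0 : ℂ) ∉ Kᶜ := by
    intro h0
    have h1 := hFn 0 h0
    simp only [hF, zero_mul, norm_zero] at h1
    have : 0 < D / (2 * π) := by positivity
    linarith
  have hFc := lc hKo hP F hFl (by
      rintro ρ hρ ⟨α, -, h2⟩ z hz w hw hzn hwn
      exact (h2 z (mem_sphere_zero_iff_norm.2 hzn) hz).trans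
        (h2 w (mem_sphere_zero_iff_norm.2 hwn) hw).symm) (by
      intro ρ hρ
      obtain ⟨θ, -, hθ⟩ := hgap ρ hρ 0
      exact ⟨_, hθ, by rw [norm_circleMap_zero, abs_of_pos hρ]⟩) h0
  obtain ⟨ρ₀, hρ₀, α, -, hα⟩ := (freq hP le_rfl).exists
  set e : ℂ := exp (α * I) with he
  have he1 : ‖e‖ = 1 := norm_exp_ofReal_mul_I α
  have hce : conj e = exp (-α * I) := by rw [he, ← exp_conj]; simp
  have hFv : ∀ z ∈ Kᶜ, F z = D / (2 * π) * conj e := by
    intro z hz
    obtain ⟨θ, -, hθ⟩ := hgap ρ₀ hρ₀ 0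
    rw [hFc z hz _ hθ, hce]
    exact hα _ (circleMap_mem_sphere 0 hρ₀.le θ) hθ
  have hD0 : (D / (2 * π) : ℂ) ≠ 0 := by
    have h1 : (D : ℂ) ≠ 0 := ofReal_ne_zero.2 hD.ne'
    have h2 : (π : ℂ) ≠ 0 := ofReal_ne_zero.2 hpi.ne'
    exact div_ne_zero h1 (mul_ne_zero two_ne_zero h2)
  have hP' : ∀ᵐ ρ : ℝ, 0 < ρ → K ∩ sphere 0 ρ = {circleMap 0 ρ α} := by
    filter_upwards [hP] with ρ h1 hρ
    obtain ⟨β, h2, h3⟩ := h1 hρ
    obtain ⟨θ, -, hθ⟩ := hgap ρ hρ 0
    have h4 := (h3 _ (circleMap_mem_sphere 0 hρ.le θ) hθ).symm.trans (hFv _ hθ)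
    have h5 := mul_left_cancel₀ hD0 h4
    have h6 : exp (β * I) = exp (α * I) := by
      rw [← he, ← conj_conj e, ← h5, ← exp_conj]; simp
    rw [h2, circleMap, circleMap, h6]
  set S : Set ℂ := {z | -conj e * z ∈ slitPlane} with hS
  have hSo : IsOpen S := isOpen_slitPlane.preimage (by fun_prop)
  have harc : ∀ ρ, 0 < ρ → ∀ θ ∈ Ioo α (α + 2 * π), circleMap 0 ρ θ ≠ circleMap 0 ρ α ∧
      circleMap 0 ρ θ ∈ S := by
    intro ρ hρ θ hθ
    have h1 : circleMap 0 ρ θ ≠ circleMap 0 ρ α := fun h1 => hθ.1.ne' (eq_of_circleMap_eq hρ.ne'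
      (by rw [abs_lt]; constructor <;> linarith [hθ.1, hθ.2]) h1)
    refine ⟨h1, by_contra fun h2 => h1 ?_⟩
    rw [slit he1 h2, norm_circleMap_zero, abs_of_pos hρ, circleMap, zero_add]
  set G : Set ℂ := S \ K with hG
  have hGo : IsOpen G := hSo.sdiff h.cl
  have hG2 : ∀ ρ, 0 < ρ → ∃ z ∈ G, ‖z‖ = ρ := by
    intro ρ hρ
    obtain ⟨θ, h1, hθ⟩ := hgap ρ hρ α
    exact ⟨_, ⟨(harc ρ hρ θ h1).2, hθ⟩, by rw [norm_circleMap_zero, abs_of_pos hρ]⟩
  have hGc := lc hGo hP' (connectedComponentIn G) (by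
      intro z hz
      filter_upwards [connectedComponentIn_mem_nhds (hGo.mem_nhds hz)] with w hw
      exact (connectedComponentIn_eq hw).symm) (by
      intro ρ hρ h1 z hz w hw hzn hwn
      have h2 : circleMap 0 ρ '' Ioo α (α + 2 * π) ⊆ G := by
        rintro _ ⟨θ, hθ, rfl⟩
        refine ⟨(harc ρ hρ θ hθ).2, fun hK => (harc ρ hρ θ hθ).1 ?_⟩
        exact mem_singleton_iff.1 (h1 ▸ ⟨hK, circleMap_mem_sphere 0 hρ.le θ⟩)
      have h3 : ∀ y ∈ G, ‖y‖ = ρ → y ∈ circleMap 0 ρ '' Ioo α (α + 2 * π) := by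
        intro y hy hn
        have h4 := (periodic_circleMap 0 ρ).image_Ioc Real.two_pi_pos α
        rw [range_circleMap, abs_of_pos hρ] at h4
        obtain ⟨θ, hθ, rfl⟩ := h4.ge (mem_sphere_zero_iff_norm.2 hn)
        refine ⟨θ, ⟨hθ.1, lt_of_le_of_ne hθ.2 ?_⟩, rfl⟩
        rintro rfl
        rw [periodic_circleMap 0 ρ α, circleMap, zero_add] at hy
        exact not_slit he1 hρ.le hy.1
      exact connectedComponentIn_eq ((isPreconnected_Ioo.image _
        (continuous_circleMap 0 ρ).continuousOn).subset_connectedComponentIn (h3 z hz hzn) h2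
        (h3 w hw hwn))) hG2 (fun h1 => h0 h1.2)
  obtain ⟨z₀, hz₀, -⟩ := hG2 1 one_pos
  have hGp : IsPreconnected G := by
    have : G = connectedComponentIn G z₀ := by
      refine Subset.antisymm (fun z hz => ?_) (connectedComponentIn_subset _ _)
      rw [← hGc z hz z₀ hz₀]
      exact mem_connectedComponentIn hz
    rw [this]
    exact isPreconnected_connectedComponentIn
  have hz0 : ∀ z ∈ S, z ≠ 0 := fun z hz => right_ne_zero_of_mul (slitPlane_ne_zero hz)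
  have hex : ∃ c : ℂ, ∀ z ∈ G, pd v z = tip e c z / (2 * z) := by
    set c : ℂ := I * (√(2 * D / π) : ℝ) with hc
    have hc2 : c ^ 2 = -(2 * D / π) := by
      rw [hc, mul_pow, I_sq, ← ofReal_pow, Real.sq_sqrt (by positivity)]; push_cast; ring
    have hsq : ∀ z ∈ G, pd v z ^ 2 = (tip e c z / (2 * z)) ^ 2 := by
      intro z hz
      have h1 : z * pd v z ^ 2 = _ := hFv z hz.2
      have h2 := hz0 z hz.1
      have h3 : (π : ℂ) ≠ 0 := ofReal_ne_zero.2 hpi.ne'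
      refine mul_left_cancel₀ h2 ?_
      rw [h1, div_pow, tip_sq c hz.1, hc2]
      field_simp
    have hcont : ContinuousOn (fun z => tip e c z / (2 * z)) G := fun z hz =>
      ((tip_der c hz.1).continuousAt.div (by fun_prop)
        (mul_ne_zero two_ne_zero (hz0 z hz.1))).continuousWithinAt
    rcases hGp.eq_or_eq_neg_of_sq_eq (hpd.continuousOn.mono fun z hz => hz.2) hcont hsq (by
      intro z hz h1
      have h2 := hsq z hz
      have h3 : z * pd v z ^ 2 = _ := hFv z hz.2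
      rw [h2, h1] at h3
      have h4 : conj e ≠ 0 := by
        rw [← norm_ne_zero_iff, Complex.norm_conj, he1]; exact one_ne_zero
      exact mul_ne_zero hD0 h4 (by rw [← h3]; ring)) with h1 | h1
    · exact ⟨c, h1⟩
    · refine ⟨-c, fun z hz => ?_⟩
      rw [h1 hz]
      simp only [tip, Pi.neg_apply]
      ring
  obtain ⟨c, hc⟩ := hex
  obtain ⟨a, ha⟩ := hGo.exists_eq_add_of_fderiv_eq (𝕜 := ℝ) (f := v)
    (g := fun z => (tip e c z).re) hGp
    (fun z hz => (h.diff ⟨mem_univ _, hz.2⟩).differentiableWithinAt)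
    (fun z hz => (re_der (tip_der c hz.1)).1.differentiableWithinAt) (by
      intro z hz
      refine ContinuousLinearMap.ext fun y => ?_
      rw [fderiv_eq_pd, fderiv_eq_pd, (re_der (tip_der c hz.1)).2, hc z hz])
  have hw : ContDiffOn ℝ 1 (fun z => (tip e c z).re + a) S := by
    have h1 : DifferentiableOn ℂ (tip e c) S := fun z hz =>
      (tip_der c hz).differentiableAt.differentiableWithinAt
    have h2 : ContDiffOn ℝ 1 (tip e c) S := (h1.contDiffOn hSo).restrict_scalars ℝ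
    exact (reCLM.contDiff.comp_contDiffOn h2).add contDiffOn_const
  refine ⟨e, fun z hz => ⟨‖z‖, norm_nonneg z, slit he1 ?_⟩⟩
  exact fin hAnx h hSo hG hGp ⟨z₀, hz₀⟩ hw (fun z hz => (ha hz).symm) z hz

end Vale.Agent.P128
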