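import Vale.Agent.P128.Stm

open MeasureTheory Set Metric Filter Topology Complex
open scoped ENNReal ComplexConjugate Real

noncomputable section
namespace Vale.Agent.P128

namespace G1a

theorem ae_ce (hGood : GoodStmt) {K : Set ℂ} {v : ℂ → ℝ} {D : ℝ} (h : GM K v)
    (hE : ∀ ρ, 0 < ρ → En v (closedBall 0 ρ) = D * ρ) :
    ∀ᵐ ρ, 0 < ρ → Good K v 0 ρ ∧ ce v 0 ρ = D := by
  have key : ∀ n : ℕ, ∀ᵐ ρ, ρ ∈ Ioo (0 : ℝ) n → Good K v 0 ρ ∧ ce v 0 ρ = D := by
    intro n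
    obtain ⟨g1, g2, -, g4⟩ := hGood K v 0 n h.cl (h.fin _ _ (subset_univ _))
      (h.int _ _ (subset_univ _))
    have hn : (0 : ℝ) ≤ n := Nat.cast_nonneg n
    have hi : IntervalIntegrable (ce v 0) volume 0 n :=
      (intervalIntegrable_iff_integrableOn_Ioo_of_le hn).2 g2
    filter_upwards [g1, hi.ae_hasDerivAt_integral] with ρ a1 a2 hρ
    refine ⟨a1 hρ, ?_⟩
    rw [uIcc_of_le hn] at a2
    have d1 := a2 (Ioo_subset_Icc_self hρ) 0 ⟨le_rfl, hn⟩
    have d2 : HasDerivAt (fun t => D * t - En v (closedBall 0 0)) D ρ := by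
      simpa using ((hasDerivAt_id ρ).const_mul D).sub_const (En v (closedBall 0 0))
    refine d1.unique (d2.congr_of_eventuallyEq ?_)
    filter_upwards [Ioo_mem_nhds hρ.1 hρ.2] with t ht
    have := (g4 0 t le_rfl ht.1.le ht.2.le).1
    rw [hE t ht.1] at this
    linarith
  filter_upwards [ae_all_iff.2 key] with ρ hρ h0
  obtain ⟨n, hn⟩ := exists_nat_gt ρ
  exact hρ n ⟨h0, hn⟩

theorem gap_lt {N : ℕ} {θ : ℕ → ℝ} {c : ℝ} (h : ∀ i < N, θ i < θ (i + 1)) (hN : θ N = θ 0 + c)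
    (h2 : 2 ≤ N) {i : ℕ} (hi : i < N) : θ (i + 1) - θ i < c := by
  have mono : ∀ k j, j + k ≤ N → θ j ≤ θ (j + k) := by
    intro k
    induction k with
    | zero => intro j _; exact le_rfl
    | succ k ih =>
      intro j hj
      exact (ih j (by omega)).trans (h (j + k) (by omega)).le
  have mono' : ∀ j k, j ≤ k → k ≤ N → θ j ≤ θ k := by
    intro j k hjk hk
    obtain ⟨l, rfl⟩ := Nat.exists_eq_add_of_le hjk
    exact mono l j hk
  rcases Nat.eq_zero_or_pos i with rfl | h0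
  · have a1 := h 1 (by omega)
    have a2 := mono' (1 + 1) N (by omega) le_rfl
    simp only [zero_add]
    linarith
  · have a1 := h 0 (by omega)
    have a2 := mono' (0 + 1) i (by omega) hi.le
    have a3 := mono' (i + 1) N hi le_rfl
    linarith

theorem one_pt (hEid : EidStmt) (hFlx : FlxStmt) (hArcB : ArcBStmt) (hCirc : CircStmt)
    {K : Set ℂ} {v : ℂ → ℝ} {D ρ α : ℝ} (h : GM K v) (hg : Good K v 0 ρ) (hc : ce v 0 ρ = D)
    (hE : En v (closedBall 0 ρ) = D * ρ) (hf : Free K 0 ρ α (α + 2 * π))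
    (hα : circleMap 0 ρ α ∈ K) {θ : ℝ} (hθ : θ ∈ Ioo α (α + 2 * π)) :
    circleMap 0 ρ θ * pd v (circleMap 0 ρ θ) ^ 2 = D / (2 * π) * exp (-α * I) := by
  have hρ := hg.pos
  have hlt : α < α + 2 * π := by linarith [Real.pi_pos]
  obtain ⟨-, -, c3, -, ⟨T, hT⟩, -, c7⟩ := hCirc univ K v 0 ρ h.isOpen h.c1 (subset_univ _) hg
  have hAD := c7 α (α + 2 * π) T hlt hf hT
  have hflx : ∫ θ in α..α + 2 * π, (cg v 0 ρ θ).re = 0 := by
    have := hFlx univ K v 0 1 h 0 ρ ρ α (α + 2 * π) {circleMap 0 ρ α} (subset_univ _) le_rfl hg hlt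
      le_rfl hf isCompact_singleton isPreconnected_singleton
      (singleton_subset_iff.2 ⟨hα, sphere_subset_closedBall (circleMap_mem_sphere 0 hρ.le α)⟩)
      rfl (periodic_circleMap 0 ρ α)
    simpa using this
  have hper : Function.Periodic (fun θ => v (circleMap 0 ρ θ) * (cg v 0 ρ θ).re) (2 * π) := by
    intro θ
    simp only [cg, periodic_circleMap 0 ρ θ]
  have heid : ∫ θ in α..α + 2 * π, v (circleMap 0 ρ θ) * (cg v 0 ρ θ).re = D * ρ := by
    have h1 := (hEid univ K v 0 1 h 0 ρ (subset_univ _) hg).1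
    rw [hper.intervalIntegral_add_eq α 0, zero_add, ← hE]
    simp only [zero_mul, mul_zero, abs_nonpos_iff] at h1
    linarith
  have hsq : ∀ θ, (-(cg v 0 ρ θ).im) ^ 2 + (cg v 0 ρ θ).re ^ 2 = ‖cg v 0 ρ θ‖ ^ 2 := by
    intro θ
    rw [Complex.sq_norm, Complex.normSq_apply]
    ring
  obtain ⟨κ, hκ⟩ := (hArcB _ _ _ α _ T hAD rfl).1 hflx (by
    simp only [hsq]
    rw [c3 α, heid, hc, mul_comm])
  have hκ' : ∀ θ ∈ Ioo α (α + 2 * π), cg v 0 ρ θ = κ * exp ((θ - α) / 2 * I) := by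
    intro θ hθ
    rw [← hκ θ hθ]
    conv_lhs => rw [← re_add_im (cg v 0 ρ θ)]
    push_cast
    ring
  have hκ2 : 2 * π * κ ^ 2 = ρ * D := by
    rw [← hc, ← c3 α, intervalIntegral.integral_congr_ae (g := fun _ => κ ^ 2)]
    · simp
    · have : ∀ᵐ θ : ℝ, θ ≠ α + 2 * π := by simp [ae_iff, measure_singleton]
      filter_upwards [this] with θ h1 h2
      rw [uIoc_of_le hlt.le] at h2
      rw [hκ' θ ⟨h2.1, lt_of_le_of_ne h2.2 h1⟩, norm_mul,
        show ((θ : ℂ) - α) / 2 * I = (((θ - α) / 2 : ℝ) : ℂ) * I by push_cast; ring,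
        norm_exp_ofReal_mul_I, mul_one, norm_real, Real.norm_eq_abs, sq_abs]
  have h3 := hκ' θ hθ
  have h4 : circleMap 0 ρ θ = ρ * exp (θ * I) := circleMap_zero ρ θ
  have h5 : circleMap 0 ρ θ ≠ 0 := circleMap_ne_center hρ.ne'
  simp only [cg, sub_zero] at h3
  apply mul_left_cancel₀ h5
  have h6 : exp ((θ - α) / 2 * I) ^ 2 = exp (θ * I) * exp (-α * I) := by
    rw [sq, ← exp_add, ← exp_add]
    congr 1
    ring
  have h7 : (κ : ℂ) ^ 2 = ρ * (D / (2 * π)) := by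
    have hπ : (π : ℂ) ≠ 0 := ofReal_ne_zero.2 Real.pi_ne_zero
    have : (2 * π * κ ^ 2 : ℂ) = ρ * D := by exact_mod_cast hκ2
    field_simp
    linear_combination this
  calc _ = (circleMap 0 ρ θ * pd v (circleMap 0 ρ θ)) ^ 2 := by ring
    _ = _ := by
      rw [h3, mul_pow, h6, h7, h4]
      ring

end G1a

theorem g1a_pf (hLc : LcStmt) (hGood : GoodStmt) (hBon : BonStmt) (hEid : EidStmt)
    (hFlx : FlxStmt) (hArcB : ArcBStmt) (hArcs : ArcsStmt) (hCirc : CircStmt) : G1aStmt := by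
  intro K v D h hD hE
  obtain ⟨A, c, hc0, hL⟩ := hLc
  have hR : IsReg univ K v 0 1 A := hL univ K v 0 1 h fun x r _ => by simpa using hc0.le
  filter_upwards [G1a.ae_ce hGood h hE] with ρ hρ h0
  obtain ⟨hg, hc⟩ := hρ h0
  obtain ⟨b1, b2⟩ := hBon univ K v 0 1 h 0 ρ hg
  have hDρ : 0 < D * ρ := mul_pos hD h0
  have hne : (K ∩ sphere 0 ρ).Nonempty := by
    rw [nonempty_iff_ne_empty]
    intro he
    have := b1 (subset_univ _) he
    rw [hE ρ h0, hc] at this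
    linarith
  obtain ⟨N, θ, hN, hN0, a1, a2, a3, a4, a5⟩ := hArcs K 0 ρ h0 hg.fin hne
  have hN1 : N = 1 := by
    by_contra hN1
    obtain ⟨i, hi, hmax⟩ := (Finset.range N).exists_max_image (fun i => θ (i + 1) - θ i)
      ⟨0, Finset.mem_range.2 hN0⟩
    have hlt := G1a.gap_lt (fun i hi => (a1 i hi).1) a2 (by omega) (Finset.mem_range.1 hi)
    have := b2 A (θ (i + 1) - θ i) hR.A1 (subset_univ _) (hR.conn 0 ρ h0 (subset_univ _))
      (fun α β hf => by
        obtain ⟨j, hj, hle⟩ := a5 α β hf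
        exact hle.trans (hmax j (Finset.mem_range.2 hj)))
    rw [hE ρ h0, hc] at this
    have h1 : (θ (i + 1) - θ i) / (2 * π) < 1 := (div_lt_one (by positivity)).2 hlt
    nlinarith
  subst hN1
  have hm : circleMap 0 ρ (θ 0) ∈ K ∩ sphere 0 ρ :=
    ⟨a3 0 (by omega), circleMap_mem_sphere 0 h0.le _⟩
  refine ⟨θ 0, ?_, fun z hz hzK => ?_⟩
  · obtain ⟨p, hp⟩ := ncard_eq_one.1 hN.symm
    rw [hp] at hm ⊢
    rw [mem_singleton_iff.1 hm]
  · obtain ⟨i, ⟨hi, t, ht, rfl⟩, -⟩ := a4 z hz hzK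
    obtain rfl : i = 0 := by omega
    have hf := (a1 0 (by omega)).2.2
    rw [zero_add, a2] at hf ht
    exact G1a.one_pt hEid hFlx hArcB hCirc h hg hc (hE ρ h0) hf hm.1 ht

end Vale.Agent.P128
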