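import Vale.Agent.P128.Stm

open MeasureTheory Set Metric Filter Topology Complex
open scoped ENNReal ComplexConjugate Real

noncomputable section
namespace Vale.Agent.P128

namespace Good

theorem cnt_eq (K : Set ℂ) (x : ℂ) :
    cnt K x = fun ρ => ((K ∩ sphere x ρ).encard : ℝ≥0∞).toReal := by
  funext ρ
  rcases (K ∩ sphere x ρ).finite_or_infinite with h | h
  · rw [← h.cast_ncard_eq]
    simp [cnt]
  · simp [cnt, h.ncard, h.encard_eq]

theorem key (hEil : EilStmt) {K : Set ℂ} (hK : IsClosed K) (x : ℂ) :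
    (Measurable fun ρ => ((K ∩ sphere x ρ).encard : ℝ≥0∞)) ∧ ∀ s t,
      ∫⁻ ρ in Ioc s t, ((K ∩ sphere x ρ).encard : ℝ≥0∞) ≤
        μH[1] ((K ∩ closedBall x t) \ closedBall x s) := by
  have hm : Measurable fun ρ => ((K ∩ sphere x ρ).encard : ℝ≥0∞) :=
    hEil.2 K (fun z => dist z x) hK (by fun_prop)
  refine ⟨hm, fun s t => ?_⟩
  rw [← lintegral_indicator measurableSet_Ioc]
  refine hEil.1 _ (fun z => dist z x) _ (LipschitzWith.dist_left x)
    (hm.indicator measurableSet_Ioc).aemeasurable (ae_of_all _ fun ρ => ?_)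
  by_cases h : ρ ∈ Ioc s t
  · rw [indicator_of_mem h]
    exact ENat.toENNReal_le.2 (encard_le_encard fun z hz => ⟨⟨⟨hz.1, hz.2.trans_le h.2⟩,
      fun h' => (h.1.trans_eq hz.2.symm).not_ge h'⟩, hz.2⟩)
  · rw [indicator_of_notMem h]
    exact zero_le

end Good

theorem good_pf (hPol : PolStmt) (hEil : EilStmt) : GoodStmt := by
  intro K u x r hK hf hi
  obtain ⟨p1, p2, p3⟩ := hPol.2.1 ℝ _ x r hi
  obtain ⟨hm, hN⟩ := Good.key hEil hK x
  have hfin : ∀ s t, t ≤ r → μH[1] ((K ∩ closedBall x t) \ closedBall x s) ≠ ⊤ := fun s t h =>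
    ((measure_mono (sdiff_subset.trans
      (inter_subset_inter_right _ (closedBall_subset_closedBall h)))).trans_lt hf).ne
  have h1 : ∀ s t, t ≤ r → ∫⁻ ρ in Ioc s t, ((K ∩ sphere x ρ).encard : ℝ≥0∞) ≠ ⊤ :=
    fun s t h => ne_top_of_le_ne_top (hfin s t h) (hN s t)
  refine ⟨?_, p2, ?_, fun s t hs hst ht => ⟨?_, ?_⟩⟩
  · filter_upwards [p1, (ae_restrict_iff' measurableSet_Ioc).1 (ae_lt_top hm (h1 0 r le_rfl))]
      with ρ h2 h3 h
    exact ⟨h.1, encard_lt_top_iff.1 (by simpa using h3 (Ioo_subset_Ioc_self h)), h2 h⟩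
  · rw [Good.cnt_eq]
    exact IntegrableOn.mono_set
      (integrable_toReal_of_lintegral_ne_top hm.aemeasurable (h1 0 r le_rfl)) Ioo_subset_Ioc_self
  · have e := p3 s t hs hst ht
    rw [setIntegral_sdiff measurableSet_closedBall
      (hi.mono_set (closedBall_subset_closedBall ht)) (closedBall_subset_closedBall hst)] at e
    exact (sub_eq_iff_eq_add'.1 e)
  · rw [intervalIntegral.integral_of_le hst, Good.cnt_eq,
      integral_toReal hm.aemeasurable (ae_lt_top hm (h1 s t ht)), len, len,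
      ← measure_inter_add_sdiff (K ∩ closedBall x t) (measurableSet_closedBall (x := x) (ε := s)),
      inter_assoc, inter_eq_right.2 (closedBall_subset_closedBall hst),
      ENNReal.toReal_add ((measure_mono (inter_subset_inter_right _
        (closedBall_subset_closedBall (hst.trans ht)))).trans_lt hf).ne (hfin s t ht)]
    exact add_le_add_right (ENNReal.toReal_mono (hfin s t ht) (hN s t)) _

end Vale.Agent.P128
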