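import Vale.Agent.P128.Stm

open MeasureTheory Set Metric Filter Topology Complex
open scoped ENNReal ComplexConjugate Real

noncomputable section
namespace Vale.Agent.P128

theorem gron_pf : GronStmt := by
  intro f e h a b q ha hab hq he hh hf hae
  have hpos : ∀ t ∈ uIcc a b, 0 < t := fun t ht => by
    rw [uIcc_of_le hab] at ht; exact ha.trans_le ht.1
  have hg : AbsolutelyContinuousOnInterval (fun t : ℝ => t ^ (-q)) a b :=
    ContDiffOn.absolutelyContinuousOnInterval fun t ht =>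
      (Real.contDiffAt_rpow_const_of_ne (hpos t ht).ne').contDiffWithinAt
  have hc : AbsolutelyContinuousOnInterval (fun _ : ℝ => f a) a b :=
    ContDiffOn.absolutelyContinuousOnInterval contDiffOn_const
  have hF : AbsolutelyContinuousOnInterval (fun t : ℝ => f a + ∫ ρ in a..t, e ρ) a b :=
    hc.fun_add (he.absolutelyContinuousOnInterval_intervalIntegral (c := a) left_mem_uIcc)
  have hG := hF.fun_mul hg
  have h1 := hG.integral_deriv_eq_sub
  have hi : IntervalIntegrable (fun ρ => ρ ^ (1 - q) * h ρ) volume a b :=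
    hh.continuousOn_mul (continuousOn_id.rpow_const fun t ht => Or.inl (hpos t ht).ne')
  have h2 : ∫ ρ in a..b, -q * (ρ ^ (1 - q) * h ρ) ≤
      ∫ ρ in a..b, deriv (fun t : ℝ => (f a + ∫ ρ in a..t, e ρ) * t ^ (-q)) ρ := by
    refine intervalIntegral.integral_mono_ae_restrict hab (hi.const_mul _)
      hG.intervalIntegrable_deriv ?_
    rw [← Measure.restrict_congr_set Ioo_ae_eq_Icc]
    refine (ae_restrict_iff' measurableSet_Ioo).2 ?_
    filter_upwards [hae, he.ae_hasDerivAt_integral] with ρ h3 h4 hρ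
    have hρ' : ρ ∈ uIcc a b := by rw [uIcc_of_le hab]; exact Ioo_subset_Icc_self hρ
    have h0 := hpos ρ hρ'
    have h5 := ((h4 hρ' a left_mem_uIcc).const_add (f a)).fun_mul
      (Real.hasDerivAt_rpow_const (p := -q) (Or.inl h0.ne'))
    rw [h5.deriv, ← hf ρ (Ioo_subset_Icc_self hρ)]
    have e1 : ρ ^ (-q) = ρ ^ (-q - 1) * ρ := by
      rw [← Real.rpow_add_one h0.ne']; congr 1; ring
    have e2 : ρ ^ (1 - q) = ρ ^ (-q - 1) * ρ ^ 2 := by
      rw [← Real.rpow_natCast, ← Real.rpow_add h0]; congr 1; push_cast; ring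
    have h6 := mul_le_mul_of_nonneg_left (h3 hρ)
      (mul_pos hq (Real.rpow_pos_of_pos h0 (-q - 1))).le
    have e3 : q * ρ ^ (-q - 1) * (ρ * e ρ / q + ρ ^ 2 * h ρ) =
        e ρ * (ρ ^ (-q - 1) * ρ) + q * (ρ ^ (-q - 1) * ρ ^ 2 * h ρ) := by
      field_simp
    rw [e3] at h6
    rw [e1, e2]
    linarith
  rw [h1, intervalIntegral.integral_const_mul, ← hf b ⟨hab, le_rfl⟩, ← hf a ⟨le_rfl, hab⟩,
    Real.rpow_neg ha.le, Real.rpow_neg (ha.le.trans hab)] at h2
  rw [div_eq_mul_inv, div_eq_mul_inv]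
  linarith

end Vale.Agent.P128
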