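import Vale.Agent.P128.Stm

open MeasureTheory Set Metric Filter Topology Complex
open scoped ENNReal ComplexConjugate Real

noncomputable section
namespace Vale.Agent.P128

namespace Grow

theorem alg (s C : ℝ) {R : ℝ} (hR : 0 < R) (k : ℕ) :
    (2 ^ k * R) ^ (-s) * (C * (2 ^ (k + 1) * R)) =
      2 * C * R ^ (1 - s) * ((2 : ℝ) ^ (1 - s)) ^ k := by
  have h1 : ((2 : ℝ) ^ (1 - s)) ^ k = 2 ^ k * ((2 : ℝ) ^ k) ^ (-s) := by
    rw [← Real.rpow_natCast, ← Real.rpow_mul two_pos.le, ← Real.rpow_natCast,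
      ← Real.rpow_mul two_pos.le, ← Real.rpow_add two_pos]
    congr 1; ring
  have h2 : R ^ (1 - s) = R * R ^ (-s) := by
    rw [sub_eq_add_neg, Real.rpow_add hR, Real.rpow_one]
  rw [h1, h2, Real.mul_rpow (by positivity) hR.le]
  ring

end Grow

theorem grow_pf : GrowStmt := by
  intro s hs
  have hq0 : 0 ≤ (2 : ℝ) ^ (1 - s) := by positivity
  have hq1 : (2 : ℝ) ^ (1 - s) < 1 :=
    Real.rpow_lt_one_of_one_lt_of_neg one_lt_two (by linarith)
  refine ⟨2 * (1 - (2 : ℝ) ^ (1 - s))⁻¹, by have := sub_pos.2 hq1; positivity, ?_⟩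
  intro μ C hC hμ R hR
  have hR0 : 0 < R := by linarith
  set A : ℕ → Set ℂ := fun k => {z | 2 ^ k * R ≤ R + ‖z‖} ∩ closedBall 0 (2 ^ (k + 1) * R)
    with hA
  have hcov : (univ : Set ℂ) ⊆ ⋃ k, A k := by
    intro z _
    have h1 : 1 ≤ (R + ‖z‖) / R := by
      rw [le_div_iff₀ hR0]; linarith [norm_nonneg z]
    obtain ⟨k, hk1, hk2⟩ := exists_nat_pow_near h1 one_lt_two
    rw [le_div_iff₀ hR0] at hk1
    rw [div_lt_iff₀ hR0] at hk2
    exact mem_iUnion.2 ⟨k, hk1, mem_closedBall_zero_iff.2 (by linarith)⟩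
  have hk : ∀ k, ∫⁻ z in A k, ENNReal.ofReal ((R + ‖z‖) ^ (-s)) ∂μ ≤
      ENNReal.ofReal (2 * C * R ^ (1 - s) * ((2 : ℝ) ^ (1 - s)) ^ k) := by
    intro k
    have hm : MeasurableSet (A k) :=
      (isClosed_le continuous_const (by fun_prop)).measurableSet.inter measurableSet_closedBall
    have h1 : (1 : ℝ) ≤ 2 ^ (k + 1) * R :=
      one_le_mul_of_one_le_of_one_le (one_le_pow₀ one_le_two) hR
    calc _ ≤ ∫⁻ _ in A k, ENNReal.ofReal ((2 ^ k * R) ^ (-s)) ∂μ :=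
          setLIntegral_mono' hm fun z hz => ENNReal.ofReal_le_ofReal
            (Real.rpow_le_rpow_of_nonpos (by positivity) hz.1 (by linarith))
      _ = ENNReal.ofReal ((2 ^ k * R) ^ (-s)) * μ (A k) := setLIntegral_const _ _
      _ ≤ ENNReal.ofReal ((2 ^ k * R) ^ (-s)) * ENNReal.ofReal (C * (2 ^ (k + 1) * R)) :=
          mul_le_mul_right ((measure_mono inter_subset_right).trans (hμ _ h1)) _
      _ = _ := by rw [← ENNReal.ofReal_mul (by positivity), Grow.alg s C hR0]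
  calc _ = ∫⁻ z in univ, ENNReal.ofReal ((R + ‖z‖) ^ (-s)) ∂μ := by rw [Measure.restrict_univ]
    _ ≤ ∫⁻ z in ⋃ k, A k, ENNReal.ofReal ((R + ‖z‖) ^ (-s)) ∂μ := lintegral_mono_set hcov
    _ ≤ ∑' k, ∫⁻ z in A k, ENNReal.ofReal ((R + ‖z‖) ^ (-s)) ∂μ := lintegral_iUnion_le _ _
    _ ≤ ∑' k, ENNReal.ofReal (2 * C * R ^ (1 - s) * ((2 : ℝ) ^ (1 - s)) ^ k) :=
        ENNReal.tsum_le_tsum hk
    _ = _ := by
        rw [← ENNReal.ofReal_tsum_of_nonneg (fun k => by positivity)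
          ((summable_geometric_of_lt_one hq0 hq1).mul_left _), tsum_mul_left,
          tsum_geometric_of_lt_one hq0 hq1]
        congr 1; ring

end Vale.Agent.P128
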