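import Vale.Agent.P128.Stm

open MeasureTheory Set Metric Filter Topology Complex
open scoped ENNReal ComplexConjugate Real

noncomputable section
namespace Vale.Agent.P128

namespace Hi

theorem en_scale (hS : ScaleStmt) (x : ℂ) {d : ℂ} (hd : d ≠ 0) (u : ℂ → ℝ) (w : ℂ) (r : ℝ) :
    En (sc x d u) (closedBall w r) = En u (closedBall (af x d w) (‖d‖ * r)) / ‖d‖ := by
  obtain ⟨-, h2, -, -, h5, -⟩ := hS x d hd
  rw [← h2 u _ measurableSet_closedBall, (h5 w r).1]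

theorem len_scale (hS : ScaleStmt) (x : ℂ) {d : ℂ} (hd : d ≠ 0) (K : Set ℂ) (w : ℂ) (r : ℝ) :
    len (af x d ⁻¹' K) (closedBall w r) = len K (closedBall (af x d w) (‖d‖ * r)) / ‖d‖ := by
  obtain ⟨-, -, -, h4, h5, -⟩ := hS x d hd
  rw [← h4, (h5 w r).1]

theorem seq_of (hS : ScaleStmt) {Ω K : Set ℂ} {u : ℂ → ℝ} {Λ M : ℝ} (h : IsMS Ω K u Λ M) {x : ℂ}
    (hx : x ∈ K) {R₀ : ℝ} (hR : 0 < R₀) (hb : ball x R₀ ⊆ Ω) {d : ℕ → ℂ} (hd : ∀ j, d j ≠ 0)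
    (ht : Tendsto (fun j => ‖d j‖) atTop (𝓝[>] 0)) :
    Seq (fun j => af x (d j) ⁻¹' Ω) (fun j => af x (d j) ⁻¹' K) (fun j => sc x (d j) u)
      (fun j => Λ * ‖d j‖ * √‖d j‖) (fun j => M / √‖d j‖) (fun j => R₀ * ‖d j‖⁻¹) where
  ms j := (hS x (d j) (hd j)).2.2.2.2.2.2 Ω K u Λ M h
  sub j := by
    intro z hz
    have h0 : 0 < ‖d j‖ := norm_pos_iff.2 (hd j)
    refine hb ?_
    rw [mem_ball_zero_iff, ← div_eq_mul_inv, lt_div_iff₀ h0] at hz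
    rw [mem_ball_iff_norm, af, add_sub_cancel_left, norm_mul, mul_comm]
    exact hz
  big := (tendsto_inv_nhdsGT_zero.comp ht).const_mul_atTop hR
  small := by
    have h1 : Tendsto (fun j => Λ * M * ‖d j‖) atTop (𝓝 (Λ * M * 0)) :=
      (ht.mono_right nhdsWithin_le_nhds).const_mul _
    rw [mul_zero] at h1
    refine h1.congr fun j => ?_
    have h0 : √‖d j‖ ≠ 0 := (Real.sqrt_pos.2 (norm_pos_iff.2 (hd j))).ne'
    field_simp
  zero j := by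
    show af x (d j) 0 ∈ K
    simpa [af] using hx

theorem en_le {K : Set ℂ} {v : ℂ → ℝ} (h : GM K v)
    (hb : ∀ z, z ∉ K → ‖z‖ * ‖pd v z‖ ^ 2 ≤ 1) {κ : ℝ} (h0 : 0 ≤ κ) (h1 : κ ≤ 1 / 2) :
    En v (closedBall 1 κ) ≤ 2 * π * κ ^ 2 := by
  have hv : volume.real (closedBall (1 : ℂ) κ) = π * κ ^ 2 := by
    rw [Measure.real, Complex.volume_closedBall, ENNReal.toReal_mul, ENNReal.toReal_pow,
      ENNReal.toReal_ofReal h0]
    simp [mul_comm]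
  have hc : ∫ _ in closedBall (1 : ℂ) κ, (2 : ℝ) = 2 * π * κ ^ 2 := by
    rw [setIntegral_const, hv, smul_eq_mul]; ring
  rw [← hc]
  refine setIntegral_mono_on_ae (h.int 1 κ (subset_univ _))
    (integrableOn_const (measure_closedBall_lt_top).ne) measurableSet_closedBall ?_
  filter_upwards [measure_eq_zero_iff_ae_notMem.1 h.null] with z hz hzb
  have h2 := hb z hz
  have h3 : 1 / 2 ≤ ‖z‖ := by
    rw [mem_closedBall_iff_norm] at hzb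
    have := norm_sub_norm_le (1 : ℂ) z
    rw [norm_one, norm_sub_rev] at this
    linarith
  nlinarith [sq_nonneg ‖pd v z‖]

theorem len_le {K : Set ℂ} (hK : ∀ z ∈ K, ∃ t : ℝ, 0 ≤ t ∧ z = t) {κ : ℝ} (h0 : 0 ≤ κ) :
    len K (closedBall 1 κ) ≤ 2 * κ := by
  have h := Complex.isometry_ofReal.lipschitz.hausdorffMeasure_image_le zero_le_one
    (Icc (1 - κ) (1 + κ))
  rw [ENNReal.rpow_one, hausdorffMeasure_real, Real.volume_Icc, ENNReal.coe_one, one_mul,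
    show 1 + κ - (1 - κ) = 2 * κ by ring] at h
  refine ENNReal.toReal_le_of_le_ofReal (by positivity) (le_trans (measure_mono ?_) h)
  rintro z ⟨hz, hb⟩
  obtain ⟨t, -, rfl⟩ := hK z hz
  rw [mem_closedBall_iff_norm, ← ofReal_one, ← ofReal_sub, Complex.norm_real, Real.norm_eq_abs,
    abs_le] at hb
  exact ⟨t, ⟨by linarith [hb.1], by linarith [hb.2]⟩, rfl⟩

/-- the compact set of bad directions -/
def bad (ε : ℝ) : Set ℂ := {ζ | 1 / 2 ≤ ‖ζ‖ ∧ ‖ζ‖ ≤ 2 ∧ ε * ‖ζ‖ ≤ ‖ζ - (‖ζ‖ : ℝ)‖}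

theorem bad_compact (ε : ℝ) : IsCompact (bad ε) := by
  refine (isCompact_closedBall (0 : ℂ) 2).of_isClosed_subset ?_ ?_
  · have h3 : IsClosed {ζ : ℂ | ε * ‖ζ‖ ≤ ‖ζ - (‖ζ‖ : ℝ)‖} :=
      isClosed_le (by fun_prop) (by fun_prop)
    exact (isClosed_le continuous_const continuous_norm).inter
      ((isClosed_le continuous_norm continuous_const).inter h3)
  · intro ζ hζ
    exact mem_closedBall_zero_iff.2 hζ.2.1

theorem bad_sub {K : Set ℂ} (hK : ∀ z ∈ K, ∃ t : ℝ, 0 ≤ t ∧ z = t) {ε : ℝ} (hε : 0 < ε) :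
    bad ε ⊆ Kᶜ := by
  rintro ζ ⟨h1, -, h3⟩ hζ
  obtain ⟨t, ht, rfl⟩ := hK ζ hζ
  rw [Complex.norm_real, Real.norm_of_nonneg ht] at h1 h3
  rw [sub_self, norm_zero] at h3
  nlinarith

theorem dir_le {x y z : ℂ} (hy : y ≠ x) {ε : ℝ} (h1 : ‖y - x‖ / 2 ≤ ‖z - x‖)
    (h2 : ‖z - x‖ ≤ 2 * ‖y - x‖) (hb : (z - x) / (y - x) ∉ bad ε) :
    ‖dir x z - dir x y‖ ≤ ε := by
  have hd : y - x ≠ 0 := sub_ne_zero.2 hy
  have h0 : 0 < ‖y - x‖ := norm_pos_iff.2 hd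
  have hz : 0 < ‖z - x‖ := by linarith
  set ζ := (z - x) / (y - x) with hζ
  have hn : ‖ζ‖ = ‖z - x‖ / ‖y - x‖ := norm_div _ _
  have ha : 1 / 2 ≤ ‖ζ‖ := by rw [hn, le_div_iff₀ h0]; linarith
  have hc : ‖ζ‖ ≤ 2 := by rw [hn, div_le_iff₀ h0]; exact h2
  have hlt : ‖ζ - (‖ζ‖ : ℝ)‖ < ε * ‖ζ‖ := by
    by_contra hcon
    exact hb ⟨ha, hc, not_lt.1 hcon⟩
  have hpos : 0 < ‖ζ‖ := by linarith
  have e : dir x z - dir x y = (y - x) * (ζ - (‖ζ‖ : ℝ)) / (‖z - x‖ : ℝ) := by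
    have a1 : ((‖y - x‖ : ℝ) : ℂ) ≠ 0 := ofReal_ne_zero.2 h0.ne'
    have a2 : ((‖z - x‖ : ℝ) : ℂ) ≠ 0 := ofReal_ne_zero.2 hz.ne'
    rw [hn, hζ, dir, dir]
    push_cast
    field_simp
  rw [e, norm_div, norm_mul, Complex.norm_real, Real.norm_of_nonneg hz.le, div_le_iff₀ hz]
  have : ‖z - x‖ = ‖y - x‖ * ‖ζ‖ := by rw [hn]; field_simp
  rw [this]
  nlinarith

end Hi

open Hi in
theorem hi_pf (hScale : ScaleStmt) (hCpt : CptStmt) (hG1 : G1Stmt) : HiStmt := by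
  intro Ω K u Λ M h x hx hxΩ D hD hT ε₁ hε₁
  have hπ := Real.pi_pos
  set κ := min (1 / 2) (ε₁ / (4 * π)) with hκ
  have hκ0 : 0 < κ := lt_min (by norm_num) (by positivity)
  have hκ1 : κ ≤ 1 / 2 := min_le_left _ _
  have hκ2 : κ * (4 * π) ≤ ε₁ := (le_div_iff₀ (by positivity)).1 (min_le_right _ _)
  refine ⟨κ, hκ0, hκ1, fun κ' hκ' ε₂ hε₂ => ?_⟩
  by_contra hcon
  have hex : ∀ j : ℕ, ∃ y ∈ K, y ≠ x ∧ ‖y - x‖ ≤ 1 / ((j : ℝ) + 1) ∧
      ¬ (En u (closedBall y (κ * ‖y - x‖)) ≤ ε₁ * (κ * ‖y - x‖) ∧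
      len K (closedBall y (κ' * ‖y - x‖)) ≤ 11 / 5 * (κ' * ‖y - x‖) ∧
      ∀ z ∈ K, ‖y - x‖ / 2 ≤ ‖z - x‖ → ‖z - x‖ ≤ 2 * ‖y - x‖ → ‖dir x z - dir x y‖ ≤ ε₂) := by
    intro j
    by_contra hj
    refine hcon ⟨1 / ((j : ℝ) + 1), by positivity, fun y hy hne hle => ?_⟩
    by_contra hn
    exact hj ⟨y, hy, hne, hle, hn⟩
  choose y hyK hyx hyle hybad using hex
  obtain ⟨R₀, hR₀, hb⟩ := Metric.isOpen_iff.1 h.op x hxΩ
  have hd : ∀ j, y j - x ≠ 0 := fun j => sub_ne_zero.2 (hyx j)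
  have hpos : ∀ j, 0 < ‖y j - x‖ := fun j => norm_pos_iff.2 (hd j)
  have ht : Tendsto (fun j => ‖y j - x‖) atTop (𝓝[>] 0) :=
    tendsto_nhdsWithin_iff.2 ⟨squeeze_zero (fun j => norm_nonneg _) hyle
      tendsto_one_div_add_atTop_nhds_zero_nat, Eventually.of_forall hpos⟩
  obtain ⟨v, hGM, hLim, hconv⟩ := hCpt _ _ _ _ _ _ (seq_of hScale h hx hR₀ hb hd ht)
  have haf0 : ∀ j, af x (y j - x) 0 = x := fun j => by simp [af]
  have haf1 : ∀ j, af x (y j - x) 1 = y j := fun j => by simp [af]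
  have hE : ∀ ρ, 0 < ρ → En v (closedBall 0 ρ) = D * ρ := by
    intro ρ hρ
    have t1 : Tendsto (fun j => ‖y j - x‖ * ρ) atTop (𝓝[>] 0) := by
      refine tendsto_nhdsWithin_iff.2 ⟨?_, Eventually.of_forall fun j => mul_pos (hpos j) hρ⟩
      simpa using (ht.mono_right nhdsWithin_le_nhds).mul_const ρ
    have t2 := ((hT.comp t1).mul_const ρ).mono_left Nat.hyperfilter_le_atTop
    refine tendsto_nhds_unique (hconv 0 ρ).1 (t2.congr fun j => ?_)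
    rw [en_scale hScale x (hd j), haf0]
    have := (hpos j).ne'
    simp only [Function.comp]
    field_simp
  obtain ⟨⟨e, he⟩, hgrad⟩ := hG1 _ v D hGM hD hE
  have h1 : (1 : ℂ) ∈ limK fun j => af x (y j - x) ⁻¹' K := by
    refine (tendsto_const_nhds (x := (0 : ℝ))).congr fun j => (infDist_zero_of_mem ?_).symm
    show af x (y j - x) 1 ∈ K
    rw [haf1]; exact hyK j
  have hreal : ∀ z ∈ limK fun j => af x (y j - x) ⁻¹' K, ∃ t : ℝ, 0 ≤ t ∧ z = t := by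
    intro z hz
    obtain ⟨t₀, ht₀, e₀⟩ := he 1 h1
    obtain ⟨t, ht, e₁⟩ := he z hz
    have hne : (t₀ : ℂ) ≠ 0 := by
      intro h0
      rw [h0, zero_mul] at e₀
      exact one_ne_zero e₀
    refine ⟨t / t₀, div_nonneg ht ht₀, ?_⟩
    rw [e₁, ofReal_div, eq_div_iff hne]
    linear_combination (-(t : ℂ)) * e₀
  have hA : ∀ᶠ j in hyperfilter ℕ, En (sc x (y j - x) u) (closedBall 1 κ) < ε₁ * κ := by
    refine (hconv 1 κ).1.eventually (gt_mem_nhds ?_)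
    refine (en_le hGM hgrad hκ0.le hκ1).trans_lt ?_
    nlinarith [mul_pos hε₁ hκ0]
  have hB := (hconv 1 κ').2 (κ' / 5) (by linarith [hκ'.1])
  have hC := hLim.far _ (bad_compact ε₂) (bad_sub hreal hε₂)
  obtain ⟨j, hA, hB, hC⟩ := (hA.and (hB.and hC)).exists
  refine hybad j ⟨?_, ?_, fun z hz a1 a2 => dir_le (hyx j) a1 a2 fun hbad => ?_⟩
  · rw [en_scale hScale x (hd j), haf1, div_lt_iff₀ (hpos j), mul_comm ‖y j - x‖] at hA
    linarith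
  · have hl := hB.trans (add_le_add_left (len_le hreal hκ'.1.le) _)
    rw [len_scale hScale x (hd j), haf1, div_le_iff₀ (hpos j), mul_comm ‖y j - x‖] at hl
    linarith
  · refine disjoint_left.1 hC hbad ?_
    show af x (y j - x) ((z - x) / (y j - x)) ∈ K
    rw [af, mul_div_cancel₀ _ (hd j), add_sub_cancel]
    exact hz

end Vale.Agent.P128
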