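import Vale.Agent.P128.Stm

open MeasureTheory Set Metric Filter Topology Complex
open scoped ENNReal ComplexConjugate Real

noncomputable section
namespace Vale.Agent.P128

namespace High

theorem notIso {Ω K : Set ℂ} {u : ℂ → ℝ} {Λ M : ℝ} (h : IsMS Ω K u Λ M) {x : ℂ} (hx : x ∈ K)
    (hΩ : x ∈ Ω) (δ : ℝ) (hδ : 0 < δ) : ∃ y ∈ K, y ≠ x ∧ ‖y - x‖ < δ := by
  by_contra hn
  have h1 : K ∩ ball x δ ⊆ {x} := fun y hy => by
    by_contra h2
    exact hn ⟨y, hy.1, h2, mem_ball_iff_norm.1 hy.2⟩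
  have := Measure.nullSingletonClass_hausdorff ℂ one_pos
  exact (h.red x hx hΩ δ hδ).ne' (measure_mono_null h1 (measure_singleton x))

end High

theorem high_pf (hHi : HiStmt) (hAm : AmStmt) (hFl : FlStmt) (hParam : ParamStmt)
    (hRate : RateStmt) (hTiplow : TiplowStmt) (hRay : RayStmt) (hJunc : JuncStmt)
    : HighStmt := by
  intro Ω K u Λ M A hR x hx hΩ D hD hT b hb
  have ms := hR.ms
  have a0 := ms.a0
  have A1 := hR.A1
  obtain ⟨ε, hε, fl⟩ := hFl (1 / 100) (by norm_num)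
  obtain ⟨δ, hδ, am⟩ := hAm A ε hε
  obtain ⟨κ, hκ, κ1, hi⟩ := hHi Ω K u Λ M ms x hx hΩ D hD hT (δ / 2) (by positivity)
  obtain ⟨r₁, hr₁, hi⟩ := hi (κ / 2) ⟨by positivity, by linarith⟩ (κ / 32 / 100) (by positivity)
  obtain ⟨R, hR0, hRΩ⟩ := nhds_basis_closedBall.mem_iff.1 (ms.op.mem_nhds hΩ)
  obtain ⟨r, r0, r1, rb, rR, rδ⟩ : ∃ r, 0 < r ∧ r ≤ r₁ ∧ r ≤ b ∧ (A + 2) * r ≤ R ∧
      (Λ * M + 1) * r ≤ min δ 1 := by
    refine ⟨min (min r₁ b) (min (R / (A + 2)) (min δ 1 / (Λ * M + 1))), by positivity,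
      (min_le_left _ _).trans (min_le_left _ _), (min_le_left _ _).trans (min_le_right _ _),
      (le_div_iff₀' (by positivity)).1 ((min_le_right _ _).trans (min_le_left _ _)),
      (le_div_iff₀' (by positivity)).1 ((min_le_right _ _).trans (min_le_right _ _))⟩
  have Ar : r ≤ A * r := le_mul_of_one_le_left r0.le A1
  have tan : TanH K x r (κ / 32) (1 / 12) := fun y hy hne hyr => by
    have s0 : 0 < ‖y - x‖ := norm_pos_iff.2 (sub_ne_zero.2 hne)
    obtain ⟨e1, e2, -⟩ := hi y hy hne (hyr.trans r1)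
    have ks : κ * ‖y - x‖ ≤ 1 / 2 * r := mul_le_mul κ1 hyr s0.le (by norm_num)
    have h3 : closedBall y (κ * ‖y - x‖) ⊆ Ω :=
      (closedBall_subset_closedBall' (by rw [dist_eq_norm]; linarith)).trans hRΩ
    obtain ⟨τ, hτ⟩ := fl K y (κ / 2 * ‖y - x‖) hy (by positivity) (fun z hz => by
      have hz2 : dist z y ≤ κ / 2 * ‖y - x‖ := hz.2
      refine am Ω K u Λ M hR z hz.1 _ (by positivity)
        ((closedBall_subset_closedBall' ?_).trans hRΩ) ?_ ?_
      · have := dist_triangle z y x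
        rw [dist_eq_norm y x] at this
        have : A * (κ / 2 * ‖y - x‖) ≤ A * r := mul_le_mul_of_nonneg_left (by linarith) (by linarith)
        linarith
      · refine (En_mono (closedBall_subset_closedBall' (by linarith)) (ms.int _ _ h3)).trans ?_
        linarith
      · have : Λ * M * (κ / 2 * ‖y - x‖) ≤ Λ * M * r := mul_le_mul_of_nonneg_left (by linarith) a0
        linarith [min_le_left δ 1]) e2
    exact ⟨τ, by rwa [show κ / 32 * ‖y - x‖ = κ / 2 * ‖y - x‖ / 16 by ring]⟩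
  obtain ⟨γ, τ, tip⟩ := hParam K x r (κ / 32) (1 / 12) ms.cl hx r0 (by positivity) (by linarith)
    (by norm_num) (by norm_num) tan (fun y hy hne hyr => (hi y hy hne (hyr.trans r1)).2.2)
    (High.notIso ms hx hΩ)
  obtain ⟨ε', hε', ray⟩ := hRay (1 / 2) 1 (by norm_num) (by norm_num) one_pos
  obtain ⟨c, c0, cr, cone⟩ := hRate Ω K u Λ M ms x (r / 2) γ τ tip
    ((closedBall_subset_closedBall (by linarith)).trans hRΩ) (by linarith [min_le_right δ 1])
    ε' hε'
  obtain ⟨Φ, hΦ⟩ := ray K x 1 c le_rfl (by norm_num) cone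
    (hTiplow K x (r / 2) γ τ ms.cl tip c ε' (1 / 2) c0 cr hε'.le)
  exact (hJunc K x Φ 1 (c / 4) 1 (κ / 32) (1 / 2 / 2) (1 / 12) ms.cl hx (Or.inl rfl)
    (by positivity) (by positivity) (by linarith) (by norm_num) (by norm_num) (by norm_num)
    (by norm_num) hΦ fun y hy hne hyr => tan y hy hne (by linarith)).mono (by linarith)

end Vale.Agent.P128
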