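import Vale.Agent.P128.Stm

open MeasureTheory Set Metric Filter Topology Complex
open scoped ENNReal ComplexConjugate Real

noncomputable section
namespace Vale.Agent.P128

namespace Holk

theorem meas {ψ : ℂ → ℂ} (hm : AEStronglyMeasurable ψ) (a : ℂ) (k : ℕ) :
    AEStronglyMeasurable fun z => ψ z / (a - z) ^ k := by
  have h : Measurable fun z : ℂ => ((a - z) ^ k)⁻¹ := by fun_prop
  simp only [div_eq_mul_inv]
  exact hm.mul h.aestronglyMeasurable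

theorem gen {ψ : ℂ → ℂ} (hm : AEStronglyMeasurable ψ) {a : ℂ} {δ : ℝ} (hδ : 0 < δ) (k : ℕ)
    (hne : ∀ z, ψ z ≠ 0 → ∀ a' ∈ ball a δ, a' - z ≠ 0)
    (hi : Integrable fun z => ψ z / (a - z) ^ (k + 1)) {g : ℂ → ℝ} (hg : Integrable g)
    (hb : ∀ z, ∀ a' ∈ ball a δ, ‖ψ z / (a' - z) ^ (k + 2)‖ ≤ g z) :
    HasDerivAt (fun a => ∫ z, ψ z / (a - z) ^ (k + 1))
      (-(k + 1 : ℂ) * ∫ z, ψ z / (a - z) ^ (k + 2)) a := by
  rw [← integral_const_mul]
  refine (hasDerivAt_integral_of_dominated_loc_of_deriv_le (μ := volume)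
    (F := fun a z => ψ z / (a - z) ^ (k + 1))
    (F' := fun a z => -(k + 1 : ℂ) * (ψ z / (a - z) ^ (k + 2)))
    (bound := fun z => ‖-(k + 1 : ℂ)‖ * g z) (ball_mem_nhds a hδ)
    (Eventually.of_forall fun a' => meas hm a' _) hi ((meas hm a _).const_mul _)
    (Eventually.of_forall fun z a' ha' => ?_) (hg.const_mul _)
    (Eventually.of_forall fun z a' ha' => ?_)).2
  · rw [norm_mul]
    exact mul_le_mul_of_nonneg_left (hb z a' ha') (norm_nonneg _)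
  · by_cases h0 : ψ z = 0
    · simp only [h0, zero_div, mul_zero]
      exact hasDerivAt_const _ _
    · have h1 := hne z h0 a' ha'
      have h2 := (hasDerivAt_const a' (ψ z)).fun_div
        (((hasDerivAt_id' a').sub_const z).fun_pow (k + 1)) (pow_ne_zero _ h1)
      refine h2.congr_deriv ?_
      simp only [Nat.add_sub_cancel]
      push_cast
      field_simp
      ring

theorem far {O : Set ℂ} (hO : IsOpen O) {a : ℂ} (ha : a ∈ O) :
    ∃ δ, 0 < δ ∧ ∀ z, z ∉ O → ∀ a' ∈ ball a δ, δ ≤ ‖a' - z‖ := by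
  obtain ⟨r, r0, hr⟩ := Metric.isOpen_iff.1 hO a ha
  refine ⟨r / 2, by positivity, fun z hz a' ha' => ?_⟩
  have h1 : r ≤ dist z a := not_lt.1 fun h => hz (hr h)
  have h2 := dist_triangle_left z a a'
  rw [← dist_eq_norm]
  linarith [mem_ball.1 ha']

theorem bd {ψ : ℂ → ℂ} {O : Set ℂ} (h0 : ∀ z ∈ O, ψ z = 0) {z w : ℂ} {c : ℝ} (hc : 0 < c)
    (k : ℕ) (h : z ∉ O → c ≤ ‖w‖ ^ k) : ‖ψ z / w ^ k‖ ≤ ‖ψ z‖ / c := by
  by_cases hz : z ∈ O
  · simp [h0 z hz]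
  · rw [norm_div, norm_pow]
    exact div_le_div_of_nonneg_left (norm_nonneg _) hc (h hz)

theorem one (ψ : ℂ → ℂ) (O : Set ℂ) (hm : AEStronglyMeasurable ψ)
    (hi : Integrable fun z => ‖ψ z‖ / (1 + ‖z‖) ^ 2) (hO : IsOpen O) (h0 : ∀ z ∈ O, ψ z = 0)
    (a : ℂ) (ha : a ∈ O) : (Integrable fun z => ψ z / (a - z) ^ 2) ∧
      DifferentiableAt ℂ (fun a => ∫ z, ψ z / (a - z) ^ 2) a := by
  obtain ⟨δ, δ0, hδ⟩ := far hO ha
  obtain ⟨c, hc⟩ : ∃ c, c = δ / (1 + ‖a‖ + 2 * δ) := ⟨_, rfl⟩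
  have c0 : 0 < c := by rw [hc]; positivity
  have h1 : ∀ z, z ∉ O → ∀ a' ∈ ball a δ, c * (1 + ‖z‖) ≤ ‖a' - z‖ := by
    intro z hz a' ha'
    have k1 := hδ z hz a' ha'
    have k2 : ‖a'‖ ≤ ‖a‖ + δ := by
      have := norm_sub_norm_le a' a
      linarith [mem_ball_iff_norm.1 ha']
    have k3 : ‖z‖ ≤ ‖a'‖ + ‖a' - z‖ := by
      have := norm_sub_norm_le z a'
      rw [norm_sub_rev] at this
      linarith
    rw [hc, div_mul_eq_mul_div, div_le_iff₀ (by positivity)]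
    have k4 : δ * (1 + ‖a‖ + δ) ≤ ‖a' - z‖ * (1 + ‖a‖ + δ) := by gcongr
    nlinarith
  have i1 : Integrable fun z => ψ z / (a - z) ^ 2 := by
    refine (hi.div_const (c ^ 2)).mono' (meas hm a 2) (Eventually.of_forall fun z => ?_)
    rw [div_div, ← mul_pow]
    refine bd h0 (by positivity) 2 fun hz => ?_
    have := h1 z hz a (mem_ball_self δ0)
    rw [mul_comm]
    gcongr
  refine ⟨i1, (gen hm δ0 1 (fun z hz a' ha' => ?_) i1 (hi.div_const (c ^ 2 * δ))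
    fun z a' ha' => ?_).differentiableAt⟩
  · exact norm_pos_iff.1 (δ0.trans_le (hδ z (fun h => hz (h0 z h)) a' ha'))
  · rw [div_div]
    refine bd h0 (by positivity) 3 fun hz => ?_
    have k1 := h1 z hz a' ha'
    have k2 := hδ z hz a' ha'
    calc (1 + ‖z‖) ^ 2 * (c ^ 2 * δ) = (c * (1 + ‖z‖)) ^ 2 * δ := by ring
      _ ≤ ‖a' - z‖ ^ 2 * ‖a' - z‖ := by gcongr
      _ = _ := by ring

theorem two (ψ : ℂ → ℂ) (hi : Integrable ψ) (O : Set ℂ) (hO : IsOpen O) (h0 : ∀ z ∈ O, ψ z = 0)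
    (a : ℂ) (ha : a ∈ O) :
    HasDerivAt (cau ψ) (-(1 / π : ℂ) * ∫ z, ψ z / (a - z) ^ 2) a := by
  obtain ⟨δ, δ0, hδ⟩ := far hO ha
  have hm := hi.aestronglyMeasurable
  have i1 : Integrable fun z => ψ z / (a - z) ^ (0 + 1) := by
    refine (hi.norm.div_const δ).mono' (meas hm a _) (Eventually.of_forall fun z => ?_)
    refine bd h0 δ0 _ fun hz => ?_
    rw [zero_add, pow_one]
    exact hδ z hz a (mem_ball_self δ0)
  have h1 := gen hm δ0 0 (fun z hz a' ha' =>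
    norm_pos_iff.1 (δ0.trans_le (hδ z (fun h => hz (h0 z h)) a' ha'))) i1
    (hi.norm.div_const (δ ^ 2)) fun z a' ha' => bd h0 (by positivity) 2 fun hz => by
      have := hδ z hz a' ha'
      gcongr
  simp only [zero_add, pow_one, Nat.cast_zero] at h1
  refine (h1.const_mul (1 / π : ℂ)).congr_deriv ?_
  ring

theorem nb {ψ : ℂ → ℂ} (hi : Integrable ψ) {O : Set ℂ} (h0 : ∀ z ∈ O, ψ z = 0) (a : ℂ) {c : ℝ}
    (hc : 0 < c) (k : ℕ) (h : ∀ z, z ∉ O → c ≤ ‖a - z‖) :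
    ‖∫ z, ψ z / (a - z) ^ k‖ ≤ (∫ z, ‖ψ z‖) / c ^ k := by
  rw [← integral_div]
  refine norm_integral_le_of_norm_le (hi.norm.div_const _) (Eventually.of_forall fun z => ?_)
  refine bd h0 (by positivity) k fun hz => ?_
  have := h z hz
  gcongr

end Holk

theorem holk_pf : HolkStmt := by
  refine ⟨fun ψ O hm hi hO h0 => ⟨fun a ha => (Holk.one ψ O hm hi hO h0 a ha).1,
    fun a ha => (Holk.one ψ O hm hi hO h0 a ha).2.differentiableWithinAt⟩,
    fun ψ R hi hR h0 => ⟨fun O hO h0' a ha => Holk.two ψ hi O hO h0' a ha, fun a ha => ?_⟩⟩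
  have hO : IsOpen {z : ℂ | R < ‖z‖} := isOpen_lt continuous_const continuous_norm
  have a0 : 0 < ‖a‖ := by linarith
  have h1 : ∀ z : ℂ, z ∉ {z : ℂ | R < ‖z‖} → ‖a‖ / 2 ≤ ‖a - z‖ := fun z hz => by
    have k1 : ‖z‖ ≤ R := not_lt.1 hz
    linarith [norm_sub_norm_le a z]
  have p3 : ‖(1 / π : ℂ)‖ ≤ 1 / 2 := by
    rw [norm_div, norm_one, norm_real, Real.norm_eq_abs, abs_of_pos Real.pi_pos]
    exact one_div_le_one_div_of_le two_pos Real.two_le_pi
  have I0 : 0 ≤ ∫ z, ‖ψ z‖ := integral_nonneg fun _ => norm_nonneg _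
  refine ⟨?_, ?_⟩
  · have k := Holk.nb hi (O := {z : ℂ | R < ‖z‖}) h0 a (by positivity) 1 h1
    simp only [pow_one] at k
    rw [cau, norm_mul]
    refine (mul_le_mul p3 k (norm_nonneg _) (by norm_num)).trans (le_of_eq ?_)
    field_simp
  · have k := Holk.nb hi (O := {z : ℂ | R < ‖z‖}) h0 a (by positivity) 2 h1
    have k2 := dz_db_of_hasDerivAt (Holk.two ψ hi _ hO h0 a (by
      change R < ‖a‖
      linarith))
    rw [norm_fderiv_eq, k2.1, k2.2, norm_zero, add_zero, norm_mul, norm_neg]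
    refine (mul_le_mul p3 k (norm_nonneg _) (by norm_num)).trans (le_of_eq ?_)
    field_simp

end Vale.Agent.P128
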