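import Vale.Agent.P128.Stm

open MeasureTheory Set Metric Filter Topology Complex
open scoped ENNReal ComplexConjugate Real

noncomputable section
namespace Vale.Agent.P128

theorem int_pf (hMono : MonoStmt) (hHigh : HighStmt) (hAm : AmStmt) (hLowgeo : LowgeoStmt) :
    IntStmt := by
  intro Ω K u Λ M A h x hxK hxΩ b hb
  obtain ⟨R, hR, hRΩ⟩ := nhds_basis_closedBall.mem_iff.1 (h.ms.op.mem_nhds hxΩ)
  have hA := h.A1
  have ha := h.ms.a0
  set a := Λ * M with ha_def
  set r₀ := R / (A + 1) with hr₀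
  have hr₀pos : 0 < r₀ := by positivity
  have hRr : (A + 1) * r₀ = R := by rw [hr₀]; field_simp
  set F : ℝ → ℝ := fun r => En u (closedBall x r) / r with hF
  have hF0 : ∀ r, 0 < r → 0 ≤ F r := fun r hr => div_nonneg (En_nonneg _ _) hr.le
  have hm : ∀ s t, 0 < s → s ≤ t → t ≤ r₀ → F s ≤ F t + 100 * A ^ 2 * a * t := by
    intro s t hs hst ht
    refine hMono Ω K u Λ M A h x s t hs hst (subset_trans (closedBall_subset_closedBall ?_) hRΩ)
    nlinarith
  -- the limit of the energy density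
  set D := sInf ((fun t => F t + 100 * A ^ 2 * a * t) '' Ioc 0 r₀) with hD
  have hbdd : BddBelow ((fun t => F t + 100 * A ^ 2 * a * t) '' Ioc 0 r₀) := by
    refine ⟨0, ?_⟩
    rintro _ ⟨t, ht, rfl⟩
    have := hF0 t ht.1
    have := ht.1
    positivity
  have hne : ((fun t => F t + 100 * A ^ 2 * a * t) '' Ioc 0 r₀).Nonempty :=
    ⟨_, r₀, ⟨hr₀pos, le_rfl⟩, rfl⟩
  have hD0 : 0 ≤ D := by
    refine le_csInf hne ?_
    rintro _ ⟨t, ht, rfl⟩
    have := hF0 t ht.1
    have := ht.1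
    positivity
  have hlin : Tendsto (fun t : ℝ => 100 * A ^ 2 * a * t) (𝓝[>] 0) (𝓝 0) := by
    have : Continuous fun t : ℝ => 100 * A ^ 2 * a * t := by fun_prop
    simpa using (this.tendsto 0).mono_left nhdsWithin_le_nhds
  have hlim : Tendsto F (𝓝[>] 0) (𝓝 D) := by
    rw [tendsto_order]
    constructor
    · intro c hc
      filter_upwards [Ioc_mem_nhdsGT hr₀pos, (tendsto_order.1 hlin).2 (D - c) (by linarith)]
        with t ht h1
      have : D ≤ F t + 100 * A ^ 2 * a * t := csInf_le hbdd ⟨t, ht, rfl⟩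
      linarith
    · intro c hc
      obtain ⟨_, ⟨t, ht, rfl⟩, h1⟩ := exists_lt_of_csInf_lt hne hc
      filter_upwards [Ioc_mem_nhdsGT ht.1] with s hs
      exact (hm s t hs.1 hs.2 ht.2).trans_lt h1
  rcases hD0.lt_or_eq with hpos | h0
  · exact hHigh Ω K u Λ M A h x hxK hxΩ D hpos hlim b hb
  obtain ⟨ε, hε, hL⟩ := hLowgeo
  obtain ⟨δ, hδ, hAm'⟩ := hAm A ε hε
  have hal : Tendsto (fun t : ℝ => a * t) (𝓝[>] 0) (𝓝 0) := by
    have : Continuous fun t : ℝ => a * t := by fun_prop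
    simpa using (this.tendsto 0).mono_left nhdsWithin_le_nhds
  have e1 : ∀ᶠ t in 𝓝[>] (0 : ℝ), t ∈ Ioc 0 r₀ := Ioc_mem_nhdsGT hr₀pos
  have e2 : ∀ᶠ t in 𝓝[>] (0 : ℝ), t ∈ Ioc 0 b := Ioc_mem_nhdsGT hb
  obtain ⟨t, ht1, ht2, ht3, ht4⟩ := (e1.and (e2.and
    (((tendsto_order.1 hlim).2 (δ / 2) (by linarith)).and
      ((tendsto_order.1 hal).2 δ hδ)))).exists
  have ht0 := ht1.1
  have htR : closedBall x t ⊆ Ω :=
    subset_trans (closedBall_subset_closedBall (by nlinarith [ht1.2])) hRΩ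
  refine (hL K x (t / 2) hxK (by positivity) fun z hz => ?_).mono (by linarith [ht2.2])
  have hz' : dist z x ≤ t / 2 := hz.2
  refine hAm' Ω K u Λ M h z hz.1 (t / 2) (by positivity) ?_ ?_ (by nlinarith)
  · refine subset_trans (closedBall_subset_closedBall' ?_) hRΩ
    nlinarith [ht1.2]
  · refine (En_mono (closedBall_subset_closedBall' (by linarith)) (h.ms.int x t htR)).trans ?_
    have := (div_lt_iff₀ ht0).1 ht3
    linarith

/-- the final assembly -/
theorem final (hReg : RegStmt) (hBrg : BrgStmt) (hLc : LcStmt) (hInt : IntStmt)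
    (Ω : Set ℂ) (g u : ℂ → ℝ) (G : ℂ → ℂ) (K : Set ℂ) (hΩ : IsOpen Ω)
    (hg : MemLp g ⊤ (volume.restrict Ω)) (hmin : IsMin Ω g u G K) (hred : Reduced Ω K) :
    ∀ x ∈ K, ∃ N ∈ 𝓝 x, N ⊆ Ω ∧ ∃ α : ℝ, 0 < α ∧ IsModel α x (K ∩ N) := by
  intro x hx
  have hxΩ := hmin.1.sub hx
  obtain ⟨v, hv⟩ := hReg Ω g u G K hΩ hg hmin
  obtain ⟨M, R₁, hR₁, hsub, hms⟩ := hBrg Ω g u G K v hΩ hg hmin hred hv x hxΩ
  obtain ⟨A, c, hc, hL⟩ := hLc
  set R := min (R₁ / 2) (c / (4 * M * M + 1)) with hR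
  have hMM : 0 ≤ 4 * M * M := by nlinarith [sq_nonneg M]
  have hR0 : 0 < R := lt_min (by positivity) (by positivity)
  have hR1 : R < R₁ := (min_le_left _ _).trans_lt (by linarith)
  have hreg := hL _ _ _ _ _ (hms R ⟨hR0, hR1⟩) (fun y r hyr => by
    by_cases hr : r ≤ 0
    · nlinarith
    push Not at hr
    have hrR : r ≤ R := by
      by_contra hlt
      push Not at hlt
      have h1 := hyr (show y + r ∈ closedBall y r by simp [abs_of_pos hr])
      have h2 := hyr (show y - r ∈ closedBall y r by simp [abs_of_pos hr])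
      rw [mem_ball, dist_eq_norm] at h1 h2
      have h3 := norm_sub_le (y + r - x) (y - r - x)
      rw [show y + r - x - (y - r - x) = ((2 * r : ℝ) : ℂ) by push_cast; ring, Complex.norm_real,
        Real.norm_eq_abs, abs_of_pos (by linarith)] at h3
      linarith
    have h4 : R * (4 * M * M + 1) ≤ c := (le_div_iff₀ (by positivity)).1 (min_le_right _ _)
    nlinarith)
  obtain ⟨r, α, S, hr, hα, hmod, h1, h2⟩ := hInt _ _ _ _ _ _ hreg x
    ⟨hx, mem_closedBall_self hR₁.le⟩ (mem_ball_self hR0) R hR0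
  refine ⟨ball x (min r R) ∪ S, mem_of_superset (ball_mem_nhds x (lt_min hr hR0))
    subset_union_left, ?_, α, hα, ?_⟩
  · refine union_subset ?_ fun z hz => hmin.1.sub (h2 hz).1.1
    exact (ball_subset_closedBall.trans (closedBall_subset_closedBall
      ((min_le_right _ _).trans hR1.le))).trans hsub
  · have : K ∩ (ball x (min r R) ∪ S) = S := by
      apply Subset.antisymm
      · rintro z ⟨hzK, hz | hz⟩
        · exact h1 ⟨⟨hzK, ball_subset_closedBall (ball_subset_ball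
            ((min_le_right _ _).trans hR1.le) hz)⟩, ball_subset_ball (min_le_left _ _) hz⟩
        · exact hz
      · exact fun z hz => ⟨(h2 hz).1.1, Or.inr hz⟩
    rwa [this]

end Vale.Agent.P128
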