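import Vale.Agent.P128.Stm

open MeasureTheory Set Metric Filter Topology Complex
open scoped ENNReal ComplexConjugate Real

noncomputable section
namespace Vale.Agent.P128

namespace Iso

theorem cd {F : Type*} [NormedAddCommGroup F] [NormedSpace ℝ F] {f : ℂ → F}
    (hf : ContDiff ℝ (⊤ : ℕ∞) f) (v : ℂ) : ContDiff ℝ (⊤ : ℕ∞) fun z => fderiv ℝ f z v :=
  (hf.fderiv_right (m := (⊤ : ℕ∞)) (by exact_mod_cast le_top)).clm_apply contDiff_const

theorem second {f : ℂ → ℝ} (hf : ContDiff ℝ (⊤ : ℕ∞) f) (u v z : ℂ) :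
    fderiv ℝ (fun z => fderiv ℝ f z u) z v = fderiv ℝ (fderiv ℝ f) z v u := by
  have h1 : DifferentiableAt ℝ (fderiv ℝ f) z :=
    (hf.fderiv_right (m := (⊤ : ℕ∞)) (by exact_mod_cast le_top)).differentiable (by simp) z
  rw [fderiv_clm_apply h1 (differentiableAt_const u)]
  simp

theorem ibp {f g : ℂ → ℝ} (hf : ContDiff ℝ (⊤ : ℕ∞) f) (hg : ContDiff ℝ (⊤ : ℕ∞) g)
    (hc : HasCompactSupport g) (u v : ℂ) :
    ∫ z, fderiv ℝ f z u * fderiv ℝ g z v = -∫ z, fderiv ℝ (fderiv ℝ f) z v u * g z := by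
  rw [integral_mul_fderiv_eq_neg_fderiv_mul_of_integrable (f := fun z => fderiv ℝ f z u)
    (((cd (cd hf u) v).continuous.mul hg.continuous).integrable_of_hasCompactSupport hc.mul_left)
    (((cd hf u).continuous.mul (cd hg v).continuous).integrable_of_hasCompactSupport
      (hc.fderiv_apply (𝕜 := ℝ) v).mul_left)
    (((cd hf u).continuous.mul hg.continuous).integrable_of_hasCompactSupport hc.mul_left)
    (fun x _ => (cd hf u).differentiable (by simp) x) fun x _ => hg.differentiable (by simp) x]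
  simp only [second hf]

theorem swap {f g : ℂ → ℝ} (hf : ContDiff ℝ (⊤ : ℕ∞) f) (hg : ContDiff ℝ (⊤ : ℕ∞) g)
    (hc : HasCompactSupport g) (u v : ℂ) :
    ∫ z, fderiv ℝ f z u * fderiv ℝ g z v = ∫ z, fderiv ℝ f z v * fderiv ℝ g z u := by
  rw [ibp hf hg hc, ibp hf hg hc]
  have hs : ∀ z, fderiv ℝ (fderiv ℝ f) z v u = fderiv ℝ (fderiv ℝ f) z u v := fun z => by
    refine ContDiffAt.isSymmSndFDerivAt (n := (⊤ : ℕ∞)) hf.contDiffAt ?_ v u
    simp only [minSmoothness_of_isRCLikeNormedField]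
    exact WithTop.coe_le_coe.2 (le_top : (2 : ℕ∞) ≤ ⊤)
  simp only [hs]

theorem alg (a b : ℂ) :
    ‖(a - I * b) / 2‖ ^ 2 = ‖(a + I * b) / 2‖ ^ 2 + (a.re * b.im - b.re * a.im) := by
  simp only [Complex.sq_norm, normSq_apply, div_ofNat_re, div_ofNat_im, sub_re, sub_im, add_re,
    add_im, mul_re, mul_im, I_re, I_im]
  ring

end Iso

theorem iso_pf : IsoStmt := by
  intro Θ hΘ hc
  have hf : ContDiff ℝ (⊤ : ℕ∞) fun z => (Θ z).re := reCLM.contDiff.comp hΘ
  have hg : ContDiff ℝ (⊤ : ℕ∞) fun z => (Θ z).im := imCLM.contDiff.comp hΘ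
  have hcg : HasCompactSupport fun z => (Θ z).im := hc.comp_left (g := Complex.im) rfl
  have hd : ∀ z, HasFDerivAt Θ (fderiv ℝ Θ z) z := fun z =>
    (hΘ.differentiable (by simp) z).hasFDerivAt
  have e1 : ∀ z v, fderiv ℝ (fun z => (Θ z).re) z v = (fderiv ℝ Θ z v).re := fun z v => by
    have h : fderiv ℝ (fun z => (Θ z).re) z = _ := (reCLM.hasFDerivAt.comp z (hd z)).fderiv
    rw [h]; rfl
  have e2 : ∀ z v, fderiv ℝ (fun z => (Θ z).im) z v = (fderiv ℝ Θ z v).im := fun z v => by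
    have h : fderiv ℝ (fun z => (Θ z).im) z = _ := (imCLM.hasFDerivAt.comp z (hd z)).fderiv
    rw [h]; rfl
  have int : ∀ u v, Integrable fun z =>
      fderiv ℝ (fun z => (Θ z).re) z u * fderiv ℝ (fun z => (Θ z).im) z v := fun u v =>
    ((Iso.cd hf u).continuous.mul (Iso.cd hg v).continuous).integrable_of_hasCompactSupport
      (hcg.fderiv_apply (𝕜 := ℝ) v).mul_left
  have h1 := Iso.swap hf hg hcg 1 I
  have h2 : ∫ z, (fderiv ℝ (fun z => (Θ z).re) z 1 * fderiv ℝ (fun z => (Θ z).im) z I -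
      fderiv ℝ (fun z => (Θ z).re) z I * fderiv ℝ (fun z => (Θ z).im) z 1) = 0 := by
    rw [integral_sub (int 1 I) (int I 1), h1, sub_self]
  have i1 : Integrable fun z =>
      fderiv ℝ (fun z => (Θ z).re) z 1 * fderiv ℝ (fun z => (Θ z).im) z I -
      fderiv ℝ (fun z => (Θ z).re) z I * fderiv ℝ (fun z => (Θ z).im) z 1 :=
    (int 1 I).sub (int I 1)
  have i2 : Integrable fun z => ‖db Θ z‖ ^ 2 := by
    have c1 := (Iso.cd hΘ 1).continuous
    have c2 := (Iso.cd hΘ I).continuous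
    refine Continuous.integrable_of_hasCompactSupport (by unfold db; fun_prop) ?_
    exact (hc.fderiv (𝕜 := ℝ)).comp_left (g := fun A : ℂ →L[ℝ] ℂ => ‖(A 1 + I * A I) / 2‖ ^ 2)
      (by simp)
  have e3 : ∀ z, ‖dz Θ z‖ ^ 2 = ‖db Θ z‖ ^ 2 +
      (fderiv ℝ (fun z => (Θ z).re) z 1 * fderiv ℝ (fun z => (Θ z).im) z I -
        fderiv ℝ (fun z => (Θ z).re) z I * fderiv ℝ (fun z => (Θ z).im) z 1) := fun z => by
    rw [e1, e1, e2, e2]
    exact Iso.alg _ _
  simp only [e3]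
  rw [integral_add i2 i1, h2, add_zero]

end Vale.Agent.P128
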