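import Vale.Agent.P128.Stm

open MeasureTheory Set Metric Filter Topology Complex
open scoped ENNReal ComplexConjugate Real

noncomputable section
namespace Vale.Agent.P128

namespace Junc

/-- the branch of `K` in the direction `e` -/
def br (K : Set ℂ) (x e : ℂ) (r : ℝ) : Set ℂ :=
  {x} ∪ {z ∈ K | z ≠ x ∧ ‖z - x‖ ≤ 2 * r ∧ ‖dir x z - e‖ ≤ 1 / 2 ∧ (conj e * (z - x)).re ≤ r}

theorem exists_roots {Φ : ℂ} (hΦ : ‖Φ‖ = 1) : ∃ e : Fin 3 → ℂ, (∀ k, e k ^ 3 = Φ) ∧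
    (∀ i j, i ≠ j → inner ℝ (e i) (e j) = -1 / 2) ∧ ∀ d, d ^ 3 - Φ = ∏ k, (d - e k) := by
  obtain ⟨a, ha⟩ := IsAlgClosed.exists_pow_nat_eq Φ (by norm_num : 0 < 3)
  have h3 : √3 * √3 = 3 := Real.mul_self_sqrt (by norm_num)
  obtain ⟨ω, hω, h1, h2⟩ : ∃ ω : ℂ, ω ^ 2 + ω + 1 = 0 ∧ conj ω = ω ^ 2 ∧ ω.re = -1 / 2 := by
    refine ⟨⟨-1 / 2, √3 / 2⟩, ?_, ?_, rfl⟩
    · apply Complex.ext <;> simp [pow_two] <;> linarith
    · apply Complex.ext <;> simp [pow_two] <;> linarith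
  have hn : ‖a‖ = 1 := by
    rw [← ha, norm_pow] at hΦ
    exact (pow_eq_one_iff_of_nonneg (norm_nonneg _) (by norm_num)).1 hΦ
  have hc : a * conj a = 1 := by rw [mul_conj, normSq_eq_norm_sq, hn]; simp
  have h4 : ω ^ 3 = 1 := by linear_combination (ω - 1) * hω
  have h5 : (ω ^ 2).re = -1 / 2 := by rw [← h1, conj_re, h2]
  have k01 : a * ω * conj a = ω := by linear_combination ω * hc
  have k02 : a * ω ^ 2 * conj a = ω ^ 2 := by linear_combination ω ^ 2 * hc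
  have k12 : a * ω ^ 2 * conj (a * ω) = ω := by
    rw [map_mul, h1]; linear_combination ω ^ 4 * hc + ω * h4
  refine ⟨![a, a * ω, a * ω ^ 2], fun k => ?_, fun i j hij => ?_, fun d => ?_⟩
  · fin_cases k
    · exact ha
    · change (a * ω) ^ 3 = Φ
      linear_combination ha + a ^ 3 * h4
    · change (a * ω ^ 2) ^ 3 = Φ
      linear_combination ha + a ^ 3 * (ω ^ 3 + 1) * h4
  · have i01 : inner ℝ a (a * ω) = -1 / 2 := by rw [Complex.inner, k01, h2]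
    have i02 : inner ℝ a (a * ω ^ 2) = -1 / 2 := by rw [Complex.inner, k02, h5]
    have i12 : inner ℝ (a * ω) (a * ω ^ 2) = -1 / 2 := by rw [Complex.inner, k12, h2]
    fin_cases i <;> fin_cases j
    exacts [absurd rfl hij, i01, i02, (real_inner_comm _ _).trans i01, absurd rfl hij, i12,
      (real_inner_comm _ _).trans i02, (real_inner_comm _ _).trans i12, absurd rfl hij]
  · rw [Fin.prod_univ_three]
    change d ^ 3 - Φ = (d - a) * (d - a * ω) * (d - a * ω ^ 2)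
    linear_combination ha + (a * d ^ 2 - a ^ 2 * d * ω) * hω + a ^ 3 * h4

theorem norm_root {K : Set ℂ} {x Φ e : ℂ} {n : ℕ} {b ε γ : ℝ} (hn : n ≠ 0)
    (h : Ray K x n b ε γ Φ) (he : e ^ n = Φ) : ‖e‖ = 1 := by
  have := h.unit
  rw [← he, norm_pow] at this
  exact (pow_eq_one_iff_of_nonneg (norm_nonneg _) hn).1 this

theorem branch (hBr : BrStmt) {K : Set ℂ} {x Φ e : ℂ} {n : ℕ} {b ε κ γ γ' : ℝ} (hK : IsClosed K)
    (hn : n ≠ 0) (hb : 0 < b) (h1 : 0 < κ) (h2 : κ ≤ 1) (h3 : 0 < γ) (h4 : γ ≤ 1) (h5 : 0 < γ')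
    (h6 : γ' ≤ 1) (h : Ray K x n b ε γ Φ) (hT : TanH K x b κ γ') (he : e ^ n = Φ)
    (hd : ∀ d, ‖d - e‖ ≤ 1 / 2 → ‖d - e‖ ≤ ‖d ^ n - Φ‖) :
    ∀ᶠ r in 𝓝[>] (0 : ℝ), ∃ (α l : ℝ) (c c' : ℝ → ℂ), 0 < α ∧ 0 < l ∧ IsArc α c c' ∧ c 0 = x ∧
      c' 0 = l * e ∧ c '' Icc 0 1 = br K x e r := by
  have e1 : ∀ t : ℝ, 0 ≤ t → ε * (t / b) ^ γ = ε / b ^ γ * t ^ γ := by
    intro t ht
    rw [Real.div_rpow ht hb.le]; ring
  refine hBr K x e b κ γ γ' (ε / b ^ γ) hK (norm_root hn h he) hb h1 h2 h3 h4 h5 h6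
    (fun z hz hx hzb hze => ?_) (fun s hs => ?_) hT
  · rw [← e1 _ (norm_nonneg _)]
    exact (hd _ hze).trans (h.near z hz hx hzb)
  · rw [← e1 _ hs.1.le]
    exact h.hit e he s hs

theorem small {b ε γ : ℝ} (hb : 0 < b) (hγ : 0 < γ) : ∀ᶠ r in 𝓝[>] (0 : ℝ),
    0 < r ∧ 2 * r ≤ b ∧ ∀ t, 0 ≤ t → t ≤ r → ε * (t / b) ^ γ ≤ 1 / 8 := by
  have hc : Continuous fun r : ℝ => |ε| * (r / b) ^ γ :=
    continuous_const.mul ((continuous_id.div_const b).rpow_const fun _ => Or.inr hγ.le)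
  have h1 : ∀ᶠ r in 𝓝 (0 : ℝ), |ε| * (r / b) ^ γ ≤ 1 / 8 :=
    (hc.tendsto 0).eventually_le_const (by simp [Real.zero_rpow hγ.ne'])
  have h2 : ∀ᶠ r in 𝓝 (0 : ℝ), r ≤ b / 2 := ge_mem_nhds (by linarith)
  filter_upwards [self_mem_nhdsWithin, h1.filter_mono nhdsWithin_le_nhds,
    h2.filter_mono nhdsWithin_le_nhds] with r k0 k1 k2
  refine ⟨k0, by linarith, fun t ht htr => le_trans ?_ k1⟩
  exact mul_le_mul (le_abs_self _) (Real.rpow_le_rpow (by positivity)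
    (div_le_div_of_nonneg_right htr hb.le) hγ.le) (by positivity) (abs_nonneg _)

theorem br_sub {K : Set ℂ} {x e : ℂ} {r b : ℝ} (hx : x ∈ K) (hb : 0 < b) (hr : 2 * r ≤ b) :
    br K x e r ⊆ K ∩ closedBall x b := by
  rintro z (rfl | ⟨h1, -, h2, -⟩)
  · exact ⟨hx, mem_closedBall_self hb.le⟩
  · exact ⟨h1, mem_closedBall_iff_norm.2 (h2.trans hr)⟩

theorem mem_br {K : Set ℂ} {x e z : ℂ} {r : ℝ} (he : ‖e‖ = 1) (hz : z ∈ K) (hx : z ≠ x)
    (hr : ‖z - x‖ ≤ r) (hd : ‖dir x z - e‖ ≤ 1 / 2) : z ∈ br K x e r := by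
  refine Or.inr ⟨hz, hx, by linarith [norm_nonneg (z - x)], hd, (re_le_norm _).trans ?_⟩
  rwa [norm_mul, Complex.norm_conj, he, one_mul]

end Junc

open Junc in
theorem junc_pf (hBr : BrStmt) : JuncStmt := by
  intro K x Φ n b ε κ γ γ' hK hx hn hb h1 h2 h3 h4 h5 h6 h hT
  have near : ∀ r, 2 * r ≤ b → (∀ t, 0 ≤ t → t ≤ r → ε * (t / b) ^ γ ≤ 1 / 8) →
      ∀ z ∈ K, z ≠ x → ‖z - x‖ ≤ r → ‖dir x z ^ n - Φ‖ ≤ 1 / 8 := fun r hr hs z hz hzx hzr =>
    (h.near z hz hzx (by linarith [norm_nonneg (z - x)])).trans (hs _ (norm_nonneg _) hzr)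
  rcases hn with rfl | rfl
  · obtain ⟨r, ⟨α, l, c, c', a1, -, a3, a4, -, a6⟩, r0, r1, r2⟩ :=
      ((branch hBr hK one_ne_zero hb h1 h2 h3 h4 h5 h6 h hT (pow_one Φ)
        (fun d _ => by rw [pow_one])).and (small (ε := ε) hb h3)).exists
    refine ⟨r, α, br K x Φ r, r0, a1, Or.inr (Or.inl ⟨c, c', a3, a4, a6.symm⟩), ?_,
      br_sub hx hb r1⟩
    rintro z ⟨hz, hzr⟩
    by_cases hzx : z = x
    · exact Or.inl hzx
    have hzr' := (mem_ball_iff_norm.1 hzr).le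
    have := near r r1 r2 z hz hzx hzr'
    rw [pow_one] at this
    exact mem_br h.unit hz hzx hzr' (by linarith)
  · obtain ⟨e, e1, e2, e3⟩ := exists_roots h.unit
    have en : ∀ k, ‖e k‖ = 1 := fun k => norm_root (by norm_num) h (e1 k)
    have far : ∀ i j, i ≠ j → 3 / 2 ≤ ‖e i - e j‖ := by
      intro i j hij
      refine le_of_pow_le_pow_left₀ two_ne_zero (norm_nonneg _) ?_
      rw [norm_sub_sq_real, en, en, e2 i j hij]
      norm_num
    have tri : ∀ d i j, ‖e i - e j‖ ≤ ‖d - e i‖ + ‖d - e j‖ := by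
      intro d i j
      have := norm_sub_le (d - e j) (d - e i)
      rw [sub_sub_sub_cancel_left] at this
      linarith
    have hd : ∀ k d, ‖d - e k‖ ≤ 1 / 2 → ‖d - e k‖ ≤ ‖d ^ 3 - Φ‖ := by
      intro k d hk
      rw [e3, norm_prod, ← Finset.mul_prod_erase _ _ (Finset.mem_univ k)]
      refine le_mul_of_one_le_right (norm_nonneg _) ?_
      refine le_trans (le_of_eq (Finset.prod_const_one).symm)
        (Finset.prod_le_prod (fun _ _ => zero_le_one) fun j hj => ?_)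
      linarith [far k j (Finset.ne_of_mem_erase hj).symm, tri d k j]
    obtain ⟨r, hr, r0, r1, r2⟩ := ((eventually_all.2 fun k => branch hBr hK (by norm_num) hb h1 h2
      h3 h4 h5 h6 h hT (e1 k) (hd k)).and (small (ε := ε) hb h3)).exists
    choose α l c c' a1 a2 a3 a4 a5 a6 using hr
    have hα : 0 < min (α 0) (min (α 1) (α 2)) := lt_min (a1 0) (lt_min (a1 1) (a1 2))
    have hα' : ∀ k, min (α 0) (min (α 1) (α 2)) ≤ α k := by
      intro k
      fin_cases k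
      exacts [min_le_left _ _, (min_le_right _ _).trans (min_le_left _ _),
        (min_le_right _ _).trans (min_le_right _ _)]
    refine ⟨r, _, ⋃ k, br K x (e k) r, r0, hα, Or.inr (Or.inr ⟨c, c',
      fun k => ⟨(a3 k).mono hα (hα' k), a4 k⟩, fun i j hij => ⟨?_, ?_⟩, by simp only [a6]⟩), ?_,
      iUnion_subset fun k => br_sub hx hb r1⟩
    · rw [a6, a6]
      refine Subset.antisymm ?_ (singleton_subset_iff.2 ⟨Or.inl rfl, Or.inl rfl⟩)
      rintro z ⟨hi | hi, hj | hj⟩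
      exacts [hi, hi, hj,
        absurd (far i j hij) (by linarith [tri (dir x z) i j, hi.2.2.2.1, hj.2.2.2.1])]
    · rw [a5, a5, ← real_smul, ← real_smul,
        InnerProductGeometry.angle_smul_left_of_pos _ _ (a2 i),
        InnerProductGeometry.angle_smul_right_of_pos _ _ (a2 j), InnerProductGeometry.angle,
        e2 i j hij, en, en]
      have e4 : Real.cos (2 * π / 3) = -1 / 2 / (1 * 1) := by
        rw [show 2 * π / 3 = π - π / 3 by ring, Real.cos_pi_sub, Real.cos_pi_div_three]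
        norm_num
      rw [← e4, Real.arccos_cos (by positivity) (by linarith [Real.pi_pos])]
    · rintro z ⟨hz, hzr⟩
      by_cases hzx : z = x
      · exact mem_iUnion.2 ⟨0, Or.inl hzx⟩
      have hzr' := (mem_ball_iff_norm.1 hzr).le
      have h8 := near r r1 r2 z hz hzx hzr'
      rw [e3, norm_prod, Fin.prod_univ_three] at h8
      obtain ⟨k, hk⟩ : ∃ k, ‖dir x z - e k‖ ≤ 1 / 2 := by
        by_contra hc
        push Not at hc
        have b1 := mul_lt_mul'' (hc 0) (hc 1) (by norm_num) (by norm_num)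
        have b2 := mul_lt_mul'' b1 (hc 2) (by norm_num) (by norm_num)
        linarith
      exact mem_iUnion.2 ⟨k, mem_br (en k) hz hzx hzr' hk⟩

end Vale.Agent.P128
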