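import Vale.Agent.P128.Cut0

open MeasureTheory Set Metric Filter Topology Complex
open scoped ENNReal ComplexConjugate Real

noncomputable section
namespace Vale.Agent.P128

namespace Kap1

theorem cd_ofReal {ζ : ℂ → ℝ} (h : ContDiff ℝ (⊤ : ℕ∞) ζ) :
    ContDiff ℝ (⊤ : ℕ∞) fun z => (ζ z : ℂ) := ofRealCLM.contDiff.comp h

theorem int_weight {ψ : ℂ → ℂ} (hc : Continuous ψ) (h : Integrable fun z => ‖ψ z‖ ^ 2) :
    Integrable fun z => ‖ψ z‖ / (1 + ‖z‖) ^ 2 := by
  refine (h.add (integrable_inv_pow (n := 4) (by norm_num))).mono'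
    (Continuous.aestronglyMeasurable (hc.norm.div (by fun_prop) fun z => by positivity))
    (Eventually.of_forall fun z => ?_)
  rw [Real.norm_of_nonneg (by positivity), Pi.add_apply]
  have h1 : 1 / (1 + ‖z‖) ^ 4 = (1 / (1 + ‖z‖) ^ 2) ^ 2 := by rw [div_pow, one_pow, ← pow_mul]
  have h2 : 0 ≤ ‖ψ z‖ * (1 / (1 + ‖z‖) ^ 2) := by positivity
  rw [h1, div_eq_mul_one_div]
  nlinarith [sq_nonneg (‖ψ z‖ - 1 / (1 + ‖z‖) ^ 2)]

/-- the inequality for a compactly supported approximation -/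
theorem stepA (hCau : CauStmt) (hHolk : HolkStmt) (hIso : IsoStmt) {K : Set ℂ} {ψ ψ' φ : ℂ → ℂ}
    {c : ℂ} {η : ℝ} (hK : IsClosed K) (h0 : volume K = 0) (hψ : ContDiff ℝ (⊤ : ℕ∞) ψ)
    (hψ2 : Integrable fun z => ‖ψ z‖ ^ 2) (hz : ∀ z ∈ ball c (1 / 4), ψ z = 0)
    (H : ∀ Θ, Test K univ Θ → -η ≤ ∫ z, (2 * ‖ψ z - db Θ z‖ ^ 2 + ‖dz Θ z‖ ^ 2 - ‖db Θ z‖ ^ 2))
    (hφ : Test K (ball c (1 / 4)) φ) (hψ' : ContDiff ℝ (⊤ : ℕ∞) ψ') (hc' : HasCompactSupport ψ')
    (hz' : ∀ z ∈ ball c (1 / 4), ψ' z = 0) :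
    -η ≤ 4 * (∫ z, ‖ψ z - ψ' z‖ ^ 2) + (∫ z, (‖db φ z‖ ^ 2 + ‖dz φ z‖ ^ 2)) +
      2 * (∫ a, (-(1 / π : ℂ) * ∫ z, ψ' z / (a - z) ^ 2) * conj (dz φ a)).re := by
  obtain ⟨hs, hdb, -⟩ := hCau ψ' hψ' hc'
  obtain ⟨R, hR0, hR⟩ := hc'.isBounded.subset_closedBall_lt 0 0
  have hi' : Integrable ψ' := hψ'.continuous.integrable_of_hasCompactSupport hc'
  have hRz : ∀ z, R < ‖z‖ → ψ' z = 0 := fun z hz => by
    by_contra hne
    have := hR (subset_tsupport _ hne)
    rw [mem_closedBall, dist_zero_right] at this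
    linarith
  obtain ⟨hder, hdec⟩ := hHolk.2 ψ' R hi' hR0 hRz
  set κ : ℂ → ℂ := fun a => -(1 / π : ℂ) * ∫ z, ψ' z / (a - z) ^ 2 with hκ
  have h2' : Integrable fun z => ‖ψ' z‖ ^ 2 :=
    (hψ'.continuous.norm.pow 2).integrable_of_hasCompactSupport
      (HasCompactSupport.intro hc' fun z hz => by simp [image_eq_zero_of_notMem_tsupport hz])
  have hκc : ContinuousOn κ (ball c (1 / 4)) :=
    continuousOn_const.mul (hHolk.1 ψ' _ hψ'.continuous.aestronglyMeasurable
      (int_weight hψ'.continuous h2') isOpen_ball hz').2.continuousOn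
  have iκ : Integrable fun a => κ a * conj (dz φ a) :=
    hφ.integrable_mul hκc (conjCLE.toContinuousLinearMap.integrable_comp hφ.integrable.1)
      fun z hz => by rw [(dz_db_of_notMem hz).1, map_zero]
  have iE : Integrable fun z => ‖db φ z‖ ^ 2 + ‖dz φ z‖ ^ 2 :=
    (integrable_dz_sq hφ.int).2.add (integrable_dz_sq hφ.int).1
  have iD : Integrable fun z => ‖ψ z - ψ' z‖ ^ 2 := by
    refine ((hψ2.const_mul 2).add (h2'.const_mul 2)).mono'
      (Continuous.aestronglyMeasurable ((hψ.continuous.sub hψ'.continuous).norm.pow 2))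
      (Eventually.of_forall fun z => ?_)
    rw [Real.norm_of_nonneg (sq_nonneg _), Pi.add_apply]
    have := pow_le_pow_left₀ (norm_nonneg _) (norm_sub_le (ψ z) (ψ' z)) 2
    nlinarith [sq_nonneg (‖ψ z‖ - ‖ψ' z‖)]
  obtain ⟨C, hC0, hC⟩ := exists_cut
  set J := ∫ z, ‖ψ' z‖ with hJ
  have hJ0 : 0 ≤ J := integral_nonneg fun _ => norm_nonneg _
  have main : ∀ m : ℝ, 2 * R ≤ m → ‖c‖ + 1 / 4 ≤ m →
      -η ≤ 4 * (∫ z, ‖ψ z - ψ' z‖ ^ 2) + (∫ z, (‖db φ z‖ ^ 2 + ‖dz φ z‖ ^ 2)) +
      2 * (∫ a, κ a * conj (dz φ a)).re + 16 * π * (J * C) ^ 2 / m ^ 2 := by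
    intro m hm1 hm2
    have hm0 : 0 < m := by linarith
    obtain ⟨ζ, z1, z2, z3, z4, z5, z6⟩ := hC 0 m hm0
    simp only [sub_zero] at z4 z5
    set A : ℂ → ℂ := fun z => ζ z * cau ψ' z with hA
    have hAs : ContDiff ℝ (⊤ : ℕ∞) A := (cd_ofReal z1).mul hs
    have hAc : HasCompactSupport A :=
      (z2.comp_left (g := fun t : ℝ => (t : ℂ)) (by simp)).mul_right
    have hA1 : ContDiff ℝ 1 A := hAs.of_le (by simp)
    have hAd : ∀ z, DifferentiableAt ℝ A z := hA1.differentiable one_ne_zero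
    have hH := H _ (hφ.add_smooth hK h0 hA1 hAc)
    have hnear : ∀ z, ‖z‖ < m → A =ᶠ[𝓝 z] cau ψ' := fun z hz => by
      filter_upwards [isOpen_ball.mem_nhds (mem_ball_zero_iff.2 hz)] with w hw
      simp [hA, z4 w (mem_ball_zero_iff.1 hw).le]
    set B := (J * C / m ^ 2) ^ 2 with hB
    have hdbA : ∀ z, ‖ψ' z - db A z‖ ^ 2 ≤ (closedBall (0 : ℂ) (2 * m)).indicator (fun _ => B) z := by
      intro z
      rcases lt_or_ge ‖z‖ m with h1 | h1
      · rw [(dz_db_congr (hnear z h1)).2, hdb, sub_self, norm_zero, sq, zero_mul]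
        exact indicator_nonneg (fun _ _ => by positivity) _
      have hψ0 : ψ' z = 0 := hRz z (by linarith)
      rcases le_or_gt ‖z‖ (2 * m) with h2 | h2
      · rw [indicator_of_mem (mem_closedBall_zero_iff.2 h2), hψ0, zero_sub, norm_neg,
          (dz_db_mul ((cd_ofReal z1).differentiable (by simp) z)
            (hs.differentiable (by simp) z)).2, hdb, hψ0, mul_zero, zero_add, norm_mul]
        refine pow_le_pow_left₀ (by positivity) ?_ 2
        have e1 := (hdec z (by linarith)).1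
        have e2 := ((norm_db_le _ z).trans (norm_fderiv_ofReal_le ζ
          (z1.differentiable (by simp) z))).trans (z6 z)
        have e3 : J / ‖z‖ ≤ J / m := div_le_div_of_nonneg_left hJ0 hm0 h1
        calc _ ≤ J / m * (C / m) := mul_le_mul (e1.trans e3) e2 (norm_nonneg _) (by positivity)
          _ = _ := by ring
      · have : A =ᶠ[𝓝 z] fun _ => 0 := by
          filter_upwards [(isOpen_lt continuous_const continuous_norm).mem_nhds h2] with w hw
          simp [hA, z5 w (le_of_lt hw)]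
        rw [(dz_db_congr this).2, (dz_db_const 0 z).2, hψ0, sub_self, norm_zero, sq, zero_mul]
        exact indicator_nonneg (fun _ _ => by positivity) _
    have iI : Integrable ((closedBall (0 : ℂ) (2 * m)).indicator fun _ => B) :=
      (integrable_indicator_iff measurableSet_closedBall).2
        (integrableOn_const measure_closedBall_lt_top.ne)
    have hI : ∫ z, (closedBall (0 : ℂ) (2 * m)).indicator (fun _ => B) z =
        4 * π * (J * C) ^ 2 / m ^ 2 := by
      rw [integral_indicator_const _ measurableSet_closedBall, Measure.real,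
        Complex.volume_closedBall, smul_eq_mul, hB]
      simp only [ENNReal.toReal_mul, ENNReal.toReal_pow, ENNReal.toReal_ofReal
        (show 0 ≤ 2 * m by positivity), ENNReal.coe_toReal, NNReal.coe_real_pi]
      field_simp
      ring
    obtain ⟨iA1, iA2⟩ := integrable_dz_sq (integrable_fderiv_sq hA1 hAc)
    have hle : ∀ᵐ z, 2 * ‖ψ z - db (fun z => A z + φ z) z‖ ^ 2 +
        ‖dz (fun z => A z + φ z) z‖ ^ 2 - ‖db (fun z => A z + φ z) z‖ ^ 2 ≤
        (4 * ‖ψ z - ψ' z‖ ^ 2 + 4 * (closedBall (0 : ℂ) (2 * m)).indicator (fun _ => B) z) +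
        (‖dz A z‖ ^ 2 - ‖db A z‖ ^ 2) +
        ((‖db φ z‖ ^ 2 + ‖dz φ z‖ ^ 2) + 2 * (κ z * conj (dz φ z)).re) := by
      filter_upwards [hφ.ae_diff hK h0] with z hd
      rw [(dz_db_add (hAd z) hd).1, (dz_db_add (hAd z) hd).2]
      by_cases hzT : z ∈ tsupport φ
      · have hzD := hφ.sub hzT
        have hzm : ‖z‖ < m := by
          have := norm_le_norm_add_norm_sub' z c
          rw [mem_ball, dist_eq_norm] at hzD
          linarith
        have e1 := (dz_db_of_hasDerivAt (hder _ isOpen_ball hz' z hzD)).1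
        rw [(dz_db_congr (hnear z hzm)).1, (dz_db_congr (hnear z hzm)).2, hdb, e1, hz z hzD,
          hz' z hzD, zero_add, zero_sub, norm_neg, sub_self, norm_zero]
        have e2 : 0 ≤ (closedBall (0 : ℂ) (2 * m)).indicator (fun _ => B) z :=
          indicator_nonneg (fun _ _ => by positivity) _
        have e3 : ‖κ z + dz φ z‖ ^ 2 = ‖κ z‖ ^ 2 + ‖dz φ z‖ ^ 2 + 2 * (κ z * conj (dz φ z)).re := by
          simp only [Complex.sq_norm, normSq_add]
        change 2 * ‖db φ z‖ ^ 2 + ‖κ z + dz φ z‖ ^ 2 - ‖db φ z‖ ^ 2 ≤ 4 * 0 ^ 2 + _ +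
          (‖κ z‖ ^ 2 - 0 ^ 2) + _
        rw [e3]; nlinarith
      · rw [(dz_db_of_notMem hzT).1, (dz_db_of_notMem hzT).2]
        simp only [add_zero, norm_zero, map_zero, mul_zero, zero_re]
        have e1 := hdbA z
        have e2 := pow_le_pow_left₀ (norm_nonneg _) (norm_sub_le_norm_sub_add_norm_sub (ψ z) (ψ' z)
          (db A z)) 2
        nlinarith [sq_nonneg (‖ψ z - ψ' z‖ - ‖ψ' z - db A z‖)]
    have i1 := (iD.const_mul 4).add (iI.const_mul 4)
    have i2 := iA1.sub iA2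
    have i3 := iE.add (iκ.re.const_mul 2)
    by_cases hint : Integrable fun z => 2 * ‖ψ z - db (fun z => A z + φ z) z‖ ^ 2 +
        ‖dz (fun z => A z + φ z) z‖ ^ 2 - ‖db (fun z => A z + φ z) z‖ ^ 2
    swap
    · exfalso
      obtain ⟨j1, j2⟩ := integrable_dz_sq (hφ.add_smooth hK h0 hA1 hAc).int
      refine hint ((Integrable.add (Integrable.const_mul ?_ 2) j1).sub j2)
      have mm := measurable_db fun z => A z + φ z
      have mψ := hψ.continuous.measurable
      refine ((hψ2.const_mul 2).add (j2.const_mul 2)).mono'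
        (Measurable.aestronglyMeasurable (by fun_prop)) (Eventually.of_forall fun z => ?_)
      rw [Real.norm_of_nonneg (sq_nonneg _), Pi.add_apply]
      have := pow_le_pow_left₀ (norm_nonneg _)
        (norm_sub_le (ψ z) (db (fun z => A z + φ z) z)) 2
      nlinarith [sq_nonneg (‖ψ z‖ - ‖db (fun z => A z + φ z) z‖)]
    have hfin := hH.trans (integral_mono_ae hint ((i1.add i2).add i3) hle)
    rw [integral_add' (i1.add i2) i3, integral_add' i1 i2,
      integral_add' (iD.const_mul 4) (iI.const_mul 4), integral_sub' iA1 iA2,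
      integral_add' iE (iκ.re.const_mul 2), integral_const_mul, integral_const_mul,
      integral_const_mul, hI, hIso A hAs hAc, integral_re iκ] at hfin
    simp only [RCLike.re_to_complex] at hfin
    have : 16 * π * (J * C) ^ 2 / m ^ 2 = 4 * (4 * π * (J * C) ^ 2 / m ^ 2) := by ring
    linarith
  have hl : Tendsto (fun m : ℝ => 16 * π * (J * C) ^ 2 / m ^ 2) atTop (𝓝 0) :=
    tendsto_const_nhds.div_atTop (tendsto_pow_atTop two_ne_zero)
  have hl2 := hl.const_add (4 * (∫ z, ‖ψ z - ψ' z‖ ^ 2) + (∫ z, (‖db φ z‖ ^ 2 + ‖dz φ z‖ ^ 2)) +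
      2 * (∫ a, κ a * conj (dz φ a)).re)
  rw [add_zero] at hl2
  refine ge_of_tendsto hl2 ?_
  filter_upwards [eventually_ge_atTop (2 * R), eventually_ge_atTop (‖c‖ + 1 / 4)] with m h1 h2
  exact main m h1 h2

/-- the kernel is dominated by the weight on compact subsets -/
theorem ker_bound {T : Set ℂ} {c : ℂ} (hT : IsClosed T) (h : T ⊆ ball c (1 / 4)) :
    ∃ k : ℝ, ∀ a ∈ T, ∀ z ∉ ball c (1 / 4), 1 / ‖a - z‖ ^ 2 ≤ k / (1 + ‖z‖) ^ 2 := by
  obtain ⟨r, hr, hTr⟩ := exists_lt_subset_ball hT h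
  set d := 1 / 4 - r with hd
  have hd0 : 0 < d := by linarith
  refine ⟨((2 + ‖c‖) / d + 1) ^ 2, fun a ha z hz => ?_⟩
  have h1 := hTr ha
  rw [mem_ball, dist_eq_norm] at h1 hz
  have h2 : d ≤ ‖a - z‖ := by
    have := norm_sub_le_norm_sub_add_norm_sub z a c
    rw [norm_sub_rev z a] at this
    linarith [not_lt.1 hz]
  have h3 : 1 + ‖z‖ ≤ ((2 + ‖c‖) / d + 1) * ‖a - z‖ := by
    have e1 := norm_le_norm_add_norm_sub' a c
    have e2 := norm_le_norm_add_norm_sub' z a
    rw [norm_sub_rev z a] at e2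
    have e3 : 2 + ‖c‖ ≤ (2 + ‖c‖) / d * ‖a - z‖ := by
      rw [div_mul_eq_mul_div, le_div_iff₀ hd0]
      exact mul_le_mul_of_nonneg_left h2 (by positivity)
    linarith
  rw [div_le_div_iff₀ (by have := hd0.trans_le h2; positivity) (by positivity), one_mul, ← mul_pow]
  exact pow_le_pow_left₀ (by positivity) h3 2

end Kap1

open Kap1 in
theorem kap1_pf (hCau : CauStmt) (hHolk : HolkStmt) (hIso : IsoStmt) : Kap1Stmt := by
  intro K ψ c η hK h0 hψ hψ2 hz H φ hφ
  obtain ⟨C, -, hC⟩ := exists_cut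
  choose ζ z1 z2 z3 z4 z5 z6 using fun n : ℕ => hC 0 (n + 1) (by positivity)
  set ψ' : ℕ → ℂ → ℂ := fun n z => ζ n z * ψ z with hψ'
  have s1 : ∀ n, ContDiff ℝ (⊤ : ℕ∞) (ψ' n) := fun n => (cd_ofReal (z1 n)).mul hψ
  have s2 : ∀ n, HasCompactSupport (ψ' n) := fun n =>
    ((z2 n).comp_left (g := fun t : ℝ => (t : ℂ)) (by simp)).mul_right
  have s3 : ∀ n, ∀ z ∈ ball c (1 / 4), ψ' n z = 0 := fun n z h => by simp [hψ', hz z h]
  have s4 : ∀ n z, ‖ψ z - ψ' n z‖ ≤ ‖ψ z‖ := fun n z => by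
    rw [show ψ z - ψ' n z = ((1 - ζ n z : ℝ) : ℂ) * ψ z by simp [hψ', sub_mul], norm_mul,
      Complex.norm_real, Real.norm_of_nonneg (by linarith [(z3 n z).2])]
    nlinarith [(z3 n z).1, norm_nonneg (ψ z)]
  have s5 : ∀ z, ∀ᶠ n in atTop, ψ z - ψ' n z = 0 := fun z => by
    filter_upwards [tendsto_natCast_atTop_atTop.eventually_ge_atTop ‖z‖] with n hn
    simp [hψ', z4 n z (by rw [sub_zero]; linarith)]
  have s6 : ∀ n, Continuous fun z => ψ z - ψ' n z := fun n => hψ.continuous.sub (s1 n).continuous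
  have iw := int_weight hψ.continuous hψ2
  have l1 : Tendsto (fun n => ∫ z, ‖ψ z - ψ' n z‖ ^ 2) atTop (𝓝 0) := by
    have := tendsto_integral_of_dominated_convergence (F := fun n z => ‖ψ z - ψ' n z‖ ^ 2)
      (f := fun _ => 0) _ (fun n => ((s6 n).norm.pow 2).aestronglyMeasurable) hψ2
      (fun n => Eventually.of_forall fun z => by
        rw [Real.norm_of_nonneg (sq_nonneg _)]
        exact pow_le_pow_left₀ (norm_nonneg _) (s4 n z) 2)
      (Eventually.of_forall fun z => tendsto_const_nhds.congr' ((s5 z).mono fun n hn => by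
        simp [hn]))
    simpa using this
  have l2 : Tendsto (fun n => ∫ z, ‖ψ z - ψ' n z‖ / (1 + ‖z‖) ^ 2) atTop (𝓝 0) := by
    have := tendsto_integral_of_dominated_convergence
      (F := fun n z => ‖ψ z - ψ' n z‖ / (1 + ‖z‖) ^ 2) (f := fun _ => 0) _
      (fun n => ((s6 n).norm.div (by fun_prop) fun z => by positivity).aestronglyMeasurable) iw
      (fun n => Eventually.of_forall fun z => by
        rw [Real.norm_of_nonneg (by positivity)]
        exact div_le_div_of_nonneg_right (s4 n z) (by positivity))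
      (Eventually.of_forall fun z => tendsto_const_nhds.congr' ((s5 z).mono fun n hn => by
        simp [hn]))
    simpa using this
  have iw' : ∀ n, Integrable fun z => ‖ψ z - ψ' n z‖ / (1 + ‖z‖) ^ 2 := fun n =>
    iw.mono' ((s6 n).norm.div (by fun_prop) fun z => by positivity).aestronglyMeasurable
      (Eventually.of_forall fun z => by
        rw [Real.norm_of_nonneg (by positivity)]
        exact div_le_div_of_nonneg_right (s4 n z) (by positivity))
  obtain ⟨k, hk⟩ := ker_bound (isClosed_tsupport φ) hφ.sub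
  obtain ⟨a1, a2⟩ := hHolk.1 ψ _ hψ.continuous.aestronglyMeasurable iw isOpen_ball hz
  have ic : Integrable fun a => conj (dz φ a) :=
    conjCLE.toContinuousLinearMap.integrable_comp hφ.integrable.1
  have hc0 : ∀ z ∉ tsupport φ, conj (dz φ z) = 0 := fun z hz => by
    rw [(dz_db_of_notMem hz).1, map_zero]
  have iκ : Integrable fun a => (-(1 / π : ℂ) * ∫ z, ψ z / (a - z) ^ 2) * conj (dz φ a) :=
    hφ.integrable_mul (continuousOn_const.mul a2.continuousOn) ic hc0
  have l3 : Tendsto (fun n => ∫ a, (-(1 / π : ℂ) * ∫ z, ψ' n z / (a - z) ^ 2) * conj (dz φ a))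
      atTop (𝓝 (∫ a, (-(1 / π : ℂ) * ∫ z, ψ z / (a - z) ^ 2) * conj (dz φ a))) := by
    rw [tendsto_iff_norm_sub_tendsto_zero]
    have l4 := l2.const_mul (‖(1 / π : ℂ)‖ * k * ∫ a, ‖conj (dz φ a)‖)
    rw [mul_zero] at l4
    refine squeeze_zero (fun _ => norm_nonneg _) (fun n => ?_) l4
    obtain ⟨b1, b2⟩ := hHolk.1 (fun z => ψ z - ψ' n z) _ (s6 n).aestronglyMeasurable (iw' n)
      isOpen_ball fun z h => by rw [hz z h, s3 n z h, sub_self]
    have b3 : ∀ a ∈ ball c (1 / 4), ∫ z, ψ' n z / (a - z) ^ 2 =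
        (∫ z, ψ z / (a - z) ^ 2) - ∫ z, (ψ z - ψ' n z) / (a - z) ^ 2 := fun a ha => by
      rw [← integral_sub (a1 a ha) (b1 a ha)]
      exact integral_congr_ae (Eventually.of_forall fun z => by ring)
    have iκ' : Integrable fun a => (-(1 / π : ℂ) * ∫ z, ψ' n z / (a - z) ^ 2) * conj (dz φ a) :=
      hφ.integrable_mul (continuousOn_const.mul
        ((a2.continuousOn.sub b2.continuousOn).congr b3)) ic hc0
    rw [← integral_sub iκ' iκ, mul_right_comm, ← integral_const_mul]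
    refine norm_integral_le_of_norm_le (ic.norm.const_mul _) (Eventually.of_forall fun a => ?_)
    by_cases ha : a ∈ tsupport φ
    · rw [b3 a (hφ.sub ha), show ∀ x y w : ℂ, -(1 / π : ℂ) * (x - y) * w - -(1 / π : ℂ) * x * w =
        (1 / π : ℂ) * y * w from fun x y w => by ring, norm_mul, norm_mul, mul_assoc _ k]
      refine mul_le_mul_of_nonneg_right (mul_le_mul_of_nonneg_left ?_ (norm_nonneg _))
        (norm_nonneg _)
      rw [← integral_const_mul]
      refine norm_integral_le_of_norm_le ((iw' n).const_mul k) (Eventually.of_forall fun z => ?_)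
      by_cases hzD : z ∈ ball c (1 / 4)
      · simp [hz z hzD, s3 n z hzD]
      · rw [norm_div, norm_pow, div_eq_mul_one_div]
        calc _ ≤ ‖ψ z - ψ' n z‖ * (k / (1 + ‖z‖) ^ 2) :=
              mul_le_mul_of_nonneg_left (hk a ha z hzD) (norm_nonneg _)
          _ = _ := by ring
    · simp [hc0 a ha]
  have l5 := ((l1.const_mul 4).add_const (∫ z, (‖db φ z‖ ^ 2 + ‖dz φ z‖ ^ 2))).add
    (((continuous_re.tendsto _).comp l3).const_mul 2)
  rw [mul_zero, zero_add] at l5
  exact ge_of_tendsto' l5 fun n =>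
    stepA hCau hHolk hIso hK h0 hψ hψ2 hz H hφ (s1 n) (s2 n) (s3 n)

end Vale.Agent.P128
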