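import Vale.Agent.P128.Stm

open MeasureTheory Set Metric Filter Topology Complex
open scoped ENNReal ComplexConjugate Real

noncomputable section
namespace Vale.Agent.P128

namespace Kap2

def gg (b z : ℂ) : ℂ := (b / (b - z)) ^ 2

theorem gg_deriv {b z : ℂ} (h : b - z ≠ 0) : HasDerivAt (gg b) (2 * b ^ 2 / (b - z) ^ 3) z := by
  have h1 : HasDerivAt (fun z => b - z) (-1) z := (hasDerivAt_id z).const_sub b
  have h2 := ((hasDerivAt_const z b).div h1 h).pow 2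
  refine HasDerivAt.congr_deriv (f := gg b) h2 ?_
  simp only [Pi.div_apply, Nat.add_one_sub_one, pow_one]
  generalize b - z = d at h
  field_simp
  ring

theorem gg_smooth {b z : ℂ} (h : b - z ≠ 0) : ContDiffAt ℝ (⊤ : ℕ∞) (gg b) z := by
  have : ContDiffAt ℂ (⊤ : ℕ∞) (gg b) z :=
    (contDiffAt_const.div (contDiffAt_const.sub contDiffAt_id) h).pow 2
  exact this.restrict_scalars ℝ

theorem gg_tendsto {b : ℕ → ℂ} (hb : Tendsto (fun n => ‖b n‖) atTop atTop) (z : ℂ) :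
    Tendsto (fun n => gg (b n) z) atTop (𝓝 1) := by
  have h1 : Tendsto (fun n => (b n)⁻¹) atTop (𝓝 0) := by
    rw [tendsto_zero_iff_norm_tendsto_zero]
    simp only [norm_inv]
    exact tendsto_inv_atTop_zero.comp hb
  have h2 : Tendsto (fun n => ((1 - z * (b n)⁻¹)⁻¹) ^ 2) atTop (𝓝 (((1 - z * 0)⁻¹) ^ 2)) :=
    ((tendsto_const_nhds.sub (h1.const_mul z)).inv₀ (by simp)).pow 2
  simp only [mul_zero, sub_zero, inv_one, one_pow] at h2
  refine h2.congr' ?_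
  filter_upwards [hb.eventually_gt_atTop 0] with n hn
  have h0 : b n ≠ 0 := norm_pos_iff.1 hn
  have : 1 - z * (b n)⁻¹ = (b n - z) / b n := by field_simp
  rw [gg, this, inv_div]

theorem near {K₁ : Set ℂ} {b z : ℂ} {c R : ℝ} (hne : K₁.Nonempty) (hc : 0 < c)
    (hcR : 2 ≤ c * R) (hb : ‖b‖ ≤ 2 * R) (hf : ∀ w ∈ K₁, c * R ≤ ‖w - b‖)
    (hz : infDist z K₁ < 1) : R + ‖z‖ ≤ (6 / c + 1) * ‖b - z‖ := by
  obtain ⟨w, hw, hd⟩ := (infDist_lt_iff hne).1 hz
  rw [dist_eq_norm] at hd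
  have h1 : ‖w - b‖ ≤ ‖z - w‖ + ‖b - z‖ := by
    have : w - b = -(z - w) - (b - z) := by ring
    rw [this]
    exact (norm_sub_le _ _).trans (by rw [norm_neg])
  have h2 : ‖z‖ ≤ ‖b‖ + ‖b - z‖ := by
    have : z = b - (b - z) := by ring
    conv_lhs => rw [this]
    exact norm_sub_le _ _
  have h3 := hf w hw
  have h4 : c * R ≤ 2 * ‖b - z‖ := by linarith
  have h5 : 3 * R ≤ 6 / c * ‖b - z‖ := by
    rw [div_mul_eq_mul_div, le_div_iff₀ hc]
    linarith
  linarith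

theorem bounds {b z : ℂ} {A R : ℝ} (hR : 1 ≤ R) (hb : ‖b‖ ≤ 2 * R)
    (h : R + ‖z‖ ≤ A * ‖b - z‖) : b - z ≠ 0 ∧ ‖gg b z‖ ≤ 4 * A ^ 2 * R ^ 2 / (R + ‖z‖) ^ 2 ∧
    ‖2 * b ^ 2 / (b - z) ^ 3‖ ≤ 8 * A ^ 3 * R ^ 2 / (R + ‖z‖) ^ 3 := by
  have hz := norm_nonneg z
  have hp : 0 < R + ‖z‖ := by linarith
  have h0 : b - z ≠ 0 := by
    intro h0
    rw [h0, norm_zero] at h
    linarith
  have hd : 0 < ‖b - z‖ := norm_pos_iff.2 h0
  have hb2 : ‖b‖ ^ 2 ≤ (2 * R) ^ 2 := pow_le_pow_left₀ (norm_nonneg _) hb 2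
  refine ⟨h0, ?_, ?_⟩
  · rw [gg, norm_pow, norm_div, div_pow, div_le_div_iff₀ (by positivity) (by positivity)]
    have h2 := pow_le_pow_left₀ hp.le h 2
    calc ‖b‖ ^ 2 * (R + ‖z‖) ^ 2 ≤ (2 * R) ^ 2 * (A * ‖b - z‖) ^ 2 := by gcongr
      _ = _ := by ring
  · rw [norm_div, norm_mul, norm_pow, norm_pow, Complex.norm_two,
      div_le_div_iff₀ (by positivity) (by positivity)]
    have h2 := pow_le_pow_left₀ hp.le h 3
    calc 2 * ‖b‖ ^ 2 * (R + ‖z‖) ^ 3 ≤ 2 * (2 * R) ^ 2 * (A * ‖b - z‖) ^ 3 := by gcongr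
      _ = _ := by ring

theorem open_far (K₁ : Set ℂ) : IsOpen {z : ℂ | 1 / 2 < infDist z K₁} :=
  isOpen_lt continuous_const (continuous_infDist_pt K₁)

/-- products with `gg b` of smooth functions vanishing far from `K₁` -/
theorem smooth_mul {K₁ : Set ℂ} {b : ℂ} {h : ℂ → ℂ} (hs : ContDiff ℝ (⊤ : ℕ∞) h)
    (h0 : ∀ z, 1 / 2 < infDist z K₁ → h z = 0) (hb : ∀ z, infDist z K₁ < 1 → b - z ≠ 0) :
    ContDiff ℝ (⊤ : ℕ∞) fun z => h z * gg b z := by
  rw [contDiff_iff_contDiffAt]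
  intro z
  by_cases hz : infDist z K₁ < 1
  · exact hs.contDiffAt.mul (gg_smooth (hb z hz))
  · refine (contDiffAt_const (c := (0 : ℂ))).congr_of_eventuallyEq ?_
    filter_upwards [(open_far K₁).mem_nhds (show 1 / 2 < infDist z K₁ by linarith)] with w hw
    rw [h0 w hw, zero_mul]

theorem db_congr {f g : ℂ → ℂ} {z : ℂ} (h : f =ᶠ[𝓝 z] g) : db f z = db g z := by
  rw [db, db, h.fderiv_eq]

theorem dz_congr {f g : ℂ → ℂ} {z : ℂ} (h : f =ᶠ[𝓝 z] g) : dz f z = dz g z := by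
  rw [dz, dz, h.fderiv_eq]

theorem chi_far {K₁ : Set ℂ} {χ : ℂ → ℝ} (hχ : IsChi K₁ χ) {z : ℂ}
    (hz : 1 / 2 < infDist z K₁) : ∀ᶠ w in 𝓝 z, χ w = 0 := by
  filter_upwards [(open_far K₁).mem_nhds hz] with w hw
  exact hχ.zero w (le_of_lt hw)

theorem chi_near {K₁ : Set ℂ} {χ : ℂ → ℝ} (hχ : IsChi K₁ χ) {z : ℂ}
    (hz : infDist z K₁ < 1 / 4) : ∀ᶠ w in 𝓝 z, χ w = 1 := by
  filter_upwards [(isOpen_lt (continuous_infDist_pt K₁) continuous_const).mem_nhds hz] with w hw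
  exact hχ.one w (le_of_lt hw)

theorem db_const (c z : ℂ) : db (fun _ => c) z = 0 :=
  (dz_db_of_hasDerivAt (hasDerivAt_const z c)).2

theorem dz_const (c z : ℂ) : dz (fun _ => c) z = 0 :=
  (dz_db_of_hasDerivAt (hasDerivAt_const z c)).1

theorem dbchi_far {K₁ : Set ℂ} {χ : ℂ → ℝ} (hχ : IsChi K₁ χ) {z : ℂ}
    (hz : 1 / 2 < infDist z K₁) : db (fun w => (χ w : ℂ)) z = 0 := by
  rw [db_congr (g := fun _ => (0 : ℂ)), db_const]
  filter_upwards [chi_far hχ hz] with w hw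
  simp [hw]

theorem dbchi_near {K₁ : Set ℂ} {χ : ℂ → ℝ} (hχ : IsChi K₁ χ) {z : ℂ}
    (hz : infDist z K₁ < 1 / 4) : db (fun w => (χ w : ℂ)) z = 0 := by
  rw [db_congr (g := fun _ => (1 : ℂ)), db_const]
  filter_upwards [chi_near hχ hz] with w hw
  simp [hw]

theorem chic_smooth {K₁ : Set ℂ} {χ : ℂ → ℝ} (hχ : IsChi K₁ χ) :
    ContDiff ℝ (⊤ : ℕ∞) fun w => (χ w : ℂ) := ofRealCLM.contDiff.comp hχ.sm

theorem chic_fderiv {K₁ : Set ℂ} {χ : ℂ → ℝ} (hχ : IsChi K₁ χ) (z e : ℂ) :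
    fderiv ℝ (fun w => (χ w : ℂ)) z e = (fderiv ℝ χ z e : ℝ) := by
  have h := (ofRealCLM.hasFDerivAt.comp z
    (hχ.sm.differentiable (by simp) z).hasFDerivAt).fderiv
  have h2 : (fun w => (χ w : ℂ)) = ofRealCLM ∘ χ := rfl
  rw [h2, h]
  rfl

theorem X_fderiv {K₁ : Set ℂ} {χ : ℂ → ℝ} (hχ : IsChi K₁ χ) {b z : ℂ} (h : b - z ≠ 0) (e : ℂ) :
    fderiv ℝ (fun w => (χ w : ℂ) * gg b w) z e =
      χ z * (2 * b ^ 2 / (b - z) ^ 3 * e) + gg b z * fderiv ℝ (fun w => (χ w : ℂ)) z e := by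
  have h1 := ((chic_smooth hχ).differentiable (by simp) z).hasFDerivAt
  have h2 := (gg_deriv h).complexToReal_fderiv
  rw [(h1.fun_mul h2).fderiv]
  simp [mul_comm]

theorem X_db {K₁ : Set ℂ} {χ : ℂ → ℝ} (hχ : IsChi K₁ χ) {b : ℂ}
    (hb : ∀ z, infDist z K₁ < 1 → b - z ≠ 0) (z : ℂ) :
    db (fun w => (χ w : ℂ) * gg b w) z = db (fun w => (χ w : ℂ)) z * gg b z := by
  by_cases hz : infDist z K₁ < 1
  · refine (dz_db_of_fderiv (A := χ z * (2 * b ^ 2 / (b - z) ^ 3) +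
      gg b z * dz (fun w => (χ w : ℂ)) z) fun e => ?_).2
    rw [X_fderiv hχ (hb z hz), fderiv_eq_dz_db]
    ring
  · have hz' : 1 / 2 < infDist z K₁ := by linarith
    rw [dbchi_far hχ hz', zero_mul, db_congr (g := fun _ => (0 : ℂ)), db_const]
    filter_upwards [chi_far hχ hz'] with w hw
    simp [hw]

theorem X_decay {K₁ : Set ℂ} {χ : ℂ → ℝ} (hχ : IsChi K₁ χ) {b : ℂ} {A R : ℝ} (hA : 0 ≤ A)
    (hR : 1 ≤ R) (hb : ‖b‖ ≤ 2 * R) (hN : ∀ z, infDist z K₁ < 1 → R + ‖z‖ ≤ A * ‖b - z‖) :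
    Decay fun w => (χ w : ℂ) * gg b w := by
  obtain ⟨C, hC⟩ := hχ.bd
  have hC0 : 0 ≤ C := (norm_nonneg _).trans (hC 0).2
  refine ⟨4 * A ^ 2 * R ^ 2 + 8 * A ^ 3 * R ^ 2 + 4 * A ^ 2 * R ^ 2 * C, fun z => ?_⟩
  have hz0 := norm_nonneg z
  by_cases hz : infDist z K₁ < 1
  · obtain ⟨h0, h1, h2⟩ := bounds hR hb (hN z hz)
    have hq : 1 + ‖z‖ ≤ R + ‖z‖ := by linarith
    have hq1 : 1 ≤ 1 + ‖z‖ := by linarith
    have h1' : ‖gg b z‖ ≤ 4 * A ^ 2 * R ^ 2 / (1 + ‖z‖) ^ 2 := h1.trans (by gcongr)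
    have h2' : ‖2 * b ^ 2 / (b - z) ^ 3‖ ≤ 8 * A ^ 3 * R ^ 2 / (1 + ‖z‖) ^ 2 := by
      refine h2.trans (div_le_div_of_nonneg_left (by positivity) (by positivity) ?_)
      exact (pow_le_pow_right₀ hq1 (by norm_num)).trans (pow_le_pow_left₀ (by linarith) hq 3)
    have hx : ‖(χ z : ℂ)‖ ≤ 1 := by
      rw [Complex.norm_real, Real.norm_eq_abs]
      exact (hC z).1
    constructor
    · rw [norm_mul]
      calc ‖(χ z : ℂ)‖ * ‖gg b z‖ ≤ 1 * (4 * A ^ 2 * R ^ 2 / (1 + ‖z‖) ^ 2) := by gcongr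
        _ ≤ _ := by
          rw [one_mul]
          refine div_le_div₀ (by positivity) ?_ (by positivity) (by nlinarith)
          have : 0 ≤ 8 * A ^ 3 * R ^ 2 + 4 * A ^ 2 * R ^ 2 * C := by positivity
          linarith
    · refine ContinuousLinearMap.opNorm_le_bound _ (by positivity) fun e => ?_
      rw [X_fderiv hχ h0, chic_fderiv hχ]
      have h3 : ‖((fderiv ℝ χ z e : ℝ) : ℂ)‖ ≤ C * ‖e‖ := by
        rw [Complex.norm_real]
        exact ((fderiv ℝ χ z).le_opNorm e).trans (by gcongr; exact (hC z).2)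
      refine (norm_add_le _ _).trans ?_
      rw [norm_mul, norm_mul, norm_mul]
      calc ‖(χ z : ℂ)‖ * (‖2 * b ^ 2 / (b - z) ^ 3‖ * ‖e‖) +
            ‖gg b z‖ * ‖((fderiv ℝ χ z e : ℝ) : ℂ)‖
          ≤ 1 * (8 * A ^ 3 * R ^ 2 / (1 + ‖z‖) ^ 2 * ‖e‖) +
            4 * A ^ 2 * R ^ 2 / (1 + ‖z‖) ^ 2 * (C * ‖e‖) := by gcongr
        _ = (8 * A ^ 3 * R ^ 2 + 4 * A ^ 2 * R ^ 2 * C) / (1 + ‖z‖) ^ 2 * ‖e‖ := by ring
        _ ≤ _ := by
          have : 0 ≤ 4 * A ^ 2 * R ^ 2 := by positivity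
          gcongr
          linarith
  · have hz' : 1 / 2 < infDist z K₁ := by linarith
    have he : (fun w => (χ w : ℂ) * gg b w) =ᶠ[𝓝 z] fun _ => (0 : ℂ) := by
      filter_upwards [chi_far hχ hz'] with w hw
      simp [hw]
    rw [he.fderiv_eq, he.self_of_nhds]
    simp only [norm_zero, fderiv_fun_const, Pi.zero_apply]
    constructor <;> positivity

theorem far2 {K K₁ K₂ : Set ℂ} (hS : Split K K₁ K₂) {z : ℂ} (hz : z ∈ K₂) :
    1 / 2 < infDist z K₁ := by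
  have : 1 ≤ infDist z K₁ := by
    rw [le_infDist ⟨0, hS.m1⟩]
    intro w hw
    rw [dist_comm, dist_eq_norm]
    exact hS.far w hw z hz
  linarith

theorem X_dz {K K₁ K₂ : Set ℂ} (hS : Split K K₁ K₂) {χ : ℂ → ℝ} (hχ : IsChi K₁ χ) {b : ℂ}
    {A R : ℝ} (hA : 0 ≤ A) (hR : 1 ≤ R) (hb : ‖b‖ ≤ 2 * R)
    (hN : ∀ z, infDist z K₁ < 1 → R + ‖z‖ ≤ A * ‖b - z‖) {z : ℂ} (hz : z ∈ K) :
    ‖dz (fun w => (χ w : ℂ) * gg b w) z‖ ≤ 8 * A ^ 3 * R ^ 2 / (R + ‖z‖) ^ 3 := by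
  rw [hS.eq] at hz
  rcases hz with hz | hz
  · have h0 : infDist z K₁ = 0 := infDist_zero_of_mem hz
    obtain ⟨h1, -, h2⟩ := bounds hR hb (hN z (by linarith))
    rw [dz_congr (g := gg b), (dz_db_of_hasDerivAt (gg_deriv h1)).1]
    · exact h2
    · filter_upwards [chi_near hχ (show infDist z K₁ < 1 / 4 by linarith)] with w hw
      simp [hw]
  · rw [dz_congr (g := fun _ => (0 : ℂ)), dz_const, norm_zero]
    · have := norm_nonneg z
      positivity
    · filter_upwards [chi_far hχ (far2 hS hz)] with w hw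
      simp [hw]

theorem conj_fderiv (s : ℂ) (φ : ℂ → ℂ) (z e : ℂ) :
    fderiv ℝ (fun w => s * conj (φ w)) z e = s * conj (fderiv ℝ φ z e) := by
  have h1 : (fun w => s * conj (φ w)) = s • (conjCLE ∘ φ) := by
    ext w
    simp
  rw [h1, fderiv_const_smul_field, Pi.smul_apply, ContinuousLinearEquiv.comp_fderiv]
  simp

theorem conj_dz_db (s : ℂ) (φ : ℂ → ℂ) (z : ℂ) :
    dz (fun w => s * conj (φ w)) z = s * conj (db φ z) ∧
      db (fun w => s * conj (φ w)) z = s * conj (dz φ z) := by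
  refine dz_db_of_fderiv fun e => ?_
  rw [conj_fderiv, fderiv_eq_dz_db]
  simp only [map_add, map_mul, conj_conj]
  ring

theorem conj_test {K D : Set ℂ} {φ : ℂ → ℂ} (h : Test K D φ) (s : ℂ) :
    Test K D fun w => s * conj (φ w) := by
  have h0 : (fun w => s * conj w) 0 = 0 := by simp
  refine ⟨fun z hz => ?_, h.cpt.comp_left (g := fun w => s * conj w) h0,
    (tsupport_comp_subset (g := fun w => s * conj w) h0 φ).trans h.sub, ?_, ?_⟩
  · obtain ⟨L, t, ht, hL⟩ := h.lip hz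
    have hl : LipschitzWith ‖s‖₊ fun w : ℂ => s * conj w := by
      refine LipschitzWith.of_dist_le_mul fun x y => ?_
      rw [dist_eq_norm, dist_eq_norm, ← mul_sub, ← map_sub, norm_mul, Complex.norm_conj]
      rfl
    exact ⟨_, t, ht, hl.comp_lipschitzOnWith hL⟩
  · refine (h.int.const_mul (‖s‖ ^ 2)).congr (Eventually.of_forall fun z => ?_)
    simp only [norm_fderiv_eq, (conj_dz_db s φ z).1, (conj_dz_db s φ z).2, norm_mul,
      Complex.norm_conj]
    ring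
  · obtain ⟨B, hB⟩ := h.bd
    refine ⟨‖s‖ * B, fun z => ?_⟩
    rw [norm_mul, Complex.norm_conj]
    exact mul_le_mul_of_nonneg_left (hB z) (norm_nonneg _)

theorem db_out {φ : ℂ → ℂ} {a : ℂ} (h : a ∉ tsupport φ) : db φ a = 0 := by
  rw [db_congr (g := fun _ => (0 : ℂ)) (notMem_tsupport_iff_eventuallyEq.1 h), db_const]

theorem db_int {K D : Set ℂ} {φ : ℂ → ℂ} (h : Test K D φ) : Integrable (db φ) := by
  have h1 : Integrable ((tsupport φ).indicator fun _ : ℂ => (1 : ℝ)) :=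
    (integrable_indicator_iff (isClosed_tsupport φ).measurableSet).2
      (integrableOn_const h.cpt.isCompact.measure_lt_top.ne)
  refine (h1.add h.int).mono' (measurable_db φ).aestronglyMeasurable
    (Eventually.of_forall fun z => ?_)
  by_cases hz : z ∈ tsupport φ
  · simp only [Pi.add_apply, indicator_of_mem hz, norm_fderiv_eq]
    nlinarith [norm_nonneg (dz φ z), norm_nonneg (db φ z), sq_nonneg (‖db φ z‖ - 1)]
  · simp only [Pi.add_apply, indicator_of_notMem hz, db_out hz, norm_zero]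
    positivity

theorem conv {ψ f : ℂ → ℂ} {G : ℕ → ℂ → ℂ} {c k : ℂ} {M r : ℝ} (hM : 0 ≤ M)
    (hG : ∀ n, Measurable (G n)) (hI : Integrable fun z => ‖ψ z‖ / (1 + ‖z‖) ^ 2)
    (h0 : ∀ z ∈ ball c (1 / 4), ψ z = 0) (hc : ‖c‖ ≤ 1) (hb : ∀ n z, ‖G n z‖ ≤ M * ‖ψ z‖)
    (hl : ∀ z, Tendsto (fun n => G n z) atTop (𝓝 (ψ z))) (hf : Integrable f) (hr : r < 1 / 4)
    (hf0 : ∀ a, a ∉ ball c r → f a = 0) :
    Tendsto (fun n => ∫ a, (k * ∫ z, G n z / (a - z) ^ 2) * f a) atTop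
      (𝓝 (∫ a, (k * ∫ z, ψ z / (a - z) ^ 2) * f a)) := by
  set B : ℝ := 3 / (1 / 4 - r) + 1 with hB
  have hδ : 0 < 1 / 4 - r := by linarith
  have key : ∀ a ∈ ball c r, ∀ n z,
      ‖G n z / (a - z) ^ 2‖ ≤ M * B ^ 2 * (‖ψ z‖ / (1 + ‖z‖) ^ 2) := by
    intro a ha n z
    have hz0 := norm_nonneg z
    by_cases hz : z ∈ ball c (1 / 4)
    · have : G n z = 0 := by
        have := hb n z
        rw [h0 z hz, norm_zero, mul_zero] at this
        exact norm_le_zero_iff.1 this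
      rw [this, zero_div, norm_zero]
      positivity
    · rw [mem_ball, dist_eq_norm] at ha hz
      have h1 : ‖z - c‖ ≤ ‖a - c‖ + ‖a - z‖ := by
        have : z - c = (a - c) - (a - z) := by ring
        rw [this]
        exact norm_sub_le _ _
      have h2 : ‖z‖ ≤ ‖z - c‖ + ‖c‖ := by
        conv_lhs => rw [show z = (z - c) + c by ring]
        exact norm_add_le _ _
      have h3 : 1 / 4 - r ≤ ‖a - z‖ := by linarith
      have h4 : 3 ≤ 3 / (1 / 4 - r) * ‖a - z‖ := by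
        rw [div_mul_eq_mul_div, le_div_iff₀ hδ]
        linarith
      have h5 : 1 + ‖z‖ ≤ B * ‖a - z‖ := by
        rw [hB]
        linarith
      have h6 : 0 < ‖a - z‖ := by linarith
      rw [norm_div, norm_pow, ← mul_div_assoc, div_le_div_iff₀ (by positivity) (by positivity)]
      have h7 := pow_le_pow_left₀ (by positivity) h5 2
      calc ‖G n z‖ * (1 + ‖z‖) ^ 2 ≤ (M * ‖ψ z‖) * (B * ‖a - z‖) ^ 2 := by
            gcongr
            exact hb n z
        _ = _ := by ring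
  have hm : ∀ n, Measurable fun p : ℂ × ℂ => G n p.2 / (p.1 - p.2) ^ 2 := fun n =>
    ((hG n).comp measurable_snd).div ((measurable_fst.sub measurable_snd).pow_const 2)
  refine tendsto_integral_of_dominated_convergence
    (fun a => ‖k‖ * (∫ z, M * B ^ 2 * (‖ψ z‖ / (1 + ‖z‖) ^ 2)) * ‖f a‖) (fun n => ?_)
    (hf.norm.const_mul _) (fun n => Eventually.of_forall fun a => ?_)
    (Eventually.of_forall fun a => ?_)
  · exact (((hm n).stronglyMeasurable.integral_prod_right' (ν := volume)).const_mul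
      k).aestronglyMeasurable.mul hf.aestronglyMeasurable
  · by_cases ha : a ∈ ball c r
    · rw [norm_mul, norm_mul]
      gcongr
      exact norm_integral_le_of_norm_le (hI.const_mul _) (Eventually.of_forall (key a ha n))
    · simp [hf0 a ha]
  · by_cases ha : a ∈ ball c r
    · refine (Tendsto.const_mul k ?_).mul_const _
      refine tendsto_integral_of_dominated_convergence _ (fun n => ?_) (hI.const_mul (M * B ^ 2))
        (fun n => Eventually.of_forall (key a ha n)) (Eventually.of_forall fun z => ?_)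
      · exact ((hG n).div ((measurable_const.sub measurable_id).pow_const 2)).aestronglyMeasurable
      · exact (hl z).div_const _
    · simp [hf0 a ha]

theorem fin_alg {J : ℂ} {E : ℝ} (h : ∀ s : ℂ, 0 ≤ ‖s‖ ^ 2 * E + 2 * (conj s * J).re) : J = 0 := by
  set t : ℝ := 1 / (|E| + 1) with ht
  have ht0 : 0 < t := by positivity
  have ht1 : t * E ≤ 1 := by
    rw [ht, div_mul_eq_mul_div, div_le_one (by positivity)]
    linarith [le_abs_self E]
  have h1 := h (-(t : ℂ) * J)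
  have h2 : (conj (-(t : ℂ) * J) * J).re = -t * ‖J‖ ^ 2 := by
    rw [map_mul, map_neg, conj_ofReal, mul_assoc, Complex.conj_mul', ← ofReal_pow, ← ofReal_neg,
      ← ofReal_mul, ofReal_re]
  rw [h2, norm_mul, norm_neg, Complex.norm_real, Real.norm_eq_abs, abs_of_pos ht0] at h1
  have h3 : t * ‖J‖ ^ 2 ≤ 0 := by
    have : (t * ‖J‖) ^ 2 * E = (t * E) * (t * ‖J‖ ^ 2) := by ring
    nlinarith [mul_nonneg ht0.le (sq_nonneg ‖J‖)]
  have h4 : ‖J‖ ^ 2 ≤ 0 := by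
    by_contra hh
    push Not at hh
    linarith [mul_pos ht0 hh]
  exact norm_eq_zero.1 (pow_eq_zero_iff (two_ne_zero) |>.1 (le_antisymm h4 (sq_nonneg _)))

theorem eta_bd (hGrow : GrowStmt) (hUp : UpStmt) {K : Set ℂ} {u : ℂ → ℝ} (h : GM K u) (A : ℝ) :
    ∃ D, 0 ≤ D ∧ ∀ (R : ℝ) (f : ℂ → ℂ), 1 ≤ R →
      (∀ z ∈ K, ‖f z‖ ≤ 8 * A ^ 3 * R ^ 2 / (R + ‖z‖) ^ 3) →
      ∫⁻ z in K, ‖f z‖ₑ ^ 2 ∂μH[1] ≤ ENNReal.ofReal (D / R) := by
  obtain ⟨C', hC', hg⟩ := hGrow 6 (by norm_num)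
  refine ⟨64 * A ^ 6 * (C' * (2 * π)), by positivity, fun R f hR hf => ?_⟩
  have h1 := hg ((μH[1] : Measure ℂ).restrict K) (2 * π) (by positivity) (fun r hr => by
    rw [Measure.restrict_apply measurableSet_closedBall, inter_comm]
    have h2 := hUp _ _ _ _ _ h 0 r (by linarith) (subset_univ _)
    have h3 := En_nonneg u (closedBall 0 r)
    rw [← ENNReal.ofReal_toReal (h.fin 0 r (subset_univ _)).ne]
    refine ENNReal.ofReal_le_ofReal ?_
    unfold len at h2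
    linarith) R hR
  calc ∫⁻ z in K, ‖f z‖ₑ ^ 2 ∂μH[1]
      ≤ ∫⁻ z in K, ENNReal.ofReal (64 * A ^ 6 * R ^ 4) *
          ENNReal.ofReal ((R + ‖z‖) ^ (-6 : ℝ)) ∂μH[1] := by
        refine setLIntegral_mono' h.cl.measurableSet fun z hz => ?_
        have hz0 := norm_nonneg z
        rw [← ofReal_norm, ← ENNReal.ofReal_pow (norm_nonneg _),
          ← ENNReal.ofReal_mul (by positivity)]
        refine ENNReal.ofReal_le_ofReal ((pow_le_pow_left₀ (norm_nonneg _) (hf z hz) 2).trans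
          (le_of_eq ?_))
        rw [Real.rpow_neg (by linarith), show (6 : ℝ) = (6 : ℕ) by norm_num, Real.rpow_natCast]
        have : R + ‖z‖ ≠ 0 := by linarith
        field_simp
        ring
    _ ≤ ENNReal.ofReal (64 * A ^ 6 * R ^ 4) *
          ENNReal.ofReal (C' * (2 * π) * R ^ (1 - 6 : ℝ)) := by
        rw [lintegral_const_mul' _ _ ENNReal.ofReal_ne_top]
        gcongr
    _ = _ := by
        rw [← ENNReal.ofReal_mul (by positivity)]
        congr 1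
        rw [show (1 - 6 : ℝ) = -(5 : ℕ) by norm_num, Real.rpow_neg (by linarith),
          Real.rpow_natCast]
        have : R ≠ 0 := by linarith
        field_simp

end Kap2

open Kap2 in
theorem kap2_pf (hPor : PorStmt) (hSv2 : Sv2Stmt) (hKap1 : Kap1Stmt) (hPsi : PsiStmt)
    (hGrow : GrowStmt) (hUp : UpStmt) (_hHolk : HolkStmt) : Kap2Stmt := by
  intro K K₁ K₂ u χ h hS hχ c hc φ hφ
  obtain ⟨c₀, hc₀, hP⟩ := hPor K u h
  obtain ⟨hs, hI1, hI2, hv⟩ := hPsi K K₁ K₂ u χ h hS hχ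
  set ψ : ℂ → ℂ := fun z => db (fun w => (χ w : ℂ)) z * pd u z with hψ
  set A : ℝ := 6 / c₀ + 1 with hA
  have hA0 : 0 ≤ A := by positivity
  obtain ⟨D, hD0, hD⟩ := eta_bd hGrow hUp h A
  set R : ℕ → ℝ := fun n => n + (1 + 2 / c₀) with hRdef
  have hR1 : ∀ n, 1 ≤ R n := fun n => by
    have : (0 : ℝ) ≤ n + 2 / c₀ := by positivity
    simp only [hRdef]
    linarith
  have hR2 : ∀ n, 2 ≤ c₀ * R n := fun n => by
    have h1 : c₀ * (2 / c₀) = 2 := by field_simp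
    have : 0 ≤ c₀ * (n + 1) := by positivity
    simp only [hRdef]
    linarith
  have hRt : Tendsto R atTop atTop :=
    tendsto_atTop_add_const_right _ _ tendsto_natCast_atTop_atTop
  choose b hb1 hb2 hb3 using fun n => hP (R n) (hR1 n)
  have hsub : K₁ ⊆ K := by
    rw [hS.eq]
    exact subset_union_left
  have hN : ∀ n z, infDist z K₁ < 1 → R n + ‖z‖ ≤ A * ‖b n - z‖ := fun n z hz =>
    near ⟨0, hS.m1⟩ hc₀ (hR2 n) (hb2 n) (fun w hw => hb3 n w (hsub hw)) hz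
  have hne : ∀ n z, infDist z K₁ < 1 → b n - z ≠ 0 := fun n z hz =>
    (bounds (hR1 n) (hb2 n) (hN n z hz)).1
  have hψ0 : ∀ z, 1 / 2 < infDist z K₁ → ψ z = 0 := fun z hz => by
    simp only [hψ, dbchi_far hχ hz, zero_mul]
  have hψc : ∀ z ∈ ball c (1 / 4), ψ z = 0 := fun z hz => by
    have : z ∈ ball (0 : ℂ) (1 / 4) ∪ ball I (1 / 4) := by
      rcases hc with rfl | rfl
      exacts [Or.inl hz, Or.inr hz]
    simp only [hψ, hv z this, zero_mul]
  have hGs : ∀ n, ContDiff ℝ (⊤ : ℕ∞) fun z => ψ z * gg (b n) z := fun n =>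
    smooth_mul hs hψ0 (hne n)
  have hGb : ∀ n z, ‖ψ z * gg (b n) z‖ ≤ 4 * A ^ 2 * R n ^ 2 / (R n + ‖z‖) ^ 2 * ‖ψ z‖ := by
    intro n z
    by_cases hz : infDist z K₁ < 1
    · rw [norm_mul, mul_comm]
      exact mul_le_mul_of_nonneg_right (bounds (hR1 n) (hb2 n) (hN n z hz)).2.1 (norm_nonneg _)
    · simp [hψ0 z (by linarith)]
  have hG2 : ∀ n, Integrable fun z => ‖ψ z * gg (b n) z‖ ^ 2 := by
    intro n
    refine (hI2.const_mul ((4 * A ^ 2 * R n ^ 2) ^ 2)).mono'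
      ((hGs n).continuous.norm.pow 2).aestronglyMeasurable (Eventually.of_forall fun z => ?_)
    have hz0 := norm_nonneg z
    have h1 := hR1 n
    rw [Real.norm_of_nonneg (by positivity)]
    have h2 : ‖ψ z * gg (b n) z‖ ≤ 4 * A ^ 2 * R n ^ 2 / (1 + ‖z‖) * ‖ψ z‖ := by
      refine (hGb n z).trans (mul_le_mul_of_nonneg_right ?_ (norm_nonneg _))
      exact div_le_div_of_nonneg_left (by positivity) (by positivity) (by nlinarith)
    refine (pow_le_pow_left₀ (norm_nonneg _) h2 2).trans (le_of_eq ?_)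
    simp only [hψ]
    generalize 1 + ‖z‖ = q
    ring
  have main : ∀ n (s : ℂ), -(D / R n) ≤ ‖s‖ ^ 2 * (∫ z, (‖dz φ z‖ ^ 2 + ‖db φ z‖ ^ 2)) +
      2 * (conj s * ∫ a, (-(1 / π : ℂ) * ∫ z, ψ z * gg (b n) z / (a - z) ^ 2) * db φ a).re := by
    intro n s
    have h1 := hR1 n
    have hX : ContDiff ℝ (⊤ : ℕ∞) fun w => (χ w : ℂ) * gg (b n) w :=
      smooth_mul (chic_smooth hχ) (fun z hz => by simp [hχ.zero z hz.le]) (hne n)
    have hdb : ∀ z ∈ K, db (fun w => (χ w : ℂ) * gg (b n) w) z = 0 := by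
      intro z hz
      rw [X_db hχ (hne n)]
      rw [hS.eq] at hz
      rcases hz with hz | hz
      · rw [dbchi_near hχ (by rw [infDist_zero_of_mem hz]; norm_num), zero_mul]
      · rw [dbchi_far hχ (far2 hS hz), zero_mul]
    have h2 := hKap1 K (fun z => ψ z * gg (b n) z) c (D / R n) h.cl h.null (hGs n) (hG2 n)
      (fun z hz => by rw [hψc z hz, zero_mul]) (fun Θ hΘ => by
        have h3 := hSv2 K u h _ Θ (D / R n) (hX.of_le (by simp))
          (X_decay hχ hA0 h1 (hb2 n) (hN n)) hdb hΘ (by positivity)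
          (hD (R n) _ h1 fun z hz => X_dz hS hχ hA0 h1 (hb2 n) (hN n) hz)
        refine h3.trans (le_of_eq (integral_congr_ae (Eventually.of_forall fun z => ?_)))
        simp only [X_db hχ (hne n), hψ]
        rw [mul_right_comm]) _ (conj_test hφ s)
    refine h2.trans (le_of_eq ?_)
    rw [← integral_const_mul, ← integral_const_mul]
    congr 1
    · refine integral_congr_ae (Eventually.of_forall fun z => ?_)
      simp only [(conj_dz_db s φ z).1, (conj_dz_db s φ z).2, norm_mul, Complex.norm_conj]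
      ring
    · congr 2
      refine integral_congr_ae (Eventually.of_forall fun z => ?_)
      simp only [(conj_dz_db s φ z).1, map_mul, conj_conj]
      ring
  obtain ⟨r, hr, hrs⟩ := exists_lt_subset_ball (isClosed_tsupport φ) hφ.sub
  have hlim := conv (ψ := ψ) (G := fun n z => ψ z * gg (b n) z) (k := -(1 / π : ℂ))
    (M := 4 * A ^ 2) (by positivity) (fun n => (hGs n).continuous.measurable) hI1 hψc
    (by rcases hc with rfl | rfl <;> simp) (fun n z => by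
      refine (hGb n z).trans (mul_le_mul_of_nonneg_right ?_ (norm_nonneg _))
      have hz0 := norm_nonneg z
      have h1 := hR1 n
      rw [div_le_iff₀ (by positivity)]
      gcongr
      linarith)
    (fun z => by
      simpa using (gg_tendsto (tendsto_atTop_mono hb1 hRt) z).const_mul (ψ z))
    (db_int hφ) hr (fun a ha => db_out fun h' => ha (hrs h'))
  refine fin_alg (E := ∫ z, (‖dz φ z‖ ^ 2 + ‖db φ z‖ ^ 2)) fun s => ?_
  have h1 : Tendsto (fun n => -(D / R n)) atTop (𝓝 (-0)) := (hRt.const_div_atTop D).neg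
  rw [neg_zero] at h1
  exact le_of_tendsto_of_tendsto' h1 (tendsto_const_nhds.add
    (((continuous_re.tendsto _).comp (hlim.const_mul (conj s))).const_mul 2)) fun n => main n s

end Vale.Agent.P128
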