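import Vale.Agent.P128.Stm

open MeasureTheory Set Metric Filter Topology Complex
open scoped ENNReal ComplexConjugate Real

noncomputable section
namespace Vale.Agent.P128

namespace Lc

theorem sep {S : Set ℂ} (hS : IsCompact S) {p q : ℂ} (hp : p ∈ S) (hq : q ∈ S)
    (h : ¬∃ C : Set ℂ, IsCompact C ∧ IsPreconnected C ∧ C ⊆ S ∧ p ∈ C ∧ q ∈ C) :
    ∃ K₁ K₂ : Set ℂ, IsCompact K₁ ∧ IsCompact K₂ ∧ Disjoint K₁ K₂ ∧ S = K₁ ∪ K₂ ∧ p ∈ K₁ ∧
      q ∈ K₂ := by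
  have : CompactSpace S := isCompact_iff_compactSpace.1 hS
  have h1 : (⟨q, hq⟩ : S) ∉ connectedComponent (⟨p, hp⟩ : S) := fun h1 =>
    h ⟨_, isClosed_connectedComponent.isCompact.image continuous_subtype_val,
      isPreconnected_connectedComponent.image _ continuous_subtype_val.continuousOn,
      Subtype.coe_image_subset _ _, ⟨_, mem_connectedComponent, rfl⟩, _, h1, rfl⟩
  rw [connectedComponent_eq_iInter_isClopen, mem_iInter, not_forall] at h1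
  obtain ⟨⟨s, hs, hps⟩, hqs⟩ := h1
  refine ⟨Subtype.val '' s, Subtype.val '' sᶜ, hs.1.isCompact.image continuous_subtype_val,
    hs.compl.1.isCompact.image continuous_subtype_val,
    (disjoint_image_iff Subtype.val_injective).2 disjoint_compl_right, ?_, ⟨_, hps, rfl⟩,
    _, hqs, rfl⟩
  rw [← image_union, union_compl_self, Subtype.coe_image_univ]

/-- the rescaled data -/
structure Dat (Ω K K₁ K₂ : Set ℂ) (u : ℂ → ℝ) (Λ M R : ℝ) : Prop where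
  ms : IsMS Ω K u Λ M
  sub : ball 0 R ⊆ Ω
  s1 : K₁ ⊆ K
  s2 : K₂ ⊆ K
  m1 : (0 : ℂ) ∈ K₁
  m2 : I ∈ K₂
  cov : K ∩ ball 0 R ⊆ K₁ ∪ K₂
  far : ∀ z ∈ K₁, ∀ w ∈ K₂, R - ‖z‖ ≤ R * ‖z - w‖

theorem pick (hScale : ScaleStmt) {Ω K : Set ℂ} {u : ℂ → ℝ} {Λ M A c r : ℝ} {y : ℂ}
    (h : IsMS Ω K u Λ M) (hA : 1 < A) (hr : 0 < r) (hΩ : closedBall y (A * r) ⊆ Ω)
    (hc : Λ * M * (A * r) ≤ c) (hn : ¬LocConn K A y r) :
    ∃ (Ω K K₁ K₂ : Set ℂ) (u : ℂ → ℝ) (Λ M R : ℝ), Dat Ω K K₁ K₂ u Λ M R ∧ (A - 1) / 2 ≤ R ∧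
      Λ * M ≤ 2 * c := by
  simp only [LocConn, not_forall] at hn
  obtain ⟨p, hp, q, hq, hn⟩ := hn
  have hb : closedBall y r ⊆ closedBall y (A * r) := closedBall_subset_closedBall (by nlinarith)
  obtain ⟨K₁, K₂, c1, c2, hd, he, p1, q2⟩ :=
    sep ((isCompact_closedBall y _).inter_left h.cl) ⟨hp.1, hb hp.2⟩ ⟨hq.1, hb hq.2⟩ hn
  have ne : ∀ z ∈ K₁, ∀ w ∈ K₂, 0 < ‖z - w‖ := fun z hz w hw =>
    norm_pos_iff.2 (sub_ne_zero.2 fun e => disjoint_left.1 hd hz (e ▸ hw))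
  have s1 : K₁ ⊆ K ∩ closedBall y (A * r) := he ▸ subset_union_left
  have s2 : K₂ ⊆ K ∩ closedBall y (A * r) := he ▸ subset_union_right
  obtain ⟨⟨a, b⟩, ⟨ha, hb'⟩, hm⟩ := (c1.prod c2).exists_isMaxOn ⟨(p, q), p1, q2⟩
    (f := fun s : ℂ × ℂ => (A * r - ‖s.1 - y‖) / ‖s.1 - s.2‖)
    (ContinuousOn.div (by fun_prop) (by fun_prop) fun s hs => (ne _ hs.1 _ hs.2).ne')
  simp only at ha hb'
  have d0 := ne a ha b hb'
  have hd' : ‖(b - a) / I‖ = ‖a - b‖ := by rw [norm_div, norm_I, div_one, norm_sub_rev]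
  obtain ⟨R, hR⟩ : ∃ R, R = (A * r - ‖a - y‖) / ‖a - b‖ := ⟨_, rfl⟩
  have hR' : R * ‖a - b‖ = A * r - ‖a - y‖ := by rw [hR, div_mul_cancel₀ _ d0.ne']
  have hm' : ∀ z ∈ K₁, ∀ w ∈ K₂, A * r - ‖z - y‖ ≤ R * ‖z - w‖ := fun z hz w hw => by
    rw [← div_le_iff₀ (ne z hz w hw), hR]
    exact hm (show (z, w) ∈ K₁ ×ˢ K₂ from ⟨hz, hw⟩)
  generalize hd : (b - a) / I = d at hd'
  have hin : ∀ z ∈ ball (0 : ℂ) R, af a d z ∈ closedBall y (A * r) := fun z hz => by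
    rw [mem_ball_zero_iff] at hz
    rw [mem_closedBall_iff_norm, af, add_sub_right_comm]
    refine (norm_add_le _ _).trans ?_
    rw [norm_mul, hd']
    nlinarith
  refine ⟨_, _, af a d ⁻¹' K₁, af a d ⁻¹' K₂, _, _, _, R,
    ⟨(hScale a d (norm_pos_iff.1 (hd' ▸ d0))).2.2.2.2.2.2 Ω K u Λ M h, fun z hz => hΩ (hin z hz),
      fun z hz => (s1 hz).1, fun z hz => (s2 hz).1, by simpa [af] using ha, ?_,
      fun z hz => he.subset ⟨hz.1, hin z hz.2⟩, fun z hz w hw => ?_⟩, ?_, ?_⟩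
  · rwa [mem_preimage, af, ← hd, div_mul_cancel₀ _ I_ne_zero, add_sub_cancel]
  · have k := hm' _ hz _ hw
    rw [af, af, add_sub_add_left_eq_sub, ← mul_sub, norm_mul, add_sub_right_comm, hd'] at k
    have k2 := norm_add_le (a - y) (d * z)
    rw [norm_mul, hd'] at k2
    refine le_of_mul_le_mul_right ?_ d0
    nlinarith
  · have k := hm' p p1 q q2
    have k1 := mem_closedBall_iff_norm.1 hp.2
    have k2 := mem_closedBall_iff_norm.1 hq.2
    have k3 := norm_sub_le_norm_sub_add_norm_sub p y q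
    rw [norm_sub_rev y q] at k3
    have k4 := ne p p1 q q2
    have k5 : 0 < R := by
      by_contra k5
      nlinarith [mul_nonneg (neg_nonneg.2 (not_lt.1 k5)) k4.le]
    refine le_of_mul_le_mul_right ?_ hr
    nlinarith [mul_le_mul_of_nonneg_left (k3.trans (add_le_add k1 k2)) k5.le]
  · have k1 := mem_closedBall_iff_norm.1 (s1 ha).2
    have k2 := mem_closedBall_iff_norm.1 (s2 hb').2
    have k3 := norm_sub_le_norm_sub_add_norm_sub a y b
    rw [norm_sub_rev y b] at k3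
    rw [hd', mul_assoc, mul_div_cancel₀ _ (Real.sqrt_pos.2 d0).ne']
    nlinarith [mul_le_mul_of_nonneg_left (k3.trans (add_le_add k1 k2)) h.a0]

theorem mem_limK {S : ℕ → Set ℂ} (hS : ∀ j, (S j).Nonempty) {z : ℂ} : z ∈ limK S ↔
    ∀ ε, 0 < ε → ∀ᶠ j in hyperfilter ℕ, ∃ w ∈ S j, ‖z - w‖ < ε := by
  simp only [limK, mem_ofPred_eq, Metric.tendsto_nhds, Real.dist_0_eq_abs,
    abs_of_nonneg infDist_nonneg, infDist_lt_iff (hS _), ← dist_eq_norm, gt_iff_lt]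

theorem closed_limK {S : ℕ → Set ℂ} (hS : ∀ j, (S j).Nonempty) : IsClosed (limK S) := by
  refine isClosed_of_closure_subset fun z hz => (mem_limK hS).2 fun ε hε => ?_
  obtain ⟨w, hw, h1⟩ := Metric.mem_closure_iff.1 hz (ε / 2) (half_pos hε)
  filter_upwards [(mem_limK hS).1 hw (ε / 2) (half_pos hε)] with j ⟨a, ha, h2⟩
  refine ⟨a, ha, ?_⟩
  rw [dist_eq_norm] at h1
  linarith [norm_sub_le_norm_sub_add_norm_sub z w a]

theorem split {Ω K K₁ K₂ : ℕ → Set ℂ} {u : ℕ → ℂ → ℝ} {Λ M R : ℕ → ℝ}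
    (h : ∀ j, Dat (Ω j) (K j) (K₁ j) (K₂ j) (u j) (Λ j) (M j) (R j))
    (hR : Tendsto R atTop atTop) : Split (limK K) (limK K₁) (limK K₂) := by
  have n1 : ∀ j, (K₁ j).Nonempty := fun j => ⟨_, (h j).m1⟩
  have n2 : ∀ j, (K₂ j).Nonempty := fun j => ⟨_, (h j).m2⟩
  have n0 : ∀ j, (K j).Nonempty := fun j => (n1 j).mono (h j).s1
  have big : ∀ t, ∀ᶠ j in hyperfilter ℕ, t < R j := fun t =>
    Nat.hyperfilter_le_atTop (hR.eventually_gt_atTop t)
  refine ⟨Subset.antisymm (fun z hz => ?_) (union_subset (fun z hz => ?_) fun z hz => ?_),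
    closed_limK n1, closed_limK n2, fun z hz w hw => ?_, ?_, ?_⟩
  · by_contra hc
    simp only [mem_union, mem_limK n1, mem_limK n2, not_or, not_forall,
      ← Ultrafilter.eventually_not] at hc
    obtain ⟨⟨a, ha, h1⟩, b, hb, h2⟩ := hc
    obtain ⟨j, ⟨w, hw, j1⟩, j2, j3, j4⟩ := (((mem_limK n0).1 hz (min a b) (lt_min ha hb)).and
      (h1.and (h2.and (big (‖z‖ + a))))).exists
    rw [lt_min_iff] at j1
    rcases (h j).cov ⟨hw, mem_ball_zero_iff.2 (by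
      linarith [norm_le_norm_add_norm_sub z w, j1.1])⟩ with k | k
    · exact j2 ⟨w, k, j1.1⟩
    · exact j3 ⟨w, k, j1.2⟩
  · exact (mem_limK n0).2 fun ε hε => ((mem_limK n1).1 hz ε hε).mono
      fun j ⟨w, hw, k⟩ => ⟨w, (h j).s1 hw, k⟩
  · exact (mem_limK n0).2 fun ε hε => ((mem_limK n2).1 hz ε hε).mono
      fun j ⟨w, hw, k⟩ => ⟨w, (h j).s2 hw, k⟩
  · refine le_of_forall_pos_le_add fun ε hε => ?_
    have h3 : 0 < ε / 3 := by positivity
    obtain ⟨j, ⟨a, ha, j1⟩, ⟨b, hb, j2⟩, j3⟩ := (((mem_limK n1).1 hz _ h3).and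
      (((mem_limK n2).1 hw _ h3).and (big ((‖z‖ + ε / 3) / (ε / 3))))).exists
    have k0 : 0 < R j := lt_trans (by positivity) j3
    rw [div_lt_iff₀ h3] at j3
    have k1 := (h j).far a ha b hb
    have k2 := norm_le_norm_add_norm_sub z a
    have k3 := norm_sub_le_norm_sub_add_norm_sub a z b
    have k4 := norm_sub_le_norm_sub_add_norm_sub z w b
    rw [norm_sub_rev a z] at k3
    have k5 : ‖a - b‖ ≤ ‖z - w‖ + 2 * (ε / 3) := by linarith
    refine le_of_mul_le_mul_left ?_ k0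
    nlinarith [mul_le_mul_of_nonneg_left k5 k0.le]
  · exact (mem_limK n1).2 fun ε hε => Eventually.of_forall fun j => ⟨_, (h j).m1, by simpa⟩
  · exact (mem_limK n2).2 fun ε hε => Eventually.of_forall fun j => ⟨_, (h j).m2, by simpa⟩

end Lc

theorem lc_pf (hScale : ScaleStmt) (hCpt : CptStmt) (hTstar : TstarStmt) : LcStmt := by
  by_contra hc
  have key : ∀ j : ℕ, ∃ (Ω K K₁ K₂ : Set ℂ) (u : ℂ → ℝ) (Λ M R : ℝ),
      Lc.Dat Ω K K₁ K₂ u Λ M R ∧ ((j : ℝ) + 2 - 1) / 2 ≤ R ∧ Λ * M ≤ 2 * (1 / ((j : ℝ) + 1)) := by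
    intro j
    by_contra hj
    have h0 : (0 : ℝ) ≤ j := Nat.cast_nonneg j
    refine hc ⟨j + 2, 1 / ((j : ℝ) + 1), by positivity, fun Ω K u Λ M h hs => ⟨h, by linarith,
      fun x r hx => (hs x r hx).trans ((div_le_one (by positivity)).2 (by linarith)),
      fun y r hr hy => ?_⟩⟩
    by_contra hn
    exact hj (Lc.pick hScale h (by linarith) hr hy (hs y _ hy) hn)
  choose Ω K K₁ K₂ u Λ M R h h1 h2 using key
  have hR : Tendsto R atTop atTop := tendsto_atTop_mono h1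
    ((tendsto_atTop_add_const_right _ _ (tendsto_atTop_add_const_right _ _
      tendsto_natCast_atTop_atTop)).atTop_div_const two_pos)
  obtain ⟨v, hv, -⟩ := hCpt Ω K u Λ M R ⟨fun j => (h j).ms, fun j => (h j).sub, hR,
    squeeze_zero (fun j => (h j).ms.a0) h2 (by
      simpa using tendsto_one_div_add_atTop_nhds_zero_nat.const_mul (2 : ℝ)),
    fun j => (h j).s1 (h j).m1⟩
  exact hTstar _ _ _ v hv (Lc.split h hR)

end Vale.Agent.P128
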