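import Vale.Agent.P128.Stm

open MeasureTheory Set Metric Filter Topology Complex
open scoped ENNReal ComplexConjugate Real NNReal

noncomputable section
namespace Vale.Agent.P128

namespace Lenc

theorem main (W : ℂ → ℂ) (S : Set ℂ) (hW : ContDiff ℝ 1 W) (hS : MeasurableSet S) (ε : ℝ≥0)
    (hε : 0 < ε) :
    μH[1] (W '' S) ≤ (∫⁻ z in S, ‖fderiv ℝ W z‖ₑ ∂μH[1]) + (ε + ε : ℝ≥0) * μH[1] S := by
  have hc : Continuous (fderiv ℝ W) := hW.continuous_fderiv one_ne_zero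
  have h1 : ∀ z : ℂ, ∃ r, 0 < r ∧ ∀ w ∈ ball z r, ‖fderiv ℝ W w - fderiv ℝ W z‖ ≤ ε := by
    intro z
    obtain ⟨r, r0, hr⟩ := Metric.continuous_iff.1 hc z ε hε
    exact ⟨r, r0, fun w hw => by rw [← dist_eq_norm]; exact (hr w hw).le⟩
  choose r r0 hr using h1
  obtain ⟨T, Tc, hT⟩ := TopologicalSpace.countable_cover_nhds (f := fun z => ball z (r z))
    fun z => ball_mem_nhds z (r0 z)
  have Tn : T.Nonempty := by
    have : (0 : ℂ) ∈ ⋃ x ∈ T, ball x (r x) := hT ▸ mem_univ _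
    obtain ⟨x, hx, -⟩ := mem_iUnion₂.1 this
    exact ⟨x, hx⟩
  obtain ⟨z, rfl⟩ := Tc.exists_eq_range Tn
  rw [biUnion_range] at hT
  obtain ⟨B, hB⟩ : ∃ B : ℕ → Set ℂ, B = disjointed fun i => ball (z i) (r (z i)) := ⟨_, rfl⟩
  have Bm : ∀ i, MeasurableSet (S ∩ B i) := fun i =>
    hS.inter (hB ▸ MeasurableSet.disjointed (fun _ => measurableSet_ball) i)
  have Bs : ∀ i, S ∩ B i ⊆ ball (z i) (r (z i)) := fun i =>
    inter_subset_right.trans (hB ▸ disjointed_subset _ i)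
  have Bd : Pairwise (Function.onFun Disjoint fun i => S ∩ B i) := fun i j hij =>
    (hB ▸ disjoint_disjointed _ hij : Disjoint (B i) (B j)).mono inter_subset_right
      inter_subset_right
  have BU : S = ⋃ i, S ∩ B i := by rw [← inter_iUnion, hB, iUnion_disjointed, hT, inter_univ]
  have key : ∀ i, μH[1] (W '' (S ∩ B i)) ≤
      ∫⁻ w in S ∩ B i, (‖fderiv ℝ W w‖ₑ + (ε + ε : ℝ≥0)) ∂μH[1] := by
    intro i
    have k1 : LipschitzOnWith (‖fderiv ℝ W (z i)‖₊ + ε) W (ball (z i) (r (z i))) := by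
      refine (convex_ball _ _).lipschitzOnWith_of_nnnorm_fderiv_le (𝕜 := ℝ)
        (fun w _ => hW.differentiable one_ne_zero w) fun w hw => ?_
      rw [← NNReal.coe_le_coe, NNReal.coe_add, coe_nnnorm, coe_nnnorm]
      linarith [norm_sub_norm_le (fderiv ℝ W w) (fderiv ℝ W (z i)), hr _ w hw]
    refine ((k1.mono (Bs i)).hausdorffMeasure_image_le zero_le_one).trans ?_
    rw [ENNReal.rpow_one, ← setLIntegral_const]
    refine setLIntegral_mono' (Bm i) fun w hw => ?_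
    rw [enorm_eq_nnnorm, ← ENNReal.coe_add, ENNReal.coe_le_coe, ← NNReal.coe_le_coe]
    simp only [NNReal.coe_add, coe_nnnorm]
    have k2 := hr _ w (Bs i hw)
    rw [norm_sub_rev] at k2
    linarith [norm_sub_norm_le (fderiv ℝ W (z i)) (fderiv ℝ W w)]
  calc μH[1] (W '' S) = μH[1] (⋃ i, W '' (S ∩ B i)) := by rw [← image_iUnion, ← BU]
    _ ≤ ∑' i, μH[1] (W '' (S ∩ B i)) := measure_iUnion_le _
    _ ≤ ∑' i, ∫⁻ w in S ∩ B i, (‖fderiv ℝ W w‖ₑ + (ε + ε : ℝ≥0)) ∂μH[1] :=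
      ENNReal.tsum_le_tsum key
    _ = ∫⁻ w in S, (‖fderiv ℝ W w‖ₑ + (ε + ε : ℝ≥0)) ∂μH[1] := by
      rw [← lintegral_iUnion Bm Bd, ← BU]
    _ = _ := by rw [lintegral_add_right _ measurable_const, setLIntegral_const]

end Lenc

theorem lenc_pf : LencStmt := by
  intro W S hW hS hf
  refine ENNReal.le_of_forall_pos_le_add fun η hη _ => ?_
  obtain ⟨m, hm⟩ : ∃ m : ℝ≥0, μH[1] S = m := ⟨_, (ENNReal.coe_toNNReal hf.ne).symm⟩
  refine (Lenc.main W S hW hS (η / (2 * (m + 1))) (by positivity)).trans ?_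
  rw [hm, ← ENNReal.coe_mul]
  gcongr
  rw [← two_mul, mul_div_assoc', div_mul_eq_mul_div, div_le_iff₀ (by positivity)]
  calc 2 * η * m ≤ 2 * η * (m + 1) := by gcongr; exact le_self_add
    _ = _ := by ring

end Vale.Agent.P128
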