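import Vale.Agent.P128.Stm

open MeasureTheory Set Metric Filter Topology Complex
open scoped ENNReal ComplexConjugate Real

noncomputable section
namespace Vale.Agent.P128

namespace Low

theorem free (hArcs : ArcsStmt) {K : Set ℂ} {u : ℂ → ℝ} {x : ℂ} {ρ : ℝ} (h : Good K u x ρ)
    (h1 : (K ∩ sphere x ρ).ncard ≤ 1) : ∃ α, Free K x ρ α (α + 2 * π) := by
  rcases (K ∩ sphere x ρ).eq_empty_or_nonempty with he | hne
  · refine ⟨0, fun θ _ hθ => ?_⟩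
    have : circleMap x ρ θ ∈ K ∩ sphere x ρ := ⟨hθ, circleMap_mem_sphere x h.pos.le θ⟩
    rw [he] at this
    exact this
  · obtain ⟨N, θ, hN, N0, a1, a2, -⟩ := hArcs K x ρ h.pos h.fin hne
    obtain rfl : N = 1 := by omega
    exact ⟨θ 0, a2 ▸ (a1 0 one_pos).2.2⟩

theorem cg_int (u : ℂ → ℝ) (x : ℂ) {ρ : ℝ} (hρ : 0 ≤ ρ) :
    ∫ θ in (0 : ℝ)..2 * π, ‖cg u x ρ θ‖ =
      ρ • ∫ θ in (0 : ℝ)..2 * π, ‖pd u (circleMap x ρ θ)‖ := by
  rw [smul_eq_mul, ← intervalIntegral.integral_const_mul]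
  simp [cg, abs_of_nonneg hρ]

theorem num {c ρ η ε δ r a E S L : ℝ} (c0 : 0 < c) (η0 : 0 < η) (η1 : η ≤ 1) (η2 : η ≤ c / 200)
    (ε0 : 0 < ε) (ε1 : ε ≤ 1) (δ0 : 0 < δ) (δ1 : δ ≤ 1) (δ2 : δ ≤ c * ε ^ 3 * η / 100000)
    (ρ0 : 0 < ρ) (hρ : ε * r / 8 ≤ ρ) (ha : a * ρ ≤ δ)
    (hE : E ≤ 2 * π * ρ + 2 * π * a * ρ ^ 2) (hS : S ^ 2 * ε ^ 2 ≤ 16 * δ ^ 2 * r)
    (h1 : c * (ρ / 4) ≤ L)
    (h2 : L ≤ η * E + 4 * π * S ^ 2 / (η * (1 / 2)) + 2 * π * a * ρ ^ 2) : False := by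
  have p4 := Real.pi_le_four
  have p0 := Real.pi_pos
  have cρ : 0 < c * ρ := by positivity
  have e0 : ε ^ 3 * η ≤ 1 := mul_le_one₀ (pow_le_one₀ ε0.le ε1) η0.le η1
  have e1 : δ ≤ c / 100000 := by nlinarith
  have a1 : 2 * π * a * ρ ^ 2 ≤ 8 * (δ * ρ) := by
    calc _ = 2 * π * (a * ρ * ρ) := by ring
      _ ≤ 2 * π * (δ * ρ) := by gcongr
      _ ≤ 2 * 4 * (δ * ρ) := by gcongr
      _ = _ := by ring
  have a2 : δ * ρ ≤ ρ := mul_le_of_le_one_left ρ0.le δ1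
  have a3 : δ * ρ ≤ c / 100000 * ρ := by gcongr
  have a4 : η * E ≤ c / 200 * (16 * ρ) := by
    refine (mul_le_mul_of_nonneg_left (hE.trans (show _ ≤ 16 * ρ by nlinarith)) η0.le).trans ?_
    gcongr
  have a5 : S ^ 2 ≤ c * ρ * η / 500 := by
    refine le_of_mul_le_mul_right ?_ (pow_pos ε0 3)
    have b1 : δ ^ 2 ≤ c * ε ^ 3 * η / 100000 := by nlinarith
    have b2 : δ ^ 2 * (ε * r) ≤ δ ^ 2 * (8 * ρ) :=
      mul_le_mul_of_nonneg_left (by linarith) (sq_nonneg δ)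
    have b3 : δ ^ 2 * ρ ≤ c * ε ^ 3 * η / 100000 * ρ := by gcongr
    have b4 : 0 ≤ c * ε ^ 3 * η * ρ := by positivity
    linarith [mul_le_mul_of_nonneg_right hS ε0.le]
  have a6 : 4 * π * S ^ 2 / (η * (1 / 2)) ≤ 32 * (c * ρ) / 500 := by
    rw [div_le_iff₀ (by positivity)]
    calc _ ≤ 4 * 4 * (c * ρ * η / 500) := by gcongr
      _ = _ := by ring
  linarith

end Low

open Low in
theorem low_pf (hDens : DensStmt) (hGood : GoodStmt) (hPol : PolStmt) (hRem : RemStmt)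
    (hUp : UpStmt) (hCirc : CircStmt) (hArcs : ArcsStmt) : LowStmt := by
  intro ε' hε'
  obtain ⟨c, c0, hD⟩ := hDens
  obtain ⟨ε, ε0, ε1, ε2⟩ : ∃ ε : ℝ, 0 < ε ∧ ε ≤ 1 ∧ ε ≤ ε' :=
    ⟨min 1 ε', by positivity, min_le_left _ _, min_le_right _ _⟩
  obtain ⟨η, η0, η1, η2⟩ : ∃ η : ℝ, 0 < η ∧ η ≤ 1 ∧ η ≤ c / 200 :=
    ⟨min 1 (c / 200), by positivity, min_le_left _ _, min_le_right _ _⟩
  obtain ⟨δ, δ0, δ1, δ2⟩ : ∃ δ : ℝ, 0 < δ ∧ δ ≤ 1 ∧ δ ≤ c * ε ^ 3 * η / 100000 :=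
    ⟨min 1 (c * ε ^ 3 * η / 100000), by positivity, min_le_left _ _, min_le_right _ _⟩
  refine ⟨δ, δ0, fun Ω K u Λ M h x hx r r0 hr ha hI => ?_⟩
  have q0 : 0 < √r := Real.sqrt_pos.2 r0
  have q2 : √r ^ 2 = r := Real.sq_sqrt r0.le
  have s0 : 0 < ε * r / 8 := by positivity
  have s1 : ε * r / 8 ≤ r := by nlinarith
  have key : ∀ ρ, ε * r / 8 ≤ ρ → ρ ≤ r → Good K u x ρ → (2 : ℝ) ≤ cnt K x ρ +
      ε / (2 * δ * √r) * ρ • ∫ θ in (0 : ℝ)..2 * π, ‖pd u (circleMap x ρ θ)‖ := by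
    intro ρ ρ1 ρ2 hg
    have ρ0 := hg.pos
    rw [← cg_int u x ρ0.le]
    have S0 : 0 ≤ ∫ θ in (0 : ℝ)..2 * π, ‖cg u x ρ θ‖ :=
      intervalIntegral.integral_nonneg (by positivity) fun _ _ => norm_nonneg _
    by_contra hc
    push Not at hc
    have t0 : 0 ≤ ε / (2 * δ * √r) * ∫ θ in (0 : ℝ)..2 * π, ‖cg u x ρ θ‖ := by positivity
    have n0 : 0 ≤ cnt K x ρ := Nat.cast_nonneg _
    have n1 : (K ∩ sphere x ρ).ncard ≤ 1 := by
      have : ((K ∩ sphere x ρ).ncard : ℝ) < (2 : ℕ) := by unfold cnt at hc; push_cast; linarith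
      have := Nat.cast_lt.1 this
      omega
    have n2 : (∫ θ in (0 : ℝ)..2 * π, ‖cg u x ρ θ‖) * ε ≤ 4 * δ * √r := by
      have : ε / (2 * δ * √r) * ∫ θ in (0 : ℝ)..2 * π, ‖cg u x ρ θ‖ ≤ 2 := by linarith
      rw [div_mul_eq_mul_div, div_le_iff₀ (by positivity)] at this
      linarith
    have n3 := pow_le_pow_left₀ (by positivity) n2 2
    rw [mul_pow, mul_pow, mul_pow, q2] at n3
    obtain ⟨α, hα⟩ := free hArcs hg n1
    have hρ : closedBall x ρ ⊆ Ω := (closedBall_subset_closedBall ρ2).trans hr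
    have aρ : Λ * M * ρ ≤ δ := (mul_le_mul_of_nonneg_left ρ2 h.a0).trans ha
    have m1 := (hRem Ω K u Λ M h x ρ η (1 / 2) ρ0 hρ η0 η1 (by norm_num) (by norm_num)).2 α _ hg
      (by linarith [Real.pi_pos]) le_rfl hα
    have m2 := hUp Ω K u Λ M h x ρ ρ0.le hρ
    have m3 := hD Ω K u Λ M h x hx (ρ / 4) (by positivity)
      ((closedBall_subset_closedBall (by linarith)).trans hρ) (by nlinarith [h.a0])
    have m4 : len K (closedBall x (ρ / 4)) ≤ len K (ball x ((1 - 1 / 2) * ρ)) :=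
      len_mono (closedBall_subset_ball (by linarith)) ((measure_mono (inter_subset_inter_right _
        (ball_subset_closedBall.trans (closedBall_subset_closedBall (by linarith))))).trans_lt
          (h.fin x ρ hρ))
    rw [add_sub_cancel_left, sub_self, zero_mul, zero_add] at m1
    exact num c0 η0 η1 η2 ε0 ε1 δ0 δ1 δ2 ρ0 ρ1 aρ
      (by linarith [len_nonneg K (closedBall x ρ)]) (by linarith) (m3.trans m4) m1
  have i1 : IntegrableOn (fun z => ‖pd u z‖) (closedBall x r) := by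
    refine Integrable.mono' ((integrableOn_const (C := (1 : ℝ)) measure_closedBall_lt_top.ne).add
      (h.int x r hr)) (measurable_pd u).norm.aestronglyMeasurable (ae_of_all _ fun z => ?_)
    rw [norm_norm]
    simp only [Pi.add_apply]
    nlinarith [sq_nonneg (‖pd u z‖ - 1), norm_nonneg (pd u z)]
  obtain ⟨g1, -, g3, g4⟩ := hGood K u x r h.cl (h.fin x r hr) (h.int x r hr)
  obtain ⟨-, p2, p3⟩ := hPol.2.1 ℝ _ x r i1
  have sub : Ioo (ε * r / 8) r ⊆ Ioo 0 r := Ioo_subset_Ioo_left s0.le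
  have j1 := (intervalIntegrable_iff_integrableOn_Ioo_of_le s1).2 (g3.mono_set sub)
  have j2 := (intervalIntegrable_iff_integrableOn_Ioo_of_le s1).2 (p2.mono_set sub)
  have k1 : ∫ _ in (ε * r / 8)..r, (2 : ℝ) ≤ ∫ ρ in (ε * r / 8)..r, (cnt K x ρ +
      ε / (2 * δ * √r) * ρ • ∫ θ in (0 : ℝ)..2 * π, ‖pd u (circleMap x ρ θ)‖) := by
    refine intervalIntegral.integral_mono_ae_restrict s1 intervalIntegrable_const
      (j1.add (j2.const_mul _)) ?_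
    rw [← Measure.restrict_congr_set Ioo_ae_eq_Icc]
    filter_upwards [ae_restrict_of_ae g1, ae_restrict_mem measurableSet_Ioo] with ρ a1 a2
    exact key ρ a2.1.le a2.2.le (a1 (sub a2))
  rw [intervalIntegral.integral_add j1 (j2.const_mul _), intervalIntegral.integral_const_mul,
    ← p3 _ _ s0.le s1 le_rfl, intervalIntegral.integral_const, smul_eq_mul] at k1
  have k2 : ∫ z in closedBall x r \ closedBall x (ε * r / 8), ‖pd u z‖ ≤ δ * r * √r :=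
    (setIntegral_mono_set i1 (ae_of_all _ fun _ => norm_nonneg _) sdiff_subset.eventuallyLE).trans hI
  have k3 : ε / (2 * δ * √r) * ∫ z in closedBall x r \ closedBall x (ε * r / 8), ‖pd u z‖ ≤
      ε * r / 2 := by
    refine (mul_le_mul_of_nonneg_left k2 (by positivity)).trans (le_of_eq ?_)
    field_simp
  have k4 := (g4 _ _ s0.le s1 le_rfl).2
  nlinarith [len_nonneg K (closedBall x (ε * r / 8)), mul_le_mul_of_nonneg_right ε2 r0.le]

end Vale.Agent.P128
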