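import Vale.Agent.P128.Stm

open MeasureTheory Set Metric Filter Topology Complex
open scoped ENNReal ComplexConjugate Real

noncomputable section
namespace Vale.Agent.P128

namespace Lowgeo

theorem lb (hTh : ThStmt) {K : Set ℂ} {x : ℂ} {b b' ε : ℝ} (hb' : 0 < b') (hle : b' ≤ b)
    (h : ∀ z ∈ K ∩ closedBall x b, AMin K z b ε) : LB K x b' ε (1 / 6) := by
  intro z hz hne hzb t ht _
  have hA := h z ⟨hz, mem_closedBall_iff_norm.2 (hzb.trans hle)⟩
  have hs : 0 < ‖z - x‖ := norm_pos_iff.2 (sub_ne_zero.2 hne)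
  have ht0 := ht.1
  have ht1 := ht.2
  refine le_trans ?_ ((hTh K z b ε hA).1 t ⟨ht0, by linarith⟩)
  have e0 := hA.e0
  have h1 : (t / b) ^ (1 / 3 : ℝ) ≤ (‖z - x‖ / b') ^ (1 / 6 : ℝ) := by
    refine le_trans (Real.rpow_le_rpow (div_nonneg ht0.le (hb'.le.trans hle))
      (div_le_div₀ hs.le (by linarith) hb' hle) (by norm_num)) ?_
    exact Real.rpow_le_rpow_of_exponent_ge (div_pos hs hb') ((div_le_one hb').2 hzb) (by norm_num)
  have h2 : ε * (t / b) ^ (1 / 3 : ℝ) * (2 * t) ≤ ε * (‖z - x‖ / b') ^ (1 / 6 : ℝ) * ‖z - x‖ :=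
    mul_le_mul (mul_le_mul_of_nonneg_left h1 e0) (by linarith) (by linarith) (by positivity)
  linarith

end Lowgeo
open Lowgeo

theorem lowgeo_pf (hTh : ThStmt) (hUpn : UpnStmt) (hRay : RayStmt) (hSlc : SlcStmt)
    (hFl : FlStmt) (hFlat : FlatStmt) (hJunc : JuncStmt) : LowgeoStmt := by
  obtain ⟨εF, hF0, hF⟩ := hFl (1 / 100) (by norm_num)
  obtain ⟨C, hC0, hC⟩ := hSlc
  obtain ⟨εR, hR0, hR⟩ := hRay (1 / 6) 1 (by norm_num) (by norm_num) one_pos
  obtain ⟨εC, hc0, hc1, hc2⟩ : ∃ e : ℝ, 0 < e ∧ e ≤ εR ∧ C * e ≤ 1 / 20 := by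
    refine ⟨min εR (1 / (20 * (C + 1))), by positivity, min_le_left _ _, ?_⟩
    refine (mul_le_mul_of_nonneg_left (min_le_right _ _) hC0).trans ?_
    rw [mul_one_div, div_le_div_iff₀ (by positivity) (by norm_num)]
    linarith
  obtain ⟨εU, hU0, hU⟩ := hUpn εC hc0
  refine ⟨min εF (min εU εR), by positivity, fun K x b hx hb h => ?_⟩
  have hA := h x ⟨hx, mem_closedBall_self hb.le⟩
  have fl : ∀ y ∈ K, ∀ t, 0 < t → ‖y - x‖ + t ≤ b → len K (closedBall y t) ≤ 11 / 5 * t →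
      ∃ τ, Tan K y (t / 16) (1 / 100) (1 / 12) τ := fun y hy t ht hyt hl =>
    hF K y t hy ht (fun z hz => ((h z ⟨hz.1, closedBall_subset_closedBall' (by
      rw [dist_eq_norm]; linarith) hz.2⟩).mono ht (by linarith [norm_nonneg (y - x)])).mono_eps
        (min_le_left _ _)) hl
  by_cases ha : ∃ r ∈ Ioc 0 (b / 2), len K (closedBall x r) < 21 / 10 * r
  · obtain ⟨r, ⟨hr0, hr1⟩, hl⟩ := ha
    refine (hFlat K x (r / 100) (1 / 12) hA.cl hx (by positivity) (by norm_num) (by norm_num)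
      fun y hy => ?_).mono (by linarith)
    have hy2 := mem_closedBall_iff_norm.1 hy.2
    have hm : len K (closedBall y (99 / 100 * r)) ≤ len K (closedBall x r) :=
      len_mono (closedBall_subset_closedBall' (by rw [dist_eq_norm]; linarith))
        (hA.mono hr0 (by linarith)).fin
    obtain ⟨τ, hτ⟩ := fl y hy.1 (99 / 100 * r) (by positivity) (by linarith) (by linarith)
    exact ⟨τ, hτ.mono (by positivity) (by linarith) (by norm_num) (by norm_num)⟩
  · push Not at ha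
    obtain ⟨r₀, hr₀, hup⟩ := (hTh K x b _ hA).2.2
    obtain ⟨b', h0, h1, h2⟩ : ∃ b' : ℝ, 0 < b' ∧ b' ≤ r₀ ∧ b' ≤ b / 2 :=
      ⟨min r₀ (b / 2), by positivity, min_le_left _ _, min_le_right _ _⟩
    have hco := hU K x b' 3 (Or.inr rfl) ((hA.mono h0 (by linarith)).mono_eps
      ((min_le_right _ _).trans (min_le_left _ _))) fun r hr => by
        have a1 := ha r ⟨hr.1, hr.2.trans h2⟩
        have a2 := hup r ⟨hr.1, hr.2.trans h1⟩
        push_cast
        constructor <;> linarith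
    obtain ⟨Φ, hΦ⟩ := hR K x 3 (b' / 4) (by norm_num) le_rfl (hco.mono_eps hc1)
      ((lb hTh (by positivity) (by linarith) h).mono_eps (by positivity)
        ((min_le_right _ _).trans (min_le_right _ _)))
    refine (hJunc K x Φ 3 (b' / 4 / 4) 1 (1 / 64) (1 / 6 / 2) (1 / 12) hA.cl hx (Or.inr rfl)
      (by positivity) (by norm_num) (by norm_num) (by norm_num) (by norm_num) (by norm_num)
      (by norm_num) hΦ fun y hy hne hyb => ?_).mono (by linarith)
    have hs : 0 < ‖y - x‖ := norm_pos_iff.2 (sub_ne_zero.2 hne)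
    have a1 := (hC K x 3 (b' / 4) εC (1 / 6) le_rfl (by norm_num) (by norm_num) hco y
      (‖y - x‖ / 4) hne (by linarith) (by positivity) le_rfl).2
    have a2 : (‖y - x‖ / (b' / 4)) ^ (1 / 6 : ℝ) ≤ 1 :=
      Real.rpow_le_one (by positivity) ((div_le_one (by positivity)).2 (by linarith))
        (by norm_num)
    have a3 : C * εC * (‖y - x‖ / (b' / 4)) ^ (1 / 6 : ℝ) * ‖y - x‖ ≤ 1 / 20 * 1 * ‖y - x‖ :=
      mul_le_mul_of_nonneg_right (mul_le_mul hc2 a2 (by positivity) (by norm_num)) hs.le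
    obtain ⟨τ, hτ⟩ := fl y hy (‖y - x‖ / 4) (by positivity) (by linarith) (by linarith)
    exact ⟨τ, hτ.mono (by positivity) (by linarith) (by norm_num) (by norm_num)⟩

end Vale.Agent.P128
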