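import Vale.Agent.P128.Stm

open MeasureTheory Set Metric Filter Topology Complex
open scoped ENNReal ComplexConjugate Real

noncomputable section
namespace Vale.Agent.P128

theorem mol_pf : MolStmt := by
  intro F _ _ _ f hf
  refine ⟨fun φ => ⟨?_, fun a => convolution_lsmul_swap, fun a e => ?_⟩,
    fun φ hφ => ⟨fun O C hO hc hC hCO => ?_, fun h => ?_⟩⟩
  · exact φ.hasCompactSupport_normed.contDiff_convolution_left _ φ.contDiff_normed hf
  · have h1 : ContDiff ℝ 1 (φ.normed volume) := φ.contDiff_normed (n := 1)
    unfold mol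
    rw [← convolution_flip, (φ.hasCompactSupport_normed.hasFDerivAt_convolution_right _ hf h1
      a).fderiv, convolution_precompR_apply _ hf (φ.hasCompactSupport_normed.fderiv ℝ)
      (h1.continuous_fderiv one_ne_zero)]
    rfl
  · refine Metric.tendstoUniformlyOn_iff.2 fun ε hε => ?_
    obtain ⟨δ, hδ, H⟩ := Metric.mem_uniformity_dist.1 (hC.uniformContinuousAt_of_continuousAt f
      (fun a ha => hc.continuousAt (hO.mem_nhds (hCO ha))) (dist_mem_uniformity (half_pos hε)))
    filter_upwards [hφ.eventually (gt_mem_nhds hδ)] with n hn a ha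
    rw [dist_comm]
    refine lt_of_le_of_lt ((φ n).dist_normed_convolution_le (ε := ε / 2)
      hf.aestronglyMeasurable fun y hy => ?_) (half_lt_self hε)
    rw [dist_comm]
    exact le_of_lt (H (a := a) (b := y) ((mem_ball'.1 hy).trans hn) ha)
  · exact ContDiffBump.ae_convolution_tendsto_right_of_locallyIntegrable hφ
      (Eventually.of_forall h) hf

end Vale.Agent.P128
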