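import Vale.Agent.P128.Stm

open MeasureTheory Set Metric Filter Topology Complex
open scoped ENNReal ComplexConjugate Real

noncomputable section
namespace Vale.Agent.P128

theorem mono_pf (hGood : GoodStmt) (hBon : BonStmt) (hGron : GronStmt) (hUp : UpStmt)
    : MonoStmt := by
  intro Ω K u Λ M A h y s b hs hsb hsub
  have hb : 0 < b := hs.trans_le hsb
  have A1 := h.A1
  have a0 := h.ms.a0
  have sub : ∀ ρ, ρ ≤ A * b → closedBall y ρ ⊆ Ω := fun ρ hρ =>
    (closedBall_subset_closedBall hρ).trans hsub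
  have bA : b ≤ A * b := le_mul_of_one_le_left hb.le A1
  obtain ⟨g1, g2, g3, g4⟩ := hGood K u y b h.ms.cl (h.ms.fin y b (sub b bA)) (h.ms.int y b (sub b bA))
  have i2 : IntervalIntegrable (ce u y) volume s b :=
    (intervalIntegrable_iff_integrableOn_Ioo_of_le hsb).2 (g2.mono_set (Ioo_subset_Ioo_left hs.le))
  have i3 : IntervalIntegrable (cnt K y) volume s b :=
    (intervalIntegrable_iff_integrableOn_Ioo_of_le hsb).2 (g3.mono_set (Ioo_subset_Ioo_left hs.le))
  have key := hGron (fun t => En u (closedBall y t)) (ce u y)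
    (fun ρ => 7 * A ^ 2 * (Λ * M) * (1 + cnt K y ρ)) s b 1 hs hsb one_pos i2
    ((intervalIntegrable_const.add i3).const_mul _) (fun t ht => (g4 s t hs.le ht.1 ht.2).1) (by
      filter_upwards [g1] with ρ hρ hm
      have ρ0 : 0 < ρ := hs.trans hm.1
      have hA : A * ρ ≤ A * b := mul_le_mul_of_nonneg_left hm.2.le (by linarith)
      obtain ⟨b1, b2⟩ := hBon Ω K u Λ M h.ms y ρ (hρ ⟨ρ0, hm.2⟩)
      rcases (K ∩ sphere y ρ).eq_empty_or_nonempty with he | hne
      · have k1 := b1 (sub ρ (hm.2.le.trans bA)) he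
        have k2 : 0 ≤ ρ * ce u y ρ := mul_nonneg ρ0.le (ce_nonneg u y ρ0.le)
        have k3 : (1 : ℝ) ≤ A ^ 2 * (1 + cnt K y ρ) :=
          one_le_mul_of_one_le_of_one_le (one_le_pow₀ A1) (le_add_of_nonneg_right (Nat.cast_nonneg _))
        have k4 := le_mul_of_one_le_right (show 0 ≤ 7 * (Λ * M) * ρ ^ 2 by positivity) k3
        linarith
      · have k1 := b2 A (2 * π) A1 (sub _ hA) (h.conn y ρ ρ0 (sub _ hA))
          fun α β hf => hf.le_two_pi ρ0.le hne
        rw [div_self (by positivity)] at k1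
        linarith)
  simp only [Real.rpow_one, sub_self, Real.rpow_zero, one_mul] at key
  rw [intervalIntegral.integral_const_mul, intervalIntegral.integral_add intervalIntegrable_const i3,
    intervalIntegral.integral_const, smul_eq_mul, mul_one] at key
  have u1 := hUp Ω K u Λ M h.ms y b hb.le (sub b bA)
  have u2 := (g4 s b hs.le hsb le_rfl).2
  have u3 := h.small y b (sub b bA)
  have u4 := En_nonneg u (closedBall y b)
  have u5 := len_nonneg K (closedBall y s)
  have u6 := mul_le_mul_of_nonneg_left u3 (show 0 ≤ 2 * π * b by positivity)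
  have u7 := mul_le_mul_of_nonneg_right Real.pi_lt_d2.le hb.le
  have u8 : b - s + ∫ ρ in s..b, cnt K y ρ ≤ 14 * b := by linarith
  have u9 := mul_le_mul_of_nonneg_left u8 (show 0 ≤ 7 * A ^ 2 * (Λ * M) by positivity)
  have u10 : 0 ≤ A ^ 2 * (Λ * M) * b := by positivity
  linarith

end Vale.Agent.P128
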