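import Vale.Agent.P128.Stm

open MeasureTheory Set Metric Filter Topology Complex
open scoped ENNReal ComplexConjugate Real

noncomputable section
namespace Vale.Agent.P128

namespace Net

theorem cpt (a b : ℂ) : IsCompact (segment ℝ a b) := by
  rw [segment_eq_image]
  exact isCompact_Icc.image (by fun_prop)

theorem gen (P : Finset ℂ) {C : Set ℂ} (hC : Convex ℝ C) {y₀ y : ℂ} (h m : ℂ → ℂ) (h0 : y₀ ∈ C)
    (h1 : y ∈ C) (hm : ∀ p ∈ P, m p ∈ C) (hh : ∀ p ∈ P, h p ∈ segment ℝ y₀ y) :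
    ∃ Z : Set ℂ, IsCompact Z ∧ IsPreconnected Z ∧ Z ⊆ C ∧ (∀ p ∈ P, m p ∈ Z) ∧ μH[1] Z < ⊤ ∧
      (μH[1] Z).toReal ≤ ‖y - y₀‖ + ∑ p ∈ P, ‖m p - h p‖ := by
  have hs := hC.segment_subset h0 h1
  have hμ : μH[1] (segment ℝ y₀ y ∪ ⋃ p ∈ P, segment ℝ (h p) (m p)) ≤
      ENNReal.ofReal (‖y - y₀‖ + ∑ p ∈ P, ‖m p - h p‖) := by
    refine (measure_union_le _ _).trans ?_
    rw [ENNReal.ofReal_add (norm_nonneg _) (Finset.sum_nonneg fun _ _ => norm_nonneg _),
      ENNReal.ofReal_sum_of_nonneg fun _ _ => norm_nonneg _]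
    refine add_le_add (le_of_eq ?_) ((measure_biUnion_finset_le _ _).trans
      (Finset.sum_le_sum fun p _ => le_of_eq ?_))
    · rw [MeasureTheory.hausdorffMeasure_segment, edist_dist, dist_comm, dist_eq_norm]
    · rw [MeasureTheory.hausdorffMeasure_segment, edist_dist, dist_comm, dist_eq_norm]
  refine ⟨segment ℝ y₀ y ∪ ⋃ p ∈ P, segment ℝ (h p) (m p),
    (cpt _ _).union (P.isCompact_biUnion fun p _ => cpt _ _),
    isPreconnected_of_forall y₀ fun z hz => ?_,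
    union_subset hs (iUnion₂_subset fun p hp => hC.segment_subset (hs (hh p hp)) (hm p hp)),
    fun p hp => Or.inr (mem_iUnion₂.2 ⟨p, hp, right_mem_segment _ _ _⟩),
    hμ.trans_lt ENNReal.ofReal_lt_top, ENNReal.toReal_le_of_le_ofReal
      (add_nonneg (norm_nonneg _) (Finset.sum_nonneg fun _ _ => norm_nonneg _)) hμ⟩
  rcases hz with hz | hz
  · exact ⟨_, subset_union_left, left_mem_segment _ _ _, hz, (convex_segment _ _).isPreconnected⟩
  · obtain ⟨p, hp, hz⟩ := mem_iUnion₂.1 hz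
    exact ⟨segment ℝ y₀ y ∪ segment ℝ (h p) (m p), union_subset_union_right _
      (subset_biUnion_of_mem (u := fun p => segment ℝ (h p) (m p)) hp),
      Or.inl (left_mem_segment _ _ _), Or.inr hz,
      (convex_segment _ _).isPreconnected.union (h p) (hh p hp) (left_mem_segment _ _ _)
        (convex_segment _ _).isPreconnected⟩

theorem nsq (z : ℂ) : ‖z‖ ^ 2 = z.re ^ 2 + z.im ^ 2 := by
  rw [Complex.sq_norm, normSq_apply]; ring

theorem dist_le {e : ℂ} (he : ‖e‖ = 1) (w : ℂ) :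
    ‖e - w‖ ≤ 1 - (e.re * w.re + e.im * w.im) + ‖w‖ ^ 2 / 2 := by
  have h1 := nsq e
  have h2 := nsq w
  have h3 := nsq (e - w)
  rw [he] at h1
  rw [sub_re, sub_im] at h3
  nlinarith [sq_nonneg (‖e - w‖ - 1)]

theorem four (a b c d : ℂ) : 0 ≤ a.re * b.re + a.im * b.im ∨ 0 ≤ a.re * c.re + a.im * c.im ∨
    0 ≤ a.re * d.re + a.im * d.im ∨ 0 ≤ b.re * c.re + b.im * c.im ∨
    0 ≤ b.re * d.re + b.im * d.im ∨ 0 ≤ c.re * d.re + c.im * d.im := by
  by_contra h
  simp only [not_or, not_le] at h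
  obtain ⟨h1, h2, h3, h4, h5, h6⟩ := h
  have key : ∀ u v : ℂ, a.re * u.re + a.im * u.im < 0 → a.re * v.re + a.im * v.im < 0 →
      u.re * v.re + u.im * v.im < 0 →
      (a.re * u.im - a.im * u.re) * (a.re * v.im - a.im * v.re) < 0 := fun u v k1 k2 k3 => by
    have k4 := mul_pos_of_neg_of_neg k1 k2
    have k5 := mul_nonneg (add_nonneg (sq_nonneg a.re) (sq_nonneg a.im)) (neg_pos.2 k3).le
    nlinarith
  have k1 := key b c h1 h2 h4
  have k2 := key b d h1 h3 h5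
  have k3 := key c d h2 h3 h6
  generalize a.re * b.im - a.im * b.re = s at *
  generalize a.re * c.im - a.im * c.re = t at *
  generalize a.re * d.im - a.im * d.re = u at *
  nlinarith [mul_neg_of_pos_of_neg (mul_pos_of_neg_of_neg k1 k2) k3, sq_nonneg (s * t * u)]

theorem pair {P : Finset ℂ} (hP : 4 ≤ P.card) (e : ℂ → ℂ) :
    ∃ p ∈ P, ∃ q ∈ P, p ≠ q ∧ 0 ≤ (e p).re * (e q).re + (e p).im * (e q).im := by
  obtain ⟨a, b, c, d, ha, hb, hc, hd, h1, h2, h3, h4, h5, h6⟩ := Finset.three_lt_card_iff.1 hP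
  rcases four (e a) (e b) (e c) (e d) with h | h | h | h | h | h
  exacts [⟨a, ha, b, hb, h1, h⟩, ⟨a, ha, c, hc, h2, h⟩, ⟨a, ha, d, hd, h3, h⟩,
    ⟨b, hb, c, hc, h4, h⟩, ⟨b, hb, d, hd, h5, h⟩, ⟨c, hc, d, hd, h6, h⟩]

end Net

theorem net_pf : NetStmt := by
  classical
  intro P x ρ hρ hne hP s hs
  have hρ' : (ρ : ℂ) ≠ 0 := ofReal_ne_zero.2 hρ.ne'
  obtain ⟨e, he⟩ : ∃ e : ℂ → ℂ, e = fun p => (p - x) / ρ := ⟨_, rfl⟩
  have e1 : ∀ p ∈ P, ‖e p‖ = 1 := fun p hp => by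
    rw [he]
    simp only []
    rw [norm_div, mem_sphere_iff_norm.1 (hP hp), norm_real, Real.norm_of_nonneg hρ.le,
      div_self hρ.ne']
  have e2 : ∀ p w, ‖(x + p) / 2 - (x + (ρ / 2 : ℝ) * w)‖ = ρ / 2 * ‖e p - w‖ := fun p w => by
    rw [show (x + p) / 2 - (x + (ρ / 2 : ℝ) * w) = (ρ / 2 : ℝ) * (e p - w) by
      rw [he]; push_cast; field_simp; ring, norm_mul, norm_real,
      Real.norm_of_nonneg (by linarith)]
  have e3 : ∀ w : ℂ, ‖x + (ρ / 2 : ℝ) * w - x‖ = ρ / 2 * ‖w‖ := fun w => by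
    rw [add_sub_cancel_left, norm_mul, norm_real, Real.norm_of_nonneg (by linarith)]
  have e4 : ∀ w : ℂ, ‖w‖ ≤ 1 → x + (ρ / 2 : ℝ) * w ∈ closedBall x (ρ / 2) := fun w hw => by
    rw [mem_closedBall_iff_norm, e3]
    exact mul_le_of_le_one_right (by linarith) hw
  have e5 : ∀ p, ‖(x + p) / 2 - x‖ = ρ / 2 * ‖e p‖ := fun p => by
    have := e2 p 0
    rwa [mul_zero, add_zero, sub_zero] at this
  have hm : ∀ p ∈ P, (x + p) / 2 ∈ closedBall x (ρ / 2) := fun p hp => by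
    rw [mem_closedBall_iff_norm, e5, e1 p hp, mul_one]
  rcases hs with hs | ⟨h4, hs⟩
  · have hN : (0 : ℝ) < P.card := by exact_mod_cast hne.card_pos
    obtain ⟨σ, hσ⟩ : ∃ σ, σ = ∑ p ∈ P, e p := ⟨_, rfl⟩
    have h1 : ‖σ‖ ≤ P.card := by
      rw [hσ]
      refine (norm_sum_le _ _).trans (le_of_eq ?_)
      rw [Finset.sum_congr rfl e1, Finset.sum_const, nsmul_eq_mul, mul_one]
    have h2 : ‖σ / (P.card : ℝ)‖ = ‖σ‖ / P.card := by
      rw [norm_div, norm_real, Real.norm_of_nonneg hN.le]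
    have h3 := e4 (σ / (P.card : ℝ)) (by rw [h2, div_le_one hN]; exact h1)
    obtain ⟨Z, z1, z2, z3, z4, z5, z6⟩ := Net.gen P (convex_closedBall x (ρ / 2))
      (fun _ => x + (ρ / 2 : ℝ) * (σ / (P.card : ℝ))) (fun p => (x + p) / 2) h3 h3 hm
      fun _ _ => left_mem_segment _ _ _
    refine ⟨Z, z1, z2, z3, z4, z5, z6.trans ?_⟩
    have h5 := Finset.sum_le_sum fun p hp => Net.dist_le (e1 p hp) (σ / (P.card : ℝ))
    rw [Finset.sum_add_distrib, Finset.sum_sub_distrib, Finset.sum_add_distrib, ← Finset.sum_mul,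
      ← Finset.sum_mul, ← re_sum, ← im_sum, ← hσ, Finset.sum_const, Finset.sum_const, h2,
      div_ofReal_re, div_ofReal_im, nsmul_eq_mul, nsmul_eq_mul] at h5
    have h6 : s = ‖σ‖ ^ 2 / (4 * P.card) := by rw [hs, hσ, he]
    simp only [e2]
    rw [sub_self, norm_zero, zero_add, ← Finset.mul_sum, h6]
    refine (mul_le_mul_of_nonneg_left h5 (by linarith)).trans (le_of_eq ?_)
    rw [div_pow, Net.nsq σ]
    field_simp
    ring
  · obtain ⟨p, hp, q, hq, hpq, h1⟩ := Net.pair h4 e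
    obtain ⟨w, hw⟩ : ∃ w : ℂ, w = (e p + e q) / (7 : ℝ) := ⟨_, rfl⟩
    have n1 := Net.nsq (e p)
    have n2 := Net.nsq (e q)
    have n3 := Net.nsq w
    have w1 : w.re = ((e p).re + (e q).re) / 7 := by rw [hw, div_ofReal_re, add_re]
    have w2 : w.im = ((e p).im + (e q).im) / 7 := by rw [hw, div_ofReal_im, add_im]
    rw [e1 p hp] at n1
    rw [e1 q hq] at n2
    have h2 : ‖w‖ ≤ 1 := by
      rw [hw, norm_div, norm_real, Real.norm_of_nonneg (by norm_num), div_le_one (by norm_num)]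
      linarith [norm_add_le (e p) (e q), e1 p hp, e1 q hq]
    obtain ⟨Z, z1, z2, z3, z4, z5, z6⟩ := Net.gen P (convex_closedBall x (ρ / 2))
      (fun z => if z = p ∨ z = q then x + (ρ / 2 : ℝ) * w else x) (fun p => (x + p) / 2)
      (mem_closedBall_self (by linarith)) (e4 w h2) hm fun z _ => by
        split_ifs
        exacts [right_mem_segment _ _ _, left_mem_segment _ _ _]
    refine ⟨Z, z1, z2, z3, z4, z5, z6.trans ?_⟩
    have h5 : ∀ z ∈ P, ‖(x + z) / 2 - (if z = p ∨ z = q then x + (ρ / 2 : ℝ) * w else x)‖ =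
        ρ / 2 * (1 + ((if z = p then ‖e p - w‖ - 1 else 0) +
          (if z = q then ‖e q - w‖ - 1 else 0))) := fun z hz => by
      by_cases c1 : z = p
      · rw [if_pos (Or.inl c1), if_pos c1, if_neg (fun c2 => hpq (c1.symm.trans c2)), e2, c1]
        ring
      · by_cases c2 : z = q
        · rw [if_pos (Or.inr c2), if_neg c1, if_pos c2, e2, c2]
          ring
        · rw [if_neg (not_or.2 ⟨c1, c2⟩), if_neg c1, if_neg c2, e5, e1 z hz]
          ring
    rw [Finset.sum_congr rfl h5, ← Finset.mul_sum, Finset.sum_add_distrib, Finset.sum_add_distrib,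
      Finset.sum_ite_eq' P p fun _ => ‖e p - w‖ - 1, Finset.sum_ite_eq' P q fun _ => ‖e q - w‖ - 1,
      if_pos hp, if_pos hq, Finset.sum_const, nsmul_eq_mul, mul_one, e3, hs]
    have d1 := Net.dist_le (e1 p hp) w
    have d2 := Net.dist_le (e1 q hq) w
    have h6 : 49 * ‖w‖ ^ 2 = 2 + 2 * ((e p).re * (e q).re + (e p).im * (e q).im) := by
      rw [n3, w1, w2]
      linarith
    have h7 : (e p).re * w.re + (e p).im * w.im + ((e q).re * w.re + (e q).im * w.im) =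
        7 * ‖w‖ ^ 2 := by
      rw [n3, w1, w2]
      ring
    have h8 : ‖w‖ + (‖e p - w‖ - 1 + (‖e q - w‖ - 1)) ≤ -(1 / 25) := by
      nlinarith [sq_nonneg (‖w‖ - 101 / 500)]
    nlinarith [mul_le_mul_of_nonneg_left h8 hρ.le]

end Vale.Agent.P128
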