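import Vale.Agent.P128.Stm

open MeasureTheory Set Metric Filter Topology Complex
open scoped ENNReal ComplexConjugate Real

noncomputable section
namespace Vale.Agent.P128

namespace Par

/-- the principal square root -/
def rs (w : ℂ) : ℂ := exp (log w / 2)

theorem sq_sq {w : ℂ} (h : w ≠ 0) : rs w ^ 2 = w := by
  rw [rs, ← Complex.exp_nat_mul, Nat.cast_ofNat, mul_div_cancel₀ _ two_ne_zero, exp_log h]

theorem sq_cont {w : ℂ} (h : w ∈ slitPlane) : ContinuousAt rs w :=
  continuous_exp.continuousAt.comp ((continuousAt_clog h).div_const 2)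

theorem sq_pos {w : ℂ} (h : 0 < w.im) : rs w = I * rs (-w) := by
  have : log w / 2 = π / 2 * I + log (-w) / 2 := by
    rw [log, log, arg_neg_eq_arg_sub_pi_of_im_pos h, norm_neg]
    push_cast
    ring
  rw [rs, this, Complex.exp_add, exp_pi_div_two_mul_I, rs]

theorem sq_neg {w : ℂ} (h : w.im < 0) : rs w = -(I * rs (-w)) := by
  have h1 := sq_pos (w := -w) (by simpa using h)
  rw [neg_neg] at h1
  rw [h1]
  linear_combination (rs w) * I_mul_I

/-- the ratio `(w - b) / (w - a)` -/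
def rt (a b w : ℂ) : ℂ := 1 + (a - b) * (w - a)⁻¹

theorem rt_mul {a w : ℂ} (b : ℂ) (h : w ≠ a) : rt a b w * (w - a) = w - b := by
  have := sub_ne_zero.2 h
  rw [rt]
  field_simp
  ring

theorem rt_cont {a w : ℂ} (b : ℂ) (h : w ≠ a) : ContinuousAt (rt a b) w :=
  continuousAt_const.add (continuousAt_const.mul
    ((continuousAt_id.sub continuousAt_const).inv₀ (sub_ne_zero.2 h)))

theorem rt_lim (a b : ℂ) : Tendsto (rt a b) (Bornology.cobounded ℂ) (𝓝 1) := by
  have := ((tendsto_inv₀_cobounded.comp (tendsto_sub_const_cobounded a)).const_mul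
    (a - b)).const_add 1
  rw [mul_zero, add_zero] at this
  exact this

theorem rt_slit {a b w : ℂ} (h : w ∉ segment ℝ a b) : rt a b w ∈ slitPlane := by
  have h0 : w ≠ a := fun e => h (e ▸ left_mem_segment ℝ a b)
  by_contra h1
  rw [mem_slitPlane_iff, not_or, not_lt, not_not] at h1
  have h2 := rt_mul b h0
  obtain ⟨t, ht, e⟩ : ∃ t : ℝ, 0 ≤ t ∧ rt a b w = -(t : ℂ) :=
    ⟨-(rt a b w).re, by linarith [h1.1], Complex.ext (by simp) (by simp [h1.2])⟩
  rw [e] at h2
  have h3 : (1 + t : ℂ) ≠ 0 := by exact_mod_cast (by positivity : (1 + t : ℝ) ≠ 0)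
  refine h ⟨t / (1 + t), 1 / (1 + t), by positivity, by positivity, by field_simp; ring, ?_⟩
  simp only [real_smul]
  push_cast
  field_simp
  linear_combination h2

/-- approximate square roots along a connected set -/
theorem exists_root {C : Set ℂ} (hC : IsPreconnected C) {ε : ℝ} (hε : 0 < ε) {p q : ℂ}
    (hp : p ∈ C) (hq : q ∈ C) : ∃ B : ℂ → ℂ,
      (∀ z, (∀ a ∈ C, ∀ b ∈ C, dist a b < ε → z ∉ segment ℝ a b) → ContinuousAt B z ∧
        B z ^ 2 * (z - p) = z - q) ∧ Tendsto B (Bornology.cobounded ℂ) (𝓝 1) := by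
  have key : ∀ a ∈ C, ∀ b ∈ C, dist a b < ε → ∃ B : ℂ → ℂ,
      (∀ z, (∀ a ∈ C, ∀ b ∈ C, dist a b < ε → z ∉ segment ℝ a b) → ContinuousAt B z ∧
        B z ^ 2 * (z - a) = z - b) ∧ Tendsto B (Bornology.cobounded ℂ) (𝓝 1) := by
    intro a ha b hb hab
    refine ⟨fun z => rs (rt a b z), fun z hz => ?_, ?_⟩
    · have h1 := hz a ha b hb hab
      have h0 : z ≠ a := fun e => h1 (e ▸ left_mem_segment ℝ a b)
      exact ⟨(sq_cont (rt_slit h1)).comp (rt_cont b h0), by
        rw [sq_sq (slitPlane_ne_zero (rt_slit h1)), rt_mul b h0]⟩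
    · have := (sq_cont one_mem_slitPlane).tendsto.comp (rt_lim a b)
      rwa [show rs 1 = 1 by simp [rs]] at this
  refine hC.induction₂' (fun a b => ∃ B : ℂ → ℂ,
      (∀ z, (∀ a ∈ C, ∀ b ∈ C, dist a b < ε → z ∉ segment ℝ a b) → ContinuousAt B z ∧
        B z ^ 2 * (z - a) = z - b) ∧ Tendsto B (Bornology.cobounded ℂ) (𝓝 1))
    (fun a ha => ?_) ?_ hp hq
  · filter_upwards [self_mem_nhdsWithin, mem_nhdsWithin_of_mem_nhds (ball_mem_nhds a hε)]
      with b hb hab
    exact ⟨key a ha b hb (by rwa [dist_comm]), key b hb a ha hab⟩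
  · rintro a b c - - - ⟨B, h1, h2⟩ ⟨B', h3, h4⟩
    refine ⟨fun z => B z * B' z, fun z hz => ⟨(h1 z hz).1.mul (h3 z hz).1, ?_⟩,
      by simpa using h2.mul h4⟩
    linear_combination B' z ^ 2 * (h1 z hz).2 + (h3 z hz).2

theorem dich {A B : ℂ → ℂ} {S : Set ℂ} {p q : ℂ} (hS : IsPreconnected S)
    (h : ∀ z ∈ S, z ≠ p ∧ z ≠ q ∧ (ContinuousAt A z ∧ A z ^ 2 * (z - p) = z - q) ∧
      ContinuousAt B z ∧ B z ^ 2 * (z - p) = z - q) :
    (∀ z ∈ S, A z = B z ∧ -A z ≠ B z) ∨ ∀ z ∈ S, A z ≠ B z ∧ -A z = B z := by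
  have h0 : ∀ z ∈ S, B z ≠ 0 := fun z hz e => by
    obtain ⟨-, h1, -, -, h2⟩ := h z hz
    rw [e] at h2
    exact h1 (by linear_combination -h2)
  rcases hS.eq_or_eq_neg_of_sq_eq (f := A) (g := B)
    (fun z hz => (h z hz).2.2.1.1.continuousWithinAt)
    (fun z hz => (h z hz).2.2.2.1.continuousWithinAt) (fun z hz => by
      obtain ⟨h1, -, ⟨-, h2⟩, -, h3⟩ := h z hz
      exact mul_right_cancel₀ (sub_ne_zero.2 h1) (h2.trans h3.symm)) (fun hz => h0 _ hz) with e | e
  · exact Or.inl fun z hz => ⟨e hz, fun e' => h0 z hz (by linear_combination -(e hz + e') / 2)⟩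
  · refine Or.inr fun z hz => ?_
    have e1 : A z = -B z := e hz
    exact ⟨fun e' => h0 z hz (by linear_combination (e1 - e') / 2), by rw [e1, neg_neg]⟩

/-- the parity function from a square root off the arc -/
theorem main {C Γ : Set ℂ} {x p q : ℂ} {ρ : ℝ} (hC : IsCompact C) (hC' : IsPreconnected C)
    (hΓ : IsClosed Γ) (hp : p ∈ C) (hq : q ∈ C) {A : ℂ → ℂ}
    (h1 : ∀ z, z ∉ Γ → ContinuousAt A z ∧ A z ^ 2 * (z - p) = z - q)
    (h2 : Tendsto A (Bornology.cobounded ℂ) (𝓝 1)) : ∃ χ : ℂ → ℝ, (∀ z, χ z = 0 ∨ χ z = 1) ∧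
    (∀ z, z ∉ C → z ∉ Γ → ∀ᶠ w in 𝓝 z, χ w = χ z) ∧
    (∀ y R, C ∪ Γ ⊆ closedBall y R → ∀ z, z ∉ closedBall y R → χ z = 0) ∧
    ∀ c, c ∉ C → (∃ A' : ℂ → ℂ, ∀ᶠ w in 𝓝 c, (ContinuousAt A' w ∧ A' w ^ 2 * (w - p) = w - q) ∧
      (‖w - x‖ < ρ → A w = A' w) ∧ (ρ < ‖w - x‖ → A w = -A' w)) →
      ∃ σ : ℝ, ∀ᶠ w in 𝓝 c, (‖w - x‖ < ρ → χ w = σ) ∧ (ρ < ‖w - x‖ → χ w = 1 - σ) := by
  classical
  choose B hB hB' using fun n : ℕ => exists_root hC' (Nat.one_div_pos_of_nat (n := n)) hp hq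
  have loc : ∀ (A' : ℂ → ℂ) (c : ℂ), c ∉ C →
      (∀ᶠ w in 𝓝 c, ContinuousAt A' w ∧ A' w ^ 2 * (w - p) = w - q) → ∀ᶠ w in 𝓝 c,
      ((∀ᶠ n in hyperfilter ℕ, A' w = B n w) ↔ ∀ᶠ n in hyperfilter ℕ, A' c = B n c) ∧
      ((∀ᶠ n in hyperfilter ℕ, -A' w = B n w) ↔ ¬ ∀ᶠ n in hyperfilter ℕ, A' c = B n c) := by
    intro A' c hc h
    obtain ⟨r, hr, h3⟩ := Metric.eventually_nhds_iff_ball.1
      (h.and (hC.isClosed.isOpen_compl.mem_nhds hc))
    have h4 : ∀ᶠ n in hyperfilter ℕ, (∀ z ∈ ball c (r / 2), A' z = B n z ∧ -A' z ≠ B n z) ∨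
        ∀ z ∈ ball c (r / 2), A' z ≠ B n z ∧ -A' z = B n z := by
      refine Eventually.filter_mono Nat.hyperfilter_le_atTop ?_
      filter_upwards [tendsto_one_div_add_atTop_nhds_zero_nat.eventually
        (gt_mem_nhds (half_pos hr))] with n hn
      refine dich (p := p) (q := q) (convex_ball c _).isPreconnected fun z hz => ?_
      obtain ⟨h5, h6⟩ := h3 z (ball_subset_ball (half_le_self hr.le) hz)
      refine ⟨fun e => h6 (e ▸ hp), fun e => h6 (e ▸ hq), h5, hB n z fun a ha b _ hab hs => ?_⟩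
      refine (h3 a ?_).2 ha
      have h7 : z ∈ closedBall a (dist a b) := (convex_closedBall a _).segment_subset
        (mem_closedBall_self dist_nonneg) (by rw [mem_closedBall, dist_comm]) hs
      rw [mem_closedBall] at h7
      rw [mem_ball] at hz ⊢
      linarith [dist_triangle_left a c z]
    filter_upwards [ball_mem_nhds c (half_pos hr)] with w hw
    have hc' := mem_ball_self (x := c) (half_pos hr)
    rw [← Ultrafilter.eventually_not]
    constructor <;> refine eventually_congr (h4.mono fun n hn => ?_) <;> rcases hn with hn | hn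
    · exact iff_of_true (hn w hw).1 (hn c hc').1
    · exact iff_of_false (hn w hw).1 (hn c hc').1
    · exact iff_of_false (hn w hw).2 (not_not.2 (hn c hc').1)
    · exact iff_of_true (hn w hw).2 (hn c hc').1
  refine ⟨fun z => if ∀ᶠ n in hyperfilter ℕ, A z = B n z then 0 else 1, fun z => ?_,
    fun z hz hz' => ?_, fun y R hR z hz => if_pos (Eventually.of_forall fun n => ?_), ?_⟩
  · dsimp only
    split_ifs <;> simp
  · filter_upwards [loc A z hz ((hΓ.isOpen_compl.eventually_mem hz').mono h1)] with w hw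
    exact if_congr hw.1 rfl rfl
  · have hR0 : 0 ≤ R := dist_nonneg.trans (hR (Or.inl hp))
    rw [mem_closedBall, dist_eq_norm, not_le] at hz
    have hn : ∀ t : ℝ, 1 ≤ t → ‖y + t * (z - y) - y‖ = t * ‖z - y‖ := fun t ht => by
      rw [add_sub_cancel_left, norm_mul, Complex.norm_real, Real.norm_of_nonneg (by linarith)]
    have hout : ∀ t : ℝ, 1 ≤ t → y + t * (z - y) ∉ closedBall y R := fun t ht h => by
      rw [mem_closedBall, dist_eq_norm, hn t ht] at h
      nlinarith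
    have hlim : Tendsto (fun t : ℝ => y + t * (z - y)) atTop (Bornology.cobounded ℂ) := by
      refine (tendsto_add_const_cobounded y).comp (f := fun t : ℝ => y + t * (z - y) - y) ?_
        |>.congr fun t => by simp [add_comm]
      rw [← tendsto_norm_atTop_iff_cobounded]
      refine (tendsto_id.atTop_mul_const (hR0.trans_lt hz)).congr' ?_
      filter_upwards [eventually_ge_atTop 1] with t ht using (hn t ht).symm
    rcases dich (A := A) (B := B n) (p := p) (q := q) (isPreconnected_Ici.image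
      (fun t : ℝ => y + t * (z - y)) (s := Ici 1) (by fun_prop)) (by
        rintro _ ⟨t, ht, rfl⟩
        have h5 := hout t ht
        exact ⟨fun e => h5 (hR (Or.inl (e.symm ▸ hp : (fun t : ℝ => y + t * (z - y)) t ∈ C))),
          fun e => h5 (hR (Or.inl (e.symm ▸ hq : (fun t : ℝ => y + t * (z - y)) t ∈ C))),
          h1 _ fun h => h5 (hR (Or.inr h)), hB n _ fun a ha b hb _ hs =>
          h5 ((convex_closedBall y R).segment_subset (hR (Or.inl ha)) (hR (Or.inl hb)) hs)⟩)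
      with h | h
    · simpa using (h _ ⟨1, self_mem_Ici, rfl⟩).1
    · have h6 := tendsto_nhds_unique_of_eventuallyEq (h2.comp hlim).neg ((hB' n).comp hlim) (by
        filter_upwards [eventually_ge_atTop 1] with t ht using (h _ ⟨t, ht, rfl⟩).2)
      norm_num at h6
  · rintro c hc ⟨A', h⟩
    refine ⟨if ∀ᶠ n in hyperfilter ℕ, A' c = B n c then 0 else 1, ?_⟩
    filter_upwards [h, loc A' c hc (h.mono fun w hw => hw.1)] with w hw hw'
    refine ⟨fun h3 => ?_, fun h3 => ?_⟩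
    · simp only [hw.2.1 h3]
      exact if_congr hw'.1 rfl rfl
    · simp only [hw.2.2 h3, hw'.2]
      split_ifs <;> simp

theorem im_eq {b v ζ : ℂ} (ρ : ℝ) (hb : b * conj b = 1) (hv : v * conj v = 1) :
    (conj v * (ζ - ρ * (b * v)) * conj (ζ - ρ * (b * conj v))).im = v.im * (ρ ^ 2 - ‖ζ‖ ^ 2) := by
  have e : conj v * (ζ - ρ * (b * v)) * conj (ζ - ρ * (b * conj v)) =
      conj v * ((‖ζ‖ ^ 2 : ℝ) : ℂ) + ((ρ ^ 2 : ℝ) : ℂ) * v - ρ * (conj b * ζ + b * conj ζ) := by
    simp only [map_sub, map_mul, conj_ofReal, conj_conj]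
    push_cast
    rw [← mul_conj']
    linear_combination (-ρ * conj b * ζ - ρ * b * conj ζ + ρ ^ 2 * v * b * conj b) * hv +
      ρ ^ 2 * v * hb
  rw [e]
  simp only [sub_im, add_im, mul_im, ofReal_re, ofReal_im, conj_re, conj_im, add_re, mul_re]
  ring

theorem sin_eq (t : ℝ) : (Real.sin t : ℂ) * (2 * I) = exp (t * I) - exp (-(t * I)) := by
  rw [ofReal_sin, Complex.sin, neg_mul]
  linear_combination (exp (-(t * I)) - exp (t * I)) * I_mul_I

theorem arc_eq (x : ℂ) (ρ α δ φ : ℝ) :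
    exp (-(δ * I)) * (circleMap x ρ (α + 2 * φ) - circleMap x ρ (α + 2 * δ)) =
      -(Real.sin (δ - φ)) * (ρ * exp ((α + φ) * I) * (2 * I)) ∧
    circleMap x ρ (α + 2 * φ) - circleMap x ρ α =
      Real.sin φ * (ρ * exp ((α + φ) * I) * (2 * I)) := by
  have h1 := sin_eq (δ - φ)
  have h2 := sin_eq φ
  have e1 : exp (((α + 2 * φ : ℝ) : ℂ) * I) = exp ((α + φ) * I) * exp (φ * I) := by
    rw [← Complex.exp_add]; congr 1; push_cast; ring
  have e2 : exp ((α : ℂ) * I) = exp ((α + φ) * I) * exp (-(φ * I)) := by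
    rw [← Complex.exp_add]; congr 1; ring
  have e3 : exp (-(δ * I)) * exp (((α + 2 * δ : ℝ) : ℂ) * I) =
      exp ((α + φ) * I) * exp (((δ - φ : ℝ) : ℂ) * I) := by
    rw [← Complex.exp_add, ← Complex.exp_add]; congr 1; push_cast; ring
  have e4 : exp (-(δ * I)) * exp (((α + 2 * φ : ℝ) : ℂ) * I) =
      exp ((α + φ) * I) * exp (-(((δ - φ : ℝ) : ℂ) * I)) := by
    rw [← Complex.exp_add, ← Complex.exp_add]; congr 1; push_cast; ring
  simp only [circleMap]
  constructor
  · linear_combination ρ * e4 - ρ * e3 + ρ * exp ((α + φ) * I) * h1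
  · linear_combination ρ * e1 - ρ * e2 - ρ * exp ((α + φ) * I) * h2

end Par

open Par in
theorem par_pf : ParStmt := by
  classical
  intro C x ρ α β hC hC' hρ hαβ hβ hp hq
  have hΓ : IsClosed (circleMap x ρ '' Icc α β) :=
    (isCompact_Icc.image (continuous_circleMap x ρ)).isClosed
  suffices h : ∃ A : ℂ → ℂ, (∀ z, z ∉ circleMap x ρ '' Icc α β → ContinuousAt A z ∧
      A z ^ 2 * (z - circleMap x ρ α) = z - circleMap x ρ β) ∧
      Tendsto A (Bornology.cobounded ℂ) (𝓝 1) ∧ ∀ θ ∈ Ioo α β, circleMap x ρ θ ∉ C →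
      ∃ A' : ℂ → ℂ, ∀ᶠ w in 𝓝 (circleMap x ρ θ), (ContinuousAt A' w ∧
        A' w ^ 2 * (w - circleMap x ρ α) = w - circleMap x ρ β) ∧
      (‖w - x‖ < ρ → A w = A' w) ∧ (ρ < ‖w - x‖ → A w = -A' w) by
    obtain ⟨A, h1, h2, h3⟩ := h
    obtain ⟨χ, a, b, c, d⟩ := main (x := x) (ρ := ρ) hC hC' hΓ hp hq h1 h2
    exact ⟨χ, a, b, c, fun θ hθ h => d _ h (h3 θ hθ h)⟩
  rcases hβ.eq_or_lt with rfl | hβ
  · refine ⟨fun z => if ‖z - x‖ < ρ then -1 else 1, fun z hz => ⟨?_, ?_⟩, ?_,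
      fun θ _ _ => ⟨fun _ => -1, Eventually.of_forall fun w => ⟨⟨continuousAt_const, ?_⟩,
        fun h => if_pos h, fun h => (if_neg h.not_gt).trans (neg_neg _).symm⟩⟩⟩
    · have hne : ‖z - x‖ ≠ ρ := fun e => hz (by
        have h1 := (periodic_circleMap x ρ).image_Icc Real.two_pi_pos α
        rw [h1, range_circleMap, abs_of_pos hρ]
        exact mem_sphere_iff_norm.2 e)
      have hc : ContinuousAt (fun w : ℂ => ‖w - x‖) z := by fun_prop
      rcases hne.lt_or_gt with h | h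
      · refine continuousAt_const.congr (f := fun _ => (-1 : ℂ)) ?_
        filter_upwards [hc.eventually (gt_mem_nhds h)] with w hw using (if_pos hw).symm
      · refine continuousAt_const.congr (f := fun _ => (1 : ℂ)) ?_
        filter_upwards [hc.eventually (lt_mem_nhds h)] with w hw using (if_neg hw.not_gt).symm
    · rw [periodic_circleMap x ρ α]
      dsimp only
      split_ifs <;> ring
    · refine tendsto_const_nhds.congr' ?_
      filter_upwards [(tendsto_norm_atTop_iff_cobounded.2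
        (tendsto_sub_const_cobounded x)).eventually_ge_atTop ρ] with w hw
      exact (if_neg hw.not_gt).symm
    · rw [periodic_circleMap x ρ α]
      ring
  obtain ⟨δ, rfl⟩ : ∃ δ, β = α + 2 * δ := ⟨(β - α) / 2, by ring⟩
  have d0 : 0 < δ := by linarith
  have d1 : δ < π := by linarith
  have hs : 0 < Real.sin δ := Real.sin_pos_of_pos_of_lt_pi d0 d1
  set p := circleMap x ρ α with hp'
  set q := circleMap x ρ (α + 2 * δ) with hq'
  have him : (exp (-(δ * I))).im = -Real.sin δ := by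
    rw [← neg_mul, ← ofReal_neg, exp_ofReal_mul_I_im, Real.sin_neg]
  have hE : exp (δ / 2 * I) ^ 2 * exp (-(δ * I)) = 1 := by
    rw [← Complex.exp_nat_mul, ← Complex.exp_add, ← Complex.exp_zero]; congr 1; push_cast; ring
  have hg : ∀ w, w ≠ p → ContinuousAt (fun w => exp (-(δ * I)) * rt p q w) w := fun w hw =>
    continuousAt_const.mul (rt_cont q hw)
  refine ⟨fun w => exp (δ / 2 * I) * rs (exp (-(δ * I)) * rt p q w), fun z hz => ?_, ?_,
    fun θ hθ hθC => ⟨fun w => exp (δ / 2 * I) * (I * rs (-(exp (-(δ * I)) * rt p q w))), ?_⟩⟩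
  · have h0 : z ≠ p := fun e => hz ⟨α, ⟨le_rfl, hαβ.le⟩, e.symm⟩
    have h1 : exp (-(δ * I)) * rt p q z ∈ slitPlane := by
      by_contra h1
      rw [mem_slitPlane_iff, not_or, not_lt, not_not] at h1
      obtain ⟨t, ht, e⟩ : ∃ t : ℝ, 0 ≤ t ∧ exp (-(δ * I)) * rt p q z = -(t : ℂ) :=
        ⟨-(exp (-(δ * I)) * rt p q z).re, by linarith [h1.1],
          Complex.ext (by simp only [neg_re, ofReal_re, neg_neg])
            (by rw [h1.2, neg_im, ofReal_im, neg_zero])⟩
      obtain ⟨φ, hφ, e1⟩ := intermediate_value_Icc' d0.le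
        (f := fun φ => Real.sin (δ - φ) - t * Real.sin φ) (by fun_prop) (a := 0)
        (show (0 : ℝ) ∈ Icc _ _ from ⟨by simp only [sub_self, Real.sin_zero]; nlinarith,
          by simp only [sub_zero, Real.sin_zero]; linarith⟩)
      obtain ⟨e2, e3⟩ := arc_eq x ρ α δ φ
      have e4 : (Real.sin (δ - φ) : ℂ) = t * Real.sin φ := by
        exact_mod_cast sub_eq_zero.1 e1
      have e5 := rt_mul q h0
      have h2 : exp (-(δ * I)) + t ≠ 0 := fun h => by
        have := congrArg Complex.im h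
        rw [add_im, him, ofReal_im, zero_im] at this
        linarith
      refine hz ⟨α + 2 * φ, ⟨by linarith [hφ.1], by linarith [hφ.2]⟩, mul_left_cancel₀ h2 ?_⟩
      rw [← hp'] at e3
      rw [← hq', e4] at e2
      linear_combination e2 + t * e3 + exp (-(δ * I)) * e5 - (z - p) * e
    refine ⟨continuousAt_const.mul (ContinuousAt.comp (f := fun w => exp (-(δ * I)) * rt p q w)
      (sq_cont h1) (hg z h0)), ?_⟩
    rw [mul_pow, sq_sq (slitPlane_ne_zero h1), ← mul_assoc, hE, one_mul, rt_mul q h0]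
  · have h1 : exp (-(δ * I)) * 1 ∈ slitPlane := Or.inr (by rw [mul_one, him]; linarith)
    have h2 := (((sq_cont h1).tendsto.comp ((rt_lim p q).const_mul _)).const_mul
      (exp (δ / 2 * I)))
    have h3 : exp (δ / 2 * I) * rs (exp (-(δ * I)) * 1) = 1 := by
      rw [mul_one, rs, Complex.log_exp (by simpa using d1) (by simp; linarith), ← Complex.exp_add,
        ← Complex.exp_zero]
      congr 1; ring
    rw [h3] at h2
    exact h2
  · obtain ⟨φ, rfl⟩ : ∃ φ, θ = α + 2 * φ := ⟨(θ - α) / 2, by ring⟩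
    have f0 : 0 < φ := by linarith [hθ.1]
    have f1 : φ < δ := by linarith [hθ.2]
    have h0 : circleMap x ρ (α + 2 * φ) ≠ p := fun e => hθC (e ▸ hp)
    have s1 : 0 < Real.sin φ := Real.sin_pos_of_pos_of_lt_pi f0 (by linarith)
    have s2 : 0 < Real.sin (δ - φ) := Real.sin_pos_of_pos_of_lt_pi (by linarith) (by linarith)
    have h1 : -(exp (-(δ * I)) * rt p q (circleMap x ρ (α + 2 * φ))) ∈ slitPlane := by
      obtain ⟨e2, e3⟩ := arc_eq x ρ α δ φ
      have e5 := rt_mul q h0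
      rw [← hp'] at e3
      rw [← hq'] at e2
      have e6 : -(exp (-(δ * I)) * rt p q (circleMap x ρ (α + 2 * φ))) =
          ((Real.sin (δ - φ) / Real.sin φ : ℝ) : ℂ) := by
        have s3 : (Real.sin φ : ℂ) ≠ 0 := ofReal_ne_zero.2 s1.ne'
        rw [ofReal_div, eq_div_iff s3]
        refine mul_right_cancel₀ (sub_ne_zero.2 h0) ?_
        linear_combination -(Real.sin φ : ℂ) * exp (-(δ * I)) * e5 - Real.sin φ * e2 -
          Real.sin (δ - φ) * e3
      rw [e6]
      exact ofReal_mem_slitPlane.2 (div_pos s2 s1)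
    filter_upwards [(hg _ h0).neg.eventually (isOpen_slitPlane.mem_nhds h1),
      isOpen_ne.mem_nhds h0] with w hw hw0
    replace hw : -(exp (-(δ * I)) * rt p q w) ∈ slitPlane := hw
    have h2 : (exp (-(δ * I)) * rt p q w).im * ‖w - p‖ ^ 2 =
        Real.sin δ * (ρ ^ 2 - ‖w - x‖ ^ 2) := by
      have u : ∀ t : ℝ, exp (t * I) * conj (exp (t * I)) = 1 := fun t => by
        rw [mul_conj', norm_exp_ofReal_mul_I]; norm_num
      have c1 : conj (exp (δ * I)) = exp (-(δ * I)) := by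
        rw [← exp_conj, map_mul, conj_ofReal, conj_I, mul_neg]
      have h3 := im_eq (ζ := w - x) ρ (u (α + δ)) (u δ)
      have e1 : w - x - ρ * (exp (((α + δ : ℝ) : ℂ) * I) * exp (δ * I)) = w - q := by
        rw [hq', circleMap, ← Complex.exp_add, sub_sub]; congr 4; push_cast; ring
      have e2 : w - x - ρ * (exp (((α + δ : ℝ) : ℂ) * I) * exp (-(δ * I))) = w - p := by
        rw [hp', circleMap, ← Complex.exp_add, sub_sub]; congr 4; push_cast; ring
      rw [c1, e1, e2, exp_ofReal_mul_I_im, ← rt_mul q hw0, mul_assoc, mul_assoc, mul_conj',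
        ← mul_assoc, ← ofReal_pow, im_mul_ofReal] at h3
      exact h3
    have h4 : 0 < ‖w - p‖ ^ 2 := pow_pos (norm_pos_iff.2 (sub_ne_zero.2 hw0)) 2
    refine ⟨⟨continuousAt_const.mul (continuousAt_const.mul (ContinuousAt.comp
      (f := fun w => -(exp (-(δ * I)) * rt p q w)) (sq_cont hw) (hg w hw0).neg)),
      ?_⟩, fun h => ?_, fun h => ?_⟩
    · rw [mul_pow, mul_pow, sq_sq (slitPlane_ne_zero hw), I_sq, neg_mul_neg, one_mul, ← mul_assoc,
        hE, one_mul, rt_mul q hw0]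
    · rw [sq_pos (pos_of_mul_pos_left (h2 ▸ mul_pos hs
        (by nlinarith [norm_nonneg (w - x)])) h4.le)]
    · rw [sq_neg (neg_of_mul_neg_left (h2 ▸ mul_neg_of_pos_of_neg hs
        (by nlinarith [norm_nonneg (w - x)])) h4.le), mul_neg]

end Vale.Agent.P128
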