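import Vale.Agent.P128.Stm

open MeasureTheory Set Metric Filter Topology Complex
open scoped ENNReal ComplexConjugate Real

noncomputable section
namespace Vale.Agent.P128

namespace Pinch

theorem field : ∃ C : ℝ, 0 ≤ C ∧ ∀ T : ℝ, 0 < T → ∃ X : ℂ → ℂ, ContDiff ℝ 1 X ∧
    (∀ z, ‖fderiv ℝ X z‖ ≤ C / T) ∧ (∀ z, 0 ≤ (X z).im) ∧ (∀ z, ‖z‖ ≤ T → X z = I) ∧
    ∀ z, 2 * T ≤ ‖z‖ → X z = 0 := by
  let φ : ContDiffBump (0 : ℂ) := ⟨1, 2, one_pos, one_lt_two⟩
  have hφ : ContDiff ℝ 1 φ := φ.contDiff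
  obtain ⟨C, hC⟩ := (hφ.continuous_fderiv one_ne_zero).bounded_above_of_compact_support
    (φ.hasCompactSupport.fderiv ℝ)
  refine ⟨C, (norm_nonneg _).trans (hC 0), fun T hT => ⟨fun z => φ (T⁻¹ • z) • I,
    (hφ.comp (contDiff_id.const_smul _)).smul contDiff_const, fun z => ?_, fun z => ?_,
    fun z hz => ?_, fun z hz => ?_⟩⟩
  · have h1 : HasFDerivAt (fun z : ℂ => T⁻¹ • z) (T⁻¹ • ContinuousLinearMap.id ℝ ℂ) z :=
      (hasFDerivAt_id z).fun_const_smul _
    have h2 := ((hφ.differentiable one_ne_zero (T⁻¹ • z)).hasFDerivAt.comp z h1).smul_const I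
    have h3 := h2.fderiv
    simp only [Function.comp_apply] at h3
    rw [h3, ContinuousLinearMap.norm_smulRight_apply, norm_I, mul_one]
    refine (ContinuousLinearMap.opNorm_comp_le _ _).trans ?_
    rw [norm_smul, ContinuousLinearMap.norm_id, mul_one, Real.norm_of_nonneg (by positivity),
      div_eq_mul_inv]
    exact mul_le_mul_of_nonneg_right (hC _) (by positivity)
  · simpa using φ.nonneg
  · have : φ (T⁻¹ • z) = 1 := by
      refine φ.one_of_mem_closedBall ?_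
      rw [mem_closedBall_zero_iff, norm_smul, Real.norm_of_nonneg (by positivity),
        inv_mul_le_iff₀ hT]
      simpa [φ] using hz
    simp only [this, one_smul]
  · have : φ (T⁻¹ • z) = 0 := by
      refine φ.zero_of_le_dist ?_
      rw [dist_zero_right, norm_smul, Real.norm_of_nonneg (by positivity), le_inv_mul_iff₀ hT]
      simpa [φ, mul_comm] using hz
    simp only [this, zero_smul]

/-- the new set -/
def LL (K : Set ℂ) (W : ℂ ≃ₜ ℂ) : Set ℂ :=
  {z | (W.symm z).im ≤ 0 ∧ W.symm z ∈ K} ∪ {z | 0 ≤ (W.symm z).im ∧ z ∈ K}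

/-- gluing -/
def gl {α : Type} (f : ℂ → α) (W : ℂ ≃ₜ ℂ) (z : ℂ) : α :=
  if (W.symm z).im ≤ 0 then f (W.symm z) else f z

theorem gl_neg {α : Type} (f : ℂ → α) (W : ℂ ≃ₜ ℂ) {z : ℂ} (h : (W.symm z).im < 0) :
    gl f W =ᶠ[𝓝 z] f ∘ W.symm := by
  filter_upwards [(isOpen_lt (continuous_im.comp W.symm.continuous)
    continuous_const).mem_nhds h] with y hy
  exact if_pos (le_of_lt hy)

theorem gl_pos {α : Type} (f : ℂ → α) (W : ℂ ≃ₜ ℂ) {z : ℂ} (h : 0 < (W.symm z).im) :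
    gl f W =ᶠ[𝓝 z] f := by
  filter_upwards [(isOpen_lt continuous_const
    (continuous_im.comp W.symm.continuous)).mem_nhds h] with y hy
  exact if_neg (not_le.2 hy)

theorem gl_fix {α : Type} (f : ℂ → α) {W : ℂ ≃ₜ ℂ} {z : ℂ} (h : W.symm z = z) :
    gl f W z = f z := by
  simp [gl, h]

theorem not_LL {K : Set ℂ} {W : ℂ ≃ₜ ℂ} (h0 : ∀ z : ℂ, z.im = 0 → z ∈ K) {z : ℂ}
    (hz : z ∉ LL K W) : ((W.symm z).im < 0 ∧ W.symm z ∉ K) ∨ (0 < (W.symm z).im ∧ z ∉ K) := by
  rcases lt_trichotomy (W.symm z).im 0 with h | h | h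
  · exact Or.inl ⟨h, fun hk => hz (Or.inl ⟨h.le, hk⟩)⟩
  · exact absurd (Or.inl ⟨h.le, h0 _ h⟩) hz
  · exact Or.inr ⟨h, fun hk => hz (Or.inr ⟨h.le, hk⟩)⟩

theorem cc_loc {S : Set ℂ} (hS : IsOpen S) {z : ℂ} (hz : z ∈ S) :
    ∀ᶠ y in 𝓝 z, connectedComponentIn S y = connectedComponentIn S z := by
  filter_upwards [hS.connectedComponentIn.mem_nhds (mem_connectedComponentIn hz)] with y hy
  exact (connectedComponentIn_eq hy).symm

theorem comp {K : Set ℂ} {u : ℂ → ℝ} (h : GM K u) (h0 : ∀ z : ℂ, z.im = 0 → z ∈ K)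
    {W : ℂ ≃ₜ ℂ} (hW : ContDiff ℝ 1 W.symm) {r : ℝ}
    (hfix : ∀ z, z ∉ closedBall (0 : ℂ) r → W.symm z = z)
    (hint : IntegrableOn (fun z => ‖pd (gl u W) z‖ ^ 2) (closedBall 0 r))
    (hfin : μH[1] (LL K W ∩ closedBall 0 r) < ⊤) : Comp univ K u 0 r (LL K W) (gl u W) := by
  have hc : Continuous fun z => (W.symm z).im := continuous_im.comp W.symm.continuous
  refine ⟨?_, ?_, fun z _ hz _ => gl_fix u (hfix z hz), ?_, hint, hfin,
    gl (connectedComponentIn (univ \ K)) W, fun z hz => ?_, fun z _ hz _ => gl_fix _ (hfix z hz)⟩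
  · exact ((isClosed_le hc continuous_const).inter (h.cl.preimage W.symm.continuous)).union
      ((isClosed_le continuous_const hc).inter h.cl)
  · ext z
    refine and_congr_left fun hz => ?_
    simp only [LL, mem_union, mem_ofPred_eq, hfix z hz]
    rcases le_total z.im 0 with h | h <;> tauto
  · refine locLip_of_local fun z hz => ?_
    rcases not_LL h0 hz.2 with ⟨h1, h2⟩ | ⟨h1, h2⟩
    · have ho := h.isOpen.preimage W.symm.continuous
      exact ⟨u ∘ W.symm, _, ho, ⟨mem_univ _, h2⟩,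
        locLip_of_contDiffOn ho (h.c1.comp hW.contDiffOn fun _ hy => hy), gl_neg u W h1⟩
    · exact ⟨u, _, h.isOpen, ⟨mem_univ _, h2⟩, h.lip, gl_pos u W h1⟩
  · rcases not_LL h0 hz.2 with ⟨h1, h2⟩ | ⟨h1, h2⟩
    · have e := gl_neg (connectedComponentIn (univ \ K)) W h1
      filter_upwards [e, W.symm.continuous.continuousAt.eventually
        (cc_loc h.isOpen (z := W.symm z) ⟨mem_univ _, h2⟩)] with y hy hy2
      rw [hy, e.self_of_nhds]
      exact hy2
    · have e := gl_pos (connectedComponentIn (univ \ K)) W h1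
      filter_upwards [e, cc_loc h.isOpen (z := z) ⟨mem_univ _, h2⟩] with y hy hy2
      rw [hy, e.self_of_nhds]
      exact hy2

theorem mem_iff {W : ℂ ≃ₜ ℂ} {B : Set ℂ} (hfix : ∀ z, z ∉ B → W.symm z = z) (z : ℂ) :
    W.symm z ∈ B ↔ z ∈ B := by
  constructor
  · intro hz
    by_contra hn
    exact hn (hfix z hn ▸ hz)
  · intro hz
    by_contra hn
    exact hn ((W.symm.injective (hfix _ hn)).symm ▸ hz)

theorem closed_H : IsClosed {z : ℂ | z.im ≤ 0} := isClosed_le continuous_im continuous_const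

theorem energy {K B : Set ℂ} {u : ℂ → ℝ} (h0 : ∀ z : ℂ, z.im = 0 → z ∈ K) {W : ℂ ≃ₜ ℂ}
    (hB : MeasurableSet B) (hfix : ∀ z, z ∉ B → W.symm z = z) (hnull : volume (W '' K) = 0)
    (hup : ∀ z : ℂ, z.im ≤ 0 → (W.symm z).im ≤ 0) {j : ℂ → ℝ} {δ : ℝ} (hδ : 0 ≤ δ)
    (hj : Measurable j) (hu : IntegrableOn (fun z => ‖pd u z‖ ^ 2) B)
    (hch : ∀ (h : ℂ → ℝ) (S : Set ℂ), MeasurableSet S →
      (IntegrableOn h (W '' S) ↔ IntegrableOn (fun z => j z * h (W z)) S) ∧
      ∫ z in W '' S, h z = ∫ z in S, j z * h (W z))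
    (hb : ∀ z, |j z * ‖pd (u ∘ W.symm) (W z)‖ ^ 2| ≤ (1 + δ) * ‖pd u z‖ ^ 2) :
    IntegrableOn (fun z => ‖pd (gl u W) z‖ ^ 2) B ∧ En (gl u W) B ≤ (1 + δ) * En u B := by
  set H : Set ℂ := {z | z.im ≤ 0} with hH
  set G : Set ℂ := W.symm ⁻¹' H with hG
  have hHm : MeasurableSet H := closed_H.measurableSet
  have hGm : MeasurableSet G := (closed_H.preimage W.symm.continuous).measurableSet
  have him : W '' (B ∩ H) = B ∩ G := by
    rw [W.image_eq_preimage_symm]
    ext z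
    simp only [mem_preimage, mem_inter_iff, mem_iff hfix, hG]
  obtain ⟨c1, c2⟩ := hch (fun z => ‖pd (u ∘ W.symm) z‖ ^ 2) (B ∩ H) (hB.inter hHm)
  rw [him] at c1 c2
  have i0 : IntegrableOn (fun z => (1 + δ) * ‖pd u z‖ ^ 2) (B ∩ H) :=
    (hu.mono_set inter_subset_left).const_mul _
  have i1 : IntegrableOn (fun z => j z * ‖pd (u ∘ W.symm) (W z)‖ ^ 2) (B ∩ H) :=
    i0.mono' (hj.mul (((measurable_pd _).comp W.continuous.measurable).norm.pow_const
      2)).aestronglyMeasurable (Eventually.of_forall hb)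
  have e1 : ∀ᵐ z, z ∈ B ∩ G → ‖pd (gl u W) z‖ ^ 2 = ‖pd (u ∘ W.symm) z‖ ^ 2 := by
    filter_upwards [measure_eq_zero_iff_ae_notMem.1 hnull] with z hz hzG
    have : (W.symm z).im < 0 :=
      lt_of_le_of_ne hzG.2 fun h => hz ⟨W.symm z, h0 _ h, W.apply_symm_apply z⟩
    rw [pd_congr (gl_neg u W this)]
  have e2 : ∀ z ∈ B \ G, ‖pd (gl u W) z‖ ^ 2 = ‖pd u z‖ ^ 2 := fun z hz => by
    rw [pd_congr (gl_pos u W (not_le.1 hz.2))]
  have j1 : IntegrableOn (fun z => ‖pd (gl u W) z‖ ^ 2) (B ∩ G) :=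
    (c1.2 i1).congr (((ae_restrict_iff' (hB.inter hGm)).2 e1).mono fun z hz => hz.symm)
  have j2 : IntegrableOn (fun z => ‖pd (gl u W) z‖ ^ 2) (B \ G) :=
    (hu.mono_set sdiff_subset).congr_fun (fun z hz => (e2 z hz).symm) (hB.diff hGm)
  have j3 : IntegrableOn (fun z => ‖pd (gl u W) z‖ ^ 2) B := by
    have := j1.union j2
    rwa [inter_union_sdiff] at this
  refine ⟨j3, ?_⟩
  have s1 := integral_inter_add_sdiff hGm j3
  have s2 := integral_inter_add_sdiff hHm hu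
  rw [setIntegral_congr_ae (hB.inter hGm) e1, setIntegral_congr_fun (hB.diff hGm) e2, c2] at s1
  have s3 : ∫ z in B ∩ H, j z * ‖pd (u ∘ W.symm) (W z)‖ ^ 2 ≤
      (1 + δ) * ∫ z in B ∩ H, ‖pd u z‖ ^ 2 := by
    rw [← integral_const_mul]
    exact integral_mono i1 i0 fun z => (le_abs_self _).trans (hb z)
  have s4 : En u (B \ G) ≤ En u (B \ H) :=
    En_mono (fun z hz => ⟨hz.1, fun h => hz.2 (hup z h)⟩) (hu.mono_set sdiff_subset)
  have s5 := mul_nonneg hδ (En_nonneg u (B \ H))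
  unfold En at *
  rw [← s1, ← s2]
  linarith

theorem length (hLenc : LencStmt) {K B : Set ℂ} (hK : IsClosed K)
    (h0 : ∀ z : ℂ, z.im = 0 → z ∈ K) (h1 : ∀ z : ℂ, z.im = 1 → z ∈ K) {W : ℂ ≃ₜ ℂ}
    (hB : MeasurableSet B) (hfix : ∀ z, z ∉ B → W.symm z = z)
    (hup : ∀ z : ℂ, z.im ≤ 0 → (W.symm z).im ≤ 0) {δ T : ℝ} (hδ : 0 ≤ δ) (hT : 0 ≤ T)
    (hW : ContDiff ℝ 1 W) (hD : ∀ z, ‖fderiv ℝ W z‖ ≤ 1 + δ) (hf : μH[1] (K ∩ B) < ⊤)
    (hs : ∀ z : ℂ, z.im = 1 → |z.re| ≤ T → z ∈ B ∧ (W.symm z).im = 0) :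
    μH[1] (LL K W ∩ B) < ⊤ ∧ len (LL K W) B + 2 * T ≤ (1 + δ) * len K B := by
  set H : Set ℂ := {z | z.im ≤ 0} with hH
  have hHm : MeasurableSet H := closed_H.measurableSet
  set S : Set ℂ := segment ℝ (-T + I) (T + I) with hS
  have hSm : MeasurableSet S := by
    rw [hS, segment_eq_image]
    exact (isCompact_Icc.image (by fun_prop)).measurableSet
  have hSe : ∀ z ∈ S, z.im = 1 ∧ |z.re| ≤ T := by
    rintro z ⟨a, b, ha, hb, hab, rfl⟩
    constructor
    · simpa using hab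
    · simp only [add_re, smul_re, neg_re, ofReal_re, I_re, add_zero, smul_eq_mul, abs_le]
      constructor <;> nlinarith
  have hSl : (μH[1] : Measure ℂ) S = ENNReal.ofReal (2 * T) := by
    rw [hS, hausdorffMeasure_segment, edist_dist, dist_eq_norm]
    congr 1
    rw [show (-T + I : ℂ) - (T + I) = ((-(2 * T) : ℝ) : ℂ) by push_cast; ring, Complex.norm_real,
      norm_neg, Real.norm_of_nonneg (by positivity)]
  have hsub : LL K W ∩ B ⊆ W '' (K ∩ B ∩ H) ∪ ((K ∩ B) \ H) \ S := by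
    rintro z ⟨hz, hzB⟩
    by_cases hh : (W.symm z).im ≤ 0 ∧ W.symm z ∈ K
    · exact Or.inl ⟨W.symm z, ⟨⟨hh.2, (mem_iff hfix z).2 hzB⟩, hh.1⟩, W.apply_symm_apply z⟩
    · obtain ⟨hz1, hz2⟩ := hz.resolve_left hh
      have hne : (W.symm z).im ≠ 0 := fun h => hh ⟨h.le, h0 _ h⟩
      exact Or.inr ⟨⟨⟨hz2, hzB⟩, fun h => hne (le_antisymm (hup z h) hz1)⟩,
        fun h => hne (hs z (hSe z h).1 (hSe z h).2).2⟩
  have f1 : (μH[1] : Measure ℂ) (K ∩ B ∩ H) < ⊤ := (measure_mono inter_subset_left).trans_lt hf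
  have f3 : (μH[1] : Measure ℂ) (((K ∩ B) \ H) \ S) < ⊤ :=
    (measure_mono (sdiff_subset.trans sdiff_subset)).trans_lt hf
  have l1 : (μH[1] : Measure ℂ) (W '' (K ∩ B ∩ H)) ≤
      ENNReal.ofReal (1 + δ) * μH[1] (K ∩ B ∩ H) := by
    refine (hLenc W _ hW ((hK.measurableSet.inter hB).inter hHm) f1).trans ?_
    rw [← setLIntegral_const]
    refine lintegral_mono fun z => ?_
    rw [← ofReal_norm]
    exact ENNReal.ofReal_le_ofReal (hD z)
  have l2 := ((measure_mono hsub).trans (measure_union_le _ _)).trans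
    (add_le_add_left l1 ((μH[1] : Measure ℂ) (((K ∩ B) \ H) \ S)))
  have f4 : ENNReal.ofReal (1 + δ) * (μH[1] : Measure ℂ) (K ∩ B ∩ H) ≠ ⊤ :=
    ENNReal.mul_ne_top ENNReal.ofReal_ne_top f1.ne
  have f5 := ENNReal.add_ne_top.2 ⟨f4, f3.ne⟩
  refine ⟨l2.trans_lt f5.lt_top, ?_⟩
  have r1 := ENNReal.toReal_mono f5 l2
  rw [ENNReal.toReal_add f4 f3.ne, ENNReal.toReal_mul, ENNReal.toReal_ofReal (by linarith)] at r1
  have a1 := measure_inter_add_sdiff (μ := (μH[1] : Measure ℂ)) (K ∩ B) hHm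
  have a2 := measure_inter_add_sdiff (μ := (μH[1] : Measure ℂ)) ((K ∩ B) \ H) hSm
  have hSs : S ⊆ (K ∩ B) \ H := fun z hz =>
    ⟨⟨h1 z (hSe z hz).1, (hs z (hSe z hz).1 (hSe z hz).2).1⟩, fun h => by
      have h' : z.im ≤ 0 := h
      linarith [(hSe z hz).1]⟩
  rw [inter_eq_right.2 hSs, hSl] at a2
  rw [← a2] at a1
  unfold len
  rw [← a1, ENNReal.toReal_add f1.ne (ENNReal.add_ne_top.2 ⟨ENNReal.ofReal_ne_top, f3.ne⟩),
    ENNReal.toReal_add ENNReal.ofReal_ne_top f3.ne, ENNReal.toReal_ofReal (by linarith)]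
  have := mul_nonneg hδ (add_nonneg hT hT)
  have := mul_nonneg hδ (ENNReal.toReal_nonneg (a := (μH[1] : Measure ℂ) (((K ∩ B) \ H) \ S)))
  linarith

theorem core (hDef0 : Def0Stmt) (hAlg : AlgStmt) (hLenc : LencStmt) (hUp : UpStmt) {K : Set ℂ}
    {u : ℂ → ℝ} (h : GM K u) (h0 : ∀ z : ℂ, z.im = 0 → z ∈ K)
    (h1 : ∀ z : ℂ, z.im = 1 → z ∈ K) : False := by
  obtain ⟨C, hC, hX⟩ := field
  obtain ⟨C', -, hA⟩ := hAlg
  set T : ℝ := 32 * C + 1 with hTdef
  have hT : 1 ≤ T := by linarith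
  obtain ⟨X, hX, hD, hi, hI, hz⟩ := hX T (by linarith)
  set δ : ℝ := C / T with hδdef
  have hδ : 0 ≤ δ := by positivity
  have hδT : δ * T = C := by
    rw [hδdef]
    field_simp
  have hδ2 : δ ≤ 1 / 2 := by
    rw [hδdef, div_le_iff₀ (by linarith)]
    linarith
  obtain ⟨W, hW, -, hWs, -, hl, hch, hdens⟩ := hDef0 X hX fun z => (hD z).trans hδ2
  have hWf : (W : ℂ → ℂ) = fun z => z + X z := funext hW
  have hfix : ∀ z, z ∉ closedBall (0 : ℂ) (2 * T) → W.symm z = z := by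
    intro z hzB
    rw [mem_closedBall_zero_iff, not_le] at hzB
    rw [W.symm_apply_eq, hW, hz z hzB.le, add_zero]
  have hup : ∀ z : ℂ, z.im ≤ 0 → (W.symm z).im ≤ 0 := by
    intro z hzi
    have h2 := congrArg Complex.im ((hW (W.symm z)).symm.trans (W.apply_symm_apply z))
    rw [add_im] at h2
    linarith [hi (W.symm z)]
  have hnull : volume (W '' K) = 0 := by
    have := hl (fun _ => 1) K h.cl.measurableSet
    rwa [setLIntegral_one, setLIntegral_measure_zero _ _ h.null] at this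
  obtain ⟨e1, e2⟩ := energy (u := u) (δ := 4 * δ) (j := jac X) h0 measurableSet_closedBall hfix
    hnull hup (by positivity) ((((measurable_dz X).const_add 1).norm.pow_const 2).sub
      ((measurable_db X).norm.pow_const 2)) (h.int 0 (2 * T) (subset_univ _)) hch (fun z => by
      rw [hdens]
      have h2 := hD z
      rw [norm_fderiv_eq] at h2
      have h3 := (hA (dz X z) (db X z) (pd u z) (h2.trans hδ2)).1
      have h4 := mul_le_mul_of_nonneg_right h2 (sq_nonneg ‖pd u z‖)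
      have h5 := sq_nonneg ‖pd u z‖
      rw [abs_le] at h3 ⊢
      unfold dens
      constructor <;> linarith [h3.1, h3.2])
  obtain ⟨l1, l2⟩ := length hLenc (T := T) h.cl h0 h1 measurableSet_closedBall hfix hup hδ
    (by linarith) (hWf ▸ contDiff_id.add hX) (fun z => by
      have h2 : HasFDerivAt (fun z => z + X z) (ContinuousLinearMap.id ℝ ℂ + fderiv ℝ X z) z :=
        (hasFDerivAt_id z).add (hX.differentiable one_ne_zero z).hasFDerivAt
      rw [hWf, h2.fderiv]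
      refine (norm_add_le _ _).trans ?_
      rw [ContinuousLinearMap.norm_id]
      linarith [hD z]) (h.fin 0 (2 * T) (subset_univ _)) (fun z hz1 hz2 => by
      constructor
      · rw [mem_closedBall_zero_iff]
        have := norm_le_abs_re_add_abs_im z
        rw [hz1, abs_one] at this
        linarith
      · have : W.symm z = z.re := by
          rw [W.symm_apply_eq, hW, hI _ (by simpa using hz2)]
          apply Complex.ext <;> simp [hz1]
        rw [this, ofReal_im])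
  have m := h.min 0 (2 * T) _ _ (subset_univ _) (comp h h0 hWs hfix e1 l1)
  have up := hUp _ _ _ _ _ h 0 (2 * T) (by linarith) (subset_univ _)
  have p1 := mul_nonneg hδ (len_nonneg K (closedBall 0 (2 * T)))
  have p2 := mul_le_mul_of_nonneg_left up hδ
  have p3 : π * C ≤ 4 * C := mul_le_mul_of_nonneg_right Real.pi_le_four hC
  have p4 : δ * (2 * π * (2 * T) + 2 * π * (0 * 1) * (2 * T) ^ 2) = 4 * (π * C) := by
    rw [← hδT]
    ring
  rw [p4] at p2
  linarith

end Pinch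

theorem pinch_pf (hScale : ScaleStmt) (hDef0 : Def0Stmt) (hAlg : AlgStmt) (hLenc : LencStmt)
    (hUp : UpStmt) : PinchStmt := by
  intro K u h p q e hp hq
  by_contra hne
  have he : e ≠ 0 := by
    rintro rfl
    simp at hne
  set c : ℂ := (q - p) / e with hc
  have hqp : q = p + e * c := by
    rw [hc]
    field_simp
    ring
  have hb : c.im ≠ 0 := by
    intro hb
    apply hne
    rw [hqp, add_sub_cancel_left, ← mul_assoc, Complex.conj_mul']
    simp [← ofReal_pow, hb]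
  have hd : e * c.im ≠ 0 := mul_ne_zero he (ofReal_ne_zero.2 hb)
  have h2 := ((hScale p _ hd).2.2.2.2.2.2 _ _ _ _ _ h).gm (by simp)
  rw [preimage_univ] at h2
  refine Pinch.core hDef0 hAlg hLenc hUp h2 (fun z hz => ?_) fun z hz => ?_
  · have := hp (c.im * z.re)
    have hz' : z = z.re := by apply Complex.ext <;> simp [hz]
    rw [mem_preimage, af, hz']
    push_cast at this
    rwa [show p + e * c.im * z.re = p + c.im * z.re * e by ring]
  · have := hq (c.im * z.re - c.re)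
    have hz' : z = z.re + I := by apply Complex.ext <;> simp [hz]
    rw [mem_preimage, af, hz']
    push_cast at this
    rwa [show p + e * c.im * (z.re + I) = q + (c.im * z.re - c.re) * e by
      rw [hqp]
      linear_combination e * (re_add_im c)]

end Vale.Agent.P128
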