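import Vale.Agent.P128.Stm

open MeasureTheory Set Metric Filter Topology Complex
open scoped ENNReal ComplexConjugate Real

noncomputable section
namespace Vale.Agent.P128

namespace Por

theorem sep {m : ℕ} {k l : Fin m} (hkl : k ≠ l) {h : ℝ} (hh : 0 ≤ h) :
    h ≤ |((k : ℕ) : ℝ) * h - ((l : ℕ) : ℝ) * h| := by
  have h1 : (1 : ℤ) ≤ |((k : ℕ) : ℤ) - ((l : ℕ) : ℤ)| :=
    Int.one_le_abs (sub_ne_zero.2 fun e => hkl (Fin.ext (by exact_mod_cast e)))
  have h2 : (1 : ℝ) ≤ |((k : ℕ) : ℝ) - ((l : ℕ) : ℝ)| := by exact_mod_cast h1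
  rw [← sub_mul, abs_mul, abs_of_nonneg hh]
  exact le_mul_of_one_le_left hh h2

end Por

theorem por_pf (hDens : DensStmt) (hUp : UpStmt) : PorStmt := by
  intro K u hK
  obtain ⟨c, hc, hD⟩ := hDens
  obtain ⟨m, hm⟩ := exists_nat_gt (96 * π / c)
  have hm0 : (0 : ℝ) < m := lt_trans (by positivity) hm
  have hm1 : (1 : ℝ) ≤ m := by exact_mod_cast (Nat.one_le_iff_ne_zero.2 (by
    rintro rfl; simp at hm0))
  refine ⟨1 / (8 * m), by positivity, fun R hR => ?_⟩
  by_contra hcon
  push Not at hcon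
  have hR0 : 0 < R := by linarith
  obtain ⟨h, hh⟩ : ∃ h : ℝ, h = R / (2 * m) := ⟨_, rfl⟩
  have h0 : 0 < h := by rw [hh]; positivity
  have hmh : m * h = R / 2 := by rw [hh]; field_simp
  have hc4 : 1 / (8 * m) * R = h / 4 := by rw [hh]; field_simp; norm_num
  have hR2 : h ≤ R / 2 := by nlinarith
  let b : Fin m × Fin m → ℂ := fun p => ⟨R + ((p.1 : ℕ) : ℝ) * h, ((p.2 : ℕ) : ℝ) * h⟩
  have hk : ∀ k : Fin m, 0 ≤ ((k : ℕ) : ℝ) * h ∧ ((k : ℕ) : ℝ) * h ≤ R / 2 := fun k =>
    ⟨by positivity, hmh ▸ mul_le_mul_of_nonneg_right (by exact_mod_cast k.2.le) h0.le⟩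
  have b1 : ∀ p, R ≤ ‖b p‖ := fun p =>
    le_trans (by simp only [b]; linarith [(hk p.1).1]) (re_le_norm (b p))
  have b2 : ∀ p, ‖b p‖ ≤ 2 * R := fun p => by
    refine (norm_le_abs_re_add_abs_im _).trans ?_
    simp only [b]
    rw [abs_of_nonneg (by linarith [(hk p.1).1]), abs_of_nonneg (hk p.2).1]
    linarith [(hk p.1).2, (hk p.2).2]
  choose z hzK hz using fun p => hcon (b p) (b1 p) (b2 p)
  rw [hc4] at hz
  have hsep : ∀ p q, p ≠ q → h ≤ ‖b p - b q‖ := fun p q hpq => by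
    by_cases e : p.1 = q.1
    · have e2 : p.2 ≠ q.2 := fun e2 => hpq (Prod.ext e e2)
      exact (Por.sep e2 h0.le).trans (by simpa [b] using abs_im_le_norm (b p - b q))
    · exact (Por.sep e h0.le).trans (by simpa [b] using abs_re_le_norm (b p - b q))
  have hdis : ((Finset.univ : Finset (Fin m × Fin m)) : Set (Fin m × Fin m)).PairwiseDisjoint
      fun p => K ∩ closedBall (z p) (h / 8) := fun p _ q _ hpq => by
    refine Disjoint.mono inter_subset_right inter_subset_right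
      (closedBall_disjoint_closedBall ?_)
    have t : ‖b p - b q‖ ≤ ‖z p - z q‖ + ‖z q - b q‖ + ‖z p - b p‖ := by
      have e : b p - b q = (z p - z q) + (z q - b q) - (z p - b p) := by ring
      rw [e]
      exact (norm_sub_le _ _).trans (add_le_add_left (norm_add_le _ _) _)
    rw [dist_eq_norm]
    linarith [hsep p q hpq, hz p, hz q]
  have hsub : ⋃ p ∈ (Finset.univ : Finset (Fin m × Fin m)), K ∩ closedBall (z p) (h / 8) ⊆
      K ∩ closedBall 0 (3 * R) := iUnion₂_subset fun p _ => inter_subset_inter_right _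
    (closedBall_subset_closedBall' (by
      have t : ‖z p‖ ≤ ‖z p - b p‖ + ‖b p‖ := norm_le_norm_sub_add _ _
      rw [dist_zero_right]
      linarith [hz p, b2 p]))
  have e1 := measureReal_biUnion_finset (μ := μH[1]) hdis
    (fun p _ => hK.cl.measurableSet.inter measurableSet_closedBall)
    fun p _ => (hK.fin _ _ (subset_univ _)).ne
  have e2 := measureReal_mono hsub (hK.fin 0 (3 * R) (subset_univ _)).ne
  have e3 := hUp univ K u 0 1 hK 0 (3 * R) (by positivity) (subset_univ _)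
  have e4 : ∑ _p : Fin m × Fin m, c * (h / 8) ≤
      ∑ p : Fin m × Fin m, (μH[1] : Measure ℂ).real (K ∩ closedBall (z p) (h / 8)) :=
    Finset.sum_le_sum fun p _ =>
      hD univ K u 0 1 hK (z p) (hzK p) (h / 8) (by positivity) (subset_univ _) (by simp)
  have e5 : (μH[1] : Measure ℂ).real (K ∩ closedBall 0 (3 * R)) ≤ 6 * π * R := by
    have := En_nonneg u (closedBall 0 (3 * R))
    change len K (closedBall 0 (3 * R)) ≤ _
    linarith
  rw [e1] at e2
  have e6 := e4.trans (e2.trans e5)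
  simp only [Finset.sum_const, Finset.card_univ, Fintype.card_prod, Fintype.card_fin,
    nsmul_eq_mul, Nat.cast_mul] at e6
  have e7 : (m : ℝ) * m * (c * (h / 8)) = m * c * R / 16 := by
    linear_combination (m * c / 8) * hmh
  rw [div_lt_iff₀ hc] at hm
  nlinarith [mul_lt_mul_of_pos_right hm hR0]

end Vale.Agent.P128
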