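import Vale.Agent.P128.Stm

open MeasureTheory Set Metric Filter Topology Complex
open scoped ENNReal ComplexConjugate Real

noncomputable section
namespace Vale.Agent.P128

namespace Psi

variable {K K₁ K₂ : Set ℂ} {u χ : ℂ → ℝ}

theorem db_zero {f : ℂ → ℂ} {z c : ℂ} (h : f =ᶠ[𝓝 z] fun _ => c) : db f z = 0 := by
  simp [db, h.fderiv_eq]

theorem isOpen_good (K₁ : Set ℂ) : IsOpen {z | infDist z K₁ < 1 / 4 ∨ 1 / 2 < infDist z K₁} :=
  (isOpen_lt (continuous_infDist_pt K₁) continuous_const).union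
    (isOpen_lt continuous_const (continuous_infDist_pt K₁))

theorem zero_of (hχ : IsChi K₁ χ) {z : ℂ} (h : infDist z K₁ < 1 / 4 ∨ 1 / 2 < infDist z K₁) :
    db (fun w => (χ w : ℂ)) z = 0 := by
  rcases h with h | h
  · refine db_zero (c := 1) ?_
    filter_upwards [(isOpen_lt (continuous_infDist_pt K₁) continuous_const).mem_nhds h] with w hw
    rw [hχ.one w (le_of_lt hw), ofReal_one]
  · refine db_zero (c := 0) ?_
    filter_upwards [(isOpen_lt continuous_const (continuous_infDist_pt K₁)).mem_nhds h] with w hw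
    rw [hχ.zero w (le_of_lt hw), ofReal_zero]

theorem far (hs : Split K K₁ K₂) {z : ℂ} (hz : z ∈ K₂) : 1 ≤ infDist z K₁ :=
  (le_infDist ⟨0, hs.m1⟩).2 fun w hw => by
    rw [dist_comm, dist_eq_norm]; exact hs.far w hw z hz

theorem sm_db (hχ : IsChi K₁ χ) : ContDiff ℝ (⊤ : ℕ∞) (db fun w => (χ w : ℂ)) := by
  have h1 : ContDiff ℝ (⊤ : ℕ∞) (fun w => (χ w : ℂ)) := ofRealCLM.contDiff.comp hχ.sm
  have h2 := (contDiff_infty_iff_fderiv.1 h1).2
  exact ((h2.clm_apply contDiff_const).add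
    (contDiff_const.mul (h2.clm_apply contDiff_const))).div_const 2

theorem bd_db (hχ : IsChi K₁ χ) : ∃ C, 0 ≤ C ∧ ∀ z, ‖db (fun w => (χ w : ℂ)) z‖ ≤ C := by
  obtain ⟨C, hC⟩ := hχ.bd
  refine ⟨C, (norm_nonneg _).trans (hC 0).2, fun z => ?_⟩
  have h1 := norm_fderiv_eq (fun w => (χ w : ℂ)) z
  have h2 : fderiv ℝ (fun w => (χ w : ℂ)) z = ofRealCLM.comp (fderiv ℝ χ z) :=
    (ofRealCLM.hasFDerivAt.comp z (hχ.sm.differentiable (by simp) z).hasFDerivAt).fderiv
  have h3 := ofRealCLM.opNorm_comp_le (fderiv ℝ χ z)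
  rw [ofRealCLM_norm, one_mul, ← h2] at h3
  linarith [norm_nonneg (dz (fun w => (χ w : ℂ)) z), (hC z).2]

theorem int_w (hGrow : GrowStmt) (hUp : UpStmt) (h : GM K u) {s : ℝ} (hs : 1 < s) :
    Integrable fun z => ‖pd u z‖ ^ 2 * (1 + ‖z‖) ^ (-s) := by
  obtain ⟨C', -, hC⟩ := hGrow s hs
  have hm : Measurable fun z => ‖pd u z‖ ^ 2 := (measurable_pd u).norm.pow_const 2
  have hm2 : Measurable fun z : ℂ => (1 + ‖z‖) ^ (-s) := by fun_prop
  have h1 := hC (volume.withDensity fun z => ENNReal.ofReal (‖pd u z‖ ^ 2)) (2 * π)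
    (by positivity) (fun R hR => by
      rw [withDensity_apply _ measurableSet_closedBall, ← ofReal_integral_eq_lintegral_ofReal
        (h.int 0 R (subset_univ _)) (ae_of_all _ fun z => sq_nonneg _)]
      have h2 := hUp _ _ _ _ _ h 0 R (by linarith) (subset_univ _)
      have h3 := len_nonneg K (closedBall 0 R)
      refine ENNReal.ofReal_le_ofReal ?_
      simp only [zero_mul, mul_zero, add_zero] at h2
      exact le_trans (le_add_of_nonneg_right h3) h2) 1 le_rfl
  rw [lintegral_withDensity_eq_lintegral_mul _ hm.ennreal_ofReal hm2.ennreal_ofReal] at h1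
  refine (lintegral_ofReal_ne_top_iff_integrable (hm.mul hm2).aestronglyMeasurable
    (ae_of_all _ fun z => mul_nonneg (sq_nonneg _) (Real.rpow_nonneg (by positivity) _))).1
    (ne_top_of_le_ne_top ENNReal.ofReal_ne_top
      (le_trans (le_of_eq ?_) h1))
  exact lintegral_congr fun z => ENNReal.ofReal_mul (sq_nonneg _)

theorem amgm {P t : ℝ} (ht : 0 < t) :
    P / t ^ 2 ≤ P ^ 2 * t ^ (-(3 / 2) : ℝ) + t ^ (-(5 / 2) : ℝ) := by
  have ha : 0 < t ^ (-(3 / 2) : ℝ) := Real.rpow_pos_of_pos ht _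
  have hab : t ^ (-(3 / 2) : ℝ) * t ^ (-(5 / 2) : ℝ) = (1 / t ^ 2) ^ 2 := by
    rw [← Real.rpow_add ht, show (-(3 / 2) + -(5 / 2) : ℝ) = -((4 : ℕ) : ℝ) by norm_num,
      Real.rpow_neg ht.le, Real.rpow_natCast]
    field_simp
  rw [div_eq_mul_one_div]
  generalize 1 / t ^ 2 = c at *
  generalize t ^ (-(3 / 2) : ℝ) = a at *
  generalize t ^ (-(5 / 2) : ℝ) = b at *
  have : 0 ≤ a * (P ^ 2 * a + b - P * c) := by
    nlinarith [sq_nonneg (P * a - c), sq_nonneg (P * a), sq_nonneg c]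
  linarith [nonneg_of_mul_nonneg_right this ha]

end Psi

theorem psi_pf (hApx : ApxStmt) (hGrow : GrowStmt) (hUp : UpStmt) : PsiStmt := by
  intro K K₁ K₂ u χ h hs hχ
  obtain ⟨C, hC0, hC⟩ := Psi.bd_db hχ
  have hsm : ContDiff ℝ (⊤ : ℕ∞) (fun z => db (fun w => (χ w : ℂ)) z * pd u z) := by
    rw [contDiff_iff_contDiffAt]
    intro z
    by_cases hz : z ∈ K
    · have h1 : infDist z K₁ < 1 / 4 ∨ 1 / 2 < infDist z K₁ := by
        rw [hs.eq] at hz
        rcases hz with hz | hz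
        · left; rw [infDist_zero_of_mem hz]; norm_num
        · right; linarith [Psi.far hs hz]
      refine (contDiffAt_const (c := (0 : ℂ))).congr_of_eventuallyEq ?_
      filter_upwards [(Psi.isOpen_good K₁).mem_nhds h1] with w hw
      rw [Psi.zero_of hχ hw, zero_mul]
    · have ho : IsOpen Kᶜ := h.cl.isOpen_compl
      exact (Psi.sm_db hχ).contDiffAt.mul
        ((((hApx.2 K u h).contDiffOn ho).contDiffAt (ho.mem_nhds hz)).restrict_scalars ℝ)
  have hc := hsm.continuous.norm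
  have hw : Continuous fun z : ℂ => (1 + ‖z‖) ^ 2 := by fun_prop
  have hw0 : ∀ z : ℂ, (1 + ‖z‖) ^ 2 ≠ 0 := fun z => by positivity
  refine ⟨hsm, ?_, ?_, fun z hz => Psi.zero_of hχ ?_⟩
  · have i1 := Psi.int_w hGrow hUp h (s := 3 / 2) (by norm_num)
    have i2 := integrable_one_add_norm (E := ℂ) (μ := volume) (r := 5 / 2)
      (by rw [finrank_real_complex]; norm_num)
    refine ((i1.add i2).const_mul C).mono' (hc.div hw hw0).aestronglyMeasurable
      (ae_of_all _ fun z => ?_)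
    rw [Real.norm_of_nonneg (by positivity), norm_mul, mul_div_assoc]
    exact mul_le_mul (hC z) (Psi.amgm (by positivity)) (by positivity) hC0
  · have i1 := Psi.int_w hGrow hUp h (s := 2) (by norm_num)
    refine (i1.const_mul (C ^ 2)).mono' ((hc.pow 2).div hw hw0).aestronglyMeasurable
      (ae_of_all _ fun z => ?_)
    rw [Real.norm_of_nonneg (by positivity), norm_mul, mul_pow, mul_div_assoc,
      Real.rpow_neg (by positivity), Real.rpow_two, div_eq_mul_inv]
    exact mul_le_mul_of_nonneg_right (pow_le_pow_left₀ (norm_nonneg _) (hC z) 2) (by positivity)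
  · rcases hz with hz | hz
    · exact Or.inl ((infDist_le_dist_of_mem hs.m1).trans_lt hz)
    · right
      have h1 := infDist_le_infDist_add_dist (x := I) (y := z) (s := K₁)
      rw [mem_ball, dist_comm] at hz
      linarith [Psi.far hs hs.m2]

end Vale.Agent.P128
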