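import Vale.Agent.P128.Stm

/-! The rate of convergence of the length at a crack tip. -/

open MeasureTheory Set Metric Filter Topology Complex
open scoped ENNReal ComplexConjugate Real

noncomputable section
namespace Vale.Agent.P128

namespace Rate

variable {K : Set ℂ} {x : ℂ} {r : ℝ} {γ τ : ℝ → ℂ}

theorem cb_le (h : Tip K x r γ τ) {ρ : ℝ} (hρ : ρ ∈ Ioo 0 r) : cb x γ τ ρ ≤ 1 := by
  rw [cb, div_le_one hρ.1]
  refine (re_le_norm _).trans ?_
  rw [norm_mul, norm_conj, h.unit ρ hρ, h.norm ρ hρ, one_mul]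

theorem cb_cont (h : Tip K x r γ τ) : ContinuousOn (cb x γ τ) (Ioo 0 r) := by
  have h1 : ContinuousOn γ (Ioo 0 r) := fun ρ hρ => (h.der ρ hρ).continuousAt.continuousWithinAt
  have h2 : ContinuousOn (fun ρ => conj (τ ρ)) (Ioo 0 r) := continuous_conj.comp_continuousOn h.cont
  exact (continuous_re.comp_continuousOn (h2.mul (h1.sub continuousOn_const))).div continuousOn_id
    fun ρ hρ => hρ.1.ne'

theorem mem (h : Tip K x r γ τ) {ρ : ℝ} (hρ : ρ ∈ Ioo 0 r) : γ ρ ∈ K :=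
  (h.eq.symm.subset (Or.inr ⟨ρ, hρ, rfl⟩)).1

theorem cases (h : Tip K x r γ τ) {z : ℂ} (hz : z ∈ K) (hr : ‖z - x‖ < r) :
    z = x ∨ (‖z - x‖ ∈ Ioo 0 r ∧ γ ‖z - x‖ = z) := by
  rcases h.eq.subset ⟨hz, mem_ball_iff_norm.2 hr⟩ with h1 | ⟨ρ, hρ, rfl⟩
  · exact Or.inl h1
  · rw [h.norm ρ hρ]; exact Or.inr ⟨hρ, rfl⟩

theorem bal (h : Tip K x r γ τ) {ρ η : ℝ} (hρ : ρ ∈ Ioo 0 r) (hη : 0 ≤ η) : Bal K x 1 η ρ := by
  refine ⟨{γ ρ}, ?_, Finset.card_singleton _, ?_⟩
  · rw [Finset.coe_singleton]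
    refine Subset.antisymm ?_ fun z hz => ?_
    · rintro z rfl
      exact ⟨mem h hρ, mem_sphere_iff_norm.2 (h.norm ρ hρ)⟩
    · have h1 : ‖z - x‖ = ρ := mem_sphere_iff_norm.1 hz.2
      rcases cases h hz.1 (h1 ▸ hρ.2) with h2 | h2
      · rw [h2, sub_self, norm_zero] at h1; exact absurd h1 hρ.1.ne
      · rw [h1] at h2; exact h2.2.symm
  · simpa using hη

theorem arc (hCurve : CurveStmt) (h : Tip K x r γ τ) {s t : ℝ} (hs : 0 < s) (hst : s ≤ t)
    (ht : t < r) : μH[1] (γ '' Icc s t) = ENNReal.ofReal (∫ ρ in s..t, 1 / cb x γ τ ρ) := by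
  have hI : Icc s t ⊆ Ioo 0 r := fun ρ hρ => ⟨hs.trans_le hρ.1, hρ.2.trans_lt ht⟩
  have hp : ∀ ρ ∈ Icc s t, 0 < cb x γ τ ρ := fun ρ hρ => by linarith [h.cos ρ (hI hρ)]
  rw [(hCurve γ (fun ρ => τ ρ / (cb x γ τ ρ : ℝ)) s t hst (fun ρ hρ => h.der ρ (hI hρ))
    ((h.cont.mono hI).div (continuous_ofReal.comp_continuousOn ((cb_cont h).mono hI))
      fun ρ hρ => ofReal_ne_zero.2 (hp ρ hρ).ne')).2 fun a ha b hb hab => by
      rw [← h.norm a (hI ha), hab, h.norm b (hI hb)]]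
  congr 1
  refine intervalIntegral.integral_congr fun ρ hρ => ?_
  rw [uIcc_of_le hst] at hρ
  simp only [norm_div, h.unit ρ (hI hρ), norm_real, Real.norm_of_nonneg (hp ρ hρ).le]

/-- from the integral bound to the length -/
theorem length (hCurve : CurveStmt) (h : Tip K x r γ τ) {t B : ℝ} (ht0 : 0 < t) (ht : t < r)
    (hB0 : 0 ≤ B) (hfin : μH[1] (K ∩ closedBall x t) < ⊤)
    (hB : ∀ s, 0 < s → s ≤ t → ∫ ρ in s..t, (1 / cb x γ τ ρ - 1) ≤ B) :
    |len K (closedBall x t) - t| ≤ B := by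
  have hi : ∀ s, 0 < s → s ≤ t → IntervalIntegrable (fun ρ => 1 / cb x γ τ ρ) volume s t :=
    fun s hs hst => by
    have hI : Icc s t ⊆ Ioo 0 r := fun ρ hρ => ⟨hs.trans_le hρ.1, hρ.2.trans_lt ht⟩
    exact (continuousOn_const.div ((cb_cont h).mono hI)
      fun ρ hρ => by linarith [h.cos ρ (hI hρ)]).intervalIntegrable_of_Icc hst
  rw [abs_le]
  constructor
  · have : ∀ s, 0 < s → s ≤ t → t - s ≤ len K (closedBall x t) := fun s hs hst => by
      have hI : Icc s t ⊆ Ioo 0 r := fun ρ hρ => ⟨hs.trans_le hρ.1, hρ.2.trans_lt ht⟩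
      have a1 : ∫ _ in s..t, (1 : ℝ) ≤ ∫ ρ in s..t, 1 / cb x γ τ ρ :=
        intervalIntegral.integral_mono_on hst intervalIntegrable_const (hi s hs hst) fun ρ hρ =>
          one_le_one_div (by linarith [h.cos ρ (hI hρ)]) (cb_le h (hI hρ))
      have a2 : μH[1] (γ '' Icc s t) ≤ μH[1] (K ∩ closedBall x t) := measure_mono <| by
        rintro _ ⟨ρ, hρ, rfl⟩
        exact ⟨mem h (hI hρ), mem_closedBall_iff_norm.2 ((h.norm ρ (hI hρ)).le.trans hρ.2)⟩
      rw [arc hCurve h hs hst ht, ENNReal.ofReal_le_iff_le_toReal hfin.ne] at a2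
      simp only [intervalIntegral.integral_const, smul_eq_mul, mul_one] at a1
      exact a1.trans a2
    have h2 : t ≤ len K (closedBall x t) := le_of_forall_pos_le_add fun e he => by
      linarith [this (min e t) (lt_min he ht0) (min_le_right _ _), min_le_left e t]
    linarith
  · have hs : ∀ n : ℕ, 0 < t / (n + 1) ∧ t / (n + 1) ≤ t := fun n =>
      ⟨by positivity, div_le_self ht0.le (by simp)⟩
    have a1 : K ∩ closedBall x t ⊆ {x} ∪ ⋃ n : ℕ, γ '' Icc (t / (n + 1)) t := fun z hz => by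
      have b1 : ‖z - x‖ ≤ t := mem_closedBall_iff_norm.1 hz.2
      rcases cases h hz.1 (b1.trans_lt ht) with h2 | ⟨h2, h3⟩
      · exact Or.inl h2
      · obtain ⟨n, hn⟩ := exists_nat_ge (t / ‖z - x‖)
        refine Or.inr (mem_iUnion.2 ⟨n, _, ⟨?_, b1⟩, h3⟩)
        rw [div_le_iff₀ h2.1] at hn
        rw [div_le_iff₀ (by positivity)]
        linarith [h2.1]
    have a2 : Monotone fun n : ℕ => γ '' Icc (t / (n + 1)) t := fun m n hmn =>
      image_mono (Icc_subset_Icc_left (by gcongr))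
    have := Measure.nullSingletonClass_hausdorff ℂ (d := 1) one_pos
    have a3 : μH[1] (K ∩ closedBall x t) ≤ ENNReal.ofReal (t + B) := by
      refine (measure_mono a1).trans ((measure_union_le _ _).trans ?_)
      rw [measure_singleton, zero_add, a2.measure_iUnion]
      refine iSup_le fun n => ?_
      rw [arc hCurve h (hs n).1 (hs n).2 ht]
      refine ENNReal.ofReal_le_ofReal ?_
      have b1 := hB _ (hs n).1 (hs n).2
      rw [intervalIntegral.integral_sub (hi _ (hs n).1 (hs n).2) intervalIntegrable_const] at b1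
      simp only [intervalIntegral.integral_const, smul_eq_mul, mul_one] at b1
      linarith [(hs n).1]
    have a4 : len K (closedBall x t) ≤ t + B :=
      ENNReal.toReal_le_of_le_ofReal (by positivity) a3
    linarith

/-- the weighted integral of the angle defect is bounded -/
theorem weighted (hGron : GronStmt) {f e β : ℝ → ℝ} {R c : ℝ} (hR : 0 < R) (hc : 0 ≤ c)
    (hcR : c * R ≤ 1 / 3) (he : IntervalIntegrable e volume 0 R) (hβ : ContinuousOn β (Ioc 0 R))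
    (hf0 : 0 ≤ f 0) (hf : ∀ s t, 0 ≤ s → s ≤ t → t ≤ R → f t = f s + ∫ ρ in s..t, e ρ)
    (h : ∀ᵐ ρ, ρ ∈ Ioo 0 R → 1 - c * ρ ≤ e ρ ∧
      2 * f ρ ≤ (1 + c * ρ) * ρ * e ρ + ρ * β ρ + c * ρ ^ 2) :
    ∃ D : ℝ, ∀ s, 0 < s → s ≤ R →
      ∫ ρ in s..R, ρ ^ (1 - 3 / 2 : ℝ) * ((1 - β ρ) / (2 * ρ)) ≤ D := by
  have hi : ∀ s t, 0 ≤ s → s ≤ t → t ≤ R → IntervalIntegrable e volume s t := fun s t a b d =>
    he.mono_set (by rw [uIcc_of_le b, uIcc_of_le hR.le]; exact Icc_subset_Icc a d)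
  have hl : ∀ s t, IntervalIntegrable (fun ρ : ℝ => c * ρ - 1) volume s t := fun s t =>
    Continuous.intervalIntegrable (by fun_prop) _ _
  have hψ : ∀ s t, 0 ≤ s → s ≤ t → t ≤ R → f t - t + c * t ^ 2 / 2 =
      f s - s + c * s ^ 2 / 2 + ∫ ρ in s..t, (e ρ + (c * ρ - 1)) := fun s t a b d => by
    rw [intervalIntegral.integral_add (hi s t a b d) (hl s t), hf s t a b d,
      intervalIntegral.integral_sub (Continuous.intervalIntegrable (by fun_prop) _ _)
        intervalIntegrable_const, intervalIntegral.integral_const_mul, integral_id]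
    simp only [intervalIntegral.integral_const, smul_eq_mul, mul_one]
    ring
  refine ⟨c * (2 * R ^ (1 / 2 : ℝ)) + 2 / 3 * ((f R - R + c * R ^ 2 / 2) / R ^ (3 / 2 : ℝ)),
    fun s hs hsR => ?_⟩
  have hI : Icc s R ⊆ Ioc 0 R := fun ρ hρ => ⟨hs.trans_le hρ.1, hρ.2⟩
  have hk : ContinuousOn (fun ρ => (1 - β ρ) / (2 * ρ)) (Icc s R) :=
    (continuousOn_const.sub (hβ.mono hI)).div (by fun_prop) fun ρ hρ => by
      linarith [(hI hρ).1]
  have hp : ContinuousOn (fun ρ : ℝ => ρ ^ (1 - 3 / 2 : ℝ)) (Icc s R) :=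
    continuousOn_id.rpow_const fun ρ hρ => Or.inl (hI hρ).1.ne'
  have h0 : 0 ≤ f s - s + c * s ^ 2 / 2 := by
    rw [hψ 0 s le_rfl hs.le hsR]
    have : 0 ≤ ∫ ρ in (0 : ℝ)..s, (e ρ + (c * ρ - 1)) := by
      rw [intervalIntegral.integral_of_le hs.le, integral_Ioc_eq_integral_Ioo]
      refine setIntegral_nonneg_ae measurableSet_Ioo ?_
      filter_upwards [h] with ρ hρ hm
      linarith [(hρ ⟨hm.1, hm.2.trans_le hsR⟩).1]
    linarith
  have key := hGron (fun t => f t - t + c * t ^ 2 / 2) (fun ρ => e ρ + (c * ρ - 1))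
    (fun ρ => c - (1 - β ρ) / (2 * ρ)) s R (3 / 2) hs hsR (by norm_num)
    ((hi s R hs.le hsR le_rfl).add (hl s R))
    ((continuousOn_const.sub hk).intervalIntegrable_of_Icc hsR)
    (fun t ht => hψ s t hs.le ht.1 ht.2) (by
      filter_upwards [h] with ρ hρ hm
      have a0 : 0 < ρ := hs.trans hm.1
      obtain ⟨a1, a2⟩ := hρ ⟨a0, hm.2⟩
      have a3 : ρ ^ 2 * (c - (1 - β ρ) / (2 * ρ)) = c * ρ ^ 2 - ρ * (1 - β ρ) / 2 := by
        field_simp
      have a4 : c * ρ ≤ 1 / 3 := (mul_le_mul_of_nonneg_left hm.2.le hc).trans hcR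
      have a5 := mul_le_mul_of_nonneg_right a4
        (mul_nonneg a0.le (by linarith : 0 ≤ e ρ + (c * ρ - 1)))
      have a6 : 0 ≤ ρ * (c * ρ) ^ 2 := by positivity
      rw [a3]
      linarith)
  simp only [mul_sub] at key
  rw [intervalIntegral.integral_sub (f := fun ρ : ℝ => ρ ^ (1 - 3 / 2 : ℝ) * c)
    (g := fun ρ : ℝ => ρ ^ (1 - 3 / 2 : ℝ) * ((1 - β ρ) / (2 * ρ)))
    ((hp.mul continuousOn_const).intervalIntegrable_of_Icc hsR)
    ((hp.mul hk).intervalIntegrable_of_Icc hsR), intervalIntegral.integral_mul_const,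
    integral_rpow (Or.inl (by norm_num))] at key
  have e1 : (1 - 3 / 2 + 1 : ℝ) = 1 / 2 := by norm_num
  rw [e1] at key
  have a1 : 0 ≤ (f s - s + c * s ^ 2 / 2) / s ^ (3 / 2 : ℝ) := by positivity
  have a2 : 0 ≤ s ^ (1 / 2 : ℝ) * c := by positivity
  linarith

end Rate

open Rate in
theorem rate_pf (hRate1 : Rate1Stmt) (hGron : GronStmt) (hGood : GoodStmt) (hCurve : CurveStmt)
    (_hUp : UpStmt) : RateStmt := by
  intro Ω K u Λ M hM x r γ τ h hΩ hs ε hε
  obtain ⟨C, hC, h1⟩ := hRate1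
  have hr := h.pos
  have hc : 0 ≤ C * (Λ * M) := mul_nonneg hC hM.a0
  obtain ⟨R, hR⟩ : ∃ R, R = min (r / 2) (1 / (3 * (C * (Λ * M) + 1))) := ⟨_, rfl⟩
  have hR0 : 0 < R := by rw [hR]; positivity
  have hR1 : R ≤ r / 2 := hR ▸ min_le_left _ _
  have hR2 : C * (Λ * M) * R ≤ 1 / 3 := by
    have : R ≤ 1 / (3 * (C * (Λ * M) + 1)) := hR ▸ min_le_right _ _
    rw [le_div_iff₀ (by positivity)] at this
    linarith
  have hsub : ∀ t, t ≤ R → closedBall x t ⊆ Ω := fun t ht =>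
    (closedBall_subset_closedBall (by linarith)).trans hΩ
  obtain ⟨-, g1, -, g2⟩ := hGood K u x R hM.cl (hM.fin x R (hsub R le_rfl))
    (hM.int x R (hsub R le_rfl))
  have hI : Ioc 0 R ⊆ Ioo 0 r := fun ρ hρ => ⟨hρ.1, by linarith [hρ.2]⟩
  obtain ⟨D, hD⟩ := weighted hGron (f := fun t => En u (closedBall x t)) (e := ce u x)
    (β := cb x γ τ) hR0 hc hR2 ((intervalIntegrable_iff_integrableOn_Ioo_of_le hR0.le).2 g1)
    ((cb_cont h).mono hI) (En_nonneg _ _) (fun s t a b d => (g2 s t a b d).1) (by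
      filter_upwards [h1 Ω K u Λ M hM x r γ τ h hΩ hs] with ρ hρ hm
      exact hρ (hI (Ioo_subset_Ioc_self hm)))
  have hD0 : 0 ≤ D := by simpa using hD R hR0 le_rfl
  obtain ⟨b, hb⟩ : ∃ b, b = min R ((ε / (4 * D + 1)) ^ 2) := ⟨_, rfl⟩
  have hb0 : 0 < b := by rw [hb]; positivity
  have hb1 : b ≤ R := hb ▸ min_le_left _ _
  have hb2 : 4 * D * b ^ (1 / 2 : ℝ) ≤ ε := by
    have a1 : b ^ (1 / 2 : ℝ) ≤ ε / (4 * D + 1) := by
      rw [← Real.sqrt_eq_rpow, Real.sqrt_le_left (by positivity)]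
      exact hb ▸ min_le_right _ _
    rw [le_div_iff₀ (by positivity)] at a1
    linarith [Real.rpow_nonneg hb0.le (1 / 2)]
  refine ⟨b, hb0, hb1.trans hR1, hM.cl, hb0, hε.le, hM.fin x b (hsub b hb1), fun t ht => ?_,
    fun t ht => ?_⟩
  · have htR : t ≤ R := ht.2.trans hb1
    have ht0 := ht.1
    rw [Nat.cast_one, one_mul]
    refine (length hCurve h (B := 4 * (t ^ (1 / 2 : ℝ) * t) * D) ht0 (by linarith)
      (by positivity) (hM.fin x t (hsub t htR)) fun s hs0 hst => ?_).trans ?_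
    · have hJ : Icc s R ⊆ Ioo 0 r := fun ρ hρ => hI ⟨hs0.trans_le hρ.1, hρ.2⟩
      have hk : ContinuousOn (fun ρ => ρ ^ (1 - 3 / 2 : ℝ) * ((1 - cb x γ τ ρ) / (2 * ρ)))
          (Icc s R) := (continuousOn_id.rpow_const fun ρ hρ => Or.inl (hJ hρ).1.ne').mul
        ((continuousOn_const.sub ((cb_cont h).mono hJ)).div (by fun_prop) fun ρ hρ => by
          linarith [(hJ hρ).1])
      have hk0 : ∀ ρ ∈ Icc s R, 0 ≤ ρ ^ (1 - 3 / 2 : ℝ) * ((1 - cb x γ τ ρ) / (2 * ρ)) :=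
        fun ρ hρ => by
        have a1 := (hJ hρ).1
        have a2 := sub_nonneg.2 (cb_le h (hJ hρ))
        positivity
      have hst' : Icc s t ⊆ Icc s R := Icc_subset_Icc_right htR
      calc ∫ ρ in s..t, (1 / cb x γ τ ρ - 1) ≤ ∫ ρ in s..t, 4 * (t ^ (1 / 2 : ℝ) * t) *
            (ρ ^ (1 - 3 / 2 : ℝ) * ((1 - cb x γ τ ρ) / (2 * ρ))) := by
            refine intervalIntegral.integral_mono_on hst
              (((continuousOn_const.div ((cb_cont h).mono (hst'.trans hJ)) fun ρ hρ => by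
                linarith [h.cos ρ (hJ (hst' hρ))]).sub
                continuousOn_const).intervalIntegrable_of_Icc hst)
              ((continuousOn_const.mul (hk.mono hst')).intervalIntegrable_of_Icc hst)
              fun ρ hρ => ?_
            have a1 := (hJ (hst' hρ)).1
            have a2 := cb_le h (hJ (hst' hρ))
            have a3 := h.cos ρ (hJ (hst' hρ))
            have a4 : ρ ^ (1 / 2 : ℝ) * ρ ^ (1 - 3 / 2 : ℝ) = 1 := by
              rw [← Real.rpow_add a1]; norm_num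
            have a5 : ρ ^ (1 / 2 : ℝ) * ρ ≤ t ^ (1 / 2 : ℝ) * t := by
              have := hρ.2; gcongr
            refine le_trans ?_ (mul_le_mul_of_nonneg_right
              (mul_le_mul_of_nonneg_left a5 (by norm_num : (0 : ℝ) ≤ 4)) (hk0 ρ (hst' hρ)))
            have a6 : 4 * (ρ ^ (1 / 2 : ℝ) * ρ) *
                (ρ ^ (1 - 3 / 2 : ℝ) * ((1 - cb x γ τ ρ) / (2 * ρ))) =
                2 * (1 - cb x γ τ ρ) * (ρ ^ (1 / 2 : ℝ) * ρ ^ (1 - 3 / 2 : ℝ)) := by
              field_simp; norm_num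
            rw [a6, a4, mul_one, sub_le_iff_le_add, div_le_iff₀ (by linarith)]
            nlinarith
        _ ≤ 4 * (t ^ (1 / 2 : ℝ) * t) * D := by
            rw [intervalIntegral.integral_const_mul]
            refine mul_le_mul_of_nonneg_left (le_trans ?_ (hD s hs0 (hst.trans htR)))
              (by positivity)
            refine intervalIntegral.integral_mono_interval le_rfl hst htR ?_
              (hk.intervalIntegrable_of_Icc (hst.trans htR))
            exact (ae_restrict_mem measurableSet_Ioc).mono fun ρ hρ =>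
              hk0 ρ (Ioc_subset_Icc_self hρ)
    · have a1 : 0 < b ^ (1 / 2 : ℝ) := by positivity
      rw [Real.div_rpow ht0.le hb0.le, ← mul_div_assoc, div_mul_eq_mul_div, le_div_iff₀ a1]
      linarith [mul_le_mul_of_nonneg_right hb2 (by positivity : 0 ≤ t ^ (1 / 2 : ℝ) * t)]
  · have : {ρ ∈ Ioo (t / 2) t | ¬ Bal K x 1 (ε * (ρ / b) ^ (1 / 2 : ℝ)) ρ} = ∅ := by
      refine eq_empty_of_forall_notMem fun ρ hρ => hρ.2 ?_
      have a1 : 0 < ρ := by linarith [hρ.1.1, ht.1]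
      exact bal h ⟨a1, by linarith [hρ.1.2, ht.2]⟩ (by positivity)
    rw [this, measure_empty]
    exact zero_le

end Vale.Agent.P128
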