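import Vale.Agent.P128.Stm

open MeasureTheory Set Metric Filter Topology Complex
open scoped ENNReal ComplexConjugate Real

noncomputable section
namespace Vale.Agent.P128

namespace Rate1

theorem tens_le (u : ℂ → ℝ) (x : ℂ) {ρ : ℝ} (hρ : 0 < ρ) : ‖tens u x ρ‖ ≤ ce u x ρ := by
  rw [tens, ce, norm_mul, norm_real, Real.norm_eq_abs, abs_of_pos hρ]
  refine mul_le_mul_of_nonneg_left ((intervalIntegral.norm_integral_le_integral_norm
    Real.two_pi_pos.le).trans (le_of_eq ?_)) hρ.le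
  refine intervalIntegral.integral_congr fun θ _ => ?_
  simp only [norm_mul, norm_exp_ofReal_mul_I, one_mul, norm_pow]

theorem per_cg (u : ℂ → ℝ) (x : ℂ) (ρ : ℝ) : Function.Periodic (cg u x ρ) (2 * π) := fun θ => by
  simp only [cg, periodic_circleMap x ρ θ]

theorem shift {E : Type} [NormedAddCommGroup E] [NormedSpace ℝ E] {f : ℝ → E}
    (h : Function.Periodic f (2 * π)) (α : ℝ) :
    ∫ θ in α..α + 2 * π, f θ = ∫ θ in (0 : ℝ)..2 * π, f θ := by
  rw [h.intervalIntegral_add_eq α 0, zero_add]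

theorem hopf (u : ℂ → ℝ) (x : ℂ) (ρ α : ℝ) :
    ∫ θ in α..α + 2 * π, (((cg u x ρ θ).re : ℂ) - I * (-(cg u x ρ θ).im : ℝ)) ^ 2 *
      exp (-(θ - α) * I) = ρ * exp (α * I) * tens u x ρ := by
  have hp : Function.Periodic (fun θ : ℝ => exp (θ * I) * pd u (circleMap x ρ θ) ^ 2) (2 * π) :=
    fun θ => by
      simp only [periodic_circleMap x ρ θ]
      push_cast
      rw [add_mul, exp_add, exp_two_pi_mul_I, mul_one]
  rw [tens, ← shift hp α, ← mul_assoc, ← intervalIntegral.integral_const_mul]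
  refine intervalIntegral.integral_congr fun θ _ => ?_
  have e : ((cg u x ρ θ).re : ℂ) - I * (-(cg u x ρ θ).im : ℝ) = cg u x ρ θ := by
    apply Complex.ext <;> simp
  have e2 : exp (θ * I) * exp (-(θ - α) * I) = exp (α * I) := by
    rw [← exp_add]
    exact congrArg exp (by ring)
  simp only [e]
  rw [cg, circleMap_sub_center, circleMap_zero, ← e2]
  ring

theorem num {E J ce c R δ B Λ a ρ C : ℝ} (hρ : 0 < ρ) (ha : 0 ≤ a) (hce : 0 ≤ ce)
    (h1 : |E - J| ≤ π * a * ρ ^ 2) (h2 : |δ| ≤ π * Λ * ρ ^ 2) (h3 : |δ| * B ≤ π * a * ρ ^ 2)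
    (h4 : Λ * √ρ ≤ a) (h5 : a * ρ ≤ 1) (hC : 0 ≤ C) (h6 : R ≤ ρ * c + C * a * ρ ^ 2)
    (h7 : 2 * J ≤ ρ * ce + R + 2 * |δ| * B + 2 * |δ| * √(ρ * ce) + δ ^ 2) :
    2 * E ≤ (1 + (C + 40) * a * ρ) * ρ * ce + ρ * c + (C + 40) * a * ρ ^ 2 := by
  have hs := Real.mul_self_sqrt hρ.le
  have hs0 := Real.sqrt_nonneg ρ
  have hw := Real.mul_self_sqrt hce
  have hw0 := Real.sqrt_nonneg ce
  have hp : π ≤ 4 := Real.pi_le_four
  have hA : 0 ≤ a * ρ ^ 2 := by positivity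
  have a1 : |δ| ≤ 4 * (a * ρ * √ρ) := by
    have e : π * Λ * ρ ^ 2 = π * (Λ * √ρ * (ρ * √ρ)) := by
      rw [mul_mul_mul_comm, hs]
      ring
    have b1 := mul_le_mul_of_nonneg_right h4 (mul_nonneg hρ.le hs0)
    have b2 : 0 ≤ a * (ρ * √ρ) := by positivity
    rw [e] at h2
    nlinarith [Real.pi_pos]
  have a2 : |δ| * √(ρ * ce) ≤ 2 * (a * ρ ^ 2) * (1 + ce) := by
    rw [Real.sqrt_mul hρ.le]
    have b1 := mul_le_mul_of_nonneg_right a1 (mul_nonneg hs0 hw0)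
    have e : 4 * (a * ρ * √ρ) * (√ρ * √ce) = 2 * (a * ρ ^ 2) * (2 * √ce) := by
      linear_combination (4 * a * ρ * √ce) * hs
    have b2 : 2 * √ce ≤ 1 + ce := by nlinarith [sq_nonneg (√ce - 1)]
    rw [e] at b1
    exact b1.trans (mul_le_mul_of_nonneg_left b2 (by positivity))
  have a3 : δ ^ 2 ≤ 16 * (a * ρ ^ 2) := by
    have b1 := pow_le_pow_left₀ (abs_nonneg _) a1 2
    have e : (4 * (a * ρ * √ρ)) ^ 2 = 16 * (a * ρ ^ 2) * (a * ρ) := by
      linear_combination (16 * a ^ 2 * ρ ^ 2) * hs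
    rw [sq_abs, e] at b1
    exact b1.trans (mul_le_of_le_one_right (by positivity) h5)
  have a4 := mul_le_mul_of_nonneg_right hp hA
  have a5 := (abs_le.1 h1).2
  have a6 := mul_nonneg hA hce
  have a7 := mul_nonneg hC a6
  nlinarith

end Rate1

open Rate1 in
theorem rate1_pf (hStat : StatStmt) (hGood : GoodStmt) (hEid : EidStmt) (_hFlx : FlxStmt)
    (hArcB : ArcBStmt) (hCirc : CircStmt) : Rate1Stmt := by
  obtain ⟨C, hC, hS⟩ := hStat
  refine ⟨C + 40, by linarith, fun Ω K u Λ M hM x r γ τ hT hΩ ha => ?_⟩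
  have hr : closedBall x r ⊆ Ω := (closedBall_subset_closedBall (by linarith [hT.pos])).trans hΩ
  filter_upwards [hS Ω K u Λ M hM x r γ τ hT hΩ ha,
    (hGood K u x r hM.cl (hM.fin x r hr) (hM.int x r hr)).1] with ρ h1 h2 hρ
  specialize h1 hρ
  specialize h2 hρ
  have h0 := hρ.1
  have ha0 := hM.a0
  have hb : closedBall x ρ ⊆ Ω := (closedBall_subset_closedBall hρ.2.le).trans hr
  have hs : sphere x ρ ⊆ Ω := sphere_subset_closedBall.trans hb
  constructor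
  · have a1 := norm_add_le (conj (τ ρ) - tens u x ρ) (tens u x ρ)
    rw [sub_add_cancel, norm_conj, hT.unit ρ hρ] at a1
    nlinarith [tens_le u x h0, mul_nonneg ha0 h0.le]
  obtain ⟨α, hα⟩ : γ ρ ∈ range (circleMap x ρ) := by
    rw [range_circleMap, abs_of_pos h0, mem_sphere_iff_norm]
    exact hT.norm ρ hρ
  have hF : Free K x ρ α (α + 2 * π) := fun θ hθ hK => by
    have a1 : ‖circleMap x ρ θ - x‖ = ρ := by
      rw [circleMap_sub_center, norm_circleMap_zero, abs_of_pos h0]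
    have a2 : circleMap x ρ θ ∈ K ∩ ball x r := ⟨hK, mem_ball_iff_norm.2 (a1.trans_lt hρ.2)⟩
    rw [hT.eq] at a2
    rcases a2 with a2 | ⟨s, hs, a2⟩
    · exact circleMap_ne_center h0.ne' a2
    · have a3 := hT.norm s hs
      rw [a2, a1] at a3
      rw [← a3, ← hα] at a2
      have := eq_of_circleMap_eq h0.ne' (abs_lt.2 ⟨by linarith [hθ.2], by
        linarith [hθ.1, Real.two_pi_pos]⟩) a2
      exact hθ.1.ne this
  obtain ⟨-, -, c3, -, ⟨T, hT'⟩, -, c7⟩ := hCirc Ω K u x ρ hM.isOpen hM.c1 hs h2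
  obtain ⟨e1, e2⟩ := hEid Ω K u Λ M hM x ρ hb h2
  obtain ⟨B, hB1, hB2⟩ : ∃ B, (∀ z ∈ sphere x ρ, z ∉ K → |u z| ≤ B) ∧
      |∫ θ in (0 : ℝ)..2 * π, (cg u x ρ θ).re| * B ≤ π * (Λ * M) * ρ ^ 2 := by
    rcases hM.L0.eq_or_lt with e | e
    · refine ⟨T, hT', ?_⟩
      rw [← e, mul_zero, zero_mul] at e2
      rw [le_antisymm e2 (abs_nonneg _), ← e]
      simp
    · refine ⟨M, fun z hz hK => le_of_mul_le_mul_left (hM.bd z ⟨hs hz, hK⟩) e,
        (mul_le_mul_of_nonneg_right e2 hM.M0).trans (le_of_eq (by ring))⟩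
  have h3 := (hArcB _ _ _ α (α + 2 * π) B
    (c7 α _ B (by linarith [Real.two_pi_pos]) hF hB1) rfl).2
  have e3 : ∫ θ in α..α + 2 * π, ((-(cg u x ρ θ).im) ^ 2 + (cg u x ρ θ).re ^ 2) =
      ρ * ce u x ρ := by
    rw [← c3 α]
    refine intervalIntegral.integral_congr fun θ _ => ?_
    simp only [Complex.sq_norm, normSq_apply]
    ring
  rw [e3, hopf, shift (f := fun θ => (cg u x ρ θ).re) (fun θ => by simp only [per_cg u x ρ θ]),
    shift (f := fun θ => u (circleMap x ρ θ) * (cg u x ρ θ).re)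
      (fun θ => by simp only [per_cg u x ρ θ, periodic_circleMap x ρ θ])] at h3
  refine num h0 ha0 (ce_nonneg u x h0.le) e1 e2 hB2 (hM.sz x ρ hb)
    (by nlinarith [hρ.2]) hC ?_ h3
  have e4 : (ρ * exp (α * I) * tens u x ρ).re =
      ρ * cb x γ τ ρ - (ρ * exp (α * I) * (conj (τ ρ) - tens u x ρ)).re := by
    rw [cb, mul_div_cancel₀ _ h0.ne', ← hα, circleMap_sub_center, circleMap_zero, ← sub_re]
    exact congrArg re (by ring)
  have a1 := (neg_le_abs _).trans (abs_re_le_norm (ρ * exp (α * I) * (conj (τ ρ) - tens u x ρ)))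
  rw [norm_mul, norm_mul, norm_exp_ofReal_mul_I, mul_one, norm_real, Real.norm_eq_abs,
    abs_of_pos h0] at a1
  have a2 := mul_le_mul_of_nonneg_left h1 h0.le
  rw [e4]
  linarith

end Vale.Agent.P128
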