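import Vale.Agent.P128.Stm

open MeasureTheory Set Metric Filter Topology Complex
open scoped ENNReal ComplexConjugate Real

noncomputable section
namespace Vale.Agent.P128

namespace Ray

theorem bal_mono {K : Set ℂ} {x : ℂ} {n : ℕ} {η η' ρ : ℝ} (h : Bal K x n η ρ) (hη : η ≤ η') :
    Bal K x n η' ρ := by
  obtain ⟨P, h1, h2, h3⟩ := h
  exact ⟨P, h1, h2, fun p hp q hq => ⟨(h3 p hp q hq).1.trans hη, (h3 p hp q hq).2⟩⟩

theorem cone_mono {K : Set ℂ} {x : ℂ} {n : ℕ} {b ε ε' γ : ℝ} (h : Cone K x n b ε γ)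
    (hε : ε ≤ ε') : Cone K x n b ε' γ := by
  have hb := h.pos
  refine ⟨h.cl, h.pos, h.e0.trans hε, h.fin, fun r hr => (h.le r hr).trans ?_, fun r hr => ?_⟩
  · have := hr.1
    gcongr
  · have hr0 := hr.1
    refine le_trans (measure_mono ?_) ((h.bal r hr).trans (ENNReal.ofReal_le_ofReal ?_))
    · rintro ρ ⟨h1, h2⟩
      have hρ : 0 < ρ := by linarith [h1.1]
      refine ⟨h1, fun h3 => h2 (bal_mono h3 ?_)⟩
      gcongr
    · gcongr

theorem lb_mono {K : Set ℂ} {x : ℂ} {b ε ε' γ : ℝ} (h : LB K x b ε γ) (hb : 0 < b)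
    (hε : ε ≤ ε') : LB K x b ε' γ := by
  intro z hz hzx hzb t ht hf
  refine le_trans ?_ (h z hz hzx hzb t ht hf)
  gcongr

theorem ex_bal {K : Set ℂ} {x : ℂ} {n : ℕ} {b ε γ s a : ℝ} (h : Cone K x n b ε γ)
    (hs : s ∈ Ioc 0 b) (ha : s / 2 ≤ a) (hlt : ε * (s / b) ^ γ * s < s - a) :
    ∃ ρ ∈ Ioo a s, Bal K x n (ε * (ρ / b) ^ γ) ρ := by
  by_contra hc
  push Not at hc
  have h1 : Ioo a s ⊆ {ρ ∈ Ioo (s / 2) s | ¬ Bal K x n (ε * (ρ / b) ^ γ) ρ} :=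
    fun ρ hρ => ⟨⟨lt_of_le_of_lt ha hρ.1, hρ.2⟩, hc ρ hρ⟩
  have h2 := (measure_mono h1).trans (h.bal s hs)
  have h3 : 0 ≤ ε * (s / b) ^ γ * s := by
    have := h.e0; have := hs.1; have := h.pos; positivity
  rw [Real.volume_Ioo, ENNReal.ofReal_le_ofReal_iff h3] at h2
  linarith

theorem norm_dir {x z : ℂ} (h : z ≠ x) : ‖dir x z‖ = 1 := by
  have h0 : ‖z - x‖ ≠ 0 := norm_ne_zero_iff.2 (sub_ne_zero.2 h)
  rw [dir, norm_div, Complex.norm_real, norm_norm, div_self h0]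

theorem three {a b c η : ℝ} (ha : 0 ≤ a) (hb : 17 / 20 ≤ b) (hc : 17 / 20 ≤ c)
    (h : a * b * c = η) : a ≤ 2 * η := by
  have h1 : 1 / 2 ≤ b * c := by nlinarith
  rw [← h]; nlinarith

theorem sep {u v d : ℂ} (h : ‖u - v‖ ^ 2 = 3) :
    17 / 20 ≤ ‖d - u‖ ∨ 17 / 20 ≤ ‖d - v‖ := by
  by_contra hc
  push Not at hc
  have h1 : ‖u - v‖ ≤ ‖d - v‖ + ‖d - u‖ := by
    rw [show u - v = (d - v) - (d - u) by ring]; exact norm_sub_le _ _
  have h2 := norm_nonneg (u - v)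
  nlinarith [hc.1, hc.2]

theorem roots {n : ℕ} (h1 : 1 ≤ n) (h3 : n ≤ 3) {e : ℂ} (he : ‖e‖ = 1) :
    ∃ R : Finset ℂ, R.card < n ∧ ∀ d : ℂ, ‖d - e‖ ≤ 2 * ‖d ^ n - e ^ n‖ ∨
      ∃ r ∈ R, ‖d - r‖ ≤ 2 * ‖d ^ n - e ^ n‖ := by
  interval_cases n
  · refine ⟨∅, by simp, fun d => Or.inl ?_⟩
    rw [pow_one, pow_one]; linarith [norm_nonneg (d - e)]
  · refine ⟨{-e}, by simp, fun d => ?_⟩
    have h1 : ‖d ^ 2 - e ^ 2‖ = ‖d - e‖ * ‖d - -e‖ := by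
      rw [← norm_mul]; congr 1; ring
    have h2 : 2 ≤ ‖d - -e‖ + ‖d - e‖ := by
      have := norm_sub_le (d - -e) (d - e)
      rwa [show d - -e - (d - e) = 2 * e by ring, norm_mul, he, Complex.norm_two, mul_one] at this
    have h4 := norm_nonneg (d - e)
    have h5 := norm_nonneg (d - -e)
    rcases le_total 1 ‖d - e‖ with h | h
    · exact Or.inr ⟨-e, by simp, by rw [h1]; nlinarith⟩
    · exact Or.inl (by rw [h1]; nlinarith)
  · obtain ⟨ω, hω⟩ : ∃ ω : ℂ, ω ^ 2 + ω + 1 = 0 := by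
      refine ⟨(-1 + (√3 : ℝ) * I) / 2, ?_⟩
      have h : ((√3 : ℝ) : ℂ) ^ 2 = 3 := by
        rw [← ofReal_pow, Real.sq_sqrt (by norm_num)]; simp
      linear_combination (I ^ 2 / 4) * h + (3 / 4) * I_mul_I
    have key : ∀ w : ℂ, w ^ 2 + w + 1 = 0 → ‖e - w * e‖ ^ 2 = 3 := by
      intro w hw
      have h1 : ‖w‖ = 1 := by
        have : w ^ 3 = 1 := by linear_combination (w - 1) * hw
        have h2 : ‖w‖ ^ 3 = 1 := by rw [← norm_pow, this, norm_one]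
        exact (pow_eq_one_iff_of_nonneg (norm_nonneg _) (by norm_num)).1 h2
      rw [← norm_pow, show (e - w * e) ^ 2 = -3 * w * e ^ 2 by linear_combination e ^ 2 * hw]
      simp [h1, he]
    have k1 := key ω hω
    have k2 := key (-1 - ω) (by linear_combination hω)
    have k3 : ‖ω * e - (-1 - ω) * e‖ ^ 2 = 3 := by
      rw [← norm_pow, show (ω * e - (-1 - ω) * e) ^ 2 = -3 * e ^ 2 by
        linear_combination 4 * e ^ 2 * hω]
      simp [he]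
    refine ⟨{ω * e, (-1 - ω) * e}, lt_of_le_of_lt Finset.card_le_two (by norm_num), fun d => ?_⟩
    have h1 : ‖d - e‖ * ‖d - ω * e‖ * ‖d - (-1 - ω) * e‖ = ‖d ^ 3 - e ^ 3‖ := by
      rw [← norm_mul, ← norm_mul]; congr 1
      linear_combination (-(d - e) * e ^ 2) * hω
    rcases sep (d := d) k1 with a | b
    · rcases sep (d := d) k3 with b | c
      · exact Or.inr ⟨(-1 - ω) * e, by simp, three (norm_nonneg _) a b (by rw [← h1]; ring)⟩
      · exact Or.inr ⟨ω * e, by simp, three (norm_nonneg _) a c (by rw [← h1]; ring)⟩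
    · rcases sep (d := d) k2 with a | c
      · exact Or.inr ⟨(-1 - ω) * e, by simp, three (norm_nonneg _) a b (by rw [← h1]; ring)⟩
      · exact Or.inl (three (norm_nonneg _) b c h1)

/-- among `n` separated directions whose `n`-th powers are near `e ^ n`, one is near `e` -/
theorem pigeon {n : ℕ} (h1 : 1 ≤ n) (h3 : n ≤ 3) {e : ℂ} (he : ‖e‖ = 1) (P : Finset ℂ)
    (hP : P.card = n) (f : ℂ → ℂ) {η : ℝ} (hη : η < 1 / 4)
    (hs : ∀ p ∈ P, ∀ q ∈ P, p ≠ q → 1 ≤ ‖f p - f q‖) (hn : ∀ p ∈ P, ‖f p ^ n - e ^ n‖ ≤ η) :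
    ∃ p ∈ P, ‖f p - e‖ ≤ 2 * η := by
  obtain ⟨R, hR, h⟩ := roots h1 h3 he
  by_contra hc
  push Not at hc
  have h2 : ∀ p ∈ P, ∃ r ∈ R, ‖f p - r‖ ≤ 2 * η := by
    intro p hp
    rcases h (f p) with h4 | ⟨r, hr, h4⟩
    · linarith [hc p hp, hn p hp]
    · exact ⟨r, hr, by linarith [hn p hp]⟩
  choose! r hr hd using h2
  obtain ⟨p, hp, q, hq, hpq, h4⟩ :=
    Finset.exists_ne_map_eq_of_card_lt_of_maps_to (hP ▸ hR : R.card < P.card) hr
  have h5 := norm_sub_le (f p - r p) (f q - r q)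
  rw [show f p - r p - (f q - r q) = f p - f q by rw [h4]; ring] at h5
  linarith [hs p hp q hq hpq, hd p hp, hd q hq]

/-- the limit direction -/
theorem limit {K : Set ℂ} {x : ℂ} {n : ℕ} {c ε β : ℝ} (hc : 0 < c) (hε : 0 ≤ ε) (hβ : 0 < β)
    (h : Cmpr K x n c ε β)
    (hz : ∀ s ∈ Ioc 0 c, ∃ z ∈ K, 25 / 26 * s < ‖z - x‖ ∧ ‖z - x‖ < s) :
    ∃ Φ : ℂ, ‖Φ‖ = 1 ∧ ∀ z ∈ K, z ≠ x → ‖z - x‖ ≤ c →
      ‖dir x z ^ n - Φ‖ ≤ ε * (1 + 1 / (1 - (25 / 26 : ℝ) ^ β)) * (‖z - x‖ / c) ^ β := by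
  set r : ℝ := (25 / 26 : ℝ) ^ β with hr
  have hr1 : r < 1 := Real.rpow_lt_one (by norm_num) (by norm_num) hβ
  have hr0 : 0 < r := by positivity
  have hq : ∀ k : ℕ, (0 : ℝ) < (25 / 26) ^ k := fun k => by positivity
  have hq1 : ∀ k : ℕ, (25 / 26 : ℝ) ^ k ≤ 1 := fun k => pow_le_one₀ (by norm_num) (by norm_num)
  have hrk : ∀ k : ℕ, r ^ k = ((25 / 26 : ℝ) ^ k) ^ β := fun k => by
    rw [hr, ← Real.rpow_natCast, ← Real.rpow_natCast, ← Real.rpow_mul (by norm_num),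
      ← Real.rpow_mul (by norm_num), mul_comm]
  have h1 : ∀ k : ℕ, ∃ z ∈ K, 25 / 26 * (c * (25 / 26) ^ k) < ‖z - x‖ ∧
      ‖z - x‖ < c * (25 / 26) ^ k := fun k =>
    hz _ ⟨mul_pos hc (hq k), mul_le_of_le_one_right hc.le (hq1 k)⟩
  choose w hw hlo hhi using h1
  have hne : ∀ k, w k ≠ x := by
    intro k hk
    have := hlo k
    rw [hk, sub_self, norm_zero] at this
    have := mul_pos hc (hq k)
    linarith
  have cmp : ∀ k, ∀ z ∈ K, 25 / 26 * (c * (25 / 26) ^ k) < ‖z - x‖ →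
      ‖z - x‖ ≤ c * (25 / 26) ^ k →
      ‖dir x (w (k + 1)) ^ n - dir x z ^ n‖ ≤ ε * (‖w (k + 1) - x‖ / c) ^ β := by
    intro k z hz h1 h2
    have a1 := hlo (k + 1)
    have a2 := hhi (k + 1)
    have a3 := mul_pos hc (hq k)
    have a4 := mul_le_of_le_one_right hc.le (hq1 k)
    rw [pow_succ, ← mul_assoc] at a1 a2
    exact h _ (hw _) z hz (hne _) (by linarith) (by linarith) (by linarith)
  have geo : ∀ k, dist (dir x (w k) ^ n) (dir x (w (k + 1)) ^ n) ≤ ε * r ^ k := by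
    intro k
    rw [dist_comm, dist_eq_norm]
    refine (cmp k _ (hw k) (hlo k) (hhi k).le).trans ?_
    rw [hrk]
    have a2 := hhi (k + 1)
    have a3 := mul_pos hc (hq k)
    rw [pow_succ, ← mul_assoc] at a2
    have a4 : ‖w (k + 1) - x‖ / c ≤ (25 / 26) ^ k := by
      rw [div_le_iff₀ hc]; linarith
    gcongr
  obtain ⟨Φ, hΦ⟩ := cauchySeq_tendsto_of_complete (cauchySeq_of_le_geometric r ε hr1 geo)
  refine ⟨Φ, ?_, fun z hz hzx hzc => ?_⟩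
  · have h2 : (fun k => ‖dir x (w k) ^ n‖) = fun _ => 1 := by
      funext k; rw [norm_pow, norm_dir (hne k), one_pow]
    have h3 := hΦ.norm
    rw [h2] at h3
    exact tendsto_nhds_unique h3 tendsto_const_nhds
  · have h0 : 0 < ‖z - x‖ := norm_pos_iff.2 (sub_ne_zero.2 hzx)
    obtain ⟨k, k1, k2⟩ := exists_nat_pow_near_of_lt_one (div_pos h0 hc) ((div_le_one hc).2 hzc)
      (show (0 : ℝ) < 25 / 26 by norm_num) (by norm_num)
    have k1' := k1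
    rw [lt_div_iff₀ hc, pow_succ] at k1'
    rw [div_le_iff₀ hc] at k2
    have b1 := cmp k z hz (by linarith) (by linarith)
    have b2 := dist_le_of_le_geometric_of_tendsto r ε hr1 geo hΦ (k + 1)
    rw [dist_eq_norm, hrk] at b2
    have a2 := hhi (k + 1)
    rw [pow_succ] at a2
    have b3 : (‖w (k + 1) - x‖ / c) ^ β ≤ (‖z - x‖ / c) ^ β := by
      have : ‖w (k + 1) - x‖ ≤ ‖z - x‖ := by linarith
      gcongr
    have b4 : ((25 / 26 : ℝ) ^ (k + 1)) ^ β ≤ (‖z - x‖ / c) ^ β := by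
      gcongr
    have b5 := norm_sub_le (dir x (w (k + 1)) ^ n - Φ) (dir x (w (k + 1)) ^ n - dir x z ^ n)
    rw [show dir x (w (k + 1)) ^ n - Φ - (dir x (w (k + 1)) ^ n - dir x z ^ n) =
      dir x z ^ n - Φ by ring] at b5
    have b6 : ε * ((25 / 26 : ℝ) ^ (k + 1)) ^ β / (1 - r) ≤ ε * (‖z - x‖ / c) ^ β / (1 - r) := by
      have : 0 < 1 - r := by linarith
      gcongr
    have b7 := mul_le_mul_of_nonneg_left b3 hε
    have b8 : ε * (1 + 1 / (1 - r)) * (‖z - x‖ / c) ^ β =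
        ε * (‖z - x‖ / c) ^ β + ε * (‖z - x‖ / c) ^ β / (1 - r) := by ring
    linarith

end Ray

open Ray in
theorem ray_pf (hRay1 : Ray1Stmt) : RayStmt := by
  intro γ ε' hγ hγ1 hε'
  have hr1 : (25 / 26 : ℝ) ^ (γ / 2) < 1 :=
    Real.rpow_lt_one (by norm_num) (by norm_num) (by linarith)
  obtain ⟨A, hA⟩ : ∃ A : ℝ, A = 1 + 1 / (1 - (25 / 26 : ℝ) ^ (γ / 2)) := ⟨_, rfl⟩
  have hA0 : 0 < A := by
    have : 0 < 1 - (25 / 26 : ℝ) ^ (γ / 2) := by linarith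
    rw [hA]; positivity
  obtain ⟨ε₂, h2, h21, h22⟩ : ∃ ε₂ : ℝ, 0 < ε₂ ∧ ε₂ ≤ ε' / 4 ∧ ε₂ ≤ 1 / 8 :=
    ⟨min (ε' / 4) (1 / 8), by positivity, min_le_left _ _, min_le_right _ _⟩
  obtain ⟨ε₀, h0, H⟩ := hRay1 (ε₂ / A) (by positivity)
  obtain ⟨ε, hε, e1, e2, e3⟩ : ∃ ε : ℝ, 0 < ε ∧ ε ≤ ε₀ ∧ ε ≤ ε' / 4 ∧ ε ≤ 1 / 52 :=
    ⟨min ε₀ (min (ε' / 4) (1 / 52)), by positivity, min_le_left _ _,
      (min_le_right _ _).trans (min_le_left _ _), (min_le_right _ _).trans (min_le_right _ _)⟩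
  refine ⟨ε, hε, fun K x n b hn1 hn3 hC hL => ?_⟩
  have hb := hC.pos
  have hcm := H K x n b γ hn3 hγ hγ1 (cone_mono hC e1) (lb_mono hL hb e1)
  have hpow : ∀ s ∈ Ioc 0 b, (s / b) ^ γ ≤ 1 := fun s hs =>
    Real.rpow_le_one (div_pos hs.1 hb).le ((div_le_one hb).2 hs.2) hγ.le
  obtain ⟨Φ, hΦ, hnear⟩ := limit (half_pos hb) (by positivity) (half_pos hγ) hcm (by
    intro s hs
    have hs' : s ∈ Ioc 0 b := ⟨hs.1, by linarith [hs.2]⟩
    have hs0 := hs.1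
    have h3 : ε * (s / b) ^ γ * s ≤ 1 / 52 * 1 * s := by
      have := hpow s hs'
      gcongr
    obtain ⟨ρ, hρ, P, hP, hc, -⟩ := ex_bal (a := 25 / 26 * s) hC hs' (by linarith) (by linarith)
    obtain ⟨p, hp⟩ : P.Nonempty := Finset.card_pos.1 (by omega)
    have h4 : p ∈ K ∩ sphere x ρ := hP ▸ Finset.mem_coe.2 hp
    refine ⟨p, h4.1, ?_⟩
    rw [mem_sphere_iff_norm.1 h4.2]
    exact hρ)
  rw [← hA, div_mul_cancel₀ _ hA0.ne'] at hnear
  have hnear' : ∀ z ∈ K, z ≠ x → ‖z - x‖ ≤ b / 4 →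
      ‖dir x z ^ n - Φ‖ ≤ ε₂ * (‖z - x‖ / (b / 4)) ^ (γ / 2) := by
    intro z hz hzx hzb
    refine (hnear z hz hzx (by linarith)).trans ?_
    gcongr
    linarith
  refine ⟨Φ, hΦ, fun z hz hzx hzb => (hnear' z hz hzx hzb).trans ?_, fun e he s hs => ?_⟩
  · gcongr
    linarith
  have hs0 := hs.1
  have hs' : s ∈ Ioc 0 b := ⟨hs.1, by linarith [hs.2]⟩
  have he1 : ‖e‖ = 1 := by
    have : ‖e‖ ^ n = 1 := by rw [← norm_pow, he, hΦ]
    exact (pow_eq_one_iff_of_nonneg (norm_nonneg _) (by omega)).1 this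
  obtain ⟨t, ht⟩ : ∃ t, t = (s / (b / 4)) ^ (γ / 2) := ⟨_, rfl⟩
  have ht1 : t ≤ 1 := ht ▸ Real.rpow_le_one (by positivity) ((div_le_one (by positivity)).2 hs.2)
    (by positivity)
  have ht2 : (s / b) ^ γ ≤ t := by
    rw [ht]
    refine (Real.rpow_le_rpow_of_exponent_ge (by positivity) ((div_le_one hb).2 hs'.2)
      (show γ / 2 ≤ γ by linarith)).trans ?_
    gcongr
    linarith
  have hg : 0 < ε * (s / b) ^ γ * s := by positivity
  have hg1 : ε * (s / b) ^ γ * s ≤ ε' / 4 * t * s := by gcongr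
  have hg2 : ε * (s / b) ^ γ * s ≤ 1 / 52 * 1 * s := by
    have := hpow s hs'
    gcongr
  obtain ⟨ρ, hρ, P, hP, hc, hB⟩ := ex_bal (a := s - 2 * (ε * (s / b) ^ γ * s)) hC hs'
    (by linarith) (by linarith)
  have hρ0 : 0 < ρ := by linarith [hρ.1]
  have hmem : ∀ p ∈ P, p ∈ K ∧ ‖p - x‖ = ρ := fun p hp => by
    have h4 : p ∈ K ∩ sphere x ρ := hP ▸ Finset.mem_coe.2 hp
    exact ⟨h4.1, mem_sphere_iff_norm.1 h4.2⟩
  have ht0 : 0 ≤ t := by rw [ht]; positivity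
  obtain ⟨p, hp, hd⟩ := pigeon hn1 hn3 he1 P hc (fun p => (p - x) / ρ) (η := ε₂ * t)
    (by nlinarith) (by
      intro p hp q hq hpq
      rw [← sub_div, sub_sub_sub_cancel_right, norm_div, Complex.norm_real, Real.norm_eq_abs,
        abs_of_pos hρ0, le_div_iff₀ hρ0, one_mul]
      exact (hB p hp q hq).2 hpq) (by
      intro p hp
      obtain ⟨m1, m2⟩ := hmem p hp
      have hpx : p ≠ x := by
        intro h; rw [h, sub_self, norm_zero] at m2; linarith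
      have := hnear' p m1 hpx (by linarith [hρ.2, hs.2])
      rw [dir, m2] at this
      rw [he]
      refine this.trans ?_
      rw [ht]
      gcongr
      exact hρ.2.le)
  refine ⟨p, (hmem p hp).1, ?_⟩
  have hρc : (ρ : ℂ) ≠ 0 := ofReal_ne_zero.2 hρ0.ne'
  have f1 : p - x - s * e = ρ * ((p - x) / ρ - e) - ((s - ρ : ℝ) : ℂ) * e := by
    push_cast; field_simp; ring
  have f2 := norm_sub_le (ρ * ((p - x) / ρ - e)) (((s - ρ : ℝ) : ℂ) * e)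
  rw [← f1, norm_mul, norm_mul, he1, Complex.norm_real, Complex.norm_real, Real.norm_eq_abs,
    Real.norm_eq_abs, abs_of_pos hρ0, abs_of_pos (sub_pos.2 hρ.2), mul_one] at f2
  have f3 : ρ * ‖(p - x) / ρ - e‖ ≤ s * (2 * (ε' / 4 * t)) := by
    refine mul_le_mul hρ.2.le (hd.trans ?_) (norm_nonneg _) hs0.le
    gcongr
  rw [← ht]
  nlinarith [hρ.1]

end Vale.Agent.P128
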