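import Vale.Agent.P128.Stm

open MeasureTheory Set Metric Filter Topology Complex
open scoped ENNReal ComplexConjugate Real

noncomputable section
namespace Vale.Agent.P128

namespace Ray1

theorem pow_sub {a c : ℂ} (ha : ‖a‖ = 1) (hc : ‖c‖ = 1) (n : ℕ) :
    ‖a ^ n - c ^ n‖ ≤ n * ‖a - c‖ := by
  induction n with
  | zero => simp
  | succ n ih =>
    have h : a ^ (n + 1) - c ^ (n + 1) = a ^ n * (a - c) + (a ^ n - c ^ n) * c := by ring
    rw [h]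
    refine (norm_add_le _ _).trans ?_
    rw [norm_mul, norm_mul, norm_pow, ha, hc, one_pow]
    push_cast
    linarith

theorem unit_sub {a c : ℂ} (ha : ‖a‖ = 1) (hc : ‖c‖ = 1) (s ρ : ℝ) :
    s * ρ * ‖a - c‖ ^ 2 = ‖s * a - ρ * c‖ ^ 2 - (ρ - s) ^ 2 := by
  have h1 : a.re * a.re + a.im * a.im = 1 := by
    rw [← normSq_apply, ← Complex.sq_norm, ha, one_pow]
  have h2 : c.re * c.re + c.im * c.im = 1 := by
    rw [← normSq_apply, ← Complex.sq_norm, hc, one_pow]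
  rw [Complex.sq_norm, Complex.sq_norm, normSq_apply, normSq_apply]
  simp only [sub_re, sub_im, re_ofReal_mul, im_ofReal_mul]
  linear_combination (s * ρ - s ^ 2) * h1 + (s * ρ - ρ ^ 2) * h2

theorem norm_div_eq {v : ℂ} {ρ : ℝ} (h : 0 < ρ) (hv : ‖v‖ = ρ) : ‖v / (ρ : ℂ)‖ = 1 := by
  rw [norm_div, hv, Complex.norm_real, Real.norm_eq_abs, abs_of_pos h, div_self h.ne']

theorem rpow_le {r s b k γ : ℝ} (hr : 0 ≤ r) (hs : 0 ≤ s) (hb : 0 < b) (hk : 1 ≤ k)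
    (h : r ≤ k * s) (h0 : 0 < γ) (h1 : γ ≤ 1) : (r / b) ^ γ ≤ k * (s / b) ^ γ := by
  have h2 : (r / b) ^ γ ≤ (k * (s / b)) ^ γ := by
    refine Real.rpow_le_rpow (by positivity) ?_ h0.le
    rw [← mul_div_assoc]
    exact div_le_div_of_nonneg_right h hb.le
  rw [Real.mul_rpow (by linarith) (by positivity)] at h2
  refine h2.trans (mul_le_mul_of_nonneg_right ?_ (by positivity))
  exact (Real.rpow_le_rpow_of_exponent_le hk h1).trans_eq (Real.rpow_one k)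

theorem vol_diff {H : Set ℝ} {a c κ : ℝ} (hH : IsCompact H) (hs : H ⊆ Icc a c) (hκ : 0 ≤ κ)
    (h : c - a - κ ≤ (volume H).toReal) : volume (Icc a c \ H) ≤ ENNReal.ofReal κ := by
  rw [measure_sdiff hs hH.measurableSet.nullMeasurableSet hH.measure_lt_top.ne, Real.volume_Icc,
    tsub_le_iff_right, ← ENNReal.ofReal_toReal hH.measure_lt_top.ne,
    ← ENNReal.ofReal_add hκ ENNReal.toReal_nonneg]
  exact ENNReal.ofReal_le_ofReal (by linarith)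

/-- almost every radius close to `6 s / 5` is attained near `y` -/
theorem side {K : Set ℂ} {x y : ℂ} {n : ℕ} {b ε γ C s l : ℝ} (hC : 0 ≤ C) (h0 : 0 < γ)
    (h1 : γ ≤ 1) (hc : Cone K x n b ε γ) (hL : LB K x b ε γ) (hy : y ∈ K) (hs : 0 < s)
    (hy1 : s ≤ ‖y - x‖) (hy2 : ‖y - x‖ ≤ 11 / 10 * s) (hy3 : ‖y - x‖ ≤ b / 2) (hl : l ≤ s / 10)
    (hS : len K (closedBall y (6 / 5 * s - ‖y - x‖)) ≤
      (volume ((fun z => ‖z - x‖) '' (K ∩ closedBall y (6 / 5 * s - ‖y - x‖)))).toReal +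
        C * ε * (‖y - x‖ / b) ^ γ * ‖y - x‖) :
    volume (Ioo (6 / 5 * s - l) (6 / 5 * s) \
      (fun z => ‖z - x‖) '' (K ∩ closedBall y (6 / 5 * s - ‖y - x‖))) ≤
      ENNReal.ofReal (2 * (C + 1) * (ε * (s / b) ^ γ * s)) := by
  have hb := hc.pos
  have he := hc.e0
  obtain ⟨t, ht⟩ : ∃ t, t = 6 / 5 * s - ‖y - x‖ := ⟨_, rfl⟩
  rw [← ht] at hS ⊢
  have hne : y ≠ x := by
    rintro rfl
    rw [sub_self, norm_zero] at hy1
    linarith
  have hfin : μH[1] (K ∩ closedBall y t) < ⊤ := by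
    refine lt_of_le_of_lt (measure_mono (inter_subset_inter_right _
      (closedBall_subset_closedBall' ?_))) hc.fin
    rw [dist_eq_norm]; linarith
  have h2 := hL y hy hne (by linarith) t ⟨by linarith, by linarith⟩ hfin
  have h3 : (‖y - x‖ / b) ^ γ ≤ 11 / 10 * (s / b) ^ γ :=
    rpow_le (norm_nonneg _) hs.le hb (by norm_num) hy2 h0 h1
  have h4 : ε * (‖y - x‖ / b) ^ γ * ‖y - x‖ ≤ 2 * (ε * (s / b) ^ γ * s) := by
    have h5 : ε * (‖y - x‖ / b) ^ γ * ‖y - x‖ ≤ ε * (11 / 10 * (s / b) ^ γ) * (11 / 10 * s) := by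
      gcongr
    have h6 : 0 ≤ ε * (s / b) ^ γ * s := by positivity
    linarith
  have hH : IsCompact ((fun z => ‖z - x‖) '' (K ∩ closedBall y t)) :=
    ((isCompact_closedBall y t).inter_left hc.cl).image (by fun_prop)
  refine le_trans (measure_mono (sdiff_subset_sdiff_left ?_))
    (vol_diff (a := ‖y - x‖ - t) (c := 6 / 5 * s) hH ?_ (by positivity) ?_)
  · exact fun ρ hρ => ⟨by linarith [hρ.1], hρ.2.le⟩
  · rintro _ ⟨z, hz, rfl⟩
    have h5 : ‖z - y‖ ≤ t := mem_closedBall_iff_norm.1 hz.2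
    have h6 := abs_norm_sub_norm_le (z - x) (y - x)
    rw [sub_sub_sub_cancel_right] at h6
    have h7 := abs_le.1 (h6.trans h5)
    exact ⟨by linarith [h7.1], by linarith [h7.2]⟩
  · have h5 := mul_le_mul_of_nonneg_left h4 hC
    linarith

/-- the direction of a point of the disc at almost maximal distance -/
theorem near {x y y' : ℂ} {s l ρ δ : ℝ} {n : ℕ} (hn : n ≤ 3) (hs : 0 < s) (hy1 : s ≤ ‖y - x‖)
    (hy2 : ‖y - x‖ ≤ 11 / 10 * s) (hl0 : 0 ≤ l) (hl : l ≤ s / 10)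
    (hy' : y' ∈ closedBall y (6 / 5 * s - ‖y - x‖)) (hρ : ‖y' - x‖ = ρ)
    (hρ1 : 6 / 5 * s - l < ρ) (hδ : 0 ≤ δ) (hlδ : l ≤ δ ^ 2 * s) :
    ‖dir x y ^ n - ((y' - x) / ρ) ^ n‖ ≤ 3 * δ := by
  obtain ⟨r, hr⟩ : ∃ r, ‖y - x‖ = r := ⟨_, rfl⟩
  rw [dir, hr]
  rw [mem_closedBall_iff_norm', hr] at hy'
  rw [hr] at hy1 hy2
  have hr0 : 0 < r := by linarith
  have hρ0 : 0 < ρ := by linarith
  have ha := norm_div_eq hr0 hr
  have hc := norm_div_eq hρ0 hρ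
  have h1 := unit_sub ha hc r ρ
  rw [mul_div_cancel₀ _ (ofReal_ne_zero.2 hr0.ne'), mul_div_cancel₀ _ (ofReal_ne_zero.2 hρ0.ne'),
    sub_sub_sub_cancel_right] at h1
  have h2 := pow_sub ha hc n
  generalize ‖(y - x) / (r : ℂ) - (y' - x) / (ρ : ℂ)‖ = d at h1 h2
  have h3 : ‖y - y'‖ ^ 2 ≤ (6 / 5 * s - r) ^ 2 := pow_le_pow_left₀ (norm_nonneg _) hy' 2
  have h4 : (6 / 5 * s - r - l) ^ 2 ≤ (ρ - r) ^ 2 :=
    pow_le_pow_left₀ (by linarith) (by linarith) 2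
  have h5 : r * ρ * d ^ 2 ≤ s * l := by nlinarith
  have h6 : s * s * d ^ 2 ≤ r * ρ * d ^ 2 :=
    mul_le_mul_of_nonneg_right (mul_le_mul hy1 (by linarith) hs.le hr0.le) (sq_nonneg d)
  have h7 : s * s * d ^ 2 ≤ s * s * δ ^ 2 := by nlinarith
  have h8 : d ≤ δ := le_trans (le_abs_self d)
    (abs_le_of_sq_le_sq (le_of_mul_le_mul_left h7 (by positivity)) hδ)
  have h9 : (n : ℝ) ≤ 3 := by exact_mod_cast hn
  refine h2.trans ?_
  nlinarith [Nat.cast_nonneg (α := ℝ) n]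

end Ray1

theorem ray1_pf (hSlc : SlcStmt) : Ray1Stmt := by
  obtain ⟨C, hC, hS⟩ := hSlc
  intro ε' hε'
  obtain ⟨ε, hε, hε1, hε2⟩ : ∃ ε : ℝ, 0 < ε ∧ ε * (10 * (4 * C + 7)) ≤ 1 ∧
      ε * (49 * (4 * C + 7)) ≤ ε' ^ 2 :=
    ⟨min (1 / (10 * (4 * C + 7))) (ε' ^ 2 / (49 * (4 * C + 7))), by positivity,
      (le_div_iff₀ (by positivity)).1 (min_le_left _ _),
      (le_div_iff₀ (by positivity)).1 (min_le_right _ _)⟩
  refine ⟨ε, hε, fun K x n b γ hn h0 h1 hc hL z hz w hw hzx hzw hwz hwb => ?_⟩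
  have hb := hc.pos
  obtain ⟨s, hs⟩ : ∃ s, s = ‖z - x‖ := ⟨_, rfl⟩
  rw [← hs] at hzw hwz ⊢
  have hs0 : 0 < s := hs ▸ norm_pos_iff.2 (sub_ne_zero.2 hzx)
  have hwx : w ≠ x := by
    rintro rfl
    rw [sub_self, norm_zero] at hzw
    linarith
  obtain ⟨q, hq⟩ : ∃ q, q = (s / b) ^ γ := ⟨_, rfl⟩
  have hq0 : 0 < q := hq ▸ by positivity
  have hq1 : q ≤ 1 := hq ▸ Real.rpow_le_one (by positivity)
    ((div_le_one hb).2 (by linarith)) h0.le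
  obtain ⟨δ, hδ⟩ : ∃ δ, δ = ε' * (s / (b / 2)) ^ (γ / 2) / 7 := ⟨_, rfl⟩
  have hδ0 : 0 ≤ δ := hδ ▸ by positivity
  have hδ1 : (4 * C + 7) * (ε * q) ≤ δ ^ 2 := by
    have h2 : ((s / (b / 2)) ^ (γ / 2)) ^ 2 = (s / (b / 2)) ^ γ := by
      rw [← Real.rpow_natCast, ← Real.rpow_mul (by positivity)]
      norm_num
    have h3 : q ≤ (s / (b / 2)) ^ γ := hq ▸ rpow_div_mono hs0.le (by linarith) (by linarith) h0.le
    rw [hδ, div_pow, mul_pow, h2]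
    have h4 := mul_le_mul hε2 h3 hq0.le (sq_nonneg _)
    linarith
  obtain ⟨l, hl⟩ : ∃ l, l = (4 * C + 7) * (ε * q * s) := ⟨_, rfl⟩
  have hη : 0 < ε * q * s := by positivity
  have hl0 : 0 ≤ l := hl ▸ by positivity
  have hl1 : l ≤ s / 10 := by
    have h2 : ε * (10 * (4 * C + 7)) * (q * s) ≤ 1 * (1 * s) := by gcongr
    linarith
  have hl2 : l ≤ δ ^ 2 * s := by
    have h2 := mul_le_mul_of_nonneg_right hδ1 hs0.le
    linarith
  have a1 := Ray1.side (y := z) hC h0 h1 hc hL hz hs0 hs.le (by linarith) (by linarith) hl1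
    (hS K x n b ε γ hn h0 h1 hc z _ hzx (by linarith) (by linarith) (by linarith)).1
  have a2 := Ray1.side (y := w) hC h0 h1 hc hL hw hs0 hzw hwz hwb hl1
    (hS K x n b ε γ hn h0 h1 hc w _ hwx hwb (by linarith) (by linarith)).1
  have a3 := hc.bal (4 / 3 * s) ⟨by linarith, by linarith⟩
  have a4 : ε * (4 / 3 * s / b) ^ γ * (4 / 3 * s) ≤ 2 * (ε * q * s) := by
    have h2 : (4 / 3 * s / b) ^ γ ≤ 4 / 3 * q :=
      hq ▸ Ray1.rpow_le (by positivity) hs0.le hb (by norm_num) le_rfl h0 h1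
    have h3 : ε * (4 / 3 * s / b) ^ γ * (4 / 3 * s) ≤ ε * (4 / 3 * q) * (4 / 3 * s) := by gcongr
    linarith
  rw [← hq] at a1 a2
  obtain ⟨ρ, hρ, ⟨z', hz', e1⟩, ⟨w', hw', e2⟩, hB⟩ : ∃ ρ ∈ Ioo (6 / 5 * s - l) (6 / 5 * s),
      ρ ∈ (fun y => ‖y - x‖) '' (K ∩ closedBall z (6 / 5 * s - ‖z - x‖)) ∧
      ρ ∈ (fun y => ‖y - x‖) '' (K ∩ closedBall w (6 / 5 * s - ‖w - x‖)) ∧
      Bal K x n (ε * (ρ / b) ^ γ) ρ := by
    by_contra hcon
    push Not at hcon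
    have h2 := (measure_union_le _ _).trans (add_le_add ((measure_union_le _ _).trans
      (add_le_add a1 a2)) (a3.trans (ENNReal.ofReal_le_ofReal a4)))
    rw [← ENNReal.ofReal_add (by positivity) (by positivity),
      ← ENNReal.ofReal_add (by positivity) (by positivity)] at h2
    have h3 := le_trans (measure_mono (s := Ioo (6 / 5 * s - l) (6 / 5 * s)) fun ρ hρ => ?_) h2
    · rw [Real.volume_Ioo, ENNReal.ofReal_le_ofReal_iff (by positivity)] at h3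
      linarith
    · by_cases c1 : ρ ∈ (fun y => ‖y - x‖) '' (K ∩ closedBall z (6 / 5 * s - ‖z - x‖))
      · by_cases c2 : ρ ∈ (fun y => ‖y - x‖) '' (K ∩ closedBall w (6 / 5 * s - ‖w - x‖))
        · exact Or.inr ⟨⟨by linarith [hρ.1], by linarith [hρ.2]⟩, hcon ρ hρ c1 c2⟩
        · exact Or.inl (Or.inr ⟨hρ, c2⟩)
      · exact Or.inl (Or.inl ⟨hρ, c1⟩)
  have b1 := Ray1.near hn hs0 hs.le (by linarith) hl0 hl1 hz'.2 e1 hρ.1 hδ0 hl2
  have b2 := Ray1.near hn hs0 hzw hwz hl0 hl1 hw'.2 e2 hρ.1 hδ0 hl2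
  obtain ⟨P, hP, -, hP2⟩ := hB
  have m1 : z' ∈ P := by
    rw [← Finset.mem_coe, hP]; exact ⟨hz'.1, mem_sphere_iff_norm.2 e1⟩
  have m2 : w' ∈ P := by
    rw [← Finset.mem_coe, hP]; exact ⟨hw'.1, mem_sphere_iff_norm.2 e2⟩
  have b3 : ‖((z' - x) / ρ) ^ n - ((w' - x) / ρ) ^ n‖ ≤ δ := by
    have h2 : (ρ / b) ^ γ ≤ 6 / 5 * q :=
      hq ▸ Ray1.rpow_le (by linarith [hρ.1]) hs0.le hb (by norm_num) hρ.2.le h0 h1
    have h3 := mul_le_mul_of_nonneg_left h2 hε.le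
    have h4 : 0 ≤ C * (ε * q) := by positivity
    have h5 : 0 ≤ ε * q := by positivity
    exact le_trans (le_abs_self _)
      (abs_le_of_sq_le_sq ((hP2 z' m1 w' m2).1.trans (by linarith)) hδ0)
  have b4 := norm_sub_le_norm_sub_add_norm_sub (dir x z ^ n) (((z' - x) / ρ) ^ n) (dir x w ^ n)
  have b5 := norm_sub_le_norm_sub_add_norm_sub (((z' - x) / ρ) ^ n) (((w' - x) / ρ) ^ n)
    (dir x w ^ n)
  rw [norm_sub_rev] at b2
  linarith

end Vale.Agent.P128
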