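import Vale.Agent.P128.Stm

open MeasureTheory Set Metric Filter Topology Complex
open scoped ENNReal ComplexConjugate Real

noncomputable section
namespace Vale.Agent.P128

theorem reg_pf (hEl0 : El0Stmt) (hReg1 : Reg1Stmt) (hReg2 : Reg2Stmt) (hReg3 : Reg3Stmt) :
    RegStmt := by
  intro Ω g u G K hΩ hg hmin
  have hA := hmin.1
  have hO := hA.closed
  have hu : MemLp u 2 (volume.restrict (Ω \ K)) :=
    hA.l2.mono_measure (Measure.restrict_mono diff_subset le_rfl)
  obtain ⟨v, h1, h2, h3⟩ := hReg3 (Ω \ K) u G hO hA.grad hu hA.gl2 fun x hx => by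
    obtain ⟨R, hR, hRO⟩ := nhds_basis_closedBall.mem_iff.1 (hO.mem_nhds hx)
    have e1 : closedBall x (2 * (2 * (R / 4))) ⊆ Ω \ K := by
      rwa [show 2 * (2 * (R / 4)) = R by ring]
    have e2 : ball x (2 * (R / 4)) ⊆ Ω \ K :=
      (ball_subset_closedBall.trans (closedBall_subset_closedBall (by linarith))).trans hRO
    have hu4 := hReg1 (Ω \ K) u G x (2 * (R / 4)) hO hA.grad hu hA.gl2 (by positivity) e1
    haveI : IsFiniteMeasure (volume.restrict (ball x (2 * (R / 4)))) :=
      isFiniteMeasure_restrict.2 measure_ball_lt_top.ne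
    have hg4 : MemLp g 4 (volume.restrict (ball x (2 * (R / 4)))) :=
      (hg.mono_measure (Measure.restrict_mono (e2.trans diff_subset) le_rfl)).mono_exponent le_top
    obtain ⟨P, hP1, hP2⟩ := hReg2 (Ω \ K) u (fun z => u z - g z) G x (R / 4) hO hA.grad hA.gl2
      (by positivity) e2 (hu4.sub hg4) fun φ h1 h2 h3 =>
        hEl0 Ω g u G K hΩ hg hmin φ h1 h2 (h3.trans e2)
    exact ⟨R / 4, P, by positivity, (ball_subset_ball (by linarith)).trans e2, hP1, hP2⟩
  have : volume.restrict Ω = volume.restrict (Ω \ K) :=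
    Measure.restrict_congr_set (diff_null_ae_eq_self (volume_null hA.fin)).symm
  exact ⟨v, h1, this ▸ h2, this ▸ h3⟩

end Vale.Agent.P128
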