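import Vale.Agent.P128.Stm

open MeasureTheory Set Metric Filter Topology Complex
open scoped ENNReal ComplexConjugate Real NNReal

noncomputable section
namespace Vale.Agent.P128

namespace Reg1

/-- Young's inequality in `L²` for a probability kernel. -/
theorem young {k f : ℂ → ℝ≥0∞} (hk : Measurable k) (h1 : ∫⁻ z, k z = 1) (hf : AEMeasurable f) :
    ∫⁻ a, (∫⁻ z, k (a - z) * f z) ^ (2 : ℝ) ≤ ∫⁻ z, f z ^ (2 : ℝ) := by
  have hka : ∀ a : ℂ, Measurable fun z => k (a - z) := fun a => hk.comp (measurable_const_sub a)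
  have step : ∀ a : ℂ, (∫⁻ z, k (a - z) * f z) ^ (2 : ℝ) ≤ ∫⁻ z, k (a - z) * f z ^ (2 : ℝ) := by
    intro a
    have h := ENNReal.lintegral_mul_norm_pow_le (μ := volume) (hka a).aemeasurable
      ((hka a).aemeasurable.mul (hf.pow_const (2 : ℝ))) (p := 1 / 2) (q := 1 / 2)
      (by norm_num) (by norm_num) (by norm_num)
    have e : ∀ z, k (a - z) ^ (1 / 2 : ℝ) * (k (a - z) * f z ^ (2 : ℝ)) ^ (1 / 2 : ℝ) =
        k (a - z) * f z := fun z => by
      rw [ENNReal.mul_rpow_of_nonneg _ _ (by norm_num), ← mul_assoc,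
        ← ENNReal.rpow_add_of_nonneg _ _ (by norm_num) (by norm_num), ← ENNReal.rpow_mul]
      norm_num
    simp only [Pi.mul_apply, e] at h
    rw [lintegral_sub_left_eq_self, h1, ENNReal.one_rpow, one_mul] at h
    refine (ENNReal.rpow_le_rpow h (by norm_num)).trans (le_of_eq ?_)
    rw [← ENNReal.rpow_mul]
    norm_num
  refine (lintegral_mono step).trans (le_of_eq ?_)
  rw [lintegral_lintegral_swap]
  · refine lintegral_congr fun z => ?_
    have hz : Measurable fun a => k (a - z) := hk.comp (measurable_sub_const z)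
    rw [lintegral_mul_const _ hz, lintegral_sub_right_eq_self k z, h1, one_mul]
  · exact (hk.comp (measurable_fst.sub measurable_snd)).aemeasurable.mul
      (hf.pow_const (2 : ℝ)).comp_snd

/-- the kernel of a bump -/
def ker (φ : ContDiffBump (0 : ℂ)) (z : ℂ) : ℝ≥0∞ := ‖φ.normed volume z‖ₑ

theorem ker_meas (φ : ContDiffBump (0 : ℂ)) : Measurable (ker φ) :=
  φ.continuous_normed.measurable.enorm

theorem ker_int (φ : ContDiffBump (0 : ℂ)) : ∫⁻ z, ker φ z = 1 := by
  have h := ofReal_integral_eq_lintegral_ofReal (φ.integrable_normed (μ := volume))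
    (ae_of_all _ φ.nonneg_normed)
  rw [φ.integral_normed, ENNReal.ofReal_one] at h
  rw [h]
  exact lintegral_congr fun z => Real.enorm_eq_ofReal (φ.nonneg_normed z)

theorem young' {E : Type} [NormedAddCommGroup E] (φ : ContDiffBump (0 : ℂ)) {g : ℂ → E}
    {h : ℂ → ℝ} (hh : AEStronglyMeasurable h)
    (hle : ∀ a, ‖g a‖ₑ ≤ ∫⁻ z, ker φ (a - z) * ‖h z‖ₑ) :
    eLpNorm g 2 volume ≤ eLpNorm h 2 volume := by
  rw [eLpNorm_eq_lintegral_rpow_enorm_toReal (by norm_num) (by norm_num),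
    eLpNorm_eq_lintegral_rpow_enorm_toReal (by norm_num) (by norm_num)]
  refine ENNReal.rpow_le_rpow ?_ (by norm_num)
  rw [ENNReal.toReal_ofNat]
  exact (lintegral_mono fun a => ENNReal.rpow_le_rpow (hle a) (by norm_num)).trans
    (young (ker_meas φ) (ker_int φ) hh.enorm)

/-- the weak gradient tested with a translated bump -/
theorem grad_bd {O : Set ℂ} {u : ℂ → ℝ} {G : ℂ → ℂ} (hO : IsOpen O) (hw : IsWeakGrad O u G)
    (φ : ContDiffBump (0 : ℂ)) {a : ℂ} (ha : closedBall a φ.rOut ⊆ O) (e : ℂ) :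
    ‖∫ z, fderiv ℝ (φ.normed volume) (a - z) e • O.indicator u z‖ₑ ≤
      (∫⁻ z, ker φ (a - z) * ‖O.indicator G z‖ₑ) * ‖e‖ₑ := by
  have hs : ContDiff ℝ (⊤ : ℕ∞) fun z : ℂ => φ.normed volume (a - z) :=
    φ.contDiff_normed.comp (contDiff_const.sub contDiff_id)
  have ht : tsupport (fun z : ℂ => φ.normed volume (a - z)) ⊆ closedBall a φ.rOut := by
    refine (tsupport_comp_subset_preimage (φ.normed volume) (f := fun z => a - z)
      (by fun_prop)).trans fun z hz => ?_
    rw [mem_preimage, φ.tsupport_normed_eq, mem_closedBall_zero_iff] at hz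
    rwa [mem_closedBall, dist_comm, dist_eq_norm]
  have hc : HasCompactSupport fun z : ℂ => φ.normed volume (a - z) :=
    (isCompact_closedBall a φ.rOut).of_isClosed_subset (isClosed_tsupport _) ht
  have hd : ∀ z, fderiv ℝ (fun z : ℂ => φ.normed volume (a - z)) z e =
      -fderiv ℝ (φ.normed volume) (a - z) e := fun z => by
    have h1 : HasFDerivAt (φ.normed volume) (fderiv ℝ (φ.normed volume) (a - z)) (a - z) :=
      ((φ.contDiff_normed (n := 1)).differentiable (by simp) _).hasFDerivAt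
    have h2 := (h1.comp z ((hasFDerivAt_id z).const_sub a)).fderiv
    have h3 : fderiv ℝ (fun z : ℂ => φ.normed volume (a - z)) z = _ := h2
    rw [h3]
    simp
  have h := hw _ hs hc (ht.trans ha) e
  simp only [hd, mul_neg, integral_neg, neg_inj] at h
  have e1 : ∫ z, fderiv ℝ (φ.normed volume) (a - z) e • O.indicator u z =
      ∫ z, inner ℝ (O.indicator G z) e * φ.normed volume (a - z) := by
    have e2 : ∀ z, fderiv ℝ (φ.normed volume) (a - z) e • O.indicator u z =
        O.indicator (fun z => u z * fderiv ℝ (φ.normed volume) (a - z) e) z := fun z => by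
      by_cases hz : z ∈ O <;> simp [hz, mul_comm]
    have e3 : ∀ z, inner ℝ (O.indicator G z) e * φ.normed volume (a - z) =
        O.indicator (fun z => inner ℝ (G z) e * φ.normed volume (a - z)) z := fun z => by
      by_cases hz : z ∈ O
      · rw [indicator_of_mem hz, indicator_of_mem hz]
      · rw [indicator_of_notMem hz, indicator_of_notMem hz, inner_zero_left, zero_mul]
    simp only [e2, e3]
    rw [integral_indicator hO.measurableSet, integral_indicator hO.measurableSet, h]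
  rw [e1, ← lintegral_mul_const' _ _ enorm_ne_top]
  refine (enorm_integral_le_lintegral_enorm _).trans (lintegral_mono fun z => ?_)
  have h4 : ‖inner ℝ (O.indicator G z) e‖ₑ ≤ ‖O.indicator G z‖ₑ * ‖e‖ₑ := by
    rw [← ofReal_norm, ← ofReal_norm, ← ofReal_norm, ← ENNReal.ofReal_mul (norm_nonneg _)]
    exact ENNReal.ofReal_le_ofReal (norm_inner_le_norm _ _)
  rw [enorm_mul, mul_comm, mul_assoc]
  exact mul_le_mul_right h4 _

theorem en_zero {E : Type} [NormedAddCommGroup E] (c : ℝ≥0∞) : ‖(0 : E)‖ₑ ≤ c := by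
  rw [enorm_zero]
  exact zero_le

theorem en_add {E : Type} [NormedAddCommGroup E] [NormedSpace ℝ E] (s t : ℝ) (A B : E) :
    ‖s • A + t • B‖ₑ ≤ ‖s‖ₑ * ‖A‖ₑ + ‖t‖ₑ * ‖B‖ₑ := by
  rw [← enorm_smul, ← enorm_smul]
  exact enorm_add_le _ _

theorem hold {E : Type} [NormedAddCommGroup E] {g : ℂ → E} {S : Set ℂ} {p : ℝ≥0∞} (hp : p ≤ 2)
    (hg : Continuous g) (hs : Function.support g ⊆ S) :
    eLpNorm g p volume ≤
      volume S ^ (1 / p.toReal - 1 / (2 : ℝ≥0∞).toReal) * eLpNorm g 2 volume := by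
  have h2 := eLpNorm_le_eLpNorm_mul_rpow_measure_univ (μ := volume.restrict S) hp
    hg.aestronglyMeasurable
  rwa [eLpNorm_restrict_eq_of_support_subset hs, eLpNorm_restrict_eq_of_support_subset hs,
    Measure.restrict_apply_univ, mul_comm] at h2

/-- the Sobolev inequality from `L²` on a bounded set -/
theorem sob (x : ℂ) (R : ℝ) : ∃ C : ℝ≥0∞, C ≠ ⊤ ∧ ∀ w : ℂ → ℝ, ContDiff ℝ 1 w →
    tsupport w ⊆ closedBall x R → eLpNorm w 4 volume ≤ C * eLpNorm (fderiv ℝ w) 2 volume := by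
  refine ⟨SNormLESNormFDerivOfEqConst ℝ (volume : Measure ℂ) ((4 / 3 : ℝ≥0) : ℝ) *
    volume (closedBall x R) ^ (1 / (((4 / 3 : ℝ≥0) : ℝ≥0∞)).toReal - 1 / (2 : ℝ≥0∞).toReal),
    ENNReal.mul_ne_top ENNReal.coe_ne_top (ENNReal.rpow_ne_top_of_nonneg ?_
      measure_closedBall_lt_top.ne), fun w hw ht => ?_⟩
  · rw [ENNReal.coe_toReal]
    norm_num
  have hc : HasCompactSupport w :=
    (isCompact_closedBall x R).of_isClosed_subset (isClosed_tsupport _) ht
  have h1 := eLpNorm_le_eLpNorm_fderiv_of_eq (volume : Measure ℂ) hw hc (p := 4 / 3) (p' := 4)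
    (by rw [← NNReal.coe_le_coe]; norm_num) (by simp) (by simp; norm_num)
  have hp : ((4 / 3 : ℝ≥0) : ℝ≥0∞) ≤ 2 := by
    rw [← ENNReal.coe_ofNat, ENNReal.coe_le_coe, ← NNReal.coe_le_coe]
    norm_num
  have h2 := hold hp (hw.continuous_fderiv (by simp)) ((support_fderiv_subset ℝ).trans ht)
  rw [ENNReal.coe_ofNat] at h1
  refine h1.trans ?_
  rw [mul_assoc]
  exact mul_le_mul_right h2 _

end Reg1

theorem reg1_pf (hMol : MolStmt) : Reg1Stmt := by
  intro O u G x r hO hw hu hG hr hsub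
  have hu0 : MemLp (O.indicator u) 2 volume := (memLp_indicator_iff_restrict hO.measurableSet).2 hu
  have hG0 : MemLp (O.indicator G) 2 volume := (memLp_indicator_iff_restrict hO.measurableSet).2 hG
  obtain ⟨hm1, hm2⟩ := hMol ℝ _ (hu0.locallyIntegrable (by norm_num))
  obtain ⟨ζ, hζ1, hζ2⟩ : ∃ ζ : ContDiffBump x, ζ.rIn = r ∧ ζ.rOut = 3 / 2 * r :=
    ⟨⟨r, 3 / 2 * r, hr, by linarith⟩, rfl, rfl⟩
  have hζ : ContDiff ℝ 1 ζ := ζ.contDiff
  obtain ⟨B, hB⟩ := (hζ.continuous_fderiv (by simp)).bounded_above_of_compact_support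
    (ζ.hasCompactSupport.fderiv ℝ)
  have hB0 : 0 ≤ B := (norm_nonneg _).trans (hB 0)
  have hh : MemLp (fun z => ‖O.indicator G z‖ + B * ‖O.indicator u z‖) 2 volume :=
    hG0.norm.add (hu0.norm.const_mul B)
  obtain ⟨C, hC, hsob⟩ := Reg1.sob x ζ.rOut
  have bound : ∀ φ : ContDiffBump (0 : ℂ), φ.rOut ≤ r / 2 →
      eLpNorm ((ζ : ℂ → ℝ) * mol φ (O.indicator u)) 4 volume ≤
        C * eLpNorm (fun z => ‖O.indicator G z‖ + B * ‖O.indicator u z‖) 2 volume := by
    intro φ hφ
    obtain ⟨h1, h2, h3⟩ := hm1 φ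
    have h1' : ContDiff ℝ 1 (mol φ (O.indicator u)) := h1.of_le (by simp)
    have ht : tsupport ((ζ : ℂ → ℝ) * mol φ (O.indicator u)) ⊆ closedBall x ζ.rOut :=
      tsupport_mul_subset_left.trans ζ.tsupport_eq.subset
    refine (hsob ((ζ : ℂ → ℝ) * mol φ (O.indicator u)) (hζ.mul h1') ht).trans
      (mul_le_mul_right (Reg1.young' φ hh.1 fun a => ?_) _)
    by_cases ha : a ∈ closedBall x ζ.rOut
    swap
    · have h0 : fderiv ℝ ((ζ : ℂ → ℝ) * mol φ (O.indicator u)) a = 0 := by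
        by_contra h0
        exact ha (ht (support_fderiv_subset ℝ h0))
      rw [h0]
      exact Reg1.en_zero _
    have hin : closedBall a φ.rOut ⊆ O := by
      refine (closedBall_subset_closedBall' ?_).trans hsub
      rw [mem_closedBall, hζ2] at ha
      linarith
    have e1 : ‖fderiv ℝ (mol φ (O.indicator u)) a‖ₑ ≤
        ∫⁻ z, Reg1.ker φ (a - z) * ‖O.indicator G z‖ₑ :=
      ContinuousLinearMap.opENorm_le_bound _ fun e => by
        rw [h3]
        exact Reg1.grad_bd hO hw φ hin e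
    have e2 : ‖mol φ (O.indicator u) a‖ₑ ≤ ∫⁻ z, Reg1.ker φ (a - z) * ‖O.indicator u z‖ₑ := by
      rw [h2]
      refine (enorm_integral_le_lintegral_enorm _).trans (lintegral_mono fun z => ?_)
      rw [enorm_smul]
      rfl
    have e3 : ‖ζ a‖ₑ ≤ 1 := by
      rw [Real.enorm_eq_ofReal ζ.nonneg]
      exact ENNReal.ofReal_le_one.2 ζ.le_one
    have e4 : ‖fderiv ℝ ζ a‖ₑ ≤ ENNReal.ofReal B := by
      rw [← ofReal_norm]
      exact ENNReal.ofReal_le_ofReal (hB a)
    have e5 : ∀ z, Reg1.ker φ (a - z) * ‖‖O.indicator G z‖ + B * ‖O.indicator u z‖‖ₑ =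
        Reg1.ker φ (a - z) * ‖O.indicator G z‖ₑ +
          Reg1.ker φ (a - z) * ‖O.indicator u z‖ₑ * ENNReal.ofReal B := fun z => by
      rw [Real.enorm_eq_ofReal (by positivity), ENNReal.ofReal_add (by positivity) (by positivity),
        ENNReal.ofReal_mul hB0, ofReal_norm, ofReal_norm]
      ring
    have e6 : AEMeasurable fun z => Reg1.ker φ (a - z) * ‖O.indicator G z‖ₑ :=
      ((Reg1.ker_meas φ).comp (measurable_const_sub a)).aemeasurable.mul hG0.1.enorm
    simp only [e5]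
    rw [lintegral_add_left' e6, lintegral_mul_const' _ _ ENNReal.ofReal_ne_top,
      fderiv_mul (hζ.differentiable (by simp) a) (h1'.differentiable (by simp) a)]
    exact (Reg1.en_add _ _ _ _).trans
      (add_le_add ((mul_le_mul' e3 e1).trans (le_of_eq (one_mul _))) (mul_le_mul' e2 e4))
  have hpos : ∀ n : ℕ, 0 < r / 4 / ((n : ℝ) + 1) := fun n => by positivity
  obtain ⟨φ, hφ1, hφ2⟩ : ∃ φ : ℕ → ContDiffBump (0 : ℂ),
      (∀ n, (φ n).rIn = r / 4 / ((n : ℝ) + 1)) ∧ ∀ n, (φ n).rOut = 2 * (r / 4 / ((n : ℝ) + 1)) :=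
    ⟨fun n => ⟨_, _, hpos n, by linarith [hpos n]⟩, fun _ => rfl, fun _ => rfl⟩
  have hlim : Tendsto (fun n => (φ n).rOut) atTop (𝓝 0) := by
    simp only [hφ2]
    have := (tendsto_const_div_atTop_nhds_zero_nat (r / 4)).comp (tendsto_add_atTop_nat 1)
    simpa [Function.comp_def] using this.const_mul 2
  have hae := (hm2 φ hlim).2 fun n => by rw [hφ1, hφ2]
  have hfin : eLpNorm ((ζ : ℂ → ℝ) * O.indicator u) 4 volume ≤
      C * eLpNorm (fun z => ‖O.indicator G z‖ + B * ‖O.indicator u z‖) 2 volume := by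
    refine Lp.eLpNorm_le_of_ae_tendsto (u := atTop) (f := fun n => (ζ : ℂ → ℝ) * mol (φ n) (O.indicator u))
      (Eventually.of_forall fun n => bound _ ?_)
      (fun n => (ζ.continuous.mul (hm1 (φ n)).1.continuous).aestronglyMeasurable) ?_
    · rw [hφ2]
      have : r / 4 / ((n : ℝ) + 1) ≤ r / 4 :=
        div_le_self (by positivity) (by linarith [Nat.cast_nonneg (α := ℝ) n])
      linarith
    · filter_upwards [hae] with a ha using ha.const_mul (ζ a)
  have hmem : MemLp ((ζ : ℂ → ℝ) * O.indicator u) 4 volume :=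
    ⟨ζ.continuous.aestronglyMeasurable.mul hu0.1,
      hfin.trans_lt (ENNReal.mul_lt_top hC.lt_top hh.2)⟩
  refine (hmem.restrict (ball x r)).ae_eq ?_
  filter_upwards [ae_restrict_mem measurableSet_ball] with z hz
  have hz1 : z ∈ closedBall x ζ.rIn := hζ1 ▸ ball_subset_closedBall hz
  have hz2 : z ∈ O := hsub (closedBall_subset_closedBall (by linarith) (ball_subset_closedBall hz))
  rw [Pi.mul_apply, ζ.one_of_mem_closedBall hz1, one_mul, indicator_of_mem hz2]

end Vale.Agent.P128
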