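import Vale.Agent.P128.Stm

open MeasureTheory Set Metric Filter Topology Complex
open scoped ENNReal ComplexConjugate Real

noncomputable section
namespace Vale.Agent.P128

namespace Reg2

theorem cont_conv {p q : ℝ≥0∞} [Fact (1 ≤ p)] [Fact (1 ≤ q)] [p.HolderConjugate q] (hq : q ≠ ⊤)
    {ψ k : ℂ → ℂ} (hψ : MemLp ψ p) (hk : MemLp k q) :
    Continuous fun a => ∫ z, ψ z * k (a - z) := by
  let F : ℂ → C(ℂ, ℂ) := fun a => ⟨fun z => a - z, by fun_prop⟩
  have hF : Continuous F := ContinuousMap.continuous_of_continuous_uncurry _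
    (continuous_fst.sub continuous_snd)
  have hm : ∀ a, MeasurePreserving (F a) volume volume := fun a =>
    Measure.measurePreserving_sub_left volume a
  have h := (continuous_const (y := hk.toLp k)).compMeasurePreservingLp hF hm hq
  have h2 := ((ContinuousLinearMap.mul ℂ ℂ).lpPairing volume p q (hψ.toLp ψ)).continuous.comp h
  refine h2.congr fun a => ?_
  rw [Function.comp_apply, ContinuousLinearMap.lpPairing_eq_integral]
  refine integral_congr_ae ?_
  filter_upwards [hψ.coeFn_toLp, Lp.coeFn_compMeasurePreserving (hk.toLp k) (hm a),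
    (hm a).quasiMeasurePreserving.ae_eq_comp hk.coeFn_toLp] with z h1 h3 h4
  rw [ContinuousLinearMap.mul_apply', h1, h3, h4]
  rfl

theorem smooth_fd {F : Type} [NormedAddCommGroup F] [NormedSpace ℝ F] {φ : ℂ → F}
    (hφ : ContDiff ℝ (⊤ : ℕ∞) φ) (e : ℂ) : ContDiff ℝ (⊤ : ℕ∞) fun z => fderiv ℝ φ z e :=
  (contDiff_infty_iff_fderiv.1 hφ).2.clm_apply contDiff_const

theorem cont_db {φ : ℂ → ℂ} (hφ : ContDiff ℝ (⊤ : ℕ∞) φ) : Continuous (db φ) := by
  have h1 := (smooth_fd hφ 1).continuous
  have h2 := (smooth_fd hφ I).continuous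
  unfold db
  fun_prop

theorem symm {φ : ℂ → ℝ} (hφ : ContDiff ℝ (⊤ : ℕ∞) φ) (z a b : ℂ) :
    fderiv ℝ (fun w => fderiv ℝ φ w a) z b = fderiv ℝ (fun w => fderiv ℝ φ w b) z a := by
  have hd : DifferentiableAt ℝ (fderiv ℝ φ) z :=
    (contDiff_infty_iff_fderiv.1 hφ).2.differentiable (by simp) z
  have e : ∀ c d : ℂ, fderiv ℝ (fun w => fderiv ℝ φ w c) z d = fderiv ℝ (fderiv ℝ φ) z d c := by
    intro c d
    rw [fderiv_clm_apply hd (differentiableAt_const c)]
    simp
  rw [e, e]
  exact hφ.contDiffAt.isSymmSndFDerivAt (by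
    rw [minSmoothness_of_isRCLikeNormedField]; exact WithTop.coe_le_coe.2 le_top) b a

theorem curl {O : Set ℂ} {u : ℂ → ℝ} {G : ℂ → ℂ} (h : IsWeakGrad O u G) {φ : ℂ → ℝ}
    (hφ : ContDiff ℝ (⊤ : ℕ∞) φ) (hc : HasCompactSupport φ) (hs : tsupport φ ⊆ O) :
    ∫ z in O, (G z).re * fderiv ℝ φ z I = ∫ z in O, (G z).im * fderiv ℝ φ z 1 := by
  have h1 := h _ (smooth_fd hφ I) (hc.fderiv_apply ℝ I)
    ((tsupport_fderiv_apply_subset ℝ I).trans hs) 1
  have h2 := h _ (smooth_fd hφ 1) (hc.fderiv_apply ℝ 1)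
    ((tsupport_fderiv_apply_subset ℝ 1).trans hs) I
  simp only [symm hφ _ I 1] at h1
  rw [h1, neg_inj] at h2
  simpa [Complex.inner] using h2

theorem int_mul {R : Type} [NormedRing R] [SecondCountableTopology R] {x : ℂ} {s : ℝ}
    {g h : ℂ → R} (hg : IntegrableOn g (ball x s)) (hh : Continuous h) :
    IntegrableOn (fun z => g z * h z) (ball x s) :=
  hg.mul_continuousOn_of_subset hh.continuousOn measurableSet_ball (isCompact_closedBall x s)
    ball_subset_closedBall

theorem db_real {φ : ℂ → ℝ} {z : ℂ} (hφ : DifferentiableAt ℝ φ z) :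
    db (fun w => (φ w : ℂ)) z = ((fderiv ℝ φ z 1 : ℝ) + I * (fderiv ℝ φ z I : ℝ)) / 2 := by
  have h := (ofRealCLM.hasFDerivAt.comp z hφ.hasFDerivAt).fderiv
  have e : (fun w => (φ w : ℂ)) = ofRealCLM ∘ φ := rfl
  rw [db, e, h]
  rfl

theorem db_mul {a b : ℂ → ℂ} {z : ℂ} (ha : DifferentiableAt ℝ a z) (hb : DifferentiableAt ℝ b z) :
    db (fun w => a w * b w) z = a z * db b z + b z * db a z := by
  simp only [db, fderiv_fun_mul ha hb, _root_.add_apply, _root_.smul_apply, smul_eq_mul]
  ring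

theorem db_split {Φ : ℂ → ℂ} {z : ℂ} (h : DifferentiableAt ℝ Φ z) :
    db Φ z = db (fun w => ((Φ w).re : ℂ)) z + I * db (fun w => ((Φ w).im : ℂ)) z := by
  have h1 := reCLM.hasFDerivAt.comp z h.hasFDerivAt
  have h2 := imCLM.hasFDerivAt.comp z h.hasFDerivAt
  have e1 : (fun w => (Φ w).re) = reCLM ∘ Φ := rfl
  have e2 : (fun w => (Φ w).im) = imCLM ∘ Φ := rfl
  rw [db_real (φ := fun w => (Φ w).re) h1.differentiableAt,
    db_real (φ := fun w => (Φ w).im) h2.differentiableAt, e1, e2, h1.fderiv, h2.fderiv, db]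
  simp only [ContinuousLinearMap.comp_apply, reCLM_apply, imCLM_apply]
  have a := re_add_im (fderiv ℝ Φ z 1)
  have b := re_add_im (fderiv ℝ Φ z I)
  linear_combination (-1 / 2 : ℂ) * a + (-I / 2) * b

/-- the weak equation on a ball -/
structure Weak (x : ℂ) (s : ℝ) (f : ℂ → ℝ) (G : ℂ → ℂ) : Prop where
  iG : IntegrableOn G (ball x s)
  iF : IntegrableOn f (ball x s)
  div : ∀ φ : ℂ → ℝ, ContDiff ℝ (⊤ : ℕ∞) φ → HasCompactSupport φ → tsupport φ ⊆ ball x s →
    ∫ z in ball x s, fderiv ℝ φ z (G z) = -∫ z in ball x s, f z * φ z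
  rot : ∀ φ : ℂ → ℝ, ContDiff ℝ (⊤ : ℕ∞) φ → HasCompactSupport φ → tsupport φ ⊆ ball x s →
    ∫ z in ball x s, (G z).re * fderiv ℝ φ z I = ∫ z in ball x s, (G z).im * fderiv ℝ φ z 1

theorem Weak.iC {x : ℂ} {s : ℝ} {f : ℂ → ℝ} {G : ℂ → ℂ} (h : Weak x s f G) :
    IntegrableOn (fun z => conj (G z)) (ball x s) :=
  conjCLE.toContinuousLinearMap.integrable_comp h.iG

theorem Weak.real {x : ℂ} {s : ℝ} {f : ℂ → ℝ} {G : ℂ → ℂ} (h : Weak x s f G) {φ : ℂ → ℝ}
    (hφ : ContDiff ℝ (⊤ : ℕ∞) φ) (hc : HasCompactSupport φ) (hs : tsupport φ ⊆ ball x s) :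
    ∫ z in ball x s, conj (G z) * db (fun w => (φ w : ℂ)) z =
      -(1 / 2) * ∫ z in ball x s, (f z : ℂ) * φ z := by
  have c1 := (smooth_fd hφ 1).continuous
  have c2 := (smooth_fd hφ I).continuous
  have a1 := int_mul (g := fun z => (G z).re) h.iG.re c1
  have a2 := int_mul (g := fun z => (G z).im) h.iG.im c2
  have a3 := int_mul (g := fun z => (G z).re) h.iG.re c2
  have a4 := int_mul (g := fun z => (G z).im) h.iG.im c1
  have a5 : IntegrableOn (fun z => fderiv ℝ φ z (G z)) (ball x s) := by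
    refine (a1.add a2).congr (ae_of_all _ fun z => ?_)
    simp only [Pi.add_apply]
    rw [clm_apply_eq (fderiv ℝ φ z) (G z), smul_eq_mul, smul_eq_mul]
  have e : ∀ z, conj (G z) * db (fun w => (φ w : ℂ)) z =
      (1 / 2 : ℂ) * ((fderiv ℝ φ z (G z) : ℝ) : ℂ) + (I / 2) *
        (((G z).re * fderiv ℝ φ z I - (G z).im * fderiv ℝ φ z 1 : ℝ) : ℂ) := by
    intro z
    rw [db_real (hφ.differentiable (by simp) z), clm_apply_eq (fderiv ℝ φ z) (G z)]
    have : conj (G z) = (G z).re - (G z).im * I := by apply Complex.ext <;> simp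
    rw [this]
    simp only [smul_eq_mul]
    push_cast
    linear_combination (-((G z).im * (fderiv ℝ φ z I : ℝ) : ℂ) / 2) * I_mul_I
  simp only [e]
  rw [integral_add (a5.ofReal.const_mul _) ((a3.sub a4).ofReal.const_mul _), integral_const_mul,
    integral_const_mul, integral_complex_ofReal, integral_complex_ofReal, integral_sub a3 a4, h.rot φ hφ hc hs,
    sub_self, h.div φ hφ hc hs]
  have e2 : ∫ z in ball x s, (f z : ℂ) * φ z = ((∫ z in ball x s, f z * φ z : ℝ) : ℂ) := by
    rw [← integral_complex_ofReal]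
    simp
  rw [e2]
  simp

theorem Weak.cplx {x : ℂ} {s : ℝ} {f : ℂ → ℝ} {G : ℂ → ℂ} (h : Weak x s f G) {Φ : ℂ → ℂ}
    (hΦ : ContDiff ℝ (⊤ : ℕ∞) Φ) (hc : HasCompactSupport Φ) (hs : tsupport Φ ⊆ ball x s) :
    ∫ z in ball x s, conj (G z) * db Φ z = -(1 / 2) * ∫ z in ball x s, (f z : ℂ) * Φ z := by
  have s1 : ContDiff ℝ (⊤ : ℕ∞) fun w => (Φ w).re := reCLM.contDiff.comp hΦ
  have s2 : ContDiff ℝ (⊤ : ℕ∞) fun w => (Φ w).im := imCLM.contDiff.comp hΦ
  have r1 := h.real s1 (hc.comp_left (g := Complex.re) rfl)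
    ((tsupport_comp_subset (g := Complex.re) rfl Φ).trans hs)
  have r2 := h.real s2 (hc.comp_left (g := Complex.im) rfl)
    ((tsupport_comp_subset (g := Complex.im) rfl Φ).trans hs)
  have t1 : ContDiff ℝ (⊤ : ℕ∞) fun w => ((Φ w).re : ℂ) := ofRealCLM.contDiff.comp s1
  have t2 : ContDiff ℝ (⊤ : ℕ∞) fun w => ((Φ w).im : ℂ) := ofRealCLM.contDiff.comp s2
  have a1 := int_mul h.iC (cont_db t1)
  have a2 := int_mul h.iC (cont_db t2)
  have b1 := int_mul (g := fun z => (f z : ℂ)) h.iF.ofReal t1.continuous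
  have b2 := int_mul (g := fun z => (f z : ℂ)) h.iF.ofReal t2.continuous
  have e1 : ∀ z, conj (G z) * db Φ z = conj (G z) * db (fun w => ((Φ w).re : ℂ)) z +
      I * (conj (G z) * db (fun w => ((Φ w).im : ℂ)) z) := by
    intro z
    rw [db_split (hΦ.differentiable (by simp) z)]
    ring
  have e2 : ∀ z, (f z : ℂ) * Φ z = (f z : ℂ) * ((Φ z).re : ℂ) + I * ((f z : ℂ) * ((Φ z).im : ℂ)) := by
    intro z
    linear_combination (-(f z : ℂ)) * re_add_im (Φ z)
  simp only [e1, e2]
  rw [integral_add a1 (a2.const_mul _), integral_add b1 (b2.const_mul _), integral_const_mul,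
    integral_const_mul, r1, r2]
  ring

/-- truncated kernel -/
def ker (R : ℝ) : ℂ → ℂ := (closedBall (0 : ℂ) R).indicator fun w => w⁻¹

theorem ker_mem (hPol : PolStmt) {R : ℝ} (hR : 0 ≤ R) {s : ℝ} (h0 : 0 < s) (h2 : s < 2) :
    MemLp (ker R) (ENNReal.ofReal s) := by
  rw [ker, memLp_indicator_iff_restrict measurableSet_closedBall,
    ← integrable_norm_rpow_iff measurable_inv.aestronglyMeasurable (by simpa using h0)
      ENNReal.ofReal_ne_top, ENNReal.toReal_ofReal h0.le]
  refine (hPol.2.2 0 R s hR h2).1.congr (ae_of_all _ fun z => ?_)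
  simp only [sub_zero, norm_inv]
  rw [Real.rpow_neg (norm_nonneg _), Real.inv_rpow (norm_nonneg _)]

theorem fub {x : ℂ} {r : ℝ} {ψ : ℂ → ℂ} (hψ : IntegrableOn ψ (ball x (2 * r)))
    (hk : Integrable (ker (3 * r))) {φ : ℂ → ℝ} (hφ : Continuous φ) (hc : HasCompactSupport φ)
    (hs : tsupport φ ⊆ ball x r) :
    ∫ z in ball x (2 * r), ψ z * cau (fun w => (φ w : ℂ)) z =
      -(1 / π) * ∫ a, φ a • ∫ z, (ball x (2 * r)).indicator ψ z * ker (3 * r) (a - z) := by
  have h0 := (integrable_indicator_iff measurableSet_ball).2 hψ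
  have h1 := h0.convolution_integrand (ContinuousLinearMap.mul ℝ ℂ) hk
  obtain ⟨C, hC⟩ := hφ.bounded_above_of_compact_support hc
  have h2 : Integrable (Function.uncurry fun a z : ℂ =>
      φ a • ((ball x (2 * r)).indicator ψ z * ker (3 * r) (a - z))) (volume.prod volume) :=
    h1.bdd_smul (φ := fun p : ℂ × ℂ => φ p.1) C
      (hφ.comp continuous_fst).aestronglyMeasurable (ae_of_all _ fun p => hC _)
  simp only [← integral_smul]
  rw [integral_integral_swap h2, ← integral_indicator measurableSet_ball, ← integral_const_mul]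
  refine integral_congr_ae (ae_of_all _ fun z => ?_)
  simp only
  by_cases hz : z ∈ ball x (2 * r)
  · rw [indicator_of_mem hz, indicator_of_mem hz, cau, mul_left_comm, ← integral_const_mul,
      neg_mul, ← mul_neg, ← integral_neg]
    congr 1
    refine integral_congr_ae (ae_of_all _ fun a => ?_)
    simp only
    by_cases ha : φ a = 0
    · simp [ha]
    · have h3 := mem_ball_iff_norm.1 (hs (subset_tsupport _ ha))
      have h4 := mem_ball_iff_norm.1 hz
      have h5 : a - z ∈ closedBall (0 : ℂ) (3 * r) := by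
        rw [mem_closedBall_zero_iff]
        have := norm_sub_le (a - x) (z - x)
        rw [sub_sub_sub_cancel_right] at this
        linarith
      rw [ker, indicator_of_mem h5, real_smul, ← neg_sub z a, inv_neg, div_eq_mul_inv]
      ring
  · simp [indicator_of_notMem hz]

theorem main (hCau : CauStmt) (hPol : PolStmt) {x : ℂ} {r : ℝ} {f : ℂ → ℝ} {G : ℂ → ℂ}
    (hr : 0 < r) (h : Weak x (2 * r) f G) (hG : MemLp G 2 (volume.restrict (ball x (2 * r))))
    (hf : MemLp f 4 (volume.restrict (ball x (2 * r)))) :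
    ∃ P : ℂ → ℂ, ContinuousOn P (ball x r) ∧
      ∀ᵐ z ∂(volume.restrict (ball x r)), P z = conj (G z) := by
  let ζ : ContDiffBump x := ⟨5 * r / 4, 3 * r / 2, by positivity, by linarith⟩
  have hζ : ContDiff ℝ (⊤ : ℕ∞) fun w => (ζ w : ℂ) := ofRealCLM.contDiff.comp ζ.contDiff
  have hk : Integrable (ker (3 * r)) := by
    have := ker_mem hPol (R := 3 * r) (by positivity) one_pos one_lt_two
    rwa [ENNReal.ofReal_one, memLp_one_iff_integrable] at this
  set B := ball x (2 * r) with hB
  set ψ₁ : ℂ → ℂ := fun z => (f z : ℂ) * ζ z with hψ₁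
  set ψ₂ : ℂ → ℂ := fun z => conj (G z) * db (fun w => (ζ w : ℂ)) z with hψ₂
  have i1 : IntegrableOn ψ₁ B := int_mul (g := fun z => (f z : ℂ)) h.iF.ofReal hζ.continuous
  have i2 : IntegrableOn ψ₂ B := int_mul h.iC (cont_db hζ)
  set Q : (ℂ → ℂ) → ℂ → ℂ := fun ψ a => ∫ z, B.indicator ψ z * ker (3 * r) (a - z) with hQ
  have iQ : ∀ ψ, IntegrableOn ψ B → Integrable (Q ψ) := fun ψ hψ =>
    (((integrable_indicator_iff measurableSet_ball).2 hψ).convolution_integrand
      (ContinuousLinearMap.mul ℝ ℂ) hk).integral_prod_left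
  have c1 : Continuous (Q ψ₁) := by
    have hc : (ENNReal.ofReal 4).HolderConjugate (ENNReal.ofReal (4 / 3)) :=
      Real.HolderConjugate.ennrealOfReal ⟨by norm_num, by norm_num, by norm_num⟩
    have : Fact (1 ≤ ENNReal.ofReal 4) := ⟨ENNReal.one_le_ofReal.2 (by norm_num)⟩
    have : Fact (1 ≤ ENNReal.ofReal (4 / 3)) := ⟨ENNReal.one_le_ofReal.2 (by norm_num)⟩
    refine cont_conv (p := ENNReal.ofReal 4) (q := ENNReal.ofReal (4 / 3)) ENNReal.ofReal_ne_top ?_
      (ker_mem hPol (by positivity) (by norm_num) (by norm_num))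
    rw [memLp_indicator_iff_restrict measurableSet_ball, ENNReal.ofReal_ofNat]
    refine hf.of_le i1.aestronglyMeasurable (ae_of_all _ fun z => ?_)
    simp only [hψ₁, norm_mul, Complex.norm_real]
    exact mul_le_of_le_one_right (norm_nonneg _) (by
      rw [Real.norm_of_nonneg ζ.nonneg]; exact ζ.le_one)
  have c2 : ContinuousOn (Q ψ₂) (ball x r) := by
    have m1 : MemLp (B.indicator ψ₂) 2 := by
      rw [memLp_indicator_iff_restrict measurableSet_ball]
      obtain ⟨C, hC⟩ := (isCompact_closedBall x (2 * r)).exists_bound_of_continuousOn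
        (cont_db hζ).continuousOn
      refine hG.of_le_mul (c := C) i2.aestronglyMeasurable ?_
      filter_upwards [ae_restrict_mem measurableSet_ball] with z hz
      simp only [hψ₂, norm_mul, Complex.norm_conj]
      rw [mul_comm]
      exact mul_le_mul_of_nonneg_right (hC z (ball_subset_closedBall hz)) (norm_nonneg _)
    have hA : MeasurableSet (closedBall (0 : ℂ) (3 * r) \ ball 0 (r / 4)) :=
      measurableSet_closedBall.diff measurableSet_ball
    have m2 : MemLp ((closedBall (0 : ℂ) (3 * r) \ ball 0 (r / 4)).indicator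
        fun w : ℂ => w⁻¹) 2 := by
      rw [memLp_indicator_iff_restrict hA]
      have : IsFiniteMeasure (volume.restrict (closedBall (0 : ℂ) (3 * r) \ ball 0 (r / 4))) :=
        isFiniteMeasure_restrict.2 ((measure_mono sdiff_subset).trans_lt
          measure_closedBall_lt_top).ne
      refine MemLp.of_bound measurable_inv.aestronglyMeasurable (r / 4)⁻¹ ?_
      filter_upwards [ae_restrict_mem hA] with w hw
      rw [norm_inv]
      exact inv_anti₀ (by positivity) (not_lt.1 fun h => hw.2 (mem_ball_zero_iff.2 h))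
    refine (cont_conv (p := 2) (q := 2) (by simp) m1 m2).continuousOn.congr fun a ha => ?_
    refine integral_congr_ae (ae_of_all _ fun z => ?_)
    simp only
    by_cases hz : a - z ∈ ball (0 : ℂ) (r / 4)
    · have h1 : z ∈ ball x (5 * r / 4) := by
        rw [mem_ball_iff_norm] at ha ⊢
        rw [mem_ball_zero_iff] at hz
        have := norm_sub_le (a - x) (a - z)
        rw [sub_sub_sub_cancel_left] at this
        linarith
      have h2 : (fun w => (ζ w : ℂ)) =ᶠ[𝓝 z] fun _ => 1 := by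
        filter_upwards [ζ.eventuallyEq_one_of_mem_ball h1] with w hw
        rw [hw]; simp
      have h3 : B.indicator ψ₂ z = 0 := by
        refine indicator_apply_eq_zero.2 fun _ => ?_
        simp [hψ₂, db, h2.fderiv_eq]
      rw [h3, zero_mul, zero_mul]
    · congr 1
      by_cases hz' : a - z ∈ closedBall (0 : ℂ) (3 * r)
      · rw [ker, indicator_of_mem hz', indicator_of_mem (mem_sdiff_of_mem hz' hz)]
      · rw [ker, indicator_of_notMem hz', indicator_of_notMem fun h => hz' h.1]
  have j0 := (integrable_indicator_iff measurableSet_ball).2 h.iC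
  have j1 := (iQ ψ₁ i1).const_mul (1 / π * (1 / 2))
  have j2 := (iQ ψ₂ i2).const_mul (1 / π)
  refine ⟨fun a => 1 / π * (1 / 2) * Q ψ₁ a + 1 / π * Q ψ₂ a,
    (continuousOn_const.mul c1.continuousOn).add (continuousOn_const.mul c2), ?_⟩
  have key := isOpen_ball.ae_eq_zero_of_integral_contDiff_smul_eq_zero (U := ball x r)
    (((j1.add j2).sub j0).locallyIntegrable.locallyIntegrableOn _) (fun φ hφ hc hs => by
      have hφ' : ContDiff ℝ (⊤ : ℕ∞) fun w => (φ w : ℂ) := ofRealCLM.contDiff.comp hφ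
      obtain ⟨k1, k2, -⟩ := hCau _ hφ' (hc.comp_left (g := Complex.ofReal) rfl)
      have sup : tsupport (fun w => (ζ w : ℂ) * cau (fun w => (φ w : ℂ)) w) ⊆
          closedBall x (3 * r / 2) :=
        (tsupport_mul_subset_left.trans
          (tsupport_comp_subset (g := Complex.ofReal) rfl ζ)).trans ζ.tsupport_eq.le
      have e0 := h.cplx (hζ.mul k1)
        ((isCompact_closedBall x _).of_isClosed_subset (isClosed_tsupport _) sup)
        (sup.trans (closedBall_subset_ball (by linarith)))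
      have e1 : ∀ z, conj (G z) * db (fun w => (ζ w : ℂ) * cau (fun w => (φ w : ℂ)) w) z =
          conj (G z) * φ z + ψ₂ z * cau (fun w => (φ w : ℂ)) z := by
        intro z
        rw [db_mul (hζ.differentiable (by simp) z) (k1.differentiable (by simp) z), k2]
        have : (ζ z : ℂ) * φ z = φ z := by
          by_cases hz : φ z = 0
          · simp [hz]
          · rw [ζ.one_of_mem_closedBall (closedBall_subset_closedBall (by
              change r ≤ 5 * r / 4; linarith) (ball_subset_closedBall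
                (hs (subset_tsupport _ hz))))]
            simp
        rw [this]
        simp only [hψ₂]
        ring
      have e2 : ∀ z, (f z : ℂ) * ((ζ z : ℂ) * cau (fun w => (φ w : ℂ)) z) =
          ψ₁ z * cau (fun w => (φ w : ℂ)) z := fun z => (mul_assoc _ _ _).symm
      simp only [e1, e2] at e0
      rw [integral_add (int_mul h.iC hφ'.continuous) (int_mul i2 k1.continuous),
        fub i1 hk hφ.continuous hc hs, fub i2 hk hφ.continuous hc hs] at e0
      obtain ⟨C, hC⟩ := hφ.continuous.bounded_above_of_compact_support hc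
      have sm : ∀ F : ℂ → ℂ, Integrable F → Integrable fun a => φ a • F a := fun F hF =>
        hF.bdd_smul C hφ.continuous.aestronglyMeasurable (ae_of_all _ hC)
      have e3 : ∫ a, φ a • (ball x (2 * r)).indicator (fun z => conj (G z)) a =
          ∫ z in ball x (2 * r), conj (G z) * φ z := by
        rw [← integral_indicator measurableSet_ball]
        refine integral_congr_ae (ae_of_all _ fun z => ?_)
        by_cases hz : z ∈ ball x (2 * r)
        · simp only [indicator_of_mem hz, real_smul]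
          ring
        · simp only [indicator_of_notMem hz, smul_zero]
      simp only [Pi.sub_apply, Pi.add_apply, smul_sub, smul_add, ← mul_smul_comm]
      have l1 := (sm _ (iQ ψ₁ i1)).const_mul (1 / π * (1 / 2))
      have l2 := (sm _ (iQ ψ₂ i2)).const_mul (1 / π)
      have l3 : Integrable fun a => 1 / π * (1 / 2) * φ a • Q ψ₁ a + 1 / π * φ a • Q ψ₂ a :=
        l1.add l2
      rw [integral_sub l3 (sm _ j0), integral_add l1 l2, integral_const_mul, integral_const_mul, e3]
      simp only [hQ, hB]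
      linear_combination -e0)
  rw [ae_restrict_iff' measurableSet_ball]
  filter_upwards [key] with z hz hzb
  have h1 := hz hzb
  simp only [Pi.sub_apply, Pi.add_apply] at h1
  rw [indicator_of_mem (ball_subset_ball (by linarith) hzb), sub_eq_zero] at h1
  exact h1

end Reg2

theorem reg2_pf (hCau : CauStmt) (hPol : PolStmt) : Reg2Stmt := by
  intro O u f G x r hO hw hG hr hB hf hdiv
  have hG' := hG.mono_measure (Measure.restrict_mono hB le_rfl)
  have : IsFiniteMeasure (volume.restrict (ball x (2 * r))) :=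
    isFiniteMeasure_restrict.2 measure_ball_lt_top.ne
  refine Reg2.main hCau hPol hr ⟨hG'.integrable one_le_two, hf.integrable (by norm_num),
    fun φ hφ hc hs => ?_, fun φ hφ hc hs => ?_⟩ hG' hf
  · have h := hdiv φ hφ hc hs
    rwa [setIntegral_eq_of_subset_of_forall_sdiff_eq_zero hO.measurableSet hB (fun z hz => by
        rw [fderiv_of_notMem_tsupport ℝ fun h => hz.2 (hs h)]; rfl),
      setIntegral_eq_of_subset_of_forall_sdiff_eq_zero hO.measurableSet hB (fun z hz => by
        rw [image_eq_zero_of_notMem_tsupport fun h => hz.2 (hs h), mul_zero])] at h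
  · have h := Reg2.curl hw hφ hc (hs.trans hB)
    rwa [setIntegral_eq_of_subset_of_forall_sdiff_eq_zero hO.measurableSet hB (fun z hz => by
        rw [fderiv_of_notMem_tsupport ℝ fun h => hz.2 (hs h)]; simp),
      setIntegral_eq_of_subset_of_forall_sdiff_eq_zero hO.measurableSet hB (fun z hz => by
        rw [fderiv_of_notMem_tsupport ℝ fun h => hz.2 (hs h)]; simp)] at h

end Vale.Agent.P128
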