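import Vale.Agent.P128.Stm

open MeasureTheory Set Metric Filter Topology Complex
open scoped ENNReal ComplexConjugate Real

noncomputable section
namespace Vale.Agent.P128

namespace Reg3

/-- the real differential attached to a complex number -/
def T : ℂ →L[ℝ] ℂ →L[ℝ] ℝ :=
  (ContinuousLinearMap.compL ℝ ℂ ℂ ℝ reCLM).comp (ContinuousLinearMap.mul ℝ ℂ)

theorem T_apply (p e : ℂ) : T p e = (p * e).re := rfl

theorem pd_mol (hMol : MolStmt) {O : Set ℂ} {u : ℂ → ℝ} {G P : ℂ → ℂ} (hO : IsOpen O)
    (hw : IsWeakGrad O u G) (hu : LocallyIntegrable (O.indicator u)) {x a : ℂ} {r : ℝ}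
    (hr : ball x r ⊆ O) (hQ : LocallyIntegrable ((ball x r).indicator P))
    (hP : ∀ᵐ z ∂(volume.restrict (ball x r)), P z = conj (G z)) (φ : ContDiffBump (0 : ℂ))
    (ha : closedBall a φ.rOut ⊆ ball x r) :
    pd (mol φ (O.indicator u)) a = mol φ ((ball x r).indicator P) a := by
  have h0 : ∀ z ∉ closedBall a φ.rOut, φ.normed volume (a - z) = 0 := fun z hz => by
    by_contra h
    have : a - z ∈ Function.support (φ.normed volume) := h
    rw [φ.support_normed_eq, mem_ball_zero_iff] at this
    exact hz (mem_closedBall_iff_norm'.2 this.le)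
  have hs : tsupport (fun z => φ.normed volume (a - z)) ⊆ closedBall a φ.rOut :=
    closure_minimal (fun z hz => by_contra fun h => hz (h0 z h)) isClosed_closedBall
  have hc : HasCompactSupport fun z => φ.normed volume (a - z) :=
    (isCompact_closedBall a _).of_isClosed_subset (isClosed_tsupport _) hs
  have hsm : ContDiff ℝ (⊤ : ℕ∞) fun z => φ.normed volume (a - z) :=
    φ.contDiff_normed.comp (contDiff_const.sub contDiff_id)
  refine pd_of_fderiv fun e => ?_
  have k := hw _ hsm hc (hs.trans (ha.trans hr)) e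
  have hd : ∀ z, fderiv ℝ (fun z => φ.normed volume (a - z)) z e =
      -fderiv ℝ (φ.normed volume) (a - z) e := fun z => by
    have h1 := ((φ.contDiff_normed (μ := volume) (n := 1)).differentiable one_ne_zero
      (a - z)).hasFDerivAt.comp z ((hasFDerivAt_id z).const_sub a)
    rw [show (fun z => φ.normed volume (a - z)) = φ.normed volume ∘ HSub.hSub a from rfl,
      h1.fderiv]
    simp
  simp only [hd, mul_neg, integral_neg, neg_inj] at k
  have hi : Integrable fun z => φ.normed volume (a - z) • (ball x r).indicator P z :=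
    hQ.integrable_smul_left_of_hasCompactSupport hsm.continuous hc
  rw [((hMol ℝ _ hu).1 φ).2.2, ((hMol ℂ _ hQ).1 φ).2.1, ← T_apply, ← T.integral_comp_comm hi,
    ContinuousLinearMap.integral_apply (T.integrable_comp hi)]
  have e1 : ∀ z, fderiv ℝ (φ.normed volume) (a - z) e • O.indicator u z =
      O.indicator (fun z => u z * fderiv ℝ (φ.normed volume) (a - z) e) z := fun z => by
    by_cases hz : z ∈ O <;> simp [hz, mul_comm]
  simp only [e1]
  rw [integral_indicator hO.measurableSet, k, ← integral_indicator hO.measurableSet]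
  refine integral_congr_ae ?_
  filter_upwards [(ae_restrict_iff' measurableSet_ball).1 hP] with z hz
  by_cases h : z ∈ ball x r
  · rw [indicator_of_mem (hr h), indicator_of_mem h, hz h, T_apply, Complex.inner]
    simp
    ring
  · rw [h0 z fun h' => h (ha h')]
    by_cases h' : z ∈ O <;> simp [h', h0 z fun h' => h (ha h')]

end Reg3

theorem reg3_pf (hMol : MolStmt) : Reg3Stmt := by
  intro O u G hO hw hu hG hP
  have hu' : LocallyIntegrable (O.indicator u) :=
    ((memLp_indicator_iff_restrict hO.measurableSet).2 hu).locallyIntegrable one_le_two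
  let φ : ℕ → ContDiffBump (0 : ℂ) := fun n =>
    ⟨1 / ((n : ℝ) + 1) / 2, 1 / ((n : ℝ) + 1), by positivity, half_lt_self (by positivity)⟩
  have hφ : Tendsto (fun n => (φ n).rOut) atTop (𝓝 0) := tendsto_one_div_add_atTop_nhds_zero_nat
  have hae := ((hMol ℝ _ hu').2 φ hφ).2 fun n => by
    show 1 / ((n : ℝ) + 1) ≤ 2 * (1 / ((n : ℝ) + 1) / 2)
    linarith
  have key : ∀ x ∈ O, ∃ (r : ℝ) (Q : ℂ → ℂ), 0 < r ∧ ContinuousOn Q (ball x r) ∧
      (∀ᵐ z, z ∈ ball x r → Q z = conj (G z)) ∧ ∀ y ∈ ball x r, HasFDerivAt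
        (fun z => limUnder atTop fun n => mol (φ n) (O.indicator u) z) (Reg3.T (Q y)) y := by
    intro x hx
    obtain ⟨r, P, hr, hs, hc, he⟩ := hP x hx
    have hb : ball x (r / 2) ⊆ ball x r := ball_subset_ball (half_le_self hr.le)
    have hQ : LocallyIntegrable ((ball x r).indicator P) := by
      refine ((memLp_indicator_iff_restrict measurableSet_ball).2 ?_).locallyIntegrable one_le_two
      exact (memLp_congr_ae he).2 (conjCLE.toContinuousLinearMap.comp_memLp'
        (hG.mono_measure (Measure.restrict_mono hs le_rfl)))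
    have hc' : ContinuousOn ((ball x r).indicator P) (ball x r) :=
      hc.congr fun z hz => indicator_of_mem hz _
    have h1 := (((hMol ℂ _ hQ).2 φ hφ).1 _ _ isOpen_ball hc' (isCompact_closedBall x (r / 2))
      (closedBall_subset_ball (half_lt_self hr))).mono ball_subset_closedBall
    have h2 := Reg3.T.uniformContinuous.comp_tendstoUniformlyOn (h1.congr
      (F' := fun n => pd (mol (φ n) (O.indicator u))) (by
        filter_upwards [hφ.eventually_lt_const (half_pos hr)] with n hn a ha
        refine (Reg3.pd_mol hMol hO hw hu' hs hQ he (φ n) (closedBall_subset_ball' ?_)).symm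
        linarith [mem_ball.1 ha]))
    have h3 : ∀ n, ∀ y ∈ ball x (r / 2), HasFDerivAt (mol (φ n) (O.indicator u))
        ((Reg3.T ∘ pd (mol (φ n) (O.indicator u))) y) y := fun n y _ => by
      have := ((((hMol ℝ _ hu').1 (φ n)).1.differentiable (by simp)) y).hasFDerivAt
      rwa [show fderiv ℝ (mol (φ n) (O.indicator u)) y = Reg3.T (pd (mol (φ n) (O.indicator u)) y)
        from ContinuousLinearMap.ext fun e => fderiv_eq_pd _ _ _] at this
    obtain ⟨x₀, h4, h5⟩ := (Measure.dense_of_ae hae).exists_mem_open isOpen_ball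
      ⟨x, mem_ball_self (half_pos hr)⟩
    refine ⟨r / 2, (ball x r).indicator P, half_pos hr, hc'.mono hb, ?_, fun y hy =>
      hasFDerivAt_of_tendstoUniformlyOn isOpen_ball h2 h3 (fun z hz => tendsto_nhds_limUnder
        (cauchy_map_iff_exists_tendsto.1 (cauchy_map_of_uniformCauchySeqOn_fderiv isOpen_ball
          (convex_ball x _).isPreconnected h2.uniformCauchySeqOn h3 h5 hz h4.cauchy_map))) hy⟩
    filter_upwards [(ae_restrict_iff' measurableSet_ball).1 he] with z hz h
    rw [indicator_of_mem (hb h), hz (hb h)]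
  refine ⟨fun z => limUnder atTop fun n => mol (φ n) (O.indicator u) z, fun x hx => ?_,
    (ae_restrict_iff' hO.measurableSet).2 ?_, (ae_restrict_iff' hO.measurableSet).2 ?_⟩
  · obtain ⟨r, Q, hr, hc, -, hd⟩ := key x hx
    exact (contDiffAt_one_iff.2 ⟨fun y => Reg3.T (Q y), _, ball_mem_nhds x hr,
      Reg3.T.continuous.comp_continuousOn hc, hd⟩).contDiffWithinAt
  · filter_upwards [hae] with z hz h
    rw [hz.limUnder_eq, indicator_of_mem h]
  · refine ae_iff.2 (measure_null_of_locally_null _ fun x hx => ?_)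
    obtain ⟨r, Q, hr, -, he, hd⟩ := key x (Classical.not_imp.1 hx).1
    refine ⟨_, inter_mem_nhdsWithin _ (ball_mem_nhds x hr), measure_mono_null ?_ (ae_iff.1 he)⟩
    intro z hz h
    refine hz.1 fun _ => ?_
    rw [← h hz.2]
    exact pd_of_fderiv fun e => by rw [(hd z hz.2).fderiv, Reg3.T_apply]

end Vale.Agent.P128
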