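import Vale.Agent.P128.Stm

open MeasureTheory Set Metric Filter Topology Complex
open scoped ENNReal ComplexConjugate Real

noncomputable section
namespace Vale.Agent.P128

namespace Rem

/-- truncation -/
def cl (a b t : ℝ) : ℝ := max a (min t b)

theorem cl_lip (a b t t' : ℝ) : |cl a b t - cl a b t'| ≤ |t - t'| := by
  simpa [Real.dist_eq, cl] using ((LipschitzWith.id.min_const b).const_max a).dist_le_mul t t'

theorem cl_mem {a b : ℝ} (h : a ≤ b) (t : ℝ) : a ≤ cl a b t ∧ cl a b t ≤ b :=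
  ⟨le_max_left _ _, max_le h (min_le_right _ _)⟩

theorem cl_eq {a b t : ℝ} (h1 : a ≤ t) (h2 : t ≤ b) : cl a b t = t := by
  rw [cl, min_eq_left h2, max_eq_right h1]

/-- the radial cutoff -/
def ps (x : ℂ) (ρ l : ℝ) (z : ℂ) : ℝ := cl 0 1 ((‖z - x‖ - (1 - l) * ρ) / (l * ρ))

/-- the interpolated function -/
def ff (u : ℂ → ℝ) (x : ℂ) (ρ l m s : ℝ) (z : ℂ) : ℝ :=
  m + ps x ρ l z * (cl (m - s) (m + s) (u z) - m)

open Classical in
/-- the competitor -/
def ww (u : ℂ → ℝ) (x : ℂ) (ρ l m s : ℝ) (z : ℂ) : ℝ :=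
  if z ∈ closedBall x ρ then ff u x ρ l m s z else u z

variable {Ω K : Set ℂ} {u : ℂ → ℝ} {Λ M : ℝ} {x : ℂ} {ρ l m s η : ℝ}

theorem ps_lip (hρ : 0 < ρ) (hl : 0 < l) (y z : ℂ) :
    |ps x ρ l y - ps x ρ l z| ≤ ‖y - z‖ / (l * ρ) := by
  refine (cl_lip _ _ _ _).trans ?_
  rw [← sub_div, abs_div, abs_of_pos (mul_pos hl hρ)]
  gcongr
  have := abs_norm_sub_norm_le (y - x) (z - x)
  rw [sub_sub_sub_cancel_right] at this ⊢
  exact this

theorem ps_zero (hρ : 0 < ρ) (hl : 0 < l) {z : ℂ} (hz : z ∈ ball x ((1 - l) * ρ)) :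
    ps x ρ l z = 0 := by
  rw [mem_ball_iff_norm] at hz
  exact max_eq_left ((min_le_left _ _).trans
    (div_nonpos_of_nonpos_of_nonneg (by linarith) (mul_pos hl hρ).le))

theorem ps_one (hρ : 0 < ρ) (hl : 0 < l) {z : ℂ} (hz : z ∉ closedBall x ρ) :
    ps x ρ l z = 1 := by
  rw [mem_closedBall_iff_norm, not_le] at hz
  rw [ps, cl, min_eq_right ((one_le_div (mul_pos hl hρ)).2 (by linarith)),
    max_eq_right zero_le_one]

theorem ff_sub (hρ : 0 < ρ) (hl : 0 < l) (hs : 0 < s) (y z : ℂ) :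
    |ff u x ρ l m s y - ff u x ρ l m s z| ≤ |u y - u z| + s / (l * ρ) * ‖y - z‖ := by
  have h1 := ps_lip (x := x) hρ hl y z
  have h2 := cl_lip (m - s) (m + s) (u y) (u z)
  have h3 := cl_mem (by linarith : m - s ≤ m + s) (u z)
  have h4 : 0 ≤ ps x ρ l y ∧ ps x ρ l y ≤ 1 := cl_mem zero_le_one _
  have h5 : |cl (m - s) (m + s) (u z) - m| ≤ s := abs_le.2 ⟨by linarith, by linarith⟩
  have e : ff u x ρ l m s y - ff u x ρ l m s z =
      ps x ρ l y * (cl (m - s) (m + s) (u y) - cl (m - s) (m + s) (u z)) +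
        (ps x ρ l y - ps x ρ l z) * (cl (m - s) (m + s) (u z) - m) := by
    unfold ff; ring
  rw [e]
  refine (abs_add_le _ _).trans (add_le_add ?_ ?_)
  · rw [abs_mul, abs_of_nonneg h4.1]
    exact (mul_le_of_le_one_left (abs_nonneg _) h4.2).trans h2
  · rw [abs_mul]
    calc _ ≤ ‖y - z‖ / (l * ρ) * s := by gcongr
      _ = _ := by ring

theorem ff_lip (hρ : 0 < ρ) (hl : 0 < l) (hs : 0 < s) {U : Set ℂ} (hu : LocallyLipschitzOn U u) :
    LocallyLipschitzOn U (ff u x ρ l m s) := by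
  intro z hz
  obtain ⟨C, t, ht, hC⟩ := hu hz
  refine ⟨C + (s / (l * ρ)).toNNReal, t, ht, LipschitzOnWith.of_dist_le_mul
    fun a ha b hb => ?_⟩
  have h1 := hC.dist_le_mul a ha b hb
  rw [Real.dist_eq, dist_eq_norm] at h1 ⊢
  refine (ff_sub hρ hl hs a b).trans ?_
  rw [NNReal.coe_add, Real.coe_toNNReal _ (by positivity), add_mul]
  linarith

theorem ff_pd (hρ : 0 < ρ) (hl : 0 < l) (hs : 0 < s) {z : ℂ} (hu : DifferentiableAt ℝ u z) :
    ‖pd (ff u x ρ l m s) z‖ ≤ ‖pd u z‖ + s / (l * ρ) := by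
  rw [norm_pd, norm_pd]
  refine le_of_forall_pos_le_add fun ε hε => ?_
  refine norm_fderiv_le_of_lip' ℝ (by positivity) ?_
  filter_upwards [hu.hasFDerivAt.isLittleO.def hε] with y hy
  have h1 := ff_sub (u := u) (x := x) (m := m) hρ hl hs y z
  have h2 := (fderiv ℝ u z).le_opNorm (y - z)
  have h3 := norm_add_le (u y - u z - fderiv ℝ u z (y - z)) (fderiv ℝ u z (y - z))
  rw [sub_add_cancel] at h3
  rw [← Real.norm_eq_abs, ← Real.norm_eq_abs] at h1
  rw [add_mul, add_mul]; linarith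

theorem ww_in (hρ : 0 < ρ) (hl : 0 < l) {z : ℂ} (hz : z ∈ ball x ((1 - l) * ρ)) :
    ww u x ρ l m s =ᶠ[𝓝 z] fun _ => m := by
  filter_upwards [isOpen_ball.mem_nhds hz] with y hy
  have : y ∈ closedBall x ρ :=
    ball_subset_closedBall (ball_subset_ball (by nlinarith [mul_pos hl hρ]) hy)
  rw [ww, if_pos this, ff, ps_zero hρ hl hy, zero_mul, add_zero]

theorem ww_mid {z : ℂ} (hz : z ∈ ball x ρ) : ww u x ρ l m s =ᶠ[𝓝 z] ff u x ρ l m s := by
  filter_upwards [isOpen_ball.mem_nhds hz] with y hy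
  rw [ww, if_pos (ball_subset_closedBall hy)]

theorem ww_out {z : ℂ} (hz : z ∉ closedBall x ρ) : ww u x ρ l m s =ᶠ[𝓝 z] u := by
  filter_upwards [isClosed_closedBall.isOpen_compl.mem_nhds hz] with y hy
  rw [ww, if_neg hy]

theorem ww_sph (hρ : 0 < ρ) (hl : 0 < l) {z : ℂ} (hc : ContinuousAt u z) (hz : |u z - m| < s) :
    ww u x ρ l m s =ᶠ[𝓝 z] ff u x ρ l m s := by
  have h1 : ContinuousAt (fun y => |u y - m|) z := (hc.sub continuousAt_const).abs
  filter_upwards [h1.eventually_lt continuousAt_const hz] with y hy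
  rw [ww]
  split_ifs with h
  · rfl
  · rw [abs_lt] at hy
    rw [ff, ps_one hρ hl h, cl_eq (by linarith) (by linarith)]; ring

theorem measurable_pd (w : ℂ → ℝ) : Measurable fun z => ‖pd w z‖ ^ 2 := by
  simp only [norm_pd]
  exact (measurable_fderiv ℝ w).norm.pow_const 2

theorem ww_bound (h : IsMS Ω K u Λ M) (hρ : 0 < ρ) (hB : closedBall x ρ ⊆ Ω) (hη : 0 < η)
    (hη1 : η ≤ 1) (hl : 0 < l) (hs : 0 < s) :
    ∀ᵐ z ∂(volume.restrict (closedBall x ρ)), ‖pd (ww u x ρ l m s) z‖ ^ 2 ≤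
      (1 + η) * ‖pd u z‖ ^ 2 +
        (ball x ((1 - l) * ρ))ᶜ.indicator (fun _ => 2 / η * (s / (l * ρ)) ^ 2) z := by
  rw [ae_restrict_iff' measurableSet_closedBall]
  filter_upwards [h.ae_notMem hB,
    measure_eq_zero_iff_ae_notMem.1 (Measure.addHaar_sphere volume x ρ)] with z h1 h2 hz
  by_cases hin : z ∈ ball x ((1 - l) * ρ)
  · rw [pd_congr (ww_in hρ hl hin), pd_const, indicator_of_notMem (not_not.2 hin)]
    simp only [norm_zero, add_zero]
    have : 0 ≤ (1 + η) * ‖pd u z‖ ^ 2 := by positivity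
    linarith
  · have hb : z ∈ ball x ρ := lt_of_le_of_ne hz h2
    rw [pd_congr (ww_mid hb), indicator_of_mem hin]
    have h3 := ff_pd (x := x) (m := m) hρ hl hs (h.diff ⟨hB hz, h1 hz⟩)
    set a := ‖pd u z‖
    set b := s / (l * ρ)
    have h4 : (a + b) ^ 2 ≤ (1 + η) * a ^ 2 + 2 / η * b ^ 2 := by
      have e : (1 + η) * a ^ 2 + 2 / η * b ^ 2 - (a + b) ^ 2 =
          ((η * a - b) ^ 2 + (1 - η) * b ^ 2) / η := by field_simp; ring
      have : 0 ≤ ((η * a - b) ^ 2 + (1 - η) * b ^ 2) / η := by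
        have := sub_nonneg.2 hη1
        positivity
      linarith
    exact (pow_le_pow_left₀ (norm_nonneg _) h3 2).trans h4

theorem real_closedBall (x : ℂ) {r : ℝ} (hr : 0 ≤ r) :
    volume.real (closedBall x r) = π * r ^ 2 := by
  simp [Measure.real, Complex.volume_closedBall, hr, mul_comm]

theorem real_ball (x : ℂ) {r : ℝ} (hr : 0 ≤ r) : volume.real (ball x r) = π * r ^ 2 := by
  simp [Measure.real, Complex.volume_ball, hr, mul_comm]

theorem ww_energy (h : IsMS Ω K u Λ M) (hρ : 0 < ρ) (hB : closedBall x ρ ⊆ Ω) (hη : 0 < η)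
    (hη1 : η ≤ 1) (hl : 0 < l) (hl1 : l < 1) (hs : 0 < s) :
    IntegrableOn (fun z => ‖pd (ww u x ρ l m s) z‖ ^ 2) (closedBall x ρ) ∧
      En (ww u x ρ l m s) (closedBall x ρ) ≤
        (1 + η) * En u (closedBall x ρ) + 4 * π * s ^ 2 / (η * l) := by
  have hb := ww_bound (m := m) h hρ hB hη hη1 hl hs
  have hm : MeasurableSet (ball x ((1 - l) * ρ))ᶜ := measurableSet_ball.compl
  have i1 := (h.int x ρ hB).const_mul (1 + η)
  have i2 : IntegrableOn ((ball x ((1 - l) * ρ))ᶜ.indicator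
      (fun _ => 2 / η * (s / (l * ρ)) ^ 2)) (closedBall x ρ) :=
    (integrableOn_const measure_closedBall_lt_top.ne).indicator hm
  have i3 : IntegrableOn (fun z => ‖pd (ww u x ρ l m s) z‖ ^ 2) (closedBall x ρ) := by
    refine (i1.add i2).mono' (measurable_pd _).aestronglyMeasurable ?_
    filter_upwards [hb] with z hz
    rw [Real.norm_eq_abs, abs_of_nonneg (sq_nonneg _)]
    exact hz
  refine ⟨i3, (integral_mono_ae i3 (i1.add i2) hb).trans ?_⟩
  simp only [Pi.add_apply]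
  rw [integral_add i1 i2, integral_const_mul, integral_indicator hm, Measure.restrict_restrict hm,
    setIntegral_const, inter_comm, ← sdiff_eq]
  have hr : 0 ≤ (1 - l) * ρ := mul_nonneg (by linarith) hρ.le
  have hsub : ball x ((1 - l) * ρ) ⊆ closedBall x ρ :=
    (ball_subset_ball (by nlinarith [mul_pos hl hρ])).trans ball_subset_closedBall
  rw [measureReal_sdiff hsub measurableSet_ball measure_closedBall_lt_top.ne,
    real_closedBall x hρ.le, real_ball x hr, smul_eq_mul]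
  refine add_le_add le_rfl ?_
  have e : (π * ρ ^ 2 - π * ((1 - l) * ρ) ^ 2) * (2 / η * (s / (l * ρ)) ^ 2) =
      4 * π * s ^ 2 / (η * l) - 2 * π * s ^ 2 / η := by field_simp; ring
  have : 0 ≤ 2 * π * s ^ 2 / η := by positivity
  linarith

open Classical in
theorem comp (h : IsMS Ω K u Λ M) (hρ : 0 < ρ) (hB : closedBall x ρ ⊆ Ω) (hl : 0 < l)
    (hs : 0 < s) {J : Set ℂ} {z₀ : ℂ} (hJ : IsClosed J) (hJs : J ⊆ sphere x ρ)
    (H : ∀ z ∈ sphere x ρ, z ∉ K → z ∉ J →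
      |u z - m| < s ∧ z ∈ connectedComponentIn (Ω \ K) z₀)
    (hi : IntegrableOn (fun z => ‖pd (ww u x ρ l m s) z‖ ^ 2) (closedBall x ρ)) :
    Comp Ω K u x ρ ((K \ ball x ((1 - l) * ρ)) ∪ J) (ww u x ρ l m s) := by
  have hsub : ball x ((1 - l) * ρ) ⊆ ball x ρ := ball_subset_ball (by nlinarith [mul_pos hl hρ])
  have hK : ∀ z, z ∉ (K \ ball x ((1 - l) * ρ)) ∪ J → z ∉ ball x ((1 - l) * ρ) → z ∉ K :=
    fun z h1 h2 h3 => h1 (Or.inl ⟨h3, h2⟩)
  have hcomp : ∀ z ∈ Ω \ K, ∀ᶠ y in 𝓝 z,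
      connectedComponentIn (Ω \ K) y = connectedComponentIn (Ω \ K) z := fun z hz => by
    filter_upwards [h.isOpen.connectedComponentIn.mem_nhds (mem_connectedComponentIn hz)] with y hy
    exact (connectedComponentIn_eq hy).symm
  refine ⟨(h.cl.sdiff isOpen_ball).union hJ, ?_, fun z _ hz _ => if_neg hz, ?_, hi, ?_,
    fun z => if z ∈ closedBall x ρ then connectedComponentIn (Ω \ K) z₀ else
      connectedComponentIn (Ω \ K) z, fun z hz => ?_, fun z _ hz _ => if_neg hz⟩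
  · ext z
    constructor
    · rintro ⟨h1 | h1, h2⟩
      · exact ⟨h1.1, h2⟩
      · exact absurd (sphere_subset_closedBall (hJs h1)) h2
    · rintro ⟨h1, h2⟩
      exact ⟨Or.inl ⟨h1, fun h3 => h2 (ball_subset_closedBall (hsub h3))⟩, h2⟩
  · refine locLip_of_local fun z hz => ?_
    by_cases hin : z ∈ ball x ((1 - l) * ρ)
    · exact ⟨fun _ => m, univ, isOpen_univ, mem_univ _,
        (LipschitzWith.const m).locallyLipschitz.locallyLipschitzOn, ww_in hρ hl hin⟩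
    have hzK : z ∈ Ω \ K := ⟨hz.1, hK z hz.2 hin⟩
    rcases lt_trichotomy (dist z x) ρ with h1 | h1 | h1
    · exact ⟨_, _, h.isOpen, hzK, ff_lip hρ hl hs h.lip, ww_mid h1⟩
    · exact ⟨_, _, h.isOpen, hzK, ff_lip hρ hl hs h.lip, ww_sph hρ hl (h.diff hzK).continuousAt
        (H z h1 hzK.2 fun h2 => hz.2 (Or.inr h2)).1⟩
    · exact ⟨_, _, h.isOpen, hzK, h.lip, ww_out (not_le.2 h1)⟩
  · refine lt_of_le_of_lt (measure_mono (t := (K ∩ closedBall x ρ) ∪ sphere x ρ) ?_)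
      ((measure_union_le _ _).trans_lt (ENNReal.add_lt_top.2 ⟨h.fin x ρ hB,
        (sphere_length_le x hρ.le).trans_lt ENNReal.ofReal_lt_top⟩))
    rintro z ⟨h1 | h1, h2⟩
    · exact Or.inl ⟨h1.1, h2⟩
    · exact Or.inr (hJs h1)
  · rcases lt_trichotomy (dist z x) ρ with h1 | h1 | h1
    · filter_upwards [isOpen_ball.mem_nhds (show z ∈ ball x ρ from h1)] with y hy
      rw [if_pos (ball_subset_closedBall hy), if_pos (show z ∈ closedBall x ρ from h1.le)]
    · have hzK : z ∈ Ω \ K := ⟨hz.1, hK z hz.2 fun h2 => (hsub h2 : dist z x < ρ).ne h1⟩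
      have h2 := (H z h1 hzK.2 fun h2 => hz.2 (Or.inr h2)).2
      filter_upwards [hcomp z hzK] with y hy
      rw [if_pos (show z ∈ closedBall x ρ from h1.le), hy, ← connectedComponentIn_eq h2, ite_self]
    · have hzB : z ∉ closedBall x ρ := not_le.2 h1
      have hzK : z ∈ Ω \ K := ⟨hz.1, hK z hz.2 fun h2 => hzB (ball_subset_closedBall (hsub h2))⟩
      filter_upwards [hcomp z hzK, isClosed_closedBall.isOpen_compl.mem_nhds hzB] with y hy hy'
      rw [if_neg hzB, if_neg hy', hy]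

theorem part1 (h : IsMS Ω K u Λ M) (hρ : 0 < ρ) (hB : closedBall x ρ ⊆ Ω) (hη : 0 < η)
    (hη1 : η ≤ 1) (hl : 0 < l) (hl1 : l < 1) {J : Set ℂ} {z₀ : ℂ} (hJ : IsClosed J)
    (hJs : J ⊆ sphere x ρ) (hs : 0 < s)
    (H : ∀ z ∈ sphere x ρ, z ∉ K → z ∉ J →
      |u z - m| < s ∧ z ∈ connectedComponentIn (Ω \ K) z₀) :
    len K (ball x ((1 - l) * ρ)) ≤ (μH[1] J).toReal + η * En u (closedBall x ρ) +
      4 * π * s ^ 2 / (η * l) + 2 * π * (Λ * M) * ρ ^ 2 := by
  obtain ⟨hi, he⟩ := ww_energy (m := m) h hρ hB hη hη1 hl hl1 hs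
  have hmin := h.min x ρ _ _ hB (comp h hρ hB hl hs hJ hJs H hi)
  have hsub : ball x ((1 - l) * ρ) ⊆ closedBall x ρ :=
    (ball_subset_ball (by nlinarith [mul_pos hl hρ])).trans ball_subset_closedBall
  have hf := h.fin x ρ hB
  have hJf : μH[1] J ≠ ⊤ :=
    ((measure_mono hJs).trans_lt ((sphere_length_le x hρ.le).trans_lt ENNReal.ofReal_lt_top)).ne
  have h1 : len K (ball x ((1 - l) * ρ)) +
      (μH[1] : Measure ℂ).real ((K ∩ closedBall x ρ) \ ball x ((1 - l) * ρ)) =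
        len K (closedBall x ρ) := by
    have := measureReal_inter_add_sdiff (μ := (μH[1] : Measure ℂ)) (s := K ∩ closedBall x ρ)
      (measurableSet_ball (x := x) (ε := (1 - l) * ρ)) hf.ne
    rwa [inter_assoc, inter_eq_right.2 hsub] at this
  have h2 : len ((K \ ball x ((1 - l) * ρ)) ∪ J) (closedBall x ρ) ≤
      (μH[1] : Measure ℂ).real ((K ∩ closedBall x ρ) \ ball x ((1 - l) * ρ)) +
        (μH[1] J).toReal := by
    refine le_trans (measureReal_mono (s₂ := ((K ∩ closedBall x ρ) \ ball x ((1 - l) * ρ)) ∪ J)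
      ?_ (measure_union_lt_top ((measure_mono sdiff_subset).trans_lt hf) hJf.lt_top).ne)
      (measureReal_union_le _ _)
    rintro z ⟨h3 | h3, h4⟩
    · exact Or.inl ⟨⟨h3.1, h4⟩, h3.2⟩
    · exact Or.inr h3
  have h3 : ∫ z in closedBall x ρ, min |ww u x ρ l m s z - u z| (2 * M) ≤ 2 * M * (π * ρ ^ 2) := by
    rw [← real_closedBall x hρ.le]
    refine (Real.le_norm_self _).trans
      (norm_setIntegral_le_of_norm_le_const measure_closedBall_lt_top fun z _ => ?_)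
    rw [Real.norm_eq_abs, abs_of_nonneg (le_min (abs_nonneg _) (by linarith [h.M0]))]
    exact min_le_right _ _
  have h4 := mul_le_mul_of_nonneg_left h3 h.L0
  linarith

end Rem

theorem rem_pf (hCirc : CircStmt) : RemStmt := by
  intro Ω K u Λ M h x ρ η l hρ hB hη hη1 hl hl1
  refine ⟨fun J m s z₀ hJ hJs hs H => Rem.part1 h hρ hB hη hη1 hl hl1 hJ hJs hs H,
    fun α β hG hαβ hβ hF => ?_⟩
  have hsΩ : sphere x ρ ⊆ Ω := sphere_subset_closedBall.trans hB
  have hosc := (hCirc Ω K u x ρ h.isOpen h.c1 hsΩ hG).2.2.2.2.2.1 α β hβ hF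
  set S := ∫ θ in (0 : ℝ)..2 * π, ‖cg u x ρ θ‖
  have hmid : (α + β) / 2 ∈ Ioo α β := ⟨by linarith, by linarith⟩
  have hS : 0 ≤ S := (abs_nonneg _).trans (hosc _ hmid _ hmid)
  have hc : Continuous (circleMap x ρ) := continuous_circleMap x ρ
  have hJ : (μH[1] (circleMap x ρ '' Icc β (α + 2 * π))).toReal ≤ (2 * π - (β - α)) * ρ := by
    refine ENNReal.toReal_le_of_le_ofReal (mul_nonneg (by linarith) hρ.le)
      ((arc_length_le x hρ.le _ _).trans (le_of_eq ?_))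
    congr 1; ring
  have key : ∀ τ : ℝ, 0 < τ → len K (ball x ((1 - l) * ρ)) ≤ (2 * π - (β - α)) * ρ +
      η * En u (closedBall x ρ) + 4 * π * (S + τ) ^ 2 / (η * l) + 2 * π * (Λ * M) * ρ ^ 2 := by
    intro τ hτ
    have := Rem.part1 (m := u (circleMap x ρ ((α + β) / 2))) (s := S + τ)
      (z₀ := circleMap x ρ ((α + β) / 2)) h hρ hB hη hη1 hl hl1
      (isCompact_Icc.image hc : IsCompact (circleMap x ρ '' Icc β (α + 2 * π))).isClosed
      (by rintro _ ⟨θ, -, rfl⟩; exact circleMap_mem_sphere x hρ.le θ) (by linarith) (by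
        intro z hz _ hzJ
        have h1 := (periodic_circleMap x ρ).image_Ioc Real.two_pi_pos α
        rw [range_circleMap, abs_of_nonneg hρ.le] at h1
        rw [← h1] at hz
        obtain ⟨θ, hθ, rfl⟩ := hz
        have hθ' : θ ∈ Ioo α β := ⟨hθ.1, not_le.1 fun h2 => hzJ ⟨θ, ⟨h2, hθ.2⟩, rfl⟩⟩
        refine ⟨(hosc _ hθ' _ hmid).trans_lt (by linarith), ?_⟩
        refine (isPreconnected_Ioo.image _ hc.continuousOn).subset_connectedComponentIn
          (mem_image_of_mem _ hmid) ?_ (mem_image_of_mem _ hθ')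
        rintro _ ⟨t, ht, rfl⟩
        exact ⟨hsΩ (circleMap_mem_sphere x hρ.le t), hF t ht⟩)
    linarith
  have hcont : Continuous fun τ : ℝ => (2 * π - (β - α)) * ρ +
      η * En u (closedBall x ρ) + 4 * π * (S + τ) ^ 2 / (η * l) + 2 * π * (Λ * M) * ρ ^ 2 := by
    fun_prop
  have := ge_of_tendsto ((hcont.tendsto 0).mono_left (nhdsWithin_le_nhds (s := Ioi 0)))
    (eventually_nhdsWithin_of_forall key)
  rwa [add_zero] at this

end Vale.Agent.P128
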