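import Vale.Agent.P128.Stm

open MeasureTheory Set Metric Filter Topology Complex
open scoped ENNReal ComplexConjugate Real Pointwise

noncomputable section
namespace Vale.Agent.P128

namespace Scale

variable {x d : ℂ}

/-- the similarity as a homeomorphism -/
def afH (x : ℂ) {d : ℂ} (hd : d ≠ 0) : ℂ ≃ₜ ℂ :=
  (Homeomorph.mulLeft₀ d hd).trans (Homeomorph.addLeft x)

theorem afH_coe (hd : d ≠ 0) : ⇑(afH x hd) = af x d := rfl

theorem cont (x d : ℂ) : Continuous (af x d) := by unfold af; fun_prop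

theorem smooth (x d : ℂ) : ContDiff ℝ 1 (af x d) := by unfold af; fun_prop

theorem surj (hd : d ≠ 0) : Function.Surjective (af x d) := (afH x hd).surjective

theorem inj (hd : d ≠ 0) : Function.Injective (af x d) := (afH x hd).injective

theorem emb (hd : d ≠ 0) : MeasurableEmbedding (af x d) := (afH x hd).measurableEmbedding

theorem af_inv (hd : d ≠ 0) (z : ℂ) : af (-x / d) d⁻¹ (af x d z) = z := by
  unfold af; field_simp; ring

theorem af_inv' (hd : d ≠ 0) (z : ℂ) : af x d (af (-x / d) d⁻¹ z) = z := by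
  unfold af; field_simp; ring

theorem sq_pos (hd : d ≠ 0) : 0 < √‖d‖ := Real.sqrt_pos.2 (norm_pos_iff.2 hd)

theorem sq_inv (hd : d ≠ 0) : √‖d⁻¹‖ * √‖d‖ = 1 := by
  rw [norm_inv, Real.sqrt_inv, inv_mul_cancel₀ (sq_pos hd).ne']

theorem sc_inv (hd : d ≠ 0) (w : ℂ → ℝ) : sc x d (sc (-x / d) d⁻¹ w) = w := by
  funext z
  rw [sc, sc, af_inv hd, div_div, sq_inv hd, div_one]

theorem sc_inv' (hd : d ≠ 0) (w : ℂ → ℝ) : sc (-x / d) d⁻¹ (sc x d w) = w := by
  funext z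
  rw [sc, sc, af_inv' hd, div_div, mul_comm, sq_inv hd, div_one]

theorem pre_inv (hd : d ≠ 0) (S : Set ℂ) : af x d ⁻¹' (af (-x / d) d⁻¹ ⁻¹' S) = S := by
  ext z; simp only [mem_preimage, af_inv hd]

theorem pre_inv' (hd : d ≠ 0) (S : Set ℂ) : af (-x / d) d⁻¹ ⁻¹' (af x d ⁻¹' S) = S := by
  ext z; simp only [mem_preimage, af_inv' hd]

/-- multiplication as a real linear equivalence -/
def mulE {d : ℂ} (hd : d ≠ 0) : ℂ ≃L[ℝ] ℂ :=
  ContinuousLinearEquiv.equivOfInverse (ContinuousLinearMap.mul ℝ ℂ d)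
    (ContinuousLinearMap.mul ℝ ℂ d⁻¹) (fun z => by simp [hd]) (fun z => by simp [hd])

theorem pd_comp (hd : d ≠ 0) (u : ℂ → ℝ) (z : ℂ) :
    pd (fun z => u (af x d z)) z = d * pd u (af x d z) := by
  refine pd_of_fderiv fun e => ?_
  have h1 : (fun z => u (af x d z)) = (fun w => u (x + w)) ∘ mulE hd := rfl
  rw [h1, ContinuousLinearEquiv.comp_right_fderiv, fderiv_comp_add_left,
    ContinuousLinearMap.comp_apply, fderiv_eq_pd]
  have h2 : (mulE hd : ℂ →L[ℝ] ℂ) e = d * e := rfl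
  have h3 : x + mulE hd z = af x d z := rfl
  rw [h2, h3]
  congr 1; ring

theorem pd_sc (hd : d ≠ 0) (u : ℂ → ℝ) (z : ℂ) :
    pd (sc x d u) z = d * pd u (af x d z) / (√‖d‖ : ℝ) := by
  have h1 : sc x d u = fun z => (√‖d‖)⁻¹ * u (af x d z) := by
    funext z; rw [sc, div_eq_inv_mul]
  rw [h1, pd_const_mul, pd_comp hd, div_eq_inv_mul, ofReal_inv]

theorem norm_pd_sc (hd : d ≠ 0) (u : ℂ → ℝ) (z : ℂ) :
    ‖pd (sc x d u) z‖ ^ 2 = ‖d‖ * ‖pd u (af x d z)‖ ^ 2 := by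
  have h0 := norm_pos_iff.2 hd
  rw [pd_sc hd, norm_div, norm_mul, norm_real, Real.norm_of_nonneg (Real.sqrt_nonneg _), div_pow,
    Real.sq_sqrt h0.le]
  field_simp

theorem map_af (hd : d ≠ 0) :
    Measure.map (af x d) volume = ENNReal.ofReal (‖d‖ ^ 2)⁻¹ • (volume : Measure ℂ) := by
  have hdet : LinearMap.det (LinearMap.mul ℝ ℂ d) = ‖d‖ ^ 2 := by
    rw [← Complex.normSq_eq_norm_sq, ← Algebra.norm_complex_apply, Algebra.norm_apply]
    rfl
  have h0 := norm_pos_iff.2 hd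
  have h1 := Measure.map_linearMap_addHaar_eq_smul_addHaar (volume : Measure ℂ)
    (f := LinearMap.mul ℝ ℂ d) (by rw [hdet]; positivity)
  rw [hdet, abs_of_nonneg (by positivity)] at h1
  have h2 : af x d = (fun w => x + w) ∘ LinearMap.mul ℝ ℂ d := rfl
  rw [h2, ← Measure.map_map (by fun_prop) (by exact (continuous_const_mul d).measurable), h1,
    Measure.map_smul, map_add_left_eq_self]

theorem integral_af (hd : d ≠ 0) (g : ℂ → ℝ) (S : Set ℂ) :
    ∫ z in af x d ⁻¹' S, g (af x d z) = (‖d‖ ^ 2)⁻¹ * ∫ z in S, g z := by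
  rw [← (emb hd).setIntegral_map, map_af hd, Measure.restrict_smul, integral_smul_measure,
    ENNReal.toReal_ofReal (by positivity), smul_eq_mul]

theorem integrable_af (hd : d ≠ 0) {g : ℂ → ℝ} {S : Set ℂ} (h : IntegrableOn g S) :
    IntegrableOn (fun z => g (af x d z)) (af x d ⁻¹' S) := by
  refine (emb hd).integrableOn_map_iff.1 ?_
  rw [map_af hd, IntegrableOn, Measure.restrict_smul]
  exact h.smul_measure ENNReal.ofReal_ne_top

theorem En_sc (hd : d ≠ 0) (u : ℂ → ℝ) (S : Set ℂ) :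
    En (sc x d u) (af x d ⁻¹' S) = En u S / ‖d‖ := by
  have h0 := norm_pos_iff.2 hd
  unfold En
  simp only [norm_pd_sc hd]
  rw [integral_const_mul, integral_af hd fun z => ‖pd u z‖ ^ 2]
  field_simp

theorem int_sc (hd : d ≠ 0) {u : ℂ → ℝ} {S : Set ℂ}
    (h : IntegrableOn (fun z => ‖pd u z‖ ^ 2) S) :
    IntegrableOn (fun z => ‖pd (sc x d u) z‖ ^ 2) (af x d ⁻¹' S) := by
  simp only [norm_pd_sc hd]
  exact (integrable_af hd h).const_mul _

theorem haus (hd : d ≠ 0) (S : Set ℂ) : μH[1] S = ‖d‖ₑ * μH[1] (af x d ⁻¹' S) := by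
  have h1 : S = (fun w => x + w) '' (d • (af x d ⁻¹' S)) := by
    rw [← image_smul, image_image]
    exact (image_preimage_eq S (surj hd)).symm
  conv_lhs => rw [h1]
  rw [(isometry_add_left x).hausdorffMeasure_image (Or.inl zero_le_one),
    Measure.hausdorffMeasure_smul₀ zero_le_one hd, NNReal.rpow_one]
  rfl

theorem haus_fin (hd : d ≠ 0) {S : Set ℂ} (h : μH[1] S < ⊤) : μH[1] (af x d ⁻¹' S) < ⊤ := by
  rw [haus (x := x) hd] at h
  exact ENNReal.lt_top_of_mul_ne_top_right h.ne (by simpa using hd)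

theorem len_af (hd : d ≠ 0) (K S : Set ℂ) :
    len (af x d ⁻¹' K) (af x d ⁻¹' S) = len K S / ‖d‖ := by
  have h0 := norm_pos_iff.2 hd
  unfold len
  rw [haus (x := x) hd (K ∩ S), ENNReal.toReal_mul, toReal_enorm, preimage_inter]
  field_simp

theorem dist_af (x d y z : ℂ) : dist (af x d z) (af x d y) = ‖d‖ * dist z y := by
  rw [dist_eq_norm, dist_eq_norm, ← norm_mul]
  congr 1; unfold af; ring

theorem cball (hd : d ≠ 0) (y : ℂ) (r : ℝ) :
    af x d ⁻¹' closedBall (af x d y) (‖d‖ * r) = closedBall y r := by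
  ext z
  rw [mem_preimage, mem_closedBall, mem_closedBall, dist_af,
    mul_le_mul_iff_right₀ (norm_pos_iff.2 hd)]

theorem oball (hd : d ≠ 0) (y : ℂ) (r : ℝ) :
    af x d ⁻¹' ball (af x d y) (‖d‖ * r) = ball y r := by
  ext z
  rw [mem_preimage, mem_ball, mem_ball, dist_af, mul_lt_mul_iff_right₀ (norm_pos_iff.2 hd)]

theorem comp_af (hd : d ≠ 0) (S : Set ℂ) (z : ℂ) :
    af x d ⁻¹' connectedComponentIn S (af x d z) = connectedComponentIn (af x d ⁻¹' S) z := by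
  by_cases hz : z ∈ af x d ⁻¹' S
  · have h := (afH x hd).image_connectedComponentIn hz
    rw [afH_coe, image_preimage_eq S (surj hd)] at h
    rw [← h, preimage_image_eq _ (inj hd)]
  · rw [connectedComponentIn_eq_empty hz,
      connectedComponentIn_eq_empty (show af x d z ∉ S from hz), preimage_empty]

theorem lip_af (x d : ℂ) : LipschitzWith ‖d‖₊ (af x d) :=
  LipschitzWith.of_dist_le_mul fun z y => (dist_af x d y z).le

theorem locLip (x d : ℂ) {O : Set ℂ} {w : ℂ → ℝ} (h : LocallyLipschitzOn O w) :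
    LocallyLipschitzOn (af x d ⁻¹' O) (sc x d w) := by
  intro z hz
  obtain ⟨C, t, ht, hl⟩ := h hz
  have h1 : LipschitzWith ‖(√‖d‖)⁻¹‖₊ fun s : ℝ => s / √‖d‖ := by
    simpa only [div_eq_inv_mul, smul_eq_mul] using lipschitzWith_smul (β := ℝ) (√‖d‖)⁻¹
  refine ⟨_, af x d ⁻¹' t, ?_, h1.comp_lipschitzOnWith
    (hl.comp (lip_af x d).lipschitzOnWith (mapsTo_preimage _ _))⟩
  exact ((cont x d).continuousWithinAt.tendsto_nhdsWithin (mapsTo_preimage _ _)) ht

theorem comp_fwd (hd : d ≠ 0) {Ω K L : Set ℂ} {u w : ℂ → ℝ} {y : ℂ} {r : ℝ}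
    (h : Comp Ω K u (af x d y) (‖d‖ * r) L w) :
    Comp (af x d ⁻¹' Ω) (af x d ⁻¹' K) (sc x d u) y r (af x d ⁻¹' L) (sc x d w) := by
  have hb := cball (x := x) hd y r
  have hm : ∀ z, z ∉ closedBall y r → af x d z ∉ closedBall (af x d y) (‖d‖ * r) := by
    intro z hz; rw [← hb] at hz; exact hz
  refine ⟨h.cl.preimage (cont x d), ?_, fun z hz h1 h2 => ?_, locLip x d h.lip, ?_, ?_, ?_⟩
  · rw [← hb, ← preimage_sdiff, ← preimage_sdiff, h.out]
  · rw [sc, sc, h.eq _ hz (hm z h1) h2]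
  · rw [← hb]; exact int_sc hd h.int
  · rw [← hb, ← preimage_inter]; exact haus_fin hd h.fin
  · obtain ⟨b, hb1, hb2⟩ := h.lab
    refine ⟨fun z => af x d ⁻¹' b (af x d z), fun z hz => ?_, fun z hz h1 h2 => ?_⟩
    · filter_upwards [(cont x d).continuousAt.eventually (hb1 _ hz)] with p hp
      rw [hp]
    · simp only
      rw [hb2 _ hz (hm z h1) h2, comp_af hd, preimage_sdiff]

theorem comp_bwd (hd : d ≠ 0) {Ω K L : Set ℂ} {u w : ℂ → ℝ} {y : ℂ} {r : ℝ}
    (h : Comp (af x d ⁻¹' Ω) (af x d ⁻¹' K) (sc x d u) y r L w) :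
    Comp Ω K u (af x d y) (‖d‖ * r) (af (-x / d) d⁻¹ ⁻¹' L) (sc (-x / d) d⁻¹ w) := by
  have h1 : ‖d⁻¹‖ * (‖d‖ * r) = r := by
    rw [norm_inv, inv_mul_cancel_left₀ (norm_pos_iff.2 hd).ne']
  have h2 := comp_fwd (x := -x / d) (inv_ne_zero hd) (y := af x d y) (r := ‖d‖ * r)
    (by rw [af_inv hd, h1]; exact h)
  rwa [pre_inv' hd, pre_inv' hd, sc_inv' hd] at h2

theorem fid (hd : d ≠ 0) (u w : ℂ → ℝ) (M : ℝ) (S : Set ℂ) :
    ∫ z in af x d ⁻¹' S, min |sc x d w z - sc x d u z| (2 * (M / √‖d‖)) =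
      (‖d‖ ^ 2)⁻¹ * ((∫ z in S, min |w z - u z| (2 * M)) / √‖d‖) := by
  rw [← integral_div, ← integral_af (x := x) hd]
  refine integral_congr_ae (Eventually.of_forall fun z => ?_)
  simp only [sc]
  rw [← sub_div, abs_div, abs_of_pos (sq_pos hd), ← mul_div_assoc,
    min_div_div_right (sq_pos hd).le]

theorem isMS (hd : d ≠ 0) {Ω K : Set ℂ} {u : ℂ → ℝ} {Λ M : ℝ} (h : IsMS Ω K u Λ M) :
    IsMS (af x d ⁻¹' Ω) (af x d ⁻¹' K) (sc x d u) (Λ * ‖d‖ * √‖d‖) (M / √‖d‖) := by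
  have h0 := norm_pos_iff.2 hd
  have hs := sq_pos hd
  have hL := h.L0
  have hM := h.M0
  have hsub : ∀ y r, closedBall y r ⊆ af x d ⁻¹' Ω → closedBall (af x d y) (‖d‖ * r) ⊆ Ω := by
    intro y r hy
    rw [← cball (x := x) hd] at hy
    exact (surj hd).preimage_subset_preimage_iff.1 hy
  have hLM : Λ * ‖d‖ * √‖d‖ * (M / √‖d‖) = ‖d‖ * (Λ * M) := by field_simp
  refine ⟨h.op.preimage (cont x d), h.cl.preimage (cont x d), ?_, by positivity, by positivity,
    fun z hz => ?_, fun y r hy => ?_, fun y r hy => ?_, fun y r hy => ?_,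
    fun y r L w hy hc => ?_, fun y hy hy' r hr => ?_⟩
  · exact (h.c1.comp (smooth x d).contDiffOn fun z hz => hz).div_const _
  · have e : Λ * ‖d‖ * √‖d‖ * |sc x d u z| = ‖d‖ * (Λ * |u (af x d z)|) := by
      rw [sc, abs_div, abs_of_pos hs]; field_simp
    rw [e, hLM]
    exact mul_le_mul_of_nonneg_left (h.bd _ hz) h0.le
  · have h1 := h.sz _ _ (hsub y r hy)
    rw [Real.sqrt_mul h0.le] at h1
    rw [hLM]
    nlinarith [mul_le_mul_of_nonneg_left h1 h0.le]
  · rw [← cball (x := x) hd]; exact int_sc hd (h.int _ _ (hsub y r hy))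
  · rw [← cball (x := x) hd, ← preimage_inter]; exact haus_fin hd (h.fin _ _ (hsub y r hy))
  · have h1 := h.min _ _ _ _ (hsub y r hy) (comp_bwd hd hc)
    rw [← sc_inv (x := x) hd w, ← pre_inv (x := x) hd L, ← cball (x := x) hd y r, En_sc hd,
      En_sc hd, len_af hd, len_af hd, fid hd]
    have h2 := div_le_div_of_nonneg_right h1 h0.le
    refine le_of_eq_of_le (add_div _ _ _).symm (h2.trans (le_of_eq ?_))
    field_simp
  · have h1 := h.red _ hy hy' (‖d‖ * r) (mul_pos h0 hr)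
    rw [haus (x := x) hd, preimage_inter, oball hd] at h1
    exact pos_iff_ne_zero.2 fun h2 => by simp [h2] at h1

end Scale

theorem scale_pf : ScaleStmt := fun _ _ hd =>
  ⟨Scale.pd_sc hd, fun u S _ => Scale.En_sc hd u S, Scale.haus hd, Scale.len_af hd,
    fun y r => ⟨Scale.cball hd y r, Scale.oball hd y r⟩, Scale.comp_af hd,
    fun _ _ _ _ _ h => Scale.isMS hd h⟩

end Vale.Agent.P128
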