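import Vale.Agent.P128.Stm

open MeasureTheory Set Metric Filter Topology Complex
open scoped ENNReal ComplexConjugate Real

noncomputable section
namespace Vale.Agent.P128

namespace Slc

/-- at most one balanced point lies in a small disc -/
theorem fib {K B S : Set ℂ} {x : ℂ} {n : ℕ} {η ρ : ℝ} (h : Bal K x n η ρ)
    (hB : ∀ p ∈ B, ∀ q ∈ B, ‖p - q‖ < ρ) (hS : (K ∩ sphere x ρ) \ B ⊆ S) :
    (n : ℝ≥0∞) ≤ ((S ∩ (fun z => ‖z - x‖) ⁻¹' {ρ}).encard : ℝ≥0∞) +
      ((fun z => ‖z - x‖) '' (K ∩ B)).indicator 1 ρ := by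
  classical
  obtain ⟨P, hP, rfl, hb⟩ := h
  have hm : ∀ p ∈ P, p ∈ K ∧ ‖p - x‖ = ρ := fun p hp => by
    have : p ∈ K ∩ sphere x ρ := hP ▸ Finset.mem_coe.2 hp
    exact ⟨this.1, mem_sphere_iff_norm.1 this.2⟩
  rw [← Finset.card_filter_add_card_filter_not (s := P) fun p => p ∉ B, Nat.cast_add]
  refine add_le_add ?_ ?_
  · rw [← ENat.toENNReal_coe, ENat.toENNReal_le, ← Set.encard_coe_eq_coe_finsetCard]
    refine Set.encard_le_encard fun p hp => ?_
    obtain ⟨h1, h2⟩ := Finset.mem_filter.1 (Finset.mem_coe.1 hp)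
    exact ⟨hS ⟨hP ▸ Finset.mem_coe.2 h1, h2⟩, (hm p h1).2⟩
  · by_cases hρ : ρ ∈ (fun z => ‖z - x‖) '' (K ∩ B)
    · rw [indicator_of_mem hρ, Pi.one_apply, Nat.cast_le_one, Finset.card_le_one]
      intro p hp q hq
      obtain ⟨h1, h2⟩ := Finset.mem_filter.1 hp
      obtain ⟨h3, h4⟩ := Finset.mem_filter.1 hq
      by_contra hc
      exact absurd ((hb p h1 q h3).2 hc) (not_le.2 (hB p (not_not.1 h2) q (not_not.1 h4)))
    · rw [Finset.filter_eq_empty_iff.2 fun p hp hc =>
        hρ ⟨p, ⟨(hm p hp).1, not_not.1 hc⟩, (hm p hp).2⟩]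
      simp

/-- the lower bound for the length outside the small disc -/
theorem low (hEil : EilStmt) {K B S : Set ℂ} {x : ℂ} {n : ℕ} {η : ℝ → ℝ} {a r : ℝ}
    (hH : MeasurableSet ((fun z => ‖z - x‖) '' (K ∩ B)))
    (hB : ∀ p ∈ B, ∀ q ∈ B, ‖p - q‖ ≤ a) (hS : ∀ ρ ∈ Ioo a r, (K ∩ sphere x ρ) \ B ⊆ S) :
    n * ENNReal.ofReal (r - a) ≤ μH[1] S + volume ((fun z => ‖z - x‖) '' (K ∩ B)) +
      n * volume {ρ ∈ Ioo a r | ¬ Bal K x n (η ρ) ρ} := by
  set H := (fun z => ‖z - x‖) '' (K ∩ B)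
  set N := {ρ ∈ Ioo a r | ¬ Bal K x n (η ρ) ρ}
  have hG : MeasurableSet (Ioo a r \ toMeasurable volume N) :=
    measurableSet_Ioo.diff (measurableSet_toMeasurable _ _)
  have m1 : Measurable ((Ioo a r \ toMeasurable volume N).indicator fun _ => (n : ℝ≥0∞)) :=
    measurable_const.indicator hG
  have m2 : Measurable (H.indicator (1 : ℝ → ℝ≥0∞)) := measurable_one.indicator hH
  have hf : LipschitzWith 1 fun z : ℂ => ‖z - x‖ := by
    simpa only [dist_eq_norm] using LipschitzWith.dist_left x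
  have h1 := hEil.1 S _ (fun ρ => (Ioo a r \ toMeasurable volume N).indicator
    (fun _ => (n : ℝ≥0∞)) ρ - H.indicator 1 ρ) hf (m1.sub m2).aemeasurable
    (Eventually.of_forall fun ρ => by
      rw [tsub_le_iff_right]
      by_cases hρ : ρ ∈ Ioo a r \ toMeasurable volume N
      · rw [indicator_of_mem hρ]
        have hb : Bal K x n (η ρ) ρ := by
          by_contra hc
          exact hρ.2 (subset_toMeasurable _ _ ⟨hρ.1, hc⟩)
        exact fib hb (fun p hp q hq => (hB p hp q hq).trans_lt hρ.1.1) (hS ρ hρ.1)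
      · rw [indicator_of_notMem hρ]
        exact zero_le)
  have h2 : n * volume (Ioo a r \ toMeasurable volume N) ≤ μH[1] S + volume H := by
    rw [← lintegral_indicator_const hG, ← lintegral_indicator_one hH]
    refine le_trans ?_ (add_le_add_left h1 _)
    rw [← lintegral_add_right _ m2]
    exact lintegral_mono fun ρ => le_tsub_add
  have h3 : ENNReal.ofReal (r - a) ≤ volume (Ioo a r \ toMeasurable volume N) + volume N := by
    rw [← Real.volume_Ioo, ← measure_toMeasurable N]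
    exact (measure_mono (subset_diff_union _ _)).trans (measure_union_le _ _)
  calc _ ≤ n * (volume (Ioo a r \ toMeasurable volume N) + volume N) := mul_le_mul_right h3 _
    _ ≤ _ := by rw [mul_add]; exact add_le_add_left h2 _

end Slc

theorem slc_pf (hEil : EilStmt) : SlcStmt := by
  refine ⟨8, by norm_num, fun K x n b ε γ hn g0 g1 hC y t hy hb t0 ht => ?_⟩
  obtain ⟨s, hs⟩ : ∃ s, s = ‖y - x‖ := ⟨_, rfl⟩
  rw [← hs] at hb ht ⊢
  have s0 : 0 < s := by linarith
  have b0 := hC.pos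
  have e0 := hC.e0
  have hin : ∀ z ∈ closedBall y t, s - t ≤ ‖z - x‖ ∧ ‖z - x‖ ≤ s + t := fun z hz => by
    have h1 := abs_norm_sub_norm_le (z - x) (y - x)
    rw [sub_sub_sub_cancel_right, ← hs] at h1
    have h2 := abs_le.1 (h1.trans (mem_closedBall_iff_norm.1 hz))
    constructor <;> linarith [h2.1, h2.2]
  set H := (fun z => ‖z - x‖) '' (K ∩ closedBall y t)
  have hHc : IsCompact H :=
    ((isCompact_closedBall y t).inter_left hC.cl).image (by fun_prop)
  have hH : (volume H).toReal ≤ 2 * t := by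
    refine ENNReal.toReal_le_of_le_ofReal (by linarith) ?_
    refine (measure_mono (t := Icc (s - t) (s + t)) ?_).trans ?_
    · rintro _ ⟨z, hz, rfl⟩
      exact hin z hz.2
    · rw [Real.volume_Icc]
      exact ENNReal.ofReal_le_ofReal (by linarith)
  suffices h : len K (closedBall y t) ≤ (volume H).toReal + 8 * ε * (s / b) ^ γ * s from
    ⟨h, by linarith⟩
  obtain ⟨r, hr⟩ : ∃ r, r = 4 / 3 * s := ⟨_, rfl⟩
  have r0 : 0 < r := by linarith
  have rb : r ≤ b := by linarith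
  obtain ⟨η, hη⟩ : ∃ η, η = ε * (r / b) ^ γ := ⟨_, rfl⟩
  have η0 : 0 ≤ η := by rw [hη]; positivity
  have η1 : η ≤ 4 / 3 * (ε * (s / b) ^ γ) := by
    have h1 : (4 / 3 : ℝ) ^ γ ≤ 4 / 3 := by
      simpa using Real.rpow_le_rpow_of_exponent_le (by norm_num : (1 : ℝ) ≤ 4 / 3) g1
    rw [hη, hr, mul_div_assoc, Real.mul_rpow (by norm_num) (by positivity), mul_left_comm]
    exact mul_le_mul_of_nonneg_right h1 (by positivity)
  have η2 : ε * (r / 2 / b) ^ γ ≤ η := by
    rw [hη]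
    refine mul_le_mul_of_nonneg_left (Real.rpow_le_rpow (by positivity) ?_ g0.le) e0
    exact div_le_div_of_nonneg_right (by linarith) b0.le
  have l1 := (abs_le.1 (hC.le r ⟨r0, rb⟩)).2
  have l2 := (abs_le.1 (hC.le (r / 2) ⟨by linarith, by linarith⟩)).1
  have l3 := hC.bal r ⟨r0, rb⟩
  rw [← hη] at l1 l3
  set S := K ∩ ((closedBall x r \ closedBall x (r / 2)) \ closedBall y t)
  have fin : μH[1] (K ∩ closedBall x r) ≠ ⊤ :=
    ((measure_mono (inter_subset_inter_right _ (closedBall_subset_closedBall rb))).trans_lt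
      hC.fin).ne
  have l4 := Slc.low hEil (K := K) (B := closedBall y t) (S := S) (x := x) (n := n)
    (η := fun ρ => ε * (ρ / b) ^ γ) (a := r / 2) (r := r) hHc.measurableSet
    (fun p hp q hq => by
      have := norm_sub_le_norm_sub_add_norm_sub p y q
      rw [norm_sub_rev y q] at this
      linarith [mem_closedBall_iff_norm.1 hp, mem_closedBall_iff_norm.1 hq])
    (fun ρ hρ z hz => by
      have h1 := mem_sphere_iff_norm.1 hz.1.2
      refine ⟨hz.1.1, ⟨mem_closedBall_iff_norm.2 (by linarith [hρ.2]), fun hc => ?_⟩, hz.2⟩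
      linarith [mem_closedBall_iff_norm.1 hc, hρ.1])
  have mK := hC.cl.measurableSet
  have sub : (K ∩ closedBall x (r / 2) ∪ K ∩ closedBall y t) ∪ S ⊆ K ∩ closedBall x r := by
    rintro z ((hz | hz) | hz)
    · exact ⟨hz.1, closedBall_subset_closedBall (by linarith) hz.2⟩
    · exact ⟨hz.1, mem_closedBall_iff_norm.2 (by linarith [(hin z hz.2).2])⟩
    · exact ⟨hz.1, hz.2.1.1⟩
  have l5 : μH[1] (K ∩ closedBall x (r / 2)) + μH[1] (K ∩ closedBall y t) + μH[1] S ≤
      μH[1] (K ∩ closedBall x r) := by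
    refine le_trans (le_of_eq ?_) (measure_mono sub)
    rw [measure_union' _ ((mK.inter measurableSet_closedBall).union
      (mK.inter measurableSet_closedBall)), measure_union' _ (mK.inter measurableSet_closedBall)]
    · refine disjoint_left.2 fun z h1 h2 => ?_
      linarith [mem_closedBall_iff_norm.1 h1.2, (hin z h2.2).1]
    · refine disjoint_left.2 ?_
      rintro z (h1 | h1) h2
      · exact h2.2.1.2 h1.2
      · exact h2.2.2 h1.2
  have f1 := ne_top_of_le_ne_top fin l5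
  obtain ⟨f2, f3⟩ := ENNReal.add_ne_top.1 f1
  obtain ⟨f4, f5⟩ := ENNReal.add_ne_top.1 f2
  have l6 := ENNReal.toReal_mono fin l5
  rw [ENNReal.toReal_add f2 f3, ENNReal.toReal_add f4 f5] at l6
  have f6 := hHc.measure_lt_top (μ := volume) |>.ne
  have f7 : (n : ℝ≥0∞) * ENNReal.ofReal (η * r) ≠ ⊤ :=
    ENNReal.mul_ne_top (ENNReal.natCast_ne_top n) ENNReal.ofReal_ne_top
  have l7 := ENNReal.toReal_mono (ENNReal.add_ne_top.2 ⟨ENNReal.add_ne_top.2 ⟨f3, f6⟩, f7⟩)
    (l4.trans (add_le_add_right (mul_le_mul_right l3 _) _))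
  rw [ENNReal.toReal_add (ENNReal.add_ne_top.2 ⟨f3, f6⟩) f7, ENNReal.toReal_add f3 f6,
    ENNReal.toReal_mul, ENNReal.toReal_mul, ENNReal.toReal_ofReal (by linarith),
    ENNReal.toReal_ofReal (by positivity), ENNReal.toReal_natCast] at l7
  have n3 : (n : ℝ) ≤ 3 := by exact_mod_cast hn
  have k1 := mul_le_mul_of_nonneg_right n3 (by positivity : 0 ≤ η * r)
  have k2 := mul_le_mul_of_nonneg_right η2 (by positivity : 0 ≤ r / 2)
  have k3 := mul_le_mul_of_nonneg_right η1 s0.le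
  have k4 : η * r = 4 / 3 * (η * s) := by rw [hr]; ring
  unfold len at l1 l2 ⊢
  nlinarith

end Vale.Agent.P128
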