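import Vale.Agent.P128.Stm

open MeasureTheory Set Metric Filter Topology Complex
open scoped ENNReal ComplexConjugate Real

noncomputable section
namespace Vale.Agent.P128

namespace Slide

variable {K : Set ℂ} {u : ℂ → ℝ} {z₀ c : ℂ}

theorem other (hK : IsClosed K) {z : ℂ} (hz : z ∉ K) (hU : z ∉ connectedComponentIn Kᶜ z₀) :
    IsOpen (connectedComponentIn Kᶜ z) ∧ z ∈ connectedComponentIn Kᶜ z ∧
      ∀ y ∈ connectedComponentIn Kᶜ z, y ∉ connectedComponentIn Kᶜ z₀ := by
  refine ⟨hK.isOpen_compl.connectedComponentIn, mem_connectedComponentIn hz, fun y h1 h2 => hU ?_⟩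
  rw [connectedComponentIn_eq h2, ← connectedComponentIn_eq h1]
  exact mem_connectedComponentIn hz

theorem ind_ev {F : Type} [Zero F] (hK : IsClosed K) (f : ℂ → F) {z : ℂ}
    (hU : z ∈ connectedComponentIn Kᶜ z₀) :
    (connectedComponentIn Kᶜ z₀).indicator f =ᶠ[𝓝 z] f := by
  filter_upwards [hK.isOpen_compl.connectedComponentIn.mem_nhds hU] with y hy
  exact indicator_of_mem hy f

theorem ind_ev0 {F : Type} [Zero F] (hK : IsClosed K) (f : ℂ → F) {z : ℂ} (hz : z ∉ K)
    (hU : z ∉ connectedComponentIn Kᶜ z₀) :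
    (connectedComponentIn Kᶜ z₀).indicator f =ᶠ[𝓝 z] fun _ => 0 := by
  obtain ⟨h1, h2, h3⟩ := other hK hz hU
  filter_upwards [h1.mem_nhds h2] with y hy
  exact indicator_of_notMem (h3 y hy) f

theorem weak (hEl : ElStmt) (h : GM K u) (hc : ∀ z ∈ connectedComponentIn Kᶜ z₀, pd u z = c)
    {ψ : ℂ → ℝ} (h1 : ContDiff ℝ 1 ψ) (h2 : HasCompactSupport ψ) :
    ∫ z, (connectedComponentIn Kᶜ z₀).indicator (fun z => fderiv ℝ ψ z (conj c)) z = 0 := by
  set U := connectedComponentIn Kᶜ z₀ with hU
  have hUo : IsOpen U := h.cl.isOpen_compl.connectedComponentIn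
  obtain ⟨r, hr⟩ := h2.isCompact.isBounded.subset_closedBall (0 : ℂ)
  have hae : ∀ᵐ z, pd (U.indicator ψ) z = U.indicator (pd ψ) z := by
    filter_upwards [measure_eq_zero_iff_ae_notMem.1 h.null] with z hz
    by_cases hzU : z ∈ U
    · rw [pd_congr (ind_ev h.cl ψ hzU), indicator_of_mem hzU]
    · rw [pd_congr (ind_ev0 h.cl ψ hz hzU), indicator_of_notMem hzU, pd_const]
  have hpc : Continuous (pd ψ) := continuousOn_univ.1 (continuousOn_pd isOpen_univ h1.contDiffOn)
  have h3 := hEl univ K u 0 1 h 0 r (U.indicator ψ) (subset_univ _) ?_ ?_ ?_ ?_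
  · simp only [zero_mul, abs_zero, integral_zero, abs_nonpos_iff] at h3
    rw [← h3, ← setIntegral_eq_integral_of_forall_compl_eq_zero (s := closedBall 0 r)]
    · refine integral_congr_ae (ae_restrict_of_ae ?_)
      filter_upwards [hae] with z hz
      rw [hz]
      by_cases hzU : z ∈ U
      · rw [indicator_of_mem hzU, indicator_of_mem hzU, hc z hzU, fderiv_eq_pd]
        simp only [mul_re, conj_re, conj_im]
        ring
      · rw [indicator_of_notMem hzU, indicator_of_notMem hzU]
        simp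
    · intro z hz
      have h4 : fderiv ℝ ψ z = 0 := fderiv_of_notMem_tsupport ℝ fun h' => hz (hr h')
      by_cases hzU : z ∈ U
      · rw [indicator_of_mem hzU, h4]
        rfl
      · exact indicator_of_notMem hzU _
  · refine locLip_of_local fun z hz => ?_
    by_cases hzU : z ∈ U
    · exact ⟨ψ, univ, isOpen_univ, mem_univ _, locLip_of_contDiffOn isOpen_univ h1.contDiffOn,
        ind_ev h.cl ψ hzU⟩
    · exact ⟨fun _ => 0, univ, isOpen_univ, mem_univ _,
        locLip_of_contDiffOn isOpen_univ contDiffOn_const, ind_ev0 h.cl ψ hz.2 hzU⟩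
  · intro z hz
    have h4 : ψ z = 0 := image_eq_zero_of_notMem_tsupport fun h' => hz (hr h')
    by_cases hzU : z ∈ U
    · rw [indicator_of_mem hzU, h4]
    · exact indicator_of_notMem hzU _
  · have h4 : IntegrableOn (fun z => ‖pd ψ z‖ ^ 2) (closedBall 0 r) :=
      (hpc.norm.pow 2).continuousOn.integrableOn_compact (isCompact_closedBall _ _)
    refine (h4.indicator hUo.measurableSet).congr (ae_restrict_of_ae ?_)
    filter_upwards [hae] with z hz
    rw [hz]
    by_cases hzU : z ∈ U
    · rw [indicator_of_mem hzU, indicator_of_mem hzU]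
    · rw [indicator_of_notMem hzU, indicator_of_notMem hzU]
      simp
  · simp only [zero_mul]
    exact integrableOn_zero

theorem locInt (hK : IsClosed K) :
    LocallyIntegrable ((connectedComponentIn Kᶜ z₀).indicator fun _ => (1 : ℝ)) :=
  (locallyIntegrable_const 1).indicator hK.isOpen_compl.connectedComponentIn.measurableSet

theorem mol_const (hEl : ElStmt) (hMol : MolStmt) (h : GM K u)
    (hc : ∀ z ∈ connectedComponentIn Kᶜ z₀, pd u z = c) (φ : ContDiffBump (0 : ℂ)) (a : ℂ)
    (t : ℝ) : mol φ ((connectedComponentIn Kᶜ z₀).indicator fun _ => (1 : ℝ)) (a + t * conj c) =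
      mol φ ((connectedComponentIn Kᶜ z₀).indicator fun _ => (1 : ℝ)) a := by
  obtain ⟨h1, -, h2⟩ := (hMol ℝ _ (locInt (z₀ := z₀) h.cl)).1 φ
  set F := mol φ ((connectedComponentIn Kᶜ z₀).indicator fun _ => (1 : ℝ)) with hF
  have hφ : ContDiff ℝ 1 (φ.normed volume) := φ.contDiff_normed
  have h3 : ∀ b, fderiv ℝ F b (conj c) = 0 := fun b => by
    have k1 : ContDiff ℝ 1 fun z => φ.normed volume (b - z) :=
      hφ.comp (contDiff_const.sub contDiff_id)
    have k2 : HasCompactSupport fun z => φ.normed volume (b - z) :=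
      φ.hasCompactSupport_normed.comp_homeomorph (Homeomorph.subLeft b)
    have k3 := weak hEl h hc k1 k2
    rw [h2, ← neg_eq_zero, ← integral_neg, ← k3]
    refine integral_congr_ae (Eventually.of_forall fun z => ?_)
    have k4 : HasFDerivAt (fun z => φ.normed volume (b - z))
        ((fderiv ℝ (φ.normed volume) (b - z)).comp (-ContinuousLinearMap.id ℝ ℂ)) z :=
      (hφ.differentiable one_ne_zero (b - z)).hasFDerivAt.comp z ((hasFDerivAt_id z).const_sub b)
    by_cases hz : z ∈ connectedComponentIn Kᶜ z₀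
    · simp [indicator_of_mem hz, k4.fderiv]
    · simp [indicator_of_notMem hz]
  have h4 : ∀ s : ℝ, HasDerivAt (fun s : ℝ => F (a + s * conj c)) 0 s := fun s => by
    have k1 : HasDerivAt (fun s : ℝ => a + s * conj c) (conj c) s := by
      simpa using ((ofRealCLM.hasDerivAt (x := s)).mul_const (conj c)).const_add a
    have k2 := (h1.differentiable (by simp) (a + s * conj c)).hasFDerivAt.comp_hasDerivAt s k1
    rwa [h3] at k2
  have h5 := is_const_of_deriv_eq_zero (fun s => (h4 s).differentiableAt)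
    (fun s => (h4 s).deriv) t 0
  simpa using h5

theorem mem_union (hEl : ElStmt) (hMol : MolStmt) (h : GM K u)
    (hc : ∀ z ∈ connectedComponentIn Kᶜ z₀, pd u z = c) {w : ℂ}
    (hw : w ∈ connectedComponentIn Kᶜ z₀) (t : ℝ) (hK : w + t * conj c ∉ K) :
    w + t * conj c ∈ connectedComponentIn Kᶜ z₀ := by
  by_contra hU
  obtain ⟨o1, o2, o3⟩ := other h.cl hK hU
  let φ : ℕ → ContDiffBump (0 : ℂ) := fun n =>
    ⟨1 / ((n : ℝ) + 1) / 2, 1 / ((n : ℝ) + 1), by positivity, half_lt_self (by positivity)⟩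
  have h1 := ((hMol ℝ _ (locInt (z₀ := z₀) h.cl)).2 φ tendsto_one_div_add_atTop_nhds_zero_nat).1
  have h2 := (h1 _ {w} h.cl.isOpen_compl.connectedComponentIn
    (continuousOn_const.congr fun y hy => indicator_of_mem hy _) isCompact_singleton
    (singleton_subset_iff.2 hw)).tendsto_at (mem_singleton w)
  have h3 := (h1 _ {w + t * conj c} o1
    (continuousOn_const.congr fun y hy => indicator_of_notMem (o3 y hy) _) isCompact_singleton
    (singleton_subset_iff.2 o2)).tendsto_at (mem_singleton _)
  simp only [mol_const hEl hMol h hc] at h3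
  have h4 := tendsto_nhds_unique h2 h3
  rw [indicator_of_mem hw, indicator_of_notMem hU] at h4
  exact one_ne_zero h4

theorem has_aff (c z : ℂ) (k : ℝ) : HasFDerivAt (fun z => (c * z).re + k)
    (reCLM.comp ((ContinuousLinearMap.mul ℝ ℂ) c)) z :=
  (reCLM.comp ((ContinuousLinearMap.mul ℝ ℂ) c)).hasFDerivAt.add_const k

theorem pd_aff (c z : ℂ) (k : ℝ) : pd (fun z => (c * z).re + k) z = c :=
  pd_of_fderiv fun e => by
    rw [(has_aff c z k).fderiv]
    rfl

theorem affine (h : GM K u) (hc : ∀ z ∈ connectedComponentIn Kᶜ z₀, pd u z = c) :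
    ∃ k : ℝ, ∀ z ∈ connectedComponentIn Kᶜ z₀, (c * z).re + k = u z := by
  obtain ⟨k, hk⟩ := h.cl.isOpen_compl.connectedComponentIn.exists_eq_add_of_fderiv_eq (𝕜 := ℝ)
    (isPreconnected_connectedComponentIn (x := z₀)) (f := u) (g := fun z => (c * z).re + 0)
    (fun z hz => (h.diff ⟨mem_univ _, connectedComponentIn_subset _ _ hz⟩).differentiableWithinAt)
    (fun z _ => (has_aff c z 0).differentiableAt.differentiableWithinAt) fun z hz => by
      ext1 e
      rw [fderiv_eq_pd, fderiv_eq_pd, hc z hz, pd_aff]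
  refine ⟨k, fun z hz => ?_⟩
  have := hk hz
  simpa using this.symm

end Slide

open Slide in
theorem slide_pf (hEl : ElStmt) (hAnx : AnxStmt) (hMol : MolStmt) : SlideStmt := by
  intro K u h z₀ c hc z hz t
  refine mem_union hEl hMol h hc hz t fun hK => ?_
  obtain ⟨δ, hδ, hb⟩ := Metric.isOpen_iff.1 h.cl.isOpen_compl.connectedComponentIn z hz
  have h1 : ∀ y ∈ closedBall (z + t * conj c) (δ / 2), y ∉ K → y ∈ connectedComponentIn Kᶜ z₀ := by
    intro y hy hyK
    have e : y - t * conj c + t * conj c = y := sub_add_cancel _ _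
    have k1 : y - t * conj c ∈ ball z δ := by
      rw [mem_closedBall_iff_norm] at hy
      rw [mem_ball_iff_norm, sub_sub, add_comm]
      linarith
    have k2 := mem_union hEl hMol h hc (hb k1) t (by rwa [e])
    rwa [e] at k2
  obtain ⟨k, hk⟩ := affine h hc
  have hw : ContDiff ℝ 1 fun z : ℂ => (c * z).re + k :=
    (reCLM.contDiff.comp (contDiff_const.mul contDiff_id)).add contDiff_const
  have h2 := hAnx K u h z₀ (ball (z + t * conj c) (δ / 2)) univ ∅ (fun z => (c * z).re + k)
    isOpen_ball isBounded_ball isOpen_univ (subset_univ _)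
    (locLip_of_contDiffOn isOpen_univ hw.contDiffOn) (fun y hy => hk y hy.2) isClosed_empty
    (empty_subset _) (fun y hy => ?_) (by simp)
  · have h3 : En u (ball (z + t * conj c) (δ / 2)) =
        En (fun z => (c * z).re + k) (ball (z + t * conj c) (δ / 2)) := by
      refine setIntegral_congr_ae measurableSet_ball ?_
      filter_upwards [measure_eq_zero_iff_ae_notMem.1 h.null] with y hy hy'
      rw [pd_aff, hc y (h1 y (ball_subset_closedBall hy') hy)]
    rw [h3, empty_sdiff, measure_empty, ENNReal.toReal_zero] at h2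
    have h4 := h.red _ hK (mem_univ _) _ (half_pos hδ)
    have h5 : μH[1] (K ∩ ball (z + t * conj c) (δ / 2)) < ⊤ :=
      (measure_mono (inter_subset_inter_right _ ball_subset_closedBall)).trans_lt
        (h.fin _ _ (subset_univ _))
    have h6 : 0 < len K (ball (z + t * conj c) (δ / 2)) := ENNReal.toReal_pos h4.ne' h5.ne
    linarith
  · by_cases hyK : y ∈ K
    · exact Or.inr hyK
    · exact Or.inl (Or.inl (h1 y (closure_ball_subset_closedBall (frontier_subset_closure hy)) hyK))

end Vale.Agent.P128
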