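import Vale.Agent.P128.StarA

open MeasureTheory Set Metric Filter Topology Complex
open scoped ENNReal ComplexConjugate Real

noncomputable section
namespace Vale.Agent.P128

namespace Star

variable {x : ℂ} {ρ : ℝ}

theorem norm_fderiv_blend {a b : ℂ → ℝ} {z : ℂ} (μ : ℝ) (ha : DifferentiableAt ℝ a z)
    (hb : DifferentiableAt ℝ b z) : ‖fderiv ℝ (fun y => μ + a y * (b y - μ)) z‖ ≤
      |a z| * ‖fderiv ℝ b z‖ + |b z - μ| * ‖fderiv ℝ a z‖ := by
  have h := (ha.hasFDerivAt.fun_mul (hb.hasFDerivAt.sub_const μ)).const_add μ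
  rw [h.fderiv]
  refine (norm_add_le _ _).trans (le_of_eq ?_)
  rw [norm_smul, norm_smul, Real.norm_eq_abs, Real.norm_eq_abs]

theorem ring_int (hPol : PolStmt) (hρ : 0 < ρ) {f g : ℂ → ℝ} (hf : Measurable f)
    (hg : Measurable g) (f0 : ∀ z, 0 ≤ f z) (g0 : ∀ z, 0 ≤ g z)
    (hgi : IntervalIntegrable (fun θ => g (circleMap x ρ θ)) volume 0 (2 * π))
    (hb : ∀ᵐ z, z ∈ closedBall x ρ →
      f z ≤ (closedBall x ρ \ closedBall x (ρ / 2)).indicator (fun y => g (pr x ρ y)) z) :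
    IntegrableOn f (closedBall x ρ) ∧
      ∫ z in closedBall x ρ, f z ≤ ρ ^ 2 / 2 * ∫ θ in (0 : ℝ)..2 * π, g (circleMap x ρ θ) := by
  set J := ∫ θ in (0 : ℝ)..2 * π, g (circleMap x ρ θ) with hJ
  have hπ : (0 : ℝ) ≤ 2 * π := by positivity
  have J0 : 0 ≤ J := intervalIntegral.integral_nonneg hπ fun _ _ => g0 _
  have hm : MeasurableSet (closedBall x ρ \ closedBall x (ρ / 2)) :=
    measurableSet_closedBall.diff measurableSet_closedBall
  have h1 : ∫⁻ θ in Ioo 0 (2 * π), ENNReal.ofReal (g (circleMap x ρ θ)) = ENNReal.ofReal J := by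
    rw [hJ, intervalIntegral.integral_of_le hπ, integral_Ioc_eq_integral_Ioo]
    exact (ofReal_integral_eq_lintegral_ofReal
      ((intervalIntegrable_iff_integrableOn_Ioo_of_le hπ).1 hgi)
      (Eventually.of_forall fun _ => g0 _)).symm
  have h2 := hPol.1 (fun y => ENNReal.ofReal (g (pr x ρ y))) x (ρ / 2) ρ
    (hg.comp measurable_pr).ennreal_ofReal.aemeasurable (by positivity)
  have h3 : ∫⁻ z in closedBall x ρ, ENNReal.ofReal (f z) ≤ ENNReal.ofReal (ρ ^ 2 / 2 * J) := by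
    calc ∫⁻ z in closedBall x ρ, ENNReal.ofReal (f z)
        ≤ ∫⁻ z in closedBall x ρ, (closedBall x ρ \ closedBall x (ρ / 2)).indicator
            (fun y => ENNReal.ofReal (g (pr x ρ y))) z := by
          refine setLIntegral_mono_ae' measurableSet_closedBall ?_
          filter_upwards [hb] with z hz hzb
          refine (ENNReal.ofReal_le_ofReal (hz hzb)).trans (le_of_eq ?_)
          by_cases h : z ∈ closedBall x ρ \ closedBall x (ρ / 2)
          · rw [indicator_of_mem h, indicator_of_mem h]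
          · rw [indicator_of_notMem h, indicator_of_notMem h, ENNReal.ofReal_zero]
      _ ≤ ∫⁻ z, (closedBall x ρ \ closedBall x (ρ / 2)).indicator
            (fun y => ENNReal.ofReal (g (pr x ρ y))) z := setLIntegral_le_lintegral _ _
      _ = ∫⁻ r in Ioo (ρ / 2) ρ, ENNReal.ofReal r *
            ∫⁻ θ in Ioo 0 (2 * π), ENNReal.ofReal (g (pr x ρ (circleMap x r θ))) := by
          rw [lintegral_indicator hm, h2]
      _ ≤ ∫⁻ r in Ioo (ρ / 2) ρ, ENNReal.ofReal ρ * ENNReal.ofReal J := by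
          refine setLIntegral_mono' measurableSet_Ioo fun r hr => ?_
          have hr0 : 0 < r := by linarith [hr.1]
          simp only [pr_circleMap hρ hr0 hr.2.le, h1]
          exact mul_le_mul' (ENNReal.ofReal_le_ofReal hr.2.le) le_rfl
      _ = ENNReal.ofReal (ρ ^ 2 / 2 * J) := by
          rw [setLIntegral_const, Real.volume_Ioo, ← ENNReal.ofReal_mul hρ.le,
            ← ENNReal.ofReal_mul (mul_nonneg hρ.le J0)]
          congr 1
          ring
  refine ⟨⟨hf.aestronglyMeasurable, ?_⟩, ?_⟩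
  · rw [hasFiniteIntegral_iff_ofReal (Eventually.of_forall f0)]
    exact h3.trans_lt ENNReal.ofReal_lt_top
  · rw [integral_eq_lintegral_of_nonneg_ae (Eventually.of_forall f0) hf.aestronglyMeasurable]
    exact ENNReal.toReal_le_of_le_ofReal (by positivity) h3

/-- the competitor -/
def cw (x : ℂ) (ρ : ℝ) (u : ℂ → ℝ) (q : ℂ → ℂ) (y : ℂ) : ℝ :=
  u (q y) + cut x ρ y * (u (pr x ρ y) - u (q y))

variable {Ω K C : Set ℂ} {u : ℂ → ℝ} {Λ M S : ℝ} {q : ℂ → ℂ}

/-- the properties of the index map -/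
structure Idx (Ω K C : Set ℂ) (u : ℂ → ℝ) (x : ℂ) (ρ S : ℝ) (q : ℂ → ℂ) : Prop where
  loc : ∀ z, ‖z - x‖ < ρ → z ∉ C → ∀ᶠ y in 𝓝 z, q y = q z
  bd : ∀ z ∈ sphere x ρ, z ∉ K → ∃ p, |u z - u p| ≤ S ∧
    connectedComponentIn (Ω \ K) p = connectedComponentIn (Ω \ K) z ∧
    ∀ᶠ y in 𝓝 z, ‖y - x‖ < ρ → q y = p

theorem cw_out (hρ : 0 < ρ) {y : ℂ} (h : ρ ≤ ‖y - x‖) : cw x ρ u q y = u y := by
  rw [cw, cut_out hρ h, pr_out hρ h]
  ring

theorem cw_loc (hρ : 0 < ρ) (hq : Idx Ω K C u x ρ S q) {z : ℂ} (hz : z ∉ (K \ ball x ρ) ∪ C) :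
    ∃ μ, cw x ρ u q =ᶠ[𝓝 z] fun y => μ + cut x ρ y * (u (pr x ρ y) - μ) := by
  have hc : ContinuousAt (fun y : ℂ => ‖y - x‖) z := by fun_prop
  rcases lt_trichotomy ‖z - x‖ ρ with h | h | h
  · refine ⟨u (q z), ?_⟩
    filter_upwards [hq.loc z h fun h' => hz (Or.inr h')] with y hy
    rw [cw, hy]
  · obtain ⟨p, -, -, hp⟩ := hq.bd z (mem_sphere_iff_norm.2 h) fun h' =>
      hz (Or.inl ⟨h', fun h'' => (mem_ball_iff_norm.1 h'').ne h⟩)
    refine ⟨u p, ?_⟩
    filter_upwards [hp] with y hy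
    by_cases hy1 : ‖y - x‖ < ρ
    · rw [cw, hy hy1]
    · rw [cw, cut_out hρ (not_lt.1 hy1)]
      ring
  · refine ⟨0, ?_⟩
    filter_upwards [hc.eventually (Ioi_mem_nhds h)] with y hy
    rw [cw, cut_out hρ (le_of_lt hy)]
    ring

theorem pr_mem (hρ : 0 < ρ) (hsub : closedBall x ρ ⊆ Ω) (hC : Cut K C x ρ) {z : ℂ} (hzΩ : z ∈ Ω)
    (hz : z ∉ (K \ ball x ρ) ∪ C) (h : ρ / 2 ≤ ‖z - x‖) : pr x ρ z ∈ Ω \ K := by
  by_cases h1 : ‖z - x‖ ≤ ρ
  · refine ⟨hsub (mem_closedBall_iff_norm.2 (norm_pr (by linarith) h1).le), fun h2 => ?_⟩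
    exact hz (Or.inr (hC.mem' z h h1 h2))
  · rw [pr_out hρ (not_le.1 h1).le]
    exact ⟨hzΩ, fun h2 => hz (Or.inl ⟨h2, fun h3 => h1 (mem_ball_iff_norm.1 h3).le⟩)⟩

theorem cw_const (hρ : 0 < ρ) (hq : Idx Ω K C u x ρ S q) {z : ℂ} (hz : z ∉ (K \ ball x ρ) ∪ C)
    (h : ‖z - x‖ < ρ / 2) : ∃ μ, cw x ρ u q =ᶠ[𝓝 z] fun _ => μ := by
  have hc : ContinuousAt (fun y : ℂ => ‖y - x‖) z := by fun_prop
  obtain ⟨μ, hμ⟩ := cw_loc hρ hq hz
  refine ⟨μ, ?_⟩
  filter_upwards [hμ, hc.eventually (Iio_mem_nhds h)] with y hy hy1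
  rw [hy, cut_in hρ (le_of_lt hy1)]
  ring

theorem cw_lip (h : IsMS Ω K u Λ M) (hρ : 0 < ρ) (hsub : closedBall x ρ ⊆ Ω) (hC : Cut K C x ρ)
    (hq : Idx Ω K C u x ρ S q) :
    LocallyLipschitzOn (Ω \ ((K \ ball x ρ) ∪ C)) (cw x ρ u q) := by
  refine locLip_of_lipAt fun z hz => ?_
  by_cases h1 : ‖z - x‖ < ρ / 2
  · obtain ⟨μ, hμ⟩ := cw_const hρ hq hz.2 h1
    exact (LipAt.of_lip (LipschitzWith.const μ) z).congr hμ
  · obtain ⟨μ, hμ⟩ := cw_loc hρ hq hz.2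
    refine LipAt.congr ?_ hμ
    have h2 := pr_mem hρ hsub hC hz.1 hz.2 (not_lt.1 h1)
    have hzx : z ≠ x := fun e => h1 (by rw [e, sub_self, norm_zero]; positivity)
    have h3 : LipAt (fun y => u (pr x ρ y)) z :=
      LipAt.comp (LipAt.of_contDiffAt (h.c1.contDiffAt (h.isOpen.mem_nhds h2))) (lipAt_pr hzx)
    have h4 : ContDiff ℝ 1 fun p : ℝ × ℝ => μ + p.1 * (p.2 - μ) :=
      contDiff_const.add (contDiff_fst.mul (contDiff_snd.sub contDiff_const))
    have h5 := (LipAt.of_lip (cut_lip (x := x) hρ) z).prodMk h3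
    have h6 := LipAt.of_contDiffAt (h4.contDiffAt (x := (cut x ρ z, u (pr x ρ z))))
    exact LipAt.comp (f := fun y : ℂ => (cut x ρ y, u (pr x ρ y))) h6 h5

theorem cw_grad (h : IsMS Ω K u Λ M) (hρ : 0 < ρ) (hsub : closedBall x ρ ⊆ Ω) (hC : Cut K C x ρ)
    (hq : Idx Ω K C u x ρ S q) (hfin : μH[1] C < ⊤) :
    ∀ᵐ z, z ∈ closedBall x ρ → ‖pd (cw x ρ u q) z‖ ^ 2 ≤
      (closedBall x ρ \ closedBall x (ρ / 2)).indicator
        (fun y => 8 * S ^ 2 / ρ ^ 2 + 32 * ‖pd u (pr x ρ y)‖ ^ 2) z := by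
  have a1 := measure_eq_zero_iff_ae_notMem.1 (volume_null hfin)
  have a2 := measure_eq_zero_iff_ae_notMem.1 (Measure.addHaar_sphere volume x ρ)
  have a3 := measure_eq_zero_iff_ae_notMem.1 (Measure.addHaar_sphere volume x (ρ / 2))
  have a4 := (cut_lip (x := x) hρ).ae_differentiableAt (μ := volume)
  have a5 := ae_differentiableAt (isOpen_compl_singleton (x := x))
    (locLip_of_lipAt fun z hz => lipAt_pr (ρ := ρ) hz)
  filter_upwards [a1, a2, a3, a4, a5] with z b1 b2 b3 b4 b5 hz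
  have hlt : ‖z - x‖ < ρ :=
    (mem_closedBall_iff_norm.1 hz).lt_of_ne fun e => b2 (mem_sphere_iff_norm.2 e)
  have hzL : z ∉ (K \ ball x ρ) ∪ C := by
    rintro (h1 | h1)
    · exact h1.2 (mem_ball_iff_norm.2 hlt)
    · exact b1 h1
  rcases lt_trichotomy ‖z - x‖ (ρ / 2) with h1 | h1 | h1
  · obtain ⟨μ, hμ⟩ := cw_const hρ hq hzL h1
    rw [pd_congr hμ, pd_const, indicator_of_notMem fun h2 =>
      h2.2 (mem_closedBall_iff_norm.2 h1.le)]
    simp
  · exact absurd (mem_sphere_iff_norm.2 h1) b3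
  · rw [indicator_of_mem (show z ∈ closedBall x ρ \ closedBall x (ρ / 2) from
      ⟨hz, fun h2 => not_le.2 h1 (mem_closedBall_iff_norm.1 h2)⟩)]
    have h0 : 0 < ‖z - x‖ := by linarith
    have h2 := pr_mem hρ hsub hC (hsub hz) hzL h1.le
    obtain ⟨p, hp1, -, hp2⟩ := hq.bd _ (mem_sphere_iff_norm.2 (norm_pr h0 hlt.le)) h2.2
    have h3 : q z = p := index_ray hρ hC hq.loc h1 hlt h2.2 hp2
    have h4 : cw x ρ u q =ᶠ[𝓝 z] fun y => u p + cut x ρ y * (u (pr x ρ y) - u p) := by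
      filter_upwards [hq.loc z hlt b1] with y hy
      rw [cw, hy, h3]
    have d1 : DifferentiableAt ℝ (pr x ρ) z := b5 (norm_pos_iff.1 h0 ∘ sub_eq_zero.2)
    have d2 := h.diff h2
    have h5 := norm_fderiv_blend (u p) b4 (d2.comp z d1)
    have h6 : ‖fderiv ℝ (u ∘ pr x ρ) z‖ ≤ ‖pd u (pr x ρ z)‖ * 4 := by
      rw [fderiv_comp z d2 d1, norm_pd]
      exact (ContinuousLinearMap.opNorm_comp_le _ _).trans
        (mul_le_mul_of_nonneg_left (norm_fderiv_pr hρ h1 hlt) (norm_nonneg _))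
    have h7 : ‖fderiv ℝ (cut x ρ) z‖ ≤ 2 / ρ := norm_fderiv_le_of_lipschitz ℝ (cut_lip hρ)
    have h8 := mul_le_mul (abs_cut_le (x := x) (ρ := ρ) z) h6 (norm_nonneg _) zero_le_one
    have h9 := mul_le_mul hp1 h7 (norm_nonneg _) ((abs_nonneg _).trans hp1)
    have h10 : ‖pd (cw x ρ u q) z‖ ≤ ‖pd u (pr x ρ z)‖ * 4 + S * (2 / ρ) := by
      rw [pd_congr h4, norm_pd]
      exact h5.trans (add_le_add (h8.trans_eq (one_mul _)) h9)
    refine (pow_le_pow_left₀ (norm_nonneg _) h10 2).trans ?_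
    have h11 : 8 * S ^ 2 / ρ ^ 2 = 2 * (S * (2 / ρ)) ^ 2 := by
      field_simp
      ring
    rw [h11]
    nlinarith [sq_nonneg (‖pd u (pr x ρ z)‖ * 4 - S * (2 / ρ))]

theorem exists_label (h : IsMS Ω K u Λ M) (hq : Idx Ω K C u x ρ S q) :
    ∃ b : ℂ → Set ℂ, (∀ z ∈ Ω \ ((K \ ball x ρ) ∪ C), ∀ᶠ y in 𝓝 z, b y = b z) ∧
      ∀ z ∈ Ω, z ∉ closedBall x ρ → z ∉ K → b z = connectedComponentIn (Ω \ K) z := by
  refine ⟨fun y => connectedComponentIn (Ω \ K) (if ‖y - x‖ < ρ then q y else y),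
    fun z hz => ?_, fun z _ hz _ => ?_⟩
  · have hc : ContinuousAt (fun y : ℂ => ‖y - x‖) z := by fun_prop
    by_cases h1 : ‖z - x‖ < ρ
    · filter_upwards [hq.loc z h1 fun h' => hz.2 (Or.inr h'), hc.eventually (Iio_mem_nhds h1)]
        with y hy hy1
      have hy2 : ‖y - x‖ < ρ := hy1
      simp only [h1, hy2, if_true, hy]
    · have hzK : z ∉ K := fun h' => hz.2 (Or.inl ⟨h', fun h'' => h1 (mem_ball_iff_norm.1 h'')⟩)
      have h2 := connectedComponentIn_mem_nhds (h.isOpen.mem_nhds ⟨hz.1, hzK⟩)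
      rcases (not_lt.1 h1).eq_or_lt with h3 | h3
      · obtain ⟨p, -, hp1, hp2⟩ := hq.bd z (mem_sphere_iff_norm.2 h3.symm) hzK
        filter_upwards [h2, hp2] with y hy hy1
        by_cases hy2 : ‖y - x‖ < ρ
        · simp only [h1, hy2, if_true, if_false, hy1 hy2, hp1]
        · simp only [h1, hy2, if_false]
          exact (connectedComponentIn_eq hy).symm
      · filter_upwards [h2, hc.eventually (Ioi_mem_nhds h3)] with y hy hy1
        have hy2 : ¬ ‖y - x‖ < ρ := not_lt.2 (le_of_lt hy1)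
        simp only [h1, hy2, if_false]
        exact (connectedComponentIn_eq hy).symm
  · have h1 : ¬ ‖z - x‖ < ρ := fun h' => hz (mem_closedBall_iff_norm.2 h'.le)
    simp only [h1, if_false]

end Star

open _root_.Vale.Agent.P128.Star in
theorem star_pf (hPar : ParStmt) (hArcs : ArcsStmt) (hCirc : CircStmt) (hPol : PolStmt)
    : StarStmt := by
  intro Ω K u Λ M h x ρ Z hsub hG hne hZ hZc hZs hmid hZf
  have hρ := hG.pos
  obtain ⟨C, hC, hCl⟩ := exists_cut hρ hG.fin hne hZ hZc hZs hmid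
  have hCf : μH[1] C < ⊤ := hCl.trans_lt (ENNReal.add_lt_top.2 ⟨hZf, ENNReal.ofReal_lt_top⟩)
  obtain ⟨q, hq1, hq2⟩ := exists_index hPar hArcs hρ hG.fin hne hC
  have hsph : sphere x ρ ⊆ Ω := sphere_subset_closedBall.trans hsub
  obtain ⟨-, -, -, hS, -, hosc, -⟩ := hCirc Ω K u x ρ h.isOpen h.c1 hsph hG
  set S := ∫ θ in (0 : ℝ)..2 * π, ‖cg u x ρ θ‖ with hSdef
  have hq : Idx Ω K C u x ρ S q := by
    refine ⟨hq1, fun z hz hzK => ?_⟩
    obtain ⟨α, β, s, t, h1, h2, hs, ht, rfl, h3⟩ := hq2 z hz hzK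
    refine ⟨_, hosc α β h1 h2 s hs t ht, ?_, h3⟩
    have h4 : IsPreconnected (circleMap x ρ '' Ioo α β) :=
      isPreconnected_Ioo.image _ (continuous_circleMap x ρ).continuousOn
    refine connectedComponentIn_eq (h4.subset_connectedComponentIn ⟨t, ht, rfl⟩ ?_ ⟨s, hs, rfl⟩)
    rintro _ ⟨θ, hθ, rfl⟩
    exact ⟨hsph (circleMap_mem_sphere x hρ.le θ), h2 θ hθ⟩
  have hLC : ((K \ ball x ρ) ∪ C) ∩ closedBall x ρ ⊆ C := by
    rintro y ⟨hy | hy, hy1⟩
    · have h1 : ρ ≤ ‖y - x‖ := not_lt.1 fun h' => hy.2 (mem_ball_iff_norm.2 h')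
      exact hC.mem' y (by linarith) (mem_closedBall_iff_norm.1 hy1)
        (by rw [pr_out hρ h1]; exact hy.1)
    · exact hy
  have hgi : IntervalIntegrable
      (fun θ => 8 * S ^ 2 / ρ ^ 2 + 32 * ‖pd u (circleMap x ρ θ)‖ ^ 2) volume 0 (2 * π) :=
    intervalIntegrable_const.add (hG.int.const_mul 32)
  obtain ⟨hint, hen⟩ := ring_int (f := fun z => ‖pd (cw x ρ u q) z‖ ^ 2)
    (g := fun y => 8 * S ^ 2 / ρ ^ 2 + 32 * ‖pd u y‖ ^ 2) hPol hρ
    ((measurable_pd _).norm.pow_const 2)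
    (measurable_const.add (((measurable_pd u).norm.pow_const 2).const_mul 32))
    (fun _ => sq_nonneg _) (fun _ => by positivity) hgi (cw_grad h hρ hsub hC hq hCf)
  have hcomp : Comp Ω K u x ρ ((K \ ball x ρ) ∪ C) (cw x ρ u q) := by
    refine ⟨(h.cl.sdiff isOpen_ball).union hC.cpt.isClosed, ?_, fun z _ hz _ => ?_,
      cw_lip h hρ hsub hC hq, hint, (measure_mono hLC).trans_lt hCf, exists_label h hq⟩
    · ext y
      constructor
      · rintro ⟨hy | hy, hy1⟩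
        · exact ⟨hy.1, hy1⟩
        · exact absurd (hC.sub hy) hy1
      · exact fun hy => ⟨Or.inl ⟨hy.1, fun h' => hy.2 (ball_subset_closedBall h')⟩, hy.2⟩
    · exact cw_out hρ (not_le.1 fun h' => hz (mem_closedBall_iff_norm.2 h')).le
  have key := h.min x ρ _ _ hsub hcomp
  have hce := ce_nonneg u x hρ.le
  have hπ := Real.pi_lt_d2
  have hπ0 := Real.pi_pos
  have e1 : En (cw x ρ u q) (closedBall x ρ) ≤ 200 * ρ * ce u x ρ := by
    refine hen.trans ?_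
    rw [intervalIntegral.integral_add intervalIntegrable_const (hG.int.const_mul 32),
      intervalIntegral.integral_const, intervalIntegral.integral_const_mul, sub_zero, smul_eq_mul]
    have h1 : ρ ^ 2 / 2 * (2 * π * (8 * S ^ 2 / ρ ^ 2) +
        32 * ∫ θ in (0 : ℝ)..2 * π, ‖pd u (circleMap x ρ θ)‖ ^ 2) =
        8 * π * S ^ 2 + 16 * (ρ * ce u x ρ) := by
      rw [ce]
      field_simp
      ring
    rw [h1]
    have h2 : 0 ≤ ρ * ce u x ρ := mul_nonneg hρ.le hce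
    have h3 := mul_le_mul_of_nonneg_left hS (show 0 ≤ 8 * π by positivity)
    have h4 : π * π ≤ 10 := by nlinarith
    nlinarith [mul_le_mul_of_nonneg_right h4 h2]
  have e2 : len ((K \ ball x ρ) ∪ C) (closedBall x ρ) ≤
      cnt K x ρ * ρ / 2 + (μH[1] Z).toReal := by
    have h0 : 0 ≤ cnt K x ρ * ρ / 2 := by
      unfold cnt
      positivity
    refine ENNReal.toReal_le_of_le_ofReal (add_nonneg h0 ENNReal.toReal_nonneg)
      ((measure_mono hLC).trans (hCl.trans (le_of_eq ?_)))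
    rw [ENNReal.ofReal_add h0 ENNReal.toReal_nonneg, ENNReal.ofReal_toReal hZf.ne, add_comm]
  have e3 : ∫ z in closedBall x ρ, min |cw x ρ u q z - u z| (2 * M) ≤ 2 * M * (ρ ^ 2 * π) := by
    have hM := h.M0
    have h1 := norm_setIntegral_le_of_norm_le_const (μ := volume) (s := closedBall x ρ)
      (f := fun z => min |cw x ρ u q z - u z| (2 * M)) (C := 2 * M) measure_closedBall_lt_top
      fun z _ => by
        rw [Real.norm_eq_abs, abs_of_nonneg (le_min (abs_nonneg _) (by positivity))]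
        exact min_le_right _ _
    refine (le_abs_self _).trans (h1.trans (le_of_eq ?_))
    rw [Measure.real, Complex.volume_closedBall, ENNReal.toReal_mul, ENNReal.toReal_pow,
      ENNReal.toReal_ofReal hρ.le, ENNReal.coe_toReal, NNReal.coe_real_pi]
  have e4 := mul_le_mul_of_nonneg_left e3 h.L0
  have e5 : 0 ≤ Λ * M * ρ ^ 2 := mul_nonneg h.a0 (sq_nonneg _)
  have e6 := mul_le_mul_of_nonneg_left hπ.le e5
  nlinarith

end Vale.Agent.P128
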