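import Vale.Agent.P128.Stm

open MeasureTheory Set Metric Filter Topology Complex
open scoped ENNReal ComplexConjugate Real

noncomputable section
namespace Vale.Agent.P128

namespace Stat

/-- continuous approximations of the indicator function of `(s, t)` -/
def tr (s t : ℝ) (n : ℕ) (ρ : ℝ) : ℝ := min 1 ((n + 1) * max 0 ((ρ - s) * (t - ρ)))

theorem tr_cont (s t : ℝ) (n : ℕ) : Continuous (tr s t n) := by
  unfold tr; fun_prop

theorem tr_nonneg (s t : ℝ) (n : ℕ) (ρ : ℝ) : 0 ≤ tr s t n ρ :=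
  le_min zero_le_one (mul_nonneg (by positivity) (le_max_left _ _))

theorem tr_le (s t : ℝ) (n : ℕ) (ρ : ℝ) : tr s t n ρ ≤ 1 := min_le_left _ _

theorem tr_zero {s t : ℝ} (hst : s < t) (n : ℕ) {ρ : ℝ} (h : ρ ∉ Ioo s t) : tr s t n ρ = 0 := by
  have h1 : (ρ - s) * (t - ρ) ≤ 0 := by
    rw [mem_Ioo, not_and_or, not_lt, not_lt] at h
    rcases h with h | h <;> nlinarith
  rw [tr, max_eq_left h1, mul_zero, min_eq_right zero_le_one]

theorem tr_pos {s t : ℝ} (n : ℕ) {ρ : ℝ} (h : ρ ∈ Ioo s t) : 0 < tr s t n ρ :=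
  lt_min one_pos (mul_pos (by positivity)
    (lt_max_of_lt_right (mul_pos (sub_pos.2 h.1) (sub_pos.2 h.2))))

theorem tr_lim {s t ρ : ℝ} (h : ρ ∈ Ioo s t) : ∀ᶠ n in atTop, tr s t n ρ = 1 := by
  have h1 : 0 < (ρ - s) * (t - ρ) := mul_pos (sub_pos.2 h.1) (sub_pos.2 h.2)
  obtain ⟨N, hN⟩ := exists_nat_ge (1 / ((ρ - s) * (t - ρ)))
  filter_upwards [eventually_ge_atTop N] with n hn
  have h2 : (N : ℝ) ≤ n := by exact_mod_cast hn
  rw [div_le_iff₀ h1] at hN
  rw [tr, max_eq_right h1.le, min_eq_left]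
  nlinarith

theorem avg {G : ℝ → ℂ} {s t B : ℝ} (hst : s < t) (hG : IntegrableOn G (Ioo s t)) (hB : 0 ≤ B)
    (H : ∀ g : ℝ → ℝ, Continuous g → (∀ ρ, 0 ≤ g ρ) → (∀ ρ, ρ ∉ Ioo s t → g ρ = 0) →
      ∫ ρ in s..t, g ρ = 1 → ‖∫ ρ in s..t, g ρ * G ρ‖ ≤ B) :
    ‖∫ ρ in s..t, G ρ‖ ≤ B * (t - s) := by
  have h1 : ∀ n : ℕ, ‖∫ ρ in Ioo s t, tr s t n ρ * G ρ‖ ≤ B * (t - s) := by
    intro n
    have hi : IntervalIntegrable (tr s t n) volume s t := (tr_cont s t n).intervalIntegrable _ _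
    have hI : 0 < ∫ ρ in s..t, tr s t n ρ :=
      intervalIntegral.intervalIntegral_pos_of_pos_on hi (fun ρ hρ => tr_pos n hρ) hst
    have hI1 : ∫ ρ in s..t, tr s t n ρ ≤ t - s := by
      have := intervalIntegral.integral_mono_on hst.le hi
        (continuous_const (y := (1 : ℝ)).intervalIntegrable _ _) (fun ρ _ => tr_le s t n ρ)
      simpa using this
    set J := ∫ ρ in s..t, tr s t n ρ with hJ
    have h2 := H (fun ρ => J⁻¹ * tr s t n ρ) (continuous_const.mul (tr_cont s t n))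
      (fun ρ => mul_nonneg (inv_pos.2 hI).le (tr_nonneg s t n ρ))
      (fun ρ hρ => by rw [tr_zero hst n hρ, mul_zero])
      (by rw [intervalIntegral.integral_const_mul, ← hJ, inv_mul_cancel₀ hI.ne'])
    simp only [ofReal_mul, mul_assoc] at h2
    rw [intervalIntegral.integral_const_mul, norm_mul, norm_real, Real.norm_eq_abs,
      abs_of_pos (inv_pos.2 hI), inv_mul_le_iff₀ hI, intervalIntegral.integral_of_le hst.le,
      integral_Ioc_eq_integral_Ioo] at h2
    nlinarith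
  have h2 : Tendsto (fun n : ℕ => ∫ ρ in Ioo s t, tr s t n ρ * G ρ) atTop
      (𝓝 (∫ ρ in Ioo s t, G ρ)) := by
    refine tendsto_integral_of_dominated_convergence (fun ρ => ‖G ρ‖) (fun n => ?_) hG.norm
      (fun n => Eventually.of_forall fun ρ => ?_) ?_
    · exact (continuous_ofReal.comp (tr_cont s t n)).aestronglyMeasurable.mul
        hG.aestronglyMeasurable
    · rw [norm_mul, norm_real, Real.norm_eq_abs, abs_of_nonneg (tr_nonneg s t n ρ)]
      exact mul_le_of_le_one_left (norm_nonneg _) (tr_le s t n ρ)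
    · filter_upwards [ae_restrict_mem measurableSet_Ioo] with ρ hρ
      refine tendsto_const_nhds.congr' ?_
      filter_upwards [tr_lim hρ] with n hn
      rw [hn, ofReal_one, one_mul]
  rw [intervalIntegral.integral_of_le hst.le, integral_Ioc_eq_integral_Ioo]
  exact le_of_tendsto' h2.norm h1

theorem ptw {G : ℝ → ℂ} {r A : ℝ} (hr : 0 < r) (hG : IntegrableOn G (Ioo 0 r))
    (H : ∀ s t, 0 < s → s < t → t < r → ‖∫ ρ in s..t, G ρ‖ ≤ A * t * (t - s)) :
    ∀ᵐ ρ, ρ ∈ Ioo 0 r → ‖G ρ‖ ≤ A * ρ := by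
  have hi : IntervalIntegrable G volume 0 r :=
    (intervalIntegrable_iff_integrableOn_Ioo_of_le hr.le).2 hG
  filter_upwards [hi.ae_hasDerivAt_integral] with ρ hρ hm
  have hu : ρ ∈ uIcc 0 r := by rw [uIcc_of_le hr.le]; exact Ioo_subset_Icc_self hm
  have h1 := (hρ hu ρ hu).tendsto_slope_zero_right.norm
  have h2 : Tendsto (fun δ : ℝ => A * (ρ + δ)) (𝓝[>] 0) (𝓝 (A * ρ)) := by
    have : Tendsto (fun δ : ℝ => A * (ρ + δ)) (𝓝 0) (𝓝 (A * (ρ + 0))) :=
      (by fun_prop : Continuous fun δ : ℝ => A * (ρ + δ)).tendsto 0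
    rw [add_zero] at this
    exact this.mono_left nhdsWithin_le_nhds
  refine le_of_tendsto_of_tendsto h1 h2 ?_
  filter_upwards [Ioo_mem_nhdsGT (sub_pos.2 hm.2)] with δ hδ
  have h3 := H ρ (ρ + δ) hm.1 (by linarith [hδ.1]) (by linarith [hδ.2])
  rw [intervalIntegral.integral_same, sub_zero, norm_smul, Real.norm_eq_abs,
    abs_of_pos (inv_pos.2 hδ.1), inv_mul_le_iff₀ hδ.1]
  rw [add_sub_cancel_left] at h3
  linarith

theorem tens_int (hPol : PolStmt) {u : ℂ → ℝ} {x : ℂ} {r : ℝ}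
    (hi : IntegrableOn (fun z => ‖pd u z‖ ^ 2) (closedBall x r)) :
    IntegrableOn (tens u x) (Ioo 0 r) := by
  have h1 : IntegrableOn (fun z => dir x z * pd u z ^ 2) (closedBall x r) := by
    refine Integrable.mono' hi (Measurable.aestronglyMeasurable ?_)
      (Eventually.of_forall fun z => ?_)
    · have := measurable_pd u
      unfold dir
      fun_prop
    · rw [norm_mul, norm_pow]
      refine mul_le_of_le_one_left (by positivity) ?_
      rw [dir, norm_div, norm_real, norm_norm]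
      exact div_self_le_one _
  refine (hPol.2.1 ℂ _ x r h1).2.1.congr_fun (fun ρ hρ => ?_) measurableSet_Ioo
  have h2 : ∀ θ : ℝ, dir x (circleMap x ρ θ) = exp (θ * I) := by
    intro θ
    have h3 : (ρ : ℂ) ≠ 0 := ofReal_ne_zero.2 hρ.1.ne'
    rw [dir, circleMap_sub_center, norm_circleMap_zero, abs_of_pos hρ.1, circleMap_zero]
    field_simp
  simp only [h2, tens, real_smul]

end Stat

open Stat in
theorem stat_pf (hStat1 : Stat1Stmt) (hPol : PolStmt) : StatStmt := by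
  obtain ⟨C, hC, H⟩ := hStat1
  refine ⟨C, hC, fun Ω K u Λ M h x r γ τ hT hsub hsm => ?_⟩
  have hr := hT.pos
  have h1 : IntegrableOn (tens u x) (Ioo 0 r) :=
    tens_int hPol (h.int x r ((closedBall_subset_closedBall (by linarith)).trans hsub))
  have h2 : IntegrableOn (fun ρ => conj (τ ρ)) (Ioo 0 r) := by
    have : IsFiniteMeasure (volume.restrict (Ioo (0 : ℝ) r)) :=
      isFiniteMeasure_restrict.2 (by simp)
    refine Integrable.of_bound
      ((continuous_conj.comp_continuousOn hT.cont).aestronglyMeasurable measurableSet_Ioo) 1 ?_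
    filter_upwards [ae_restrict_mem measurableSet_Ioo] with ρ hρ
    rw [norm_conj, hT.unit ρ hρ]
  have h3 : IntegrableOn (fun ρ => conj (τ ρ) - tens u x ρ) (Ioo 0 r) := h2.sub h1
  refine ptw hr h3 fun s t hs hst htr => ?_
  refine avg hst (h3.mono_set (Ioo_subset_Ioo hs.le htr.le))
    (mul_nonneg (mul_nonneg hC h.a0) (hs.trans hst).le) fun g hg hg0 hgz hg1 => ?_
  exact H Ω K u Λ M h x r γ τ hT hsub hsm g s t hg hg0 hs hst htr hgz hg1

end Vale.Agent.P128
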