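import Vale.Agent.P128.Stm

open MeasureTheory Set Metric Filter Topology Complex
open scoped ENNReal ComplexConjugate Real

noncomputable section
namespace Vale.Agent.P128

namespace Stat1

/-- the hypotheses on the weight -/
structure Wt (g : ℝ → ℝ) (s t G : ℝ) : Prop where
  cont : Continuous g
  nn : ∀ ρ, 0 ≤ g ρ
  s0 : 0 < s
  st : s < t
  zero : ∀ ρ, ρ ∉ Ioo s t → g ρ = 0
  one : ∫ ρ in s..t, g ρ = 1
  bd : ∀ ρ, g ρ ≤ G

/-- the radial profile -/
def ph (g : ℝ → ℝ) (s ρ : ℝ) : ℝ := 1 - ∫ a in s..ρ, g a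

variable {g : ℝ → ℝ} {s t G : ℝ}

theorem Wt.der (h : Wt g s t G) (ρ : ℝ) : HasDerivAt (ph g s) (-g ρ) ρ :=
  (h.cont.integral_hasStrictDerivAt s ρ).hasDerivAt.const_sub 1

theorem Wt.left (h : Wt g s t G) {ρ : ℝ} (hρ : ρ ≤ s) : ph g s ρ = 1 := by
  have : ∫ a in s..ρ, g a = ∫ _ in s..ρ, (0 : ℝ) := by
    refine intervalIntegral.integral_congr fun a ha => h.zero a fun h' => ?_
    rw [uIcc_of_ge hρ] at ha
    exact absurd h'.1 (not_lt.2 ha.2)
  simp [ph, this]

theorem Wt.anti (h : Wt g s t G) : Antitone (ph g s) :=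
  antitone_of_deriv_nonpos (fun ρ => (h.der ρ).differentiableAt) fun ρ => by
    rw [(h.der ρ).deriv]
    exact neg_nonpos.2 (h.nn ρ)

theorem Wt.right (h : Wt g s t G) {ρ : ℝ} (hρ : t ≤ ρ) : ph g s ρ = 0 := by
  have h1 : ∫ a in t..ρ, g a = ∫ _ in t..ρ, (0 : ℝ) := by
    refine intervalIntegral.integral_congr fun a ha => h.zero a fun h' => ?_
    rw [uIcc_of_le hρ] at ha
    exact absurd h'.2 (not_lt.2 ha.1)
  have h2 := intervalIntegral.integral_add_adjacent_intervals (h.cont.intervalIntegrable s t)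
    (h.cont.intervalIntegrable t ρ) (μ := volume)
  rw [h.one, h1] at h2
  simp [ph, ← h2]

theorem Wt.abs_le (h : Wt g s t G) (ρ : ℝ) : |ph g s ρ| ≤ 1 := by
  rw [_root_.abs_le]
  constructor
  · have := h.anti (le_max_left ρ t)
    rw [h.right (le_max_right ρ t)] at this
    linarith
  · have := h.anti (min_le_left ρ s)
    rwa [h.left (min_le_right ρ s)] at this

theorem Wt.G0 (h : Wt g s t G) : 0 ≤ G := (h.nn 0).trans (h.bd 0)

/-- the deformation field -/
def X (g : ℝ → ℝ) (s : ℝ) (x w z : ℂ) : ℂ := w * (ph g s ‖z - x‖ : ℝ)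

theorem Wt.ev (h : Wt g s t G) (x w : ℂ) : X g s x w =ᶠ[𝓝 x] fun _ => w := by
  filter_upwards [ball_mem_nhds x h.s0] with z hz
  rw [mem_ball, dist_eq_norm] at hz
  simp [X, h.left hz.le]

theorem Wt.c1 (h : Wt g s t G) (x w : ℂ) : ContDiff ℝ 1 (X g s x w) := by
  have h1 : ContDiff ℝ 1 (ph g s) := contDiff_one_iff_deriv.2
    ⟨fun ρ => (h.der ρ).differentiableAt, by
      rw [show deriv (ph g s) = fun ρ => -g ρ from funext fun ρ => (h.der ρ).deriv]
      exact h.cont.neg⟩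
  refine contDiff_iff_contDiffAt.2 fun z => ?_
  by_cases hz : z = x
  · subst hz
    exact contDiffAt_const.congr_of_eventuallyEq (h.ev z w)
  · exact contDiffAt_const.mul (ofRealCLM.contDiff.contDiffAt.comp z (h1.contDiffAt.comp z
      ((contDiffAt_id.sub contDiffAt_const).norm ℝ (sub_ne_zero.2 hz))))

theorem Wt.dzdb (h : Wt g s t G) (x w z : ℂ) :
    dz (X g s x w) z = -w * g ‖z - x‖ * conj (dir x z) / 2 ∧
      db (X g s x w) z = -w * g ‖z - x‖ * dir x z / 2 := by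
  refine dz_db_of_fderiv fun e => ?_
  by_cases hz : z = x
  · subst hz
    rw [(h.ev z w).fderiv_eq]
    simp [dir]
  · have hn : ‖z - x‖ ≠ 0 := norm_ne_zero_iff.2 (sub_ne_zero.2 hz)
    have h1 := (((hasFDerivAt_id (𝕜 := ℝ) z).sub_const x).norm_sq).sqrt (pow_ne_zero 2 hn)
    simp only [id, Real.sqrt_sq (norm_nonneg _)] at h1
    have h2 := ((ofRealCLM.hasFDerivAt.comp z
      ((h.der ‖z - x‖).hasFDerivAt.comp z h1)).const_mul w).fderiv
    rw [show fderiv ℝ (X g s x w) z = _ from h2]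
    have hn' : ((‖z - x‖ : ℝ) : ℂ) ≠ 0 := ofReal_ne_zero.2 hn
    have h3 : ((inner ℝ (z - x) e : ℝ) : ℂ) = (conj (z - x) * e + (z - x) * conj e) / 2 := by
      rw [real_inner_eq_re_inner ℂ, RCLike.inner_apply]
      apply Complex.ext <;> simp <;> ring
    simp only [smul_apply, ContinuousLinearMap.comp_apply, ofRealCLM_apply, smul_eq_mul,
      ContinuousLinearMap.toSpanSingleton_apply, ContinuousLinearMap.id_apply, innerSL_apply_apply,
      nsmul_eq_mul, dir, map_div₀, conj_ofReal]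
    push_cast
    rw [h3]
    field_simp
    ring

theorem norm_dir_le (x z : ℂ) : ‖dir x z‖ ≤ 1 := by
  rw [dir, norm_div, norm_real, norm_norm]
  exact div_self_le_one _

theorem Wt.sum_le (h : Wt g s t G) (x w z : ℂ) :
    ‖dz (X g s x w) z‖ + ‖db (X g s x w) z‖ ≤ ‖w‖ * G := by
  obtain ⟨h1, h2⟩ := h.dzdb x w z
  rw [h1, h2]
  simp only [norm_div, norm_mul, norm_neg, norm_real, RCLike.norm_conj, Complex.norm_two,
    Real.norm_eq_abs, abs_of_nonneg (h.nn _)]
  have a1 : g ‖z - x‖ * ‖dir x z‖ ≤ G :=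
    (mul_le_of_le_one_right (h.nn _) (norm_dir_le x z)).trans (h.bd _)
  have a2 := mul_le_mul_of_nonneg_left a1 (norm_nonneg w)
  linarith

/-- first variation of the energy -/
theorem energy (hPol : PolStmt) (h : Wt g s t G) {C : ℝ} (hC0 : 0 ≤ C)
    (hC : ∀ α β P : ℂ, ‖α‖ + ‖β‖ ≤ 1 / 2 →
      |dd α β P - ‖P‖ ^ 2 + 2 * (β * P ^ 2).re| ≤ C * (‖α‖ + ‖β‖) ^ 2 * ‖P‖ ^ 2)
    (u : ℂ → ℝ) (x : ℂ) (hi : IntegrableOn (fun z => ‖pd u z‖ ^ 2) (closedBall x t)) :
    IntervalIntegrable (fun ρ => g ρ * tens u x ρ) volume s t ∧ ∀ w : ℂ, ‖w‖ * G ≤ 1 / 2 →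
      IntegrableOn (fun z => dens (X g s x w) (pd u z) z) (closedBall x t) →
      ∫ z in closedBall x t, dens (X g s x w) (pd u z) z ≤ En u (closedBall x t) +
        (w * ∫ ρ in s..t, g ρ * tens u x ρ).re +
        C * (‖w‖ * G) ^ 2 * En u (closedBall x t) := by
  have hF : IntegrableOn (fun z => (g ‖z - x‖ : ℂ) * dir x z * pd u z ^ 2) (closedBall x t) := by
    refine Integrable.mono' (hi.const_mul G) (Measurable.aestronglyMeasurable ?_)
      (Eventually.of_forall fun z => ?_)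
    · have m1 : Measurable fun z : ℂ => (g ‖z - x‖ : ℂ) :=
        (continuous_ofReal.comp (h.cont.comp (by fun_prop))).measurable
      have m2 : Measurable (dir x) := by
        unfold dir
        fun_prop
      exact (m1.mul m2).mul ((measurable_pd u).pow_const 2)
    · rw [norm_mul, norm_mul, norm_pow, norm_real, Real.norm_eq_abs, abs_of_nonneg (h.nn _)]
      exact mul_le_mul_of_nonneg_right
        ((mul_le_of_le_one_right (h.nn _) (norm_dir_le x z)).trans (h.bd _)) (by positivity)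
  obtain ⟨-, p2, p3⟩ := hPol.2.1 ℂ _ x t hF
  have e1 : ∀ ρ : ℝ, 0 < ρ → ρ • ∫ θ in (0 : ℝ)..2 * π, (g ‖circleMap x ρ θ - x‖ : ℂ) *
      dir x (circleMap x ρ θ) * pd u (circleMap x ρ θ) ^ 2 = g ρ * tens u x ρ := fun ρ hρ => by
    have e2 : ∀ θ : ℝ, (g ‖circleMap x ρ θ - x‖ : ℂ) * dir x (circleMap x ρ θ) *
        pd u (circleMap x ρ θ) ^ 2 = g ρ * (exp (θ * I) * pd u (circleMap x ρ θ) ^ 2) := by
      intro θ
      have e3 : ‖circleMap x ρ θ - x‖ = ρ := by
        rw [circleMap_sub_center, norm_circleMap_zero, abs_of_pos hρ]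
      have e4 : (ρ : ℂ) ≠ 0 := ofReal_ne_zero.2 hρ.ne'
      rw [dir, e3, circleMap_sub_center, circleMap_zero]
      field_simp
    simp only [e2, intervalIntegral.integral_const_mul, tens, real_smul]
    ring
  have e5 : ∫ z in closedBall x t, (g ‖z - x‖ : ℂ) * dir x z * pd u z ^ 2 =
      ∫ ρ in s..t, g ρ * tens u x ρ := by
    rw [setIntegral_eq_of_subset_of_forall_sdiff_eq_zero measurableSet_closedBall
      (sdiff_subset (t := closedBall x s)), p3 s t h.s0.le h.st.le le_rfl]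
    · refine intervalIntegral.integral_congr fun ρ hρ => e1 ρ ?_
      rw [uIcc_of_le h.st.le] at hρ
      exact h.s0.trans_le hρ.1
    · intro z hz
      have hz' : z ∈ closedBall x s := by
        by_contra hc
        exact hz.2 ⟨hz.1, hc⟩
      rw [mem_closedBall, dist_eq_norm] at hz'
      rw [h.zero _ fun h' => absurd h'.1 (not_lt.2 hz')]
      simp
  refine ⟨?_, fun w hw hd => ?_⟩
  · rw [intervalIntegrable_iff_integrableOn_Ioo_of_le h.st.le]
    exact (p2.mono_set (Ioo_subset_Ioo_left h.s0.le)).congr_fun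
      (fun ρ hρ => e1 ρ (h.s0.trans hρ.1)) measurableSet_Ioo
  · have i1 : Integrable (fun z => (w * ((g ‖z - x‖ : ℂ) * dir x z * pd u z ^ 2)).re)
        (volume.restrict (closedBall x t)) := (hF.const_mul w).re
    have i2 : ∫ z in closedBall x t, (w * ((g ‖z - x‖ : ℂ) * dir x z * pd u z ^ 2)).re =
        (∫ z in closedBall x t, w * ((g ‖z - x‖ : ℂ) * dir x z * pd u z ^ 2)).re :=
      integral_re (𝕜 := ℂ) (hF.const_mul w)
    have i3 : Integrable (fun z => ‖pd u z‖ ^ 2 +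
        (w * ((g ‖z - x‖ : ℂ) * dir x z * pd u z ^ 2)).re) (volume.restrict (closedBall x t)) :=
      hi.add i1
    rw [← e5, ← integral_const_mul, En, ← integral_const_mul, ← i2, ← integral_add hi i1,
      ← integral_add i3 (hi.const_mul _)]
    refine integral_mono hd (i3.add (hi.const_mul _)) fun z => ?_
    have a1 := h.sum_le x w z
    have a2 := (le_abs_self _).trans (hC _ _ (pd u z) (a1.trans hw))
    have a3 : C * (‖dz (X g s x w) z‖ + ‖db (X g s x w) z‖) ^ 2 * ‖pd u z‖ ^ 2 ≤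
        C * (‖w‖ * G) ^ 2 * ‖pd u z‖ ^ 2 := by gcongr
    have a4 : 2 * (db (X g s x w) z * pd u z ^ 2).re =
        -(w * ((g ‖z - x‖ : ℂ) * dir x z * pd u z ^ 2)).re := by
      rw [(h.dzdb x w z).2, ← neg_re, ← re_ofReal_mul]
      congr 1
      push_cast
      ring
    simp only [dens]
    linarith

theorem tri {c : ℝ} (hc : 1 ≤ c) {τ b : ℂ} (hτ : ‖τ‖ = 1) :
    ‖c * τ - b‖ ≤ ‖c * τ‖ - (b * conj τ).re + ‖b‖ ^ 2 / 2 := by
  have h1 : ‖(c : ℂ) * τ‖ = c := by
    rw [norm_mul, hτ, norm_real, Real.norm_eq_abs, abs_of_pos (by linarith), mul_one]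
  have h2 : ‖c * τ - b‖ ^ 2 = c ^ 2 - 2 * c * (b * conj τ).re + ‖b‖ ^ 2 := by
    have h3 : τ.re ^ 2 + τ.im ^ 2 = 1 := by
      have := Complex.sq_norm τ
      rw [hτ, normSq_apply] at this
      linarith
    rw [Complex.sq_norm, Complex.sq_norm, normSq_apply, normSq_apply]
    simp only [sub_re, sub_im, mul_re, mul_im, ofReal_re, ofReal_im, conj_re, conj_im]
    linear_combination c ^ 2 * h3
  rw [h1]
  refine le_of_mul_le_mul_left ?_ (show 0 < 2 * c by linarith)
  nlinarith [sq_nonneg (‖c * τ - b‖ - c), mul_nonneg (sub_nonneg.2 hc) (sq_nonneg ‖b‖)]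

/-- first variation of the length -/
theorem length (hCurve : CurveStmt) (h : Wt g s t G) {K : Set ℂ} {x : ℂ} {r : ℝ} {γ τ : ℝ → ℂ}
    (hT : Tip K x r γ τ) (htr : t < r) (hf : μH[1] (K ∩ closedBall x t) < ⊤) :
    IntervalIntegrable (fun ρ => g ρ * conj (τ ρ)) volume s t ∧ ∀ w : ℂ,
      (μH[1] ((fun z => z + X g s x w z) '' (K ∩ closedBall x t))).toReal ≤
        len K (closedBall x t) - (w * ∫ ρ in s..t, g ρ * conj (τ ρ)).re +
          (‖w‖ * G) ^ 2 * t := by
  have hsub : Icc s t ⊆ Ioo 0 r := fun ρ hρ => ⟨h.s0.trans_le hρ.1, hρ.2.trans_lt htr⟩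
  have cγ : ContinuousOn γ (Icc s t) := fun ρ hρ =>
    (hT.der ρ (hsub hρ)).continuousAt.continuousWithinAt
  have cτ : ContinuousOn τ (Icc s t) := hT.cont.mono hsub
  have ccb : ContinuousOn (cb x γ τ) (Icc s t) :=
    (continuous_re.comp_continuousOn ((continuous_conj.comp_continuousOn cτ).mul
      (cγ.sub continuousOn_const))).div continuousOn_id fun ρ hρ => (hsub hρ).1.ne'
  have cb0 : ∀ ρ ∈ Icc s t, 0 < cb x γ τ ρ := fun ρ hρ => by linarith [hT.cos ρ (hsub hρ)]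
  have cb1 : ∀ ρ ∈ Icc s t, cb x γ τ ρ ≤ 1 := fun ρ hρ => by
    rw [cb, div_le_one (hsub hρ).1]
    refine (re_le_norm _).trans ?_
    rw [norm_mul, RCLike.norm_conj, hT.unit ρ (hsub hρ), hT.norm ρ (hsub hρ), one_mul]
  have cγ' : ContinuousOn (fun ρ => τ ρ / (cb x γ τ ρ : ℝ)) (Icc s t) :=
    cτ.div (continuous_ofReal.comp_continuousOn ccb) fun ρ hρ => ofReal_ne_zero.2 (cb0 ρ hρ).ne'
  have cg : Continuous fun ρ => (g ρ : ℂ) := continuous_ofReal.comp h.cont
  have cS : ContinuousOn (fun ρ => g ρ * conj (τ ρ)) (uIcc s t) := by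
    rw [uIcc_of_le h.st.le]
    exact cg.continuousOn.mul (continuous_conj.comp_continuousOn cτ)
  have hK : ∀ ρ ∈ Icc s t, γ ρ ∈ K := fun ρ hρ =>
    (show γ ρ ∈ K ∩ ball x r from hT.eq ▸ Or.inr ⟨ρ, hsub hρ, rfl⟩).1
  have hsplit : K ∩ closedBall x t = (K ∩ closedBall x s) ∪ γ '' Icc s t := by
    refine Subset.antisymm (fun z hz => ?_) (union_subset
      (inter_subset_inter_right _ (closedBall_subset_closedBall h.st.le)) ?_)
    · by_cases hzs : z ∈ closedBall x s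
      · exact Or.inl ⟨hz.1, hzs⟩
      · have h1 : z ∈ {x} ∪ γ '' Ioo 0 r := hT.eq ▸ ⟨hz.1, closedBall_subset_ball htr hz.2⟩
        rcases h1 with h1 | ⟨ρ, hρ, rfl⟩
        · exact absurd (h1 ▸ mem_closedBall_self h.s0.le) hzs
        · have h2 := hz.2
          rw [mem_closedBall, dist_eq_norm, hT.norm ρ hρ] at h2 hzs
          exact Or.inr ⟨ρ, ⟨(not_le.1 hzs).le, h2⟩, rfl⟩
    · rintro _ ⟨ρ, hρ, rfl⟩
      refine ⟨hK ρ hρ, ?_⟩
      rw [mem_closedBall, dist_eq_norm, hT.norm ρ (hsub hρ)]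
      exact hρ.2
  have hinj : InjOn γ (Icc s t) := fun a ha b hb e => by
    rw [← hT.norm a (hsub ha), e, hT.norm b (hsub hb)]
  have hfs : μH[1] (K ∩ closedBall x s) ≠ ⊤ :=
    ((measure_mono (hsplit ▸ subset_union_left)).trans_lt hf).ne
  have hlen : len K (closedBall x t) =
      len K (closedBall x s) + ∫ ρ in s..t, ‖τ ρ / (cb x γ τ ρ : ℝ)‖ := by
    have h1 := measure_union_add_inter (μ := (μH[1] : Measure ℂ)) (K ∩ closedBall x s)
      (isCompact_Icc.image_of_continuousOn cγ).measurableSet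
    have h2 : μH[1] (K ∩ closedBall x s ∩ γ '' Icc s t) = 0 := by
      have := Measure.nullSingletonClass_hausdorff ℂ one_pos
      refine measure_mono_null (t := {γ s}) ?_ (measure_singleton _)
      rintro _ ⟨h3, ρ, hρ, rfl⟩
      have h4 := h3.2
      rw [mem_closedBall, dist_eq_norm, hT.norm ρ (hsub hρ)] at h4
      rw [le_antisymm h4 hρ.1]
      rfl
    rw [h2, add_zero, ← hsplit,
      (hCurve γ _ s t h.st.le (fun ρ hρ => hT.der ρ (hsub hρ)) cγ').2 hinj] at h1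
    rw [len, h1, ENNReal.toReal_add hfs ENNReal.ofReal_ne_top, ENNReal.toReal_ofReal
      (intervalIntegral.integral_nonneg h.st.le fun _ _ => norm_nonneg _), len]
  refine ⟨cS.intervalIntegrable, fun w => ?_⟩
  have c2 : ContinuousOn (fun ρ => τ ρ / (cb x γ τ ρ : ℝ) + w * ((-g ρ : ℝ) : ℂ)) (Icc s t) :=
    cγ'.add (continuous_const.mul (continuous_ofReal.comp h.cont.neg)).continuousOn
  have h1 := (hCurve (fun ρ => γ ρ + w * (ph g s ρ : ℝ)) _ s t h.st.le (fun ρ hρ =>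
    (hT.der ρ (hsub hρ)).add ((h.der ρ).ofReal_comp.const_mul w)) c2).1
  have h2 : (fun z => z + X g s x w z) '' (K ∩ closedBall x t) ⊆
      (fun z => z + w) '' (K ∩ closedBall x s) ∪
        (fun ρ => γ ρ + w * (ph g s ρ : ℝ)) '' Icc s t := by
    rw [hsplit]
    rintro _ ⟨z, hz | ⟨ρ, hρ, rfl⟩, rfl⟩
    · refine Or.inl ⟨z, hz, ?_⟩
      have h3 := hz.2
      rw [mem_closedBall, dist_eq_norm] at h3
      simp [X, h.left h3]
    · exact Or.inr ⟨ρ, hρ, by simp only [X, hT.norm ρ (hsub hρ)]⟩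
  have h3 := (measure_mono (μ := (μH[1] : Measure ℂ)) h2).trans ((measure_union_le _ _).trans
    (add_le_add ((isometry_add_right w).hausdorffMeasure_image (Or.inl zero_le_one) _).le h1))
  have h4 := ENNReal.toReal_mono (ENNReal.add_ne_top.2 ⟨hfs, ENNReal.ofReal_ne_top⟩) h3
  rw [ENNReal.toReal_add hfs ENNReal.ofReal_ne_top, ENNReal.toReal_ofReal
    (intervalIntegral.integral_nonneg h.st.le fun _ _ => norm_nonneg _)] at h4
  have i1 : IntervalIntegrable (fun ρ => ‖τ ρ / (cb x γ τ ρ : ℝ)‖) volume s t :=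
    (cγ'.norm.mono (uIcc_of_le h.st.le).le).intervalIntegrable
  have i2 : IntervalIntegrable (fun ρ => w * (g ρ * conj (τ ρ))) volume s t :=
    cS.intervalIntegrable.const_mul w
  have i3 : IntervalIntegrable (fun ρ => (w * (g ρ * conj (τ ρ))).re) volume s t :=
    (continuous_re.comp_continuousOn (continuousOn_const.mul cS)).intervalIntegrable
  have h5 : ∫ ρ in s..t, ‖τ ρ / (cb x γ τ ρ : ℝ) + w * ((-g ρ : ℝ) : ℂ)‖ ≤
      ∫ ρ in s..t, (‖τ ρ / (cb x γ τ ρ : ℝ)‖ - (w * (g ρ * conj (τ ρ))).re + (‖w‖ * G) ^ 2) := by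
    refine intervalIntegral.integral_mono_on h.st.le
      (c2.norm.mono (uIcc_of_le h.st.le).le).intervalIntegrable
      ((i1.sub i3).add intervalIntegrable_const) fun ρ hρ => ?_
    have a1 := tri (b := w * g ρ) ((one_le_inv₀ (cb0 ρ hρ)).2 (cb1 ρ hρ)) (hT.unit ρ (hsub hρ))
    have a2 : (((cb x γ τ ρ)⁻¹ : ℝ) : ℂ) * τ ρ = τ ρ / (cb x γ τ ρ : ℝ) := by
      rw [ofReal_inv, div_eq_inv_mul]
    have a3 : ‖w * g ρ‖ ^ 2 ≤ (‖w‖ * G) ^ 2 := by
      rw [norm_mul, norm_real, Real.norm_eq_abs, abs_of_nonneg (h.nn ρ)]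
      have := h.bd ρ
      have := h.nn ρ
      gcongr
    rw [a2, mul_assoc] at a1
    rw [ofReal_neg, mul_neg, ← sub_eq_add_neg]
    nlinarith [sq_nonneg ‖w * g ρ‖]
  have h6 : ∫ ρ in s..t, (w * (g ρ * conj (τ ρ))).re = (w * ∫ ρ in s..t, g ρ * conj (τ ρ)).re := by
    rw [← intervalIntegral.integral_const_mul]
    exact (reCLM.intervalIntegral_comp_comm i2)
  rw [intervalIntegral.integral_add (i1.sub i3) intervalIntegrable_const,
    intervalIntegral.integral_sub i1 i3, h6, intervalIntegral.integral_const, smul_eq_mul] at h5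
  have h7 := mul_nonneg h.s0.le (sq_nonneg (‖w‖ * G))
  rw [hlen, len]
  linarith

end Stat1

open Stat1 in
theorem stat1_pf (hDefc : DefcStmt) (hFid : FidStmt) (hCurve : CurveStmt) (hAlg : AlgStmt)
    (hPol : PolStmt) : Stat1Stmt := by
  obtain ⟨CF, hCF0, hCF⟩ := hFid
  obtain ⟨CA, hCA0, hCA⟩ := hAlg
  refine ⟨3 * CF, by positivity, ?_⟩
  intro Ω K u Λ M hm x r γ τ hT hΩ hΛ g s t hg hg0 hs hst htr hz h1
  obtain ⟨G, hG⟩ := isCompact_Icc.exists_bound_of_continuousOn (hg.continuousOn (s := Icc s t))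
  have h : Wt g s t G := ⟨hg, hg0, hs, hst, hz, h1, fun ρ => by
    by_cases hρ : ρ ∈ Ioo s t
    · exact (le_abs_self _).trans (hG ρ (Ioo_subset_Icc_self hρ))
    · rw [hz ρ hρ]
      exact (norm_nonneg _).trans (hG s ⟨le_rfl, hst.le⟩)⟩
  have ht : 0 < t := hs.trans hst
  have hB2 : closedBall x (2 * t) ⊆ Ω := (closedBall_subset_closedBall (by linarith)).trans hΩ
  have hB : closedBall x t ⊆ Ω := (closedBall_subset_closedBall (by linarith)).trans hB2
  have ha := hm.a0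
  obtain ⟨iT, hE⟩ := energy hPol h hCA0 (fun α β P hh => (hCA α β P hh).2.1) u x (hm.int x t hB)
  obtain ⟨iS, hL⟩ := length hCurve h hT htr (hm.fin x t hB)
  have eJ : ∫ ρ in s..t, g ρ * (conj (τ ρ) - tens u x ρ) =
      (∫ ρ in s..t, g ρ * conj (τ ρ)) - ∫ ρ in s..t, g ρ * tens u x ρ := by
    rw [← intervalIntegral.integral_sub iS iT]
    simp only [mul_sub]
  rw [eJ]
  generalize (∫ ρ in s..t, g ρ * conj (τ ρ)) = S at hL ⊢
  generalize (∫ ρ in s..t, g ρ * tens u x ρ) = T at hE ⊢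
  obtain ⟨v, hv, hvJ⟩ := Complex.exists_norm_eq_mul_self (S - T)
  have key : ∀ l : ℝ, 0 < l → l ≤ t / 4 → l * G ≤ 1 / 2 → ‖S - T‖ ≤
      3 * CF * (Λ * M) * t + l * (G ^ 2 * (CA * En u (closedBall x t) + t)) := by
    intro l hl hl1 hl2
    have hw : ‖(l : ℂ) * v‖ = l := by
      rw [norm_mul, hv, norm_real, Real.norm_eq_abs, abs_of_pos hl, mul_one]
    have hfd : ∀ z, ‖fderiv ℝ (X g s x (l * v)) z‖ ≤ 1 / 2 := fun z => by
      rw [norm_fderiv_eq]
      exact (h.sum_le x _ z).trans (hw.symm ▸ hl2)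
    obtain ⟨d1, d2⟩ := hDefc Ω K u Λ M hm x t (X g s x (l * v)) (fun _ => 0) hB (h.c1 x _) hfd
      (fun z hz => by
        rw [mem_closedBall, dist_eq_norm, not_le] at hz
        simp [X, h.right hz.le])
      (locLip_of_contDiffOn hm.isOpen contDiffOn_const) (by simp [pd_const])
    simp only [pd_const, add_zero, sub_zero] at d1 d2
    have d3 := hE _ (hw.symm ▸ hl2) d1
    have d4 := hL (l * v)
    have d5 := hCF Ω K u Λ M hm x t l (X g s x (l * v)) hl hl1 hB2 (by nlinarith) (h.c1 x _) hfd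
      fun z => by
        rw [X, norm_mul, hw, norm_real]
        exact mul_le_of_le_one_right hl.le (h.abs_le _)
    have d6 : (l * v * S).re - (l * v * T).re = l * ‖S - T‖ := by
      rw [← sub_re, ← mul_sub, mul_assoc, ← hvJ, ← ofReal_mul, ofReal_re]
    rw [hw] at d3 d4
    refine le_of_mul_le_mul_left ?_ hl
    nlinarith
  have lim : Tendsto (fun l : ℝ => 3 * CF * (Λ * M) * t +
      l * (G ^ 2 * (CA * En u (closedBall x t) + t))) (𝓝[>] 0) (𝓝 (3 * CF * (Λ * M) * t)) := by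
    have : Continuous fun l : ℝ => 3 * CF * (Λ * M) * t +
      l * (G ^ 2 * (CA * En u (closedBall x t) + t)) := by fun_prop
    simpa using (this.tendsto 0).mono_left nhdsWithin_le_nhds
  refine ge_of_tendsto lim ?_
  have e1 : ∀ᶠ l : ℝ in 𝓝 0, l ≤ t / 4 := eventually_le_nhds (by linarith)
  have e2 : ∀ᶠ l : ℝ in 𝓝 0, l * G ≤ 1 / 2 :=
    (by fun_prop : Continuous fun l : ℝ => l * G).continuousAt.eventually
      (p := fun y => y ≤ 1 / 2) (eventually_le_nhds (by simp))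
  filter_upwards [self_mem_nhdsWithin, e1.filter_mono nhdsWithin_le_nhds,
    e2.filter_mono nhdsWithin_le_nhds] with l a1 a2 a3 using key l a1 a2 a3

end Vale.Agent.P128
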