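import Vale.Agent.P128.Stm

open MeasureTheory Set Metric Filter Topology Complex
open scoped ENNReal ComplexConjugate Real

noncomputable section
namespace Vale.Agent.P128

namespace Sv1

theorem w_int (hGrow : GrowStmt) (μ : Measure ℂ)
    (h : ∀ R, 1 ≤ R → μ (closedBall 0 R) ≤ ENNReal.ofReal (2 * π * R)) :
    ∫⁻ z, ENNReal.ofReal (1 / (1 + ‖z‖) ^ 2) ∂μ < ⊤ := by
  obtain ⟨C', -, hC⟩ := hGrow 2 (by norm_num)
  have h1 := hC μ (2 * π) (by positivity) h 1 le_rfl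
  refine lt_of_le_of_lt (le_of_eq ?_) (lt_of_le_of_lt h1 ENNReal.ofReal_lt_top)
  refine lintegral_congr fun z => ?_
  rw [Real.rpow_neg (by positivity), one_div]
  norm_num

theorem meas_w : Measurable fun z : ℂ => 1 / (1 + ‖z‖) ^ 2 := by fun_prop

theorem up0 (hUp : UpStmt) {K : Set ℂ} {u : ℂ → ℝ} (h : GM K u) {R : ℝ} (hR : 0 ≤ R) :
    En u (closedBall 0 R) ≤ 2 * π * R ∧ len K (closedBall 0 R) ≤ 2 * π * R := by
  have h1 := hUp _ _ _ _ _ h 0 R hR (subset_univ _)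
  have h2 := En_nonneg u (closedBall 0 R)
  have h3 := len_nonneg K (closedBall 0 R)
  simp only [zero_mul, mul_zero, add_zero] at h1
  constructor <;> linarith

theorem int_w1 (hGrow : GrowStmt) (hUp : UpStmt) {K : Set ℂ} {u : ℂ → ℝ} (h : GM K u) :
    Integrable fun z => ‖pd u z‖ ^ 2 * (1 / (1 + ‖z‖) ^ 2) := by
  have hm : Measurable fun z => ‖pd u z‖ ^ 2 := (measurable_pd u).norm.pow_const 2
  have hm' : Measurable fun z => ENNReal.ofReal (‖pd u z‖ ^ 2) := hm.ennreal_ofReal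
  have h1 := w_int hGrow (volume.withDensity fun z => ENNReal.ofReal (‖pd u z‖ ^ 2)) (by
    intro R hR
    rw [withDensity_apply _ measurableSet_closedBall,
      ← ofReal_integral_eq_lintegral_ofReal (h.int 0 R (subset_univ _))
        (Eventually.of_forall fun z => by positivity)]
    exact ENNReal.ofReal_le_ofReal (up0 hUp h (by linarith)).1)
  rw [lintegral_withDensity_eq_lintegral_mul _ hm' meas_w.ennreal_ofReal] at h1
  refine ⟨(hm.mul meas_w).aestronglyMeasurable, ?_⟩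
  rw [hasFiniteIntegral_iff_ofReal (Eventually.of_forall fun z => by positivity)]
  refine lt_of_le_of_lt (le_of_eq ?_) h1
  refine lintegral_congr fun z => ?_
  rw [ENNReal.ofReal_mul (by positivity)]
  rfl

theorem int_w2 (hGrow : GrowStmt) (hUp : UpStmt) {K : Set ℂ} {u : ℂ → ℝ} (h : GM K u) :
    Integrable (fun z : ℂ => 1 / (1 + ‖z‖) ^ 2) ((μH[1] : Measure ℂ).restrict K) := by
  have h1 := w_int hGrow ((μH[1] : Measure ℂ).restrict K) (by
    intro R hR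
    rw [Measure.restrict_apply measurableSet_closedBall, inter_comm,
      ← ENNReal.ofReal_toReal (h.fin 0 R (subset_univ _)).ne]
    exact ENNReal.ofReal_le_ofReal (up0 hUp h (by linarith)).2)
  refine ⟨meas_w.aestronglyMeasurable, ?_⟩
  rw [hasFiniteIntegral_iff_ofReal (Eventually.of_forall fun z => by positivity)]
  exact h1

theorem cutoff {X : ℂ → ℂ} (hX : ContDiff ℝ 1 X) (hd : Decay X)
    (h4 : ∀ z, ‖fderiv ℝ X z‖ ≤ 1 / 4) :
    ∃ (C : ℝ) (Y : ℕ → ℂ → ℂ), 0 ≤ C ∧ (∀ z, ‖fderiv ℝ X z‖ ≤ C * (1 / (1 + ‖z‖) ^ 2)) ∧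
      (∀ n, ContDiff ℝ 1 (Y n)) ∧
      (∀ n z, ‖fderiv ℝ (Y n) z‖ ≤ C * (1 / (1 + ‖z‖) ^ 2)) ∧
      (∀ᶠ n in atTop, ∀ z, ‖fderiv ℝ (Y n) z‖ ≤ 1 / 2) ∧
      (∀ (n : ℕ) z, z ∉ closedBall (0 : ℂ) (2 * ((n : ℝ) + 1)) → Y n z = 0) ∧
      ∀ z, ∀ᶠ n in atTop, fderiv ℝ (Y n) z = fderiv ℝ X z := by
  obtain ⟨C, hC⟩ := hd
  have hC0 : 0 ≤ C := by
    have := (norm_nonneg _).trans (hC 0).1
    simpa using this
  let ζ : ContDiffBump (0 : ℂ) := ⟨1, 2, by norm_num, by norm_num⟩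
  have hζ : ContDiff ℝ 1 ζ := ζ.contDiff
  obtain ⟨B, hB⟩ := (hζ.continuous_fderiv (by norm_num)).bounded_above_of_compact_support
    (ζ.hasCompactSupport.fderiv ℝ)
  have hB0 : 0 ≤ B := (norm_nonneg _).trans (hB 0)
  have hζ0 : ∀ w : ℂ, 2 < ‖w‖ → fderiv ℝ ζ w = 0 := by
    intro w hw
    refine fderiv_of_notMem_tsupport ℝ ?_
    rw [ζ.tsupport_eq]
    simpa [ζ] using hw
  let η : ℕ → ℂ → ℝ := fun n z => ζ (((n : ℝ) + 1)⁻¹ • z)
  have hη : ∀ n, ContDiff ℝ 1 (η n) := fun n => hζ.comp (contDiff_id.const_smul _)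
  have hn : ∀ n : ℕ, (0 : ℝ) < (n : ℝ) + 1 := fun n => by positivity
  have hDη : ∀ n z, ‖fderiv ℝ (η n) z‖ =
      ((n : ℝ) + 1)⁻¹ * ‖fderiv ℝ ζ (((n : ℝ) + 1)⁻¹ • z)‖ := by
    intro n z
    have := fderiv_comp_smul (𝕜 := ℝ) (f := (ζ : ℂ → ℝ)) (x := z) ((n : ℝ) + 1)⁻¹
    simp only [η]
    rw [this, norm_smul, Real.norm_of_nonneg (inv_nonneg.2 (hn n).le)]
  have hD : ∀ n z, ‖fderiv ℝ (fun z => η n z • X z) z‖ ≤
      ‖fderiv ℝ X z‖ + ‖fderiv ℝ (η n) z‖ * ‖X z‖ := by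
    intro n z
    rw [fderiv_fun_smul ((hη n).differentiable (by norm_num) z)
      (hX.differentiable (by norm_num) z)]
    refine (norm_add_le _ _).trans (add_le_add ?_ ?_)
    · rw [norm_smul, Real.norm_of_nonneg ζ.nonneg]
      exact mul_le_of_le_one_left (norm_nonneg _) ζ.le_one
    · rw [ContinuousLinearMap.norm_smulRight_apply]
  have hDX : ∀ z, ‖fderiv ℝ X z‖ ≤ C * (1 / (1 + ‖z‖) ^ 2) := fun z => by
    rw [mul_one_div]; exact (hC z).2
  have hw : ∀ z : ℂ, 0 ≤ 1 / (1 + ‖z‖) ^ 2 := fun z => by positivity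
  refine ⟨C + 3 * B * C, fun n z => η n z • X z, by positivity, fun z => ?_,
    fun n => (hη n).smul hX, fun n z => ?_, ?_, fun n z hz => ?_, fun z => ?_⟩
  · refine (hDX z).trans (mul_le_mul_of_nonneg_right ?_ (hw z))
    have : 0 ≤ 3 * B * C := by positivity
    linarith
  · refine (hD n z).trans ?_
    rw [add_mul]
    refine add_le_add (hDX z) ?_
    rw [hDη]
    by_cases hz : 2 < ‖((n : ℝ) + 1)⁻¹ • z‖
    · rw [hζ0 _ hz]; simp only [norm_zero, mul_zero, zero_mul]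
      have := hw z
      positivity
    · rw [not_lt, norm_smul, Real.norm_of_nonneg (inv_nonneg.2 (hn n).le),
        inv_mul_le_iff₀ (hn n)] at hz
      have h1 : ((n : ℝ) + 1)⁻¹ ≤ 3 / (1 + ‖z‖) := by
        rw [inv_eq_one_div, div_le_div_iff₀ (hn n) (by positivity)]
        have : (0 : ℝ) ≤ n := n.cast_nonneg
        linarith
      calc ((n : ℝ) + 1)⁻¹ * ‖fderiv ℝ ζ (((n : ℝ) + 1)⁻¹ • z)‖ * ‖X z‖
          ≤ 3 / (1 + ‖z‖) * B * (C / (1 + ‖z‖)) := by
            gcongr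
            · exact hB _
            · exact (hC z).1
        _ = 3 * B * C * (1 / (1 + ‖z‖) ^ 2) := by field_simp
  · have ht : Tendsto (fun n : ℕ => ((n : ℝ) + 1)⁻¹ * B * C) atTop (𝓝 (0 * B * C)) := by
      refine (Tendsto.mul_const _ ?_).mul_const _
      simpa using tendsto_one_div_add_atTop_nhds_zero_nat (𝕜 := ℝ)
    have h14 : (0 : ℝ) * B * C < 1 / 4 := by norm_num
    filter_upwards [ht.eventually_lt_const h14] with n hlt z
    refine (hD n z).trans ?_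
    rw [hDη]
    have h1 : ‖X z‖ ≤ C := (hC z).1.trans (div_le_self hC0 (by linarith [norm_nonneg z]))
    have h2 : ((n : ℝ) + 1)⁻¹ * ‖fderiv ℝ ζ (((n : ℝ) + 1)⁻¹ • z)‖ * ‖X z‖ ≤
        ((n : ℝ) + 1)⁻¹ * B * C := by
      gcongr
      exact hB _
    linarith [h4 z]
  · have : η n z = 0 := by
      refine ζ.zero_of_le_dist ?_
      rw [mem_closedBall, dist_zero_right, not_le] at hz
      rw [dist_zero_right, norm_smul, Real.norm_of_nonneg (inv_nonneg.2 (hn n).le),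
        le_inv_mul_iff₀ (hn n)]
      change ((n : ℝ) + 1) * 2 ≤ ‖z‖
      linarith
    simp [this]
  · obtain ⟨N, hN⟩ := exists_nat_gt ‖z‖
    filter_upwards [eventually_ge_atTop N] with n hnN
    refine Filter.EventuallyEq.fderiv_eq ?_
    have hz : z ∈ ball (0 : ℂ) ((n : ℝ) + 1) := by
      rw [mem_ball_zero_iff]
      have : (N : ℝ) ≤ n := by exact_mod_cast hnN
      linarith
    filter_upwards [isOpen_ball.mem_nhds hz] with w hw
    have : η n w = 1 := by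
      refine ζ.one_of_mem_closedBall ?_
      rw [mem_ball_zero_iff] at hw
      rw [mem_closedBall, dist_zero_right, norm_smul,
        Real.norm_of_nonneg (inv_nonneg.2 (hn n).le), inv_mul_le_iff₀ (hn n)]
      change ‖w‖ ≤ ((n : ℝ) + 1) * 1
      linarith
    simp [this]

theorem out_zero {F : Type*} [NormedAddCommGroup F] [NormedSpace ℝ F] {f : ℂ → F} {r : ℝ}
    (h : ∀ z, z ∉ closedBall (0 : ℂ) r → f z = 0) {z : ℂ} (hz : z ∉ closedBall (0 : ℂ) r) :
    fderiv ℝ f z = 0 := by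
  have : f =ᶠ[𝓝 z] fun _ => 0 := by
    filter_upwards [isClosed_closedBall.isOpen_compl.mem_nhds hz] with w hw using h w hw
  rw [this.fderiv_eq]
  simp

theorem dz_id_add {Y : ℂ → ℂ} {z : ℂ} (hY : DifferentiableAt ℝ Y z) :
    ‖fderiv ℝ (fun z => z + Y z) z‖ = ‖1 + dz Y z‖ + ‖db Y z‖ := by
  have h : ∀ e, fderiv ℝ (fun z => z + Y z) z e = (1 + dz Y z) * e + db Y z * conj e := by
    intro e
    rw [fderiv_fun_add differentiableAt_fun_id hY, fderiv_fun_id]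
    simp only [add_apply, ContinuousLinearMap.id_apply]
    rw [fderiv_eq_dz_db]
    ring
  obtain ⟨h1, h2⟩ := dz_db_of_fderiv h
  rw [norm_fderiv_eq, h1, h2]

theorem step (hDefc : DefcStmt) (hLenc : LencStmt) {K : Set ℂ} {u : ℂ → ℝ} (h : GM K u)
    {Y : ℂ → ℂ} {ϑ : ℂ → ℝ} {r : ℝ} (hY : ContDiff ℝ 1 Y) (h2 : ∀ z, ‖fderiv ℝ Y z‖ ≤ 1 / 2)
    (hY0 : ∀ z, z ∉ closedBall (0 : ℂ) r → Y z = 0) (hϑ0 : ∀ z, z ∉ closedBall (0 : ℂ) r → ϑ z = 0)
    (hl : LocallyLipschitzOn Kᶜ ϑ) (hi : Integrable fun z => ‖pd ϑ z‖ ^ 2) :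
    0 ≤ (∫ z, (dens Y (pd u z + pd ϑ z) z - ‖pd u z‖ ^ 2)) +
      ∫ z in K, (‖1 + dz Y z‖ + ‖db Y z‖ - 1) ∂μH[1] := by
  obtain ⟨hint, hle⟩ := hDefc _ _ _ _ _ h 0 r Y ϑ (subset_univ _) hY h2
    (fun z hz => ⟨hY0 z hz, hϑ0 z hz⟩) (by rwa [← compl_eq_univ_sdiff]) hi.integrableOn
  simp only [mul_zero, zero_mul, add_zero] at hle
  have hKm : MeasurableSet K := h.cl.measurableSet
  have hS : MeasurableSet (K ∩ closedBall (0 : ℂ) r) := hKm.inter measurableSet_closedBall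
  have hfin := h.fin 0 r (subset_univ _)
  have hW : ContDiff ℝ 1 fun z => z + Y z := contDiff_id.add hY
  have hlen := hLenc _ _ hW hS hfin
  have hdz : ∀ z, z ∉ closedBall (0 : ℂ) r → dz Y z = 0 ∧ db Y z = 0 := by
    intro z hz
    simp [dz, db, out_zero hY0 hz]
  have e1 : ∫ z, (dens Y (pd u z + pd ϑ z) z - ‖pd u z‖ ^ 2) =
      (∫ z in closedBall 0 r, dens Y (pd u z + pd ϑ z) z) - En u (closedBall 0 r) := by
    rw [En, ← integral_sub hint (h.int 0 r (subset_univ _))]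
    refine (setIntegral_eq_integral_of_forall_compl_eq_zero fun z hz => ?_).symm
    have : pd ϑ z = 0 := by simp [pd, out_zero hϑ0 hz]
    simp [dens, dd, (hdz z hz).1, (hdz z hz).2, this]
  have : IsFiniteMeasure ((μH[1] : Measure ℂ).restrict (K ∩ closedBall 0 r)) :=
    isFiniteMeasure_restrict.2 hfin.ne
  have hc : Continuous fun z => ‖fderiv ℝ (fun z => z + Y z) z‖ :=
    (hW.continuous_fderiv (by norm_num)).norm
  have hiW : Integrable (fun z => ‖fderiv ℝ (fun z => z + Y z) z‖)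
      ((μH[1] : Measure ℂ).restrict (K ∩ closedBall 0 r)) := by
    refine Integrable.of_bound hc.aestronglyMeasurable (3 / 2) (Eventually.of_forall fun z => ?_)
    rw [norm_norm, dz_id_add (hY.differentiable (by norm_num) z)]
    have h3 := h2 z
    rw [norm_fderiv_eq] at h3
    have h4 := norm_add_le 1 (dz Y z)
    rw [norm_one] at h4
    linarith
  have e2 : ∫ z in K, (‖1 + dz Y z‖ + ‖db Y z‖ - 1) ∂μH[1] =
      (∫ z in K ∩ closedBall 0 r, ‖fderiv ℝ (fun z => z + Y z) z‖ ∂μH[1]) -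
        len K (closedBall 0 r) := by
    rw [setIntegral_eq_of_subset_of_forall_sdiff_eq_zero hKm
      (inter_subset_left (t := closedBall (0 : ℂ) r))]
    · have : len K (closedBall 0 r) = ∫ z in K ∩ closedBall (0 : ℂ) r, (1 : ℝ) ∂μH[1] := by
        simp [len, Measure.real]
      rw [this, ← integral_sub hiW (integrable_const _)]
      refine integral_congr_ae (Eventually.of_forall fun z => ?_)
      simp only
      rw [dz_id_add (hY.differentiable (by norm_num) z)]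
    · intro z hz
      have hz' : z ∉ closedBall (0 : ℂ) r := fun h' => hz.2 ⟨hz.1, h'⟩
      simp [(hdz z hz').1, (hdz z hz').2]
  have e3 : (μH[1] ((fun z => z + Y z) '' (K ∩ closedBall 0 r))).toReal ≤
      ∫ z in K ∩ closedBall 0 r, ‖fderiv ℝ (fun z => z + Y z) z‖ ∂μH[1] := by
    refine ENNReal.toReal_le_of_le_ofReal (integral_nonneg fun z => norm_nonneg _) ?_
    rw [ofReal_integral_eq_lintegral_ofReal hiW (Eventually.of_forall fun z => norm_nonneg _)]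
    simpa only [ofReal_norm] using hlen
  rw [e1, e2]
  linarith

theorem meas_dens (Y : ℂ → ℂ) (u ϑ : ℂ → ℝ) :
    Measurable fun z => dens Y (pd u z + pd ϑ z) z - ‖pd u z‖ ^ 2 := by
  have h1 := measurable_pd u
  have h2 := measurable_pd ϑ
  have h3 := measurable_dz Y
  have h4 := measurable_db Y
  have hc : Measurable fun z : ℂ => conj z := continuous_conj.measurable
  unfold dens dd
  refine Measurable.sub (Measurable.div ?_ ?_) (h1.norm.pow_const 2)
  · exact ((((hc.comp (h3.const_add 1)).mul (h1.add h2)).sub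
      ((hc.comp h4).mul (hc.comp (h1.add h2)))).norm.pow_const 2)
  · exact ((h3.const_add 1).norm.pow_const 2).sub (h4.norm.pow_const 2)

theorem dens_bd (hAlg : AlgStmt) {Y : ℂ → ℂ} {z p q : ℂ} {C : ℝ} {S : Set ℂ} (hC : 0 ≤ C)
    (h2 : ‖fderiv ℝ Y z‖ ≤ 1 / 2) (hw : ‖fderiv ℝ Y z‖ ≤ C * (1 / (1 + ‖z‖) ^ 2))
    (f : ℂ → ℝ) (hf : f z = ‖p‖ ^ 2) (hq : z ∉ S → q = 0) :
    ‖dens Y (p + q) z - ‖p‖ ^ 2‖ ≤ 8 * C * (‖p‖ ^ 2 * (1 / (1 + ‖z‖) ^ 2)) +
      (8 * C + 2) * ‖q‖ ^ 2 + 3 * S.indicator f z := by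
  obtain ⟨C₀, -, hA⟩ := hAlg
  rw [norm_fderiv_eq] at h2 hw
  have h1 := (hA _ _ (p + q) h2).1
  have hP : ‖p + q‖ ^ 2 ≤ 2 * ‖p‖ ^ 2 + 2 * ‖q‖ ^ 2 := by
    have := norm_add_le p q
    have h0 := norm_nonneg (p + q)
    nlinarith [sq_nonneg (‖p‖ - ‖q‖)]
  set w := 1 / (1 + ‖z‖) ^ 2 with hwd
  have hw0 : 0 ≤ w := by positivity
  have hw1 : w ≤ 1 := by
    rw [hwd, div_le_one (by positivity)]
    nlinarith [norm_nonneg z]
  have h3 : 4 * (‖dz Y z‖ + ‖db Y z‖) * ‖p + q‖ ^ 2 ≤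
      4 * (C * w) * (2 * ‖p‖ ^ 2 + 2 * ‖q‖ ^ 2) := by gcongr
  have h4 : |‖p + q‖ ^ 2 - ‖p‖ ^ 2| ≤ 2 * ‖q‖ ^ 2 + 3 * S.indicator f z := by
    by_cases hz : z ∈ S
    · rw [indicator_of_mem hz, hf, abs_le]
      constructor <;> nlinarith [sq_nonneg ‖p‖, sq_nonneg ‖q‖, sq_nonneg ‖p + q‖]
    · simp [indicator_of_notMem hz, hq hz]
  have h5 : C * w * ‖q‖ ^ 2 ≤ C * ‖q‖ ^ 2 := by
    have : C * w ≤ C := mul_le_of_le_one_right hC hw1
    gcongr
  rw [Real.norm_eq_abs]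
  have h6 := abs_sub_le (dens Y (p + q) z) (‖p + q‖ ^ 2) (‖p‖ ^ 2)
  unfold dens at h6 ⊢
  nlinarith

theorem len_bd {Y : ℂ → ℂ} (z : ℂ) : ‖‖1 + dz Y z‖ + ‖db Y z‖ - 1‖ ≤ ‖fderiv ℝ Y z‖ := by
  rw [norm_fderiv_eq, Real.norm_eq_abs, abs_le]
  have h1 := abs_le.1 (abs_norm_sub_norm_le (1 + dz Y z) 1)
  simp only [norm_one, add_sub_cancel_left] at h1
  constructor <;> linarith [h1.1, h1.2, norm_nonneg (db Y z)]

theorem meas_len (Y : ℂ → ℂ) : Measurable fun z => ‖1 + dz Y z‖ + ‖db Y z‖ - 1 :=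
  (((measurable_dz Y).const_add 1).norm.add (measurable_db Y).norm).sub_const 1

end Sv1

open Sv1 in
theorem sv1_pf (hDefc : DefcStmt) (hLenc : LencStmt) (hGrow : GrowStmt) (hUp : UpStmt)
    (hAlg : AlgStmt) : Sv1Stmt := by
  intro K u h X ϑ hX hd h4 hK hl hc hi
  obtain ⟨C, Y, hC, hDX, hY, hDY, hY2, hY0, hYX⟩ := cutoff hX hd h4
  obtain ⟨r, hr⟩ := hc.isCompact.isBounded.subset_closedBall (0 : ℂ)
  have hϑ0 : ∀ z, z ∉ closedBall (0 : ℂ) r → ϑ z = 0 := fun z hz =>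
    image_eq_zero_of_notMem_tsupport fun h' => hz (hr h')
  have hq : ∀ z, z ∉ closedBall (0 : ℂ) r → pd ϑ z = 0 := fun z hz => by
    simp [pd, out_zero hϑ0 hz]
  have hKm : MeasurableSet K := h.cl.measurableSet
  have hg : Integrable fun z => 8 * C * (‖pd u z‖ ^ 2 * (1 / (1 + ‖z‖) ^ 2)) +
      (8 * C + 2) * ‖pd ϑ z‖ ^ 2 +
      3 * (closedBall (0 : ℂ) r).indicator (fun z => ‖pd u z‖ ^ 2) z :=
    (((int_w1 hGrow hUp h).const_mul _).add (hi.const_mul _)).add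
      (((h.int 0 r (subset_univ _)).integrable_indicator measurableSet_closedBall).const_mul _)
  have hg2 := (int_w2 hGrow hUp h).const_mul C
  have hI1 : Integrable fun z => dens X (pd u z + pd ϑ z) z - ‖pd u z‖ ^ 2 :=
    hg.mono' (meas_dens X u ϑ).aestronglyMeasurable (Eventually.of_forall fun z =>
      dens_bd hAlg hC ((h4 z).trans (by norm_num)) (hDX z) _ rfl (hq z))
  have hae : (fun z => ‖1 + dz X z‖ + ‖db X z‖ - 1) =ᵐ[(μH[1] : Measure ℂ).restrict K]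
      fun z => ‖1 + dz X z‖ - 1 := by
    filter_upwards [ae_restrict_mem hKm] with z hz
    simp [hK z hz]
  have hI2 : Integrable (fun z => ‖1 + dz X z‖ + ‖db X z‖ - 1)
      ((μH[1] : Measure ℂ).restrict K) :=
    hg2.mono' (meas_len X).aestronglyMeasurable (Eventually.of_forall fun z =>
      (len_bd z).trans (hDX z))
  refine ⟨hI1, hI2.congr hae, ?_⟩
  rw [← integral_congr_ae hae]
  have hdd : ∀ z, ∀ᶠ n in atTop, dz (Y n) z = dz X z ∧ db (Y n) z = db X z := by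
    intro z
    filter_upwards [hYX z] with n hn
    simp [dz, db, hn]
  have T1 : Tendsto (fun n => ∫ z, (dens (Y n) (pd u z + pd ϑ z) z - ‖pd u z‖ ^ 2)) atTop
      (𝓝 (∫ z, (dens X (pd u z + pd ϑ z) z - ‖pd u z‖ ^ 2))) := by
    refine tendsto_integral_filter_of_dominated_convergence _
      (Eventually.of_forall fun n => (meas_dens (Y n) u ϑ).aestronglyMeasurable) ?_ hg
      (Eventually.of_forall fun z => ?_)
    · filter_upwards [hY2] with n hn
      exact Eventually.of_forall fun z => dens_bd hAlg hC (hn z) (hDY n z) _ rfl (hq z)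
    · refine tendsto_const_nhds.congr' ?_
      filter_upwards [hdd z] with n hn
      simp only [dens, hn.1, hn.2]
  have T2 : Tendsto (fun n => ∫ z in K, (‖1 + dz (Y n) z‖ + ‖db (Y n) z‖ - 1) ∂μH[1]) atTop
      (𝓝 (∫ z in K, (‖1 + dz X z‖ + ‖db X z‖ - 1) ∂μH[1])) := by
    refine tendsto_integral_filter_of_dominated_convergence _
      (Eventually.of_forall fun n => (meas_len (Y n)).aestronglyMeasurable) ?_ hg2
      (Eventually.of_forall fun z => ?_)
    · exact Eventually.of_forall fun n => Eventually.of_forall fun z => (len_bd z).trans (hDY n z)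
    · refine tendsto_const_nhds.congr' ?_
      filter_upwards [hdd z] with n hn
      simp only [hn.1, hn.2]
  refine ge_of_tendsto (T1.add T2) ?_
  obtain ⟨N, hN⟩ := exists_nat_gt r
  filter_upwards [hY2, eventually_ge_atTop N] with n hn hnN
  refine step hDefc hLenc h (hY n) hn (hY0 n) (fun z hz => hϑ0 z fun h' => hz ?_) hl hi
  refine closedBall_subset_closedBall ?_ h'
  have : (N : ℝ) ≤ n := by exact_mod_cast hnN
  have h0 : (0 : ℝ) ≤ n := n.cast_nonneg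
  linarith

end Vale.Agent.P128
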