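import Vale.Agent.P128.Stm

open MeasureTheory Set Metric Filter Topology Complex
open scoped ENNReal ComplexConjugate Real

noncomputable section
namespace Vale.Agent.P128

namespace Sv2

/-- the second order part of the energy density -/
def SS (p A B a b t : ℂ) : ℝ :=
  ‖p + (t * A + conj (t * B))‖ ^ 2 + 2 * ‖t * b‖ ^ 2 * ‖p + (t * A + conj (t * B))‖ ^ 2 -
    2 * ((t * b - t * a * (t * b)) * (p + (t * A + conj (t * B))) ^ 2).re - ‖p‖ ^ 2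

theorem sum_SS (p A B a b : ℂ) (ε : ℝ) :
    SS p A B a b ε + SS p A B a b (-ε) + SS p A B a b (ε * I) + SS p A B a b (-(ε * I)) =
      4 * ε ^ 2 * (2 * ‖b * p - B‖ ^ 2 + ‖A‖ ^ 2 - ‖B‖ ^ 2) +
      8 * ε ^ 4 * (‖b‖ ^ 2 * (‖A‖ ^ 2 + ‖B‖ ^ 2) + (a * b * (A ^ 2 + conj B ^ 2)).re) := by
  simp only [SS, Complex.sq_norm, normSq_apply]
  simp only [sq, mul_re, mul_im, add_re, add_im, sub_re, sub_im,
    neg_re, neg_im, conj_re, conj_im, ofReal_re, ofReal_im, I_re, I_im]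
  ring

theorem one_bound {C : ℝ} (hC : ∀ α β P : ℂ, ‖α‖ + ‖β‖ ≤ 1 / 2 →
    |dd α β P - ‖P‖ ^ 2 - 2 * ‖β‖ ^ 2 * ‖P‖ ^ 2 + 2 * ((β - α * β) * P ^ 2).re| ≤
      C * (‖α‖ + ‖β‖) ^ 3 * ‖P‖ ^ 2) (hC0 : 0 ≤ C) (p A B a b t : ℂ) {ε C₀ : ℝ} (ht : ‖t‖ = ε)
    (hε : ε ≤ 1) (hm : ‖a‖ + ‖b‖ ≤ C₀) (hs : ε * C₀ ≤ 1 / 4) :
    dd (t * a) (t * b) (p + (t * A + conj (t * B))) - ‖p‖ ^ 2 ≤ SS p A B a b t +
      ε ^ 3 * (3 * C * C₀ ^ 2 * ((‖a‖ + ‖b‖) * ‖p‖ ^ 2 + C₀ * (‖A‖ ^ 2 + ‖B‖ ^ 2))) := by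
  have hε0 : 0 ≤ ε := ht ▸ norm_nonneg t
  set m := ‖a‖ + ‖b‖ with hm_def
  have hm0 : 0 ≤ m := by positivity
  have h1 : ‖t * a‖ + ‖t * b‖ = ε * m := by rw [norm_mul, norm_mul, ht, hm_def]; ring
  have h2 := hC (t * a) (t * b) (p + (t * A + conj (t * B)))
    (by rw [h1]; nlinarith [mul_le_mul_of_nonneg_left hm hε0])
  rw [h1] at h2
  set P := p + (t * A + conj (t * B)) with hP
  have h3 : ‖P‖ ≤ ‖p‖ + ‖A‖ + ‖B‖ := by
    have e1 := norm_add_le p (t * A + conj (t * B))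
    have e2 := norm_add_le (t * A) (conj (t * B))
    rw [Complex.norm_conj, norm_mul, norm_mul, ht] at e2
    nlinarith [norm_nonneg A, norm_nonneg B]
  have h4 : ‖P‖ ^ 2 ≤ 3 * (‖p‖ ^ 2 + ‖A‖ ^ 2 + ‖B‖ ^ 2) := by
    have := pow_le_pow_left₀ (norm_nonneg P) h3 2
    nlinarith [sq_nonneg (‖p‖ - ‖A‖), sq_nonneg (‖p‖ - ‖B‖), sq_nonneg (‖A‖ - ‖B‖)]
  have h5 : m ^ 3 * ‖P‖ ^ 2 ≤ 3 * C₀ ^ 2 * (m * ‖p‖ ^ 2 + C₀ * (‖A‖ ^ 2 + ‖B‖ ^ 2)) := by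
    have e1 : m ^ 3 ≤ C₀ ^ 2 * m := by
      have := pow_le_pow_left₀ hm0 hm 2
      nlinarith
    have e2 : m * (‖A‖ ^ 2 + ‖B‖ ^ 2) ≤ C₀ * (‖A‖ ^ 2 + ‖B‖ ^ 2) :=
      mul_le_mul_of_nonneg_right hm (by positivity)
    calc m ^ 3 * ‖P‖ ^ 2 ≤ (C₀ ^ 2 * m) * (3 * (‖p‖ ^ 2 + ‖A‖ ^ 2 + ‖B‖ ^ 2)) :=
          mul_le_mul e1 h4 (by positivity) (by positivity)
      _ = 3 * C₀ ^ 2 * (m * ‖p‖ ^ 2 + m * (‖A‖ ^ 2 + ‖B‖ ^ 2)) := by ring
      _ ≤ _ := by gcongr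
  have h6 := (abs_le.1 h2).2
  have h7 : C * (ε * m) ^ 3 * ‖P‖ ^ 2 ≤
      ε ^ 3 * (3 * C * C₀ ^ 2 * (m * ‖p‖ ^ 2 + C₀ * (‖A‖ ^ 2 + ‖B‖ ^ 2))) := by
    have := mul_le_mul_of_nonneg_left h5 (show 0 ≤ C * ε ^ 3 by positivity)
    calc _ = C * ε ^ 3 * (m ^ 3 * ‖P‖ ^ 2) := by ring
      _ ≤ _ := this
      _ = _ := by ring
  unfold SS
  rw [← hP]
  linarith

theorem four_bound {C : ℝ} (hC : ∀ α β P : ℂ, ‖α‖ + ‖β‖ ≤ 1 / 2 →
    |dd α β P - ‖P‖ ^ 2 - 2 * ‖β‖ ^ 2 * ‖P‖ ^ 2 + 2 * ((β - α * β) * P ^ 2).re| ≤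
      C * (‖α‖ + ‖β‖) ^ 3 * ‖P‖ ^ 2) (hC0 : 0 ≤ C) (p A B a b : ℂ) {ε C₀ : ℝ} (hε0 : 0 < ε)
    (hε : ε ≤ 1) (hm : ‖a‖ + ‖b‖ ≤ C₀) (hs : ε * C₀ ≤ 1 / 4) (d : ℂ → ℝ)
    (hd : ∀ t, d t = dd (t * a) (t * b) (p + (t * A + conj (t * B))) - ‖p‖ ^ 2) :
    d ε + d (-ε) + d (ε * I) + d (-(ε * I)) ≤
      4 * ε ^ 2 * (2 * ‖b * p - B‖ ^ 2 + ‖A‖ ^ 2 - ‖B‖ ^ 2) +
      ε ^ 3 * ((12 * C * C₀ ^ 2 * (1 + C₀) + 8 * C₀ ^ 2) *
        ((‖a‖ + ‖b‖) * ‖p‖ ^ 2 + (‖A‖ ^ 2 + ‖B‖ ^ 2))) := by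
  have n1 : ‖(ε : ℂ)‖ = ε := by simp [abs_of_pos hε0]
  have h1 := one_bound hC hC0 p A B a b ε n1 hε hm hs
  have h2 := one_bound hC hC0 p A B a b (-ε) (by rw [norm_neg, n1]) hε hm hs
  have h3 := one_bound hC hC0 p A B a b (ε * I) (by rw [norm_mul, n1, norm_I, mul_one]) hε hm hs
  have h4 := one_bound hC hC0 p A B a b (-(ε * I))
    (by rw [norm_neg, norm_mul, n1, norm_I, mul_one]) hε hm hs
  have h5 := sum_SS p A B a b ε
  rw [hd, hd, hd, hd]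
  have hm0 : 0 ≤ ‖a‖ + ‖b‖ := by positivity
  have hC₀ : 0 ≤ C₀ := hm0.trans hm
  set E := ‖A‖ ^ 2 + ‖B‖ ^ 2 with hE
  have hE0 : 0 ≤ E := by positivity
  set F := (‖a‖ + ‖b‖) * ‖p‖ ^ 2 with hF
  have hF0 : 0 ≤ F := by positivity
  have h6 : ‖b‖ ^ 2 * E + (a * b * (A ^ 2 + conj B ^ 2)).re ≤ C₀ ^ 2 * E := by
    have e1 : (a * b * (A ^ 2 + conj B ^ 2)).re ≤ ‖a‖ * ‖b‖ * E := by
      refine (re_le_norm _).trans ?_
      rw [norm_mul, norm_mul]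
      refine mul_le_mul_of_nonneg_left ((norm_add_le _ _).trans ?_) (by positivity)
      rw [norm_pow, norm_pow, Complex.norm_conj]
    have e2 : ‖b‖ ^ 2 + ‖a‖ * ‖b‖ ≤ C₀ ^ 2 := by
      have := pow_le_pow_left₀ hm0 hm 2
      nlinarith [norm_nonneg a, norm_nonneg b]
    nlinarith [mul_le_mul_of_nonneg_right e2 hE0]
  have h7 : 8 * ε ^ 4 * (‖b‖ ^ 2 * E + (a * b * (A ^ 2 + conj B ^ 2)).re) ≤
      ε ^ 3 * (8 * C₀ ^ 2 * (F + E)) := by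
    have e1 : ε ^ 4 ≤ ε ^ 3 := pow_le_pow_of_le_one hε0.le hε (by norm_num)
    calc _ ≤ 8 * ε ^ 4 * (C₀ ^ 2 * E) := by gcongr
      _ ≤ 8 * ε ^ 3 * (C₀ ^ 2 * (F + E)) := by gcongr; linarith
      _ = _ := by ring
  have h8 : 4 * (ε ^ 3 * (3 * C * C₀ ^ 2 * (F + C₀ * E))) ≤
      ε ^ 3 * (12 * C * C₀ ^ 2 * (1 + C₀) * (F + E)) := by
    have e1 : F + C₀ * E ≤ (1 + C₀) * (F + E) := by nlinarith [mul_nonneg hC₀ hF0]
    calc _ = ε ^ 3 * (12 * C * C₀ ^ 2) * (F + C₀ * E) := by ring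
      _ ≤ ε ^ 3 * (12 * C * C₀ ^ 2) * ((1 + C₀) * (F + E)) := by gcongr
      _ = _ := by ring
  nlinarith

theorem len_bound (a : ℂ) (ε : ℝ) : (‖1 + ε * a‖ - 1) + (‖1 + -ε * a‖ - 1) +
    (‖1 + ε * I * a‖ - 1) + (‖1 + -(ε * I) * a‖ - 1) ≤ 2 * ε ^ 2 * ‖a‖ ^ 2 := by
  have h : ‖1 + ε * a‖ ^ 2 + ‖1 + -ε * a‖ ^ 2 + ‖1 + ε * I * a‖ ^ 2 + ‖1 + -(ε * I) * a‖ ^ 2 =
      4 + 4 * ε ^ 2 * ‖a‖ ^ 2 := by
    simp only [Complex.sq_norm, normSq_apply, mul_re, mul_im, add_re, add_im,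
      neg_re, neg_im, ofReal_re, ofReal_im, I_re, I_im, one_re, one_im]
    ring
  nlinarith [sq_nonneg (‖1 + ε * a‖ - 1), sq_nonneg (‖1 + -ε * a‖ - 1),
    sq_nonneg (‖1 + ε * I * a‖ - 1), sq_nonneg (‖1 + -(ε * I) * a‖ - 1)]

theorem grow_int (hGrow : GrowStmt) (hUp : UpStmt) {K : Set ℂ} {u : ℂ → ℝ} (h : GM K u) :
    Integrable fun z => ‖pd u z‖ ^ 2 / (1 + ‖z‖) ^ 2 := by
  obtain ⟨C', -, hC'⟩ := hGrow 2 (by norm_num)
  have hm : Measurable fun z => ENNReal.ofReal (‖pd u z‖ ^ 2) := by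
    have := measurable_pd u
    fun_prop
  have h1 := hC' (volume.withDensity fun z => ENNReal.ofReal (‖pd u z‖ ^ 2)) (2 * π)
    (by positivity) (fun R hR => by
      rw [withDensity_apply _ measurableSet_closedBall, ← ofReal_integral_eq_lintegral_ofReal
        (h.int 0 R (subset_univ _)) (Eventually.of_forall fun _ => sq_nonneg _)]
      have := hUp _ _ _ _ _ h 0 R (by linarith) (subset_univ _)
      have h2 := len_nonneg K (closedBall 0 R)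
      refine ENNReal.ofReal_le_ofReal ?_
      unfold En at this
      linarith) 1 le_rfl
  rw [lintegral_withDensity_eq_lintegral_mul _ hm (by fun_prop)] at h1
  refine ⟨?_, ?_⟩
  · have := measurable_pd u
    exact Measurable.aestronglyMeasurable (by fun_prop)
  · rw [hasFiniteIntegral_iff_ofReal (Eventually.of_forall fun z => by positivity)]
    refine lt_of_le_of_lt (le_of_eq (lintegral_congr fun z => ?_)) (h1.trans_lt ENNReal.ofReal_lt_top)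
    rw [Pi.mul_apply, ← ENNReal.ofReal_mul (sq_nonneg _), Real.rpow_neg (by positivity),
      div_eq_mul_inv]
    norm_num

theorem int4 {μ : Measure ℂ} {f₁ f₂ f₃ f₄ g : ℂ → ℝ} (h₁ : Integrable f₁ μ) (h₂ : Integrable f₂ μ)
    (h₃ : Integrable f₃ μ) (h₄ : Integrable f₄ μ) (hg : Integrable g μ)
    (h : ∀ z, f₁ z + f₂ z + f₃ z + f₄ z ≤ g z) :
    ∫ z, f₁ z ∂μ + ∫ z, f₂ z ∂μ + ∫ z, f₃ z ∂μ + ∫ z, f₄ z ∂μ ≤ ∫ z, g z ∂μ := by
  have := integral_mono (((h₁.add h₂).add h₃).add h₄) hg h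
  rwa [integral_add' ((h₁.add h₂).add h₃) h₄, integral_add' (h₁.add h₂) h₃,
    integral_add' h₁ h₂] at this

theorem dz_db_mul {X : ℂ → ℂ} {z : ℂ} (hX : DifferentiableAt ℝ X z) (t : ℂ) :
    dz (fun w => t * X w) z = t * dz X z ∧ db (fun w => t * X w) z = t * db X z := by
  apply dz_db_of_fderiv; intro e
  rw [(hX.hasFDerivAt.const_mul t).fderiv]
  simp only [smul_apply, smul_eq_mul, fderiv_eq_dz_db]
  ring

theorem pd_re_mul {Θ : ℂ → ℂ} {z : ℂ} (hΘ : DifferentiableAt ℝ Θ z) (t : ℂ) :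
    pd (fun w => (t * Θ w).re) z = t * dz Θ z + conj (t * db Θ z) := by
  apply pd_of_fderiv; intro e
  have := (reCLM.hasFDerivAt.comp z (hΘ.hasFDerivAt.const_mul t)).fderiv
  rw [show (fun w => (t * Θ w).re) = reCLM ∘ fun w => t * Θ w from rfl, this]
  simp only [ContinuousLinearMap.comp_apply, smul_apply, smul_eq_mul, fderiv_eq_dz_db, reCLM_apply,
    mul_re, mul_im, add_re, add_im, conj_re, conj_im]
  ring

end Sv2

open Sv2 in
theorem sv2_pf (hSv1 : Sv1Stmt) (hAlg : AlgStmt) (hGrow : GrowStmt) (hUp : UpStmt) :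
    Sv2Stmt := by
  intro K u h X Θ η hX hdec hdb hΘ hη hK
  obtain ⟨C, hC0, hC⟩ := hAlg
  obtain ⟨C₀, hC₀⟩ := hdec
  have hXd : ∀ z, DifferentiableAt ℝ X z := hX.differentiable one_ne_zero
  have hm : ∀ z, ‖dz X z‖ + ‖db X z‖ ≤ C₀ / (1 + ‖z‖) ^ 2 := fun z => by
    rw [← norm_fderiv_eq]; exact (hC₀ z).2
  have hC₀0 : 0 ≤ C₀ := by
    have := hm 0
    simp only [norm_zero, add_zero, one_pow, div_one] at this
    exact le_trans (by positivity) this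
  have hm' : ∀ z, ‖dz X z‖ + ‖db X z‖ ≤ C₀ := fun z =>
    (hm z).trans (div_le_self hC₀0 (one_le_pow₀ (by linarith [norm_nonneg z])))
  have hΘd : ∀ᵐ z, DifferentiableAt ℝ Θ z := by
    filter_upwards [ae_differentiableAt h.cl.isOpen_compl hΘ.lip,
      measure_eq_zero_iff_ae_notMem.1 h.null] with z h1 h2 using h1 h2
  have mp := measurable_pd u
  have mA := measurable_dz Θ
  have mB := measurable_db Θ
  have ma := measurable_dz X
  have mb := measurable_db X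
  have iA : Integrable fun z => ‖dz Θ z‖ ^ 2 := by
    refine hΘ.int.mono' (Measurable.aestronglyMeasurable (by fun_prop))
      (Eventually.of_forall fun z => ?_)
    rw [Real.norm_of_nonneg (sq_nonneg _), norm_fderiv_eq]
    exact pow_le_pow_left₀ (norm_nonneg _) (by linarith [norm_nonneg (db Θ z)]) 2
  have iB : Integrable fun z => ‖db Θ z‖ ^ 2 := by
    refine hΘ.int.mono' (Measurable.aestronglyMeasurable (by fun_prop))
      (Eventually.of_forall fun z => ?_)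
    rw [Real.norm_of_nonneg (sq_nonneg _), norm_fderiv_eq]
    exact pow_le_pow_left₀ (norm_nonneg _) (by linarith [norm_nonneg (dz Θ z)]) 2
  have iF : Integrable fun z => (‖dz X z‖ + ‖db X z‖) * ‖pd u z‖ ^ 2 := by
    refine ((grow_int hGrow hUp h).const_mul C₀).mono'
      (Measurable.aestronglyMeasurable (by fun_prop)) (Eventually.of_forall fun z => ?_)
    rw [Real.norm_of_nonneg (by positivity)]
    calc _ ≤ C₀ / (1 + ‖z‖) ^ 2 * ‖pd u z‖ ^ 2 :=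
          mul_le_mul_of_nonneg_right (hm z) (sq_nonneg _)
      _ = _ := by ring
  have iD : Integrable fun z => ‖db X z * pd u z - db Θ z‖ ^ 2 := by
    refine ((iF.const_mul (2 * C₀)).add (iB.const_mul 2)).mono'
      (Measurable.aestronglyMeasurable (by fun_prop)) (Eventually.of_forall fun z => ?_)
    rw [Real.norm_of_nonneg (by positivity), Pi.add_apply]
    have e1 := pow_le_pow_left₀ (norm_nonneg _) (norm_sub_le (db X z * pd u z) (db Θ z)) 2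
    rw [norm_mul] at e1
    have e2 : ‖db X z‖ ^ 2 ≤ C₀ * (‖dz X z‖ + ‖db X z‖) := by
      nlinarith [hm' z, norm_nonneg (dz X z), norm_nonneg (db X z)]
    nlinarith [mul_le_mul_of_nonneg_right e2 (sq_nonneg ‖pd u z‖),
      sq_nonneg (‖db X z‖ * ‖pd u z‖ - ‖db Θ z‖)]
  have iQ : Integrable fun z =>
      2 * ‖db X z * pd u z - db Θ z‖ ^ 2 + ‖dz Θ z‖ ^ 2 - ‖db Θ z‖ ^ 2 :=
    ((iD.const_mul 2).add iA).sub iB
  have iG : Integrable fun z =>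
      (‖dz X z‖ + ‖db X z‖) * ‖pd u z‖ ^ 2 + (‖dz Θ z‖ ^ 2 + ‖db Θ z‖ ^ 2) := iF.add (iA.add iB)
  have hlin : ∫⁻ z in K, ENNReal.ofReal (‖dz X z‖ ^ 2) ∂μH[1] ≤ ENNReal.ofReal η := by
    refine le_trans (le_of_eq (lintegral_congr fun z => ?_)) hK
    rw [ENNReal.ofReal_pow (norm_nonneg _), ofReal_norm]
  have ia : IntegrableOn (fun z => ‖dz X z‖ ^ 2) K μH[1] := by
    refine ⟨Measurable.aestronglyMeasurable (by fun_prop), ?_⟩
    rw [hasFiniteIntegral_iff_ofReal (Eventually.of_forall fun z => by positivity)]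
    exact hlin.trans_lt ENNReal.ofReal_lt_top
  have ha : ∫ z in K, ‖dz X z‖ ^ 2 ∂μH[1] ≤ η := by
    rw [← ENNReal.ofReal_le_ofReal_iff hη,
      ofReal_integral_eq_lintegral_ofReal ia (Eventually.of_forall fun z => by positivity)]
    exact hlin
  -- one value of the parameter
  set d : ℂ → ℂ → ℝ := fun t z => dd (t * dz X z) (t * db X z)
    (pd u z + (t * dz Θ z + conj (t * db Θ z))) - ‖pd u z‖ ^ 2 with hd
  have key : ∀ t : ℂ, ‖t‖ * C₀ ≤ 1 / 4 → Integrable (d t) ∧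
      IntegrableOn (fun z => ‖1 + t * dz X z‖ - 1) K μH[1] ∧
      0 ≤ (∫ z, d t z) + ∫ z in K, (‖1 + t * dz X z‖ - 1) ∂μH[1] := by
    intro t ht
    have hn : ∀ z, ‖fderiv ℝ (fun w => t * X w) z‖ = ‖t‖ * ‖fderiv ℝ X z‖ := fun z => by
      rw [norm_fderiv_eq, norm_fderiv_eq, (dz_db_mul (hXd z) t).1, (dz_db_mul (hXd z) t).2,
        norm_mul, norm_mul, mul_add]
    have hlip : LipschitzWith ‖t‖₊ fun w : ℂ => (t * w).re := by
      refine LipschitzWith.of_dist_le_mul fun a b => ?_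
      rw [Real.dist_eq, ← sub_re, ← mul_sub, dist_eq_norm, coe_nnnorm, ← norm_mul]
      exact abs_re_le_norm _
    obtain ⟨i1, i2, i3⟩ := hSv1 K u h (fun w => t * X w) (fun w => (t * Θ w).re)
      (contDiff_const.mul hX) ⟨‖t‖ * C₀, fun z => ⟨by
        rw [norm_mul, mul_div_assoc]; exact mul_le_mul_of_nonneg_left (hC₀ z).1 (norm_nonneg _), by
        rw [hn, mul_div_assoc]; exact mul_le_mul_of_nonneg_left (hC₀ z).2 (norm_nonneg _)⟩⟩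
      (fun z => by
        rw [hn, norm_fderiv_eq]
        exact (mul_le_mul_of_nonneg_left (hm' z) (norm_nonneg _)).trans ht)
      (fun z hz => by rw [(dz_db_mul (hXd z) t).2, hdb z hz, mul_zero])
      (fun z hz => by
        obtain ⟨L, s, hs, hl⟩ := hΘ.lip hz
        exact ⟨_, s, hs, hlip.comp_lipschitzOnWith hl⟩)
      (hΘ.cpt.comp_left (g := fun w : ℂ => (t * w).re) (by simp))
      (by
        refine (hΘ.int.const_mul (‖t‖ ^ 2)).mono' ?_ ?_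
        · have := measurable_pd fun w => (t * Θ w).re
          exact Measurable.aestronglyMeasurable (by fun_prop)
        filter_upwards [hΘd] with z hz
        rw [Real.norm_of_nonneg (sq_nonneg _), pd_re_mul hz, ← mul_pow, norm_fderiv_eq]
        refine pow_le_pow_left₀ (norm_nonneg _) ((norm_add_le _ _).trans ?_) 2
        rw [Complex.norm_conj, norm_mul, norm_mul, mul_add])
    have e1 : (fun z => dens (fun w => t * X w) (pd u z + pd (fun w => (t * Θ w).re) z) z -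
        ‖pd u z‖ ^ 2) =ᵐ[volume] d t := by
      filter_upwards [hΘd] with z hz
      simp only [hd, dens, pd_re_mul hz, (dz_db_mul (hXd z) t).1, (dz_db_mul (hXd z) t).2]
    simp only [fun z => (dz_db_mul (hXd z) t).1] at i2 i3
    rw [integral_congr_ae e1] at i3
    exact ⟨i1.congr e1, i2, i3⟩
  set Q := ∫ z, (2 * ‖db X z * pd u z - db Θ z‖ ^ 2 + ‖dz Θ z‖ ^ 2 - ‖db Θ z‖ ^ 2) with hQ
  set G := (12 * C * C₀ ^ 2 * (1 + C₀) + 8 * C₀ ^ 2) *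
    ∫ z, ((‖dz X z‖ + ‖db X z‖) * ‖pd u z‖ ^ 2 + (‖dz Θ z‖ ^ 2 + ‖db Θ z‖ ^ 2)) with hG
  have main : ∀ ε : ℝ, 0 < ε → ε ≤ 1 → ε * C₀ ≤ 1 / 4 → -η ≤ Q + ε * G / 4 := by
    intro ε h0 h1 hs
    have n1 : ‖(ε : ℂ)‖ = ε := by simp [abs_of_pos h0]
    obtain ⟨a1, b1, c1⟩ := key ε (by rwa [n1])
    obtain ⟨a2, b2, c2⟩ := key (-ε) (by rwa [norm_neg, n1])
    obtain ⟨a3, b3, c3⟩ := key (ε * I) (by rwa [norm_mul, n1, norm_I, mul_one])
    obtain ⟨a4, b4, c4⟩ := key (-(ε * I)) (by rwa [norm_neg, norm_mul, n1, norm_I, mul_one])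
    have e1 : (∫ z, d ε z) + (∫ z, d (-ε) z) + (∫ z, d (ε * I) z) + (∫ z, d (-(ε * I)) z) ≤
        4 * ε ^ 2 * Q + ε ^ 3 * G := by
      rw [hQ, hG, ← integral_const_mul, ← integral_const_mul,
        ← integral_const_mul, ← integral_add (iQ.const_mul _) ((iG.const_mul _).const_mul _)]
      refine int4 a1 a2 a3 a4 ((iQ.const_mul _).add ((iG.const_mul _).const_mul _)) fun z => ?_
      exact four_bound (fun α β P hh => (hC α β P hh).2.2) hC0 _ _ _ _ _ h0 h1 (hm' z) hs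
        (fun t => d t z) fun t => rfl
    have e2 : (∫ z in K, (‖1 + ε * dz X z‖ - 1) ∂μH[1]) +
        (∫ z in K, (‖1 + -ε * dz X z‖ - 1) ∂μH[1]) +
        (∫ z in K, (‖1 + ε * I * dz X z‖ - 1) ∂μH[1]) +
        (∫ z in K, (‖1 + -(ε * I) * dz X z‖ - 1) ∂μH[1]) ≤
        2 * ε ^ 2 * ∫ z in K, ‖dz X z‖ ^ 2 ∂μH[1] := by
      rw [← integral_const_mul]
      exact int4 b1 b2 b3 b4 (ia.const_mul _) fun z => len_bound _ _
    have e3 : 0 ≤ ε ^ 2 * (4 * Q + ε * G + 2 * η) := by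
      nlinarith [mul_le_mul_of_nonneg_left ha (show 0 ≤ 2 * ε ^ 2 by positivity)]
    have e4 := nonneg_of_mul_nonneg_right e3 (by positivity)
    linarith
  have hl : Tendsto (fun ε : ℝ => Q + ε * G / 4) (𝓝[>] 0) (𝓝 Q) := by
    have : Continuous fun ε : ℝ => Q + ε * G / 4 := by fun_prop
    simpa using (this.tendsto 0).mono_left nhdsWithin_le_nhds
  refine ge_of_tendsto hl ?_
  have e1 : ∀ᶠ ε in 𝓝[>] (0 : ℝ), ε ∈ Ioc 0 (min 1 (1 / (4 * C₀ + 1))) :=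
    Ioc_mem_nhdsGT (lt_min one_pos (by positivity))
  filter_upwards [e1] with ε hε
  refine main ε hε.1 (hε.2.trans (min_le_left _ _)) ?_
  have := (le_div_iff₀ (by positivity)).1 (hε.2.trans (min_le_right _ _))
  nlinarith [hε.1]

end Vale.Agent.P128
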