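import Vale.Agent.P128.Stm

open MeasureTheory Set Metric Filter Topology Complex
open scoped ENNReal ComplexConjugate Real

noncomputable section
namespace Vale.Agent.P128

namespace Th

theorem ii {e : ℝ → ℝ} {b s r : ℝ} (h : IntegrableOn e (Ioo 0 b)) (hs : 0 ≤ s) (hsr : s ≤ r)
    (hr : r ≤ b) : IntervalIntegrable e volume s r :=
  (intervalIntegrable_iff_integrableOn_Ioo_of_le hsr).2 (h.mono_set (Ioo_subset_Ioo hs hr))

theorem cinv {s r : ℝ} (hs : 0 < s) (hsr : s ≤ r) : ContinuousOn (fun ρ : ℝ => ρ⁻¹) (uIcc s r) :=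
  continuousOn_inv₀.mono fun x hx => by
    rw [uIcc_of_le hsr] at hx
    exact (hs.trans_le hx.1).ne'

/-- Gronwall inequality for `q = 1` -/
theorem gron (hG : GronStmt) {f e h : ℝ → ℝ} {a b : ℝ} (ha : 0 < a) (hab : a ≤ b)
    (he : IntervalIntegrable e volume a b) (hh : IntervalIntegrable h volume a b)
    (hf : ∀ t ∈ Icc a b, f t = f a + ∫ ρ in a..t, e ρ)
    (hi : ∀ᵐ ρ, ρ ∈ Ioo a b → f ρ ≤ ρ * e ρ + ρ ^ 2 * h ρ) :
    f a / a ≤ f b / b + ∫ ρ in a..b, h ρ := by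
  simpa using hG f e h a b 1 ha hab one_pos he hh hf (by simpa using hi)

theorem wt (hG : GronStmt) {e : ℝ → ℝ} {b ε s r : ℝ} (e0 : ∀ ρ, 0 ≤ e ρ) (hε : 0 ≤ ε)
    (hi : IntegrableOn e (Ioo 0 b))
    (hE : ∀ r ∈ Ioc 0 b, ∫ ρ in Ioo 0 r, e ρ ≤ ε * (r / b) ^ (1 / 3 : ℝ) * r) (hs : 0 < s)
    (hsr : s ≤ r) (hr : r ≤ b) : ∫ ρ in s..r, e ρ * ρ⁻¹ ≤ 4 * (ε * (r / b) ^ (1 / 3 : ℝ)) := by
  have hb : 0 < b := (hs.trans_le hsr).trans_le hr
  have hE' : ∀ t ∈ Ioc 0 b, ∫ ρ in (0 : ℝ)..t, e ρ ≤ ε * (t / b) ^ (1 / 3 : ℝ) * t := fun t ht => by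
    rw [intervalIntegral.integral_of_le ht.1.le, integral_Ioc_eq_integral_Ioo]
    exact hE t ht
  have i1 := (ii hi hs.le hsr hr).mul_continuousOn (cinv hs hsr)
  have p : ∀ x ∈ uIcc s r, 0 < x / b := fun x hx => by
    rw [uIcc_of_le hsr] at hx
    exact div_pos (hs.trans_le hx.1) hb
  have i2 : IntervalIntegrable (fun ρ : ℝ => ε * (ρ / b) ^ (1 / 3 : ℝ) * ρ⁻¹) volume s r :=
    ((continuousOn_const.mul ((continuousOn_id.div_const b).rpow_const fun x hx =>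
      .inl (p x hx).ne')).mul (cinv hs hsr)).intervalIntegrable
  have e2 := intervalIntegral.integral_eq_sub_of_hasDerivAt
    (f := fun ρ : ℝ => 3 * ε * (ρ / b) ^ (1 / 3 : ℝ)) (fun x hx => by
      refine ((((hasDerivAt_id' x).div_const b).rpow_const (p := 1 / 3)
        (.inl (p x hx).ne')).const_mul (3 * ε)).congr_deriv ?_
      have := (div_pos_iff_of_pos_right hb).1 (p x hx)
      rw [Real.rpow_sub_one (p x hx).ne']
      field_simp) i2
  have H := gron hG (f := fun t => ∫ ρ in (0 : ℝ)..t, e ρ) hs hsr (ii hi hs.le hsr hr) (i2.sub i1)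
    (fun t ht => (intervalIntegral.integral_add_adjacent_intervals (ii hi le_rfl hs.le (hsr.trans hr))
      (ii hi hs.le ht.1 (ht.2.trans hr))).symm) (ae_of_all _ fun ρ hρ => by
      have h0 := hs.trans hρ.1
      refine (hE' ρ ⟨h0, hρ.2.le.trans hr⟩).trans_eq ?_
      field_simp
      ring)
  rw [intervalIntegral.integral_sub i2 i1, e2] at H
  have h1 := (div_le_iff₀ (hs.trans_le hsr)).2 (hE' r ⟨hs.trans_le hsr, hr⟩)
  have h2 : 0 ≤ (∫ ρ in (0 : ℝ)..s, e ρ) / s :=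
    div_nonneg (intervalIntegral.integral_nonneg hs.le fun ρ _ => e0 ρ) hs.le
  have h3 : 0 ≤ ε * (s / b) ^ (1 / 3 : ℝ) := by positivity
  linarith

theorem mono (hG : GronStmt) {l N e : ℝ → ℝ} {b s r c κ : ℝ} (hN : IntegrableOn N (Ioo 0 b))
    (hi : IntegrableOn e (Ioo 0 b))
    (hl : ∀ s t, 0 ≤ s → s ≤ t → t ≤ b → l s + ∫ ρ in s..t, N ρ ≤ l t) (hs : 0 < s)
    (hsr : s ≤ r) (hr : r ≤ b) (h : ∀ᵐ ρ, ρ ∈ Ioo s r → l ρ ≤ ρ * (N ρ - c + κ * e ρ)) :
    l s / s ≤ l r / r + κ * (∫ ρ in s..r, e ρ * ρ⁻¹) - c * Real.log (r / s) := by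
  have i1 := ((ii hi hs.le hsr hr).mul_continuousOn (cinv hs hsr)).const_mul κ
  have i2 := ((cinv hs hsr).intervalIntegrable (μ := volume)).const_mul c
  have H := gron hG (f := fun t => l s + ∫ ρ in s..t, N ρ) hs hsr (ii hN hs.le hsr hr) (i1.sub i2)
    (fun t _ => by simp) (h.mono fun ρ h hρ => by
      have h0 := hs.trans hρ.1
      refine ((hl s ρ hs.le hρ.1.le (hρ.2.le.trans hr)).trans (h hρ)).trans_eq ?_
      field_simp
      ring)
  rw [intervalIntegral.integral_sub i1 i2, intervalIntegral.integral_const_mul,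
    intervalIntegral.integral_const_mul, integral_inv_of_pos hs (hs.trans_le hsr),
    intervalIntegral.integral_same, add_zero] at H
  linarith [div_le_div_of_nonneg_right (hl s r hs.le hsr hr) (hs.le.trans hsr)]

end Th

open Th in
theorem th_pf (hGood : GoodStmt) (hGron : GronStmt) : ThStmt := by
  intro K y b ε h
  obtain ⟨e, e0, ei, hE, hP⟩ := h.ex
  obtain ⟨-, -, ci, hl⟩ := hGood K (fun _ => 0) y b h.cl h.fin (by simp [pd_const])
  replace hl := fun s t h1 h2 h3 => (hl s t h1 h2 h3).2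
  have hε := h.e0
  have hb := h.pos
  have hA : ∀ᵐ ρ, ρ ∈ Ioo 0 b → 2 - 2 * e ρ ≤ cnt K y ρ ∧
      len K (closedBall y ρ) ≤ ρ * (cnt K y ρ - 0 + 1 * e ρ) ∧
      (16 / 5 * ρ ≤ len K (closedBall y ρ) →
        len K (closedBall y ρ) ≤ ρ * (cnt K y ρ - 1 / 50 + 2 * e ρ)) := hP.mono fun ρ h hρ => by
    obtain ⟨P, h1, h2, h3, h4⟩ := h hρ
    have h5 : len K (closedBall y ρ) ≤ ρ * (P.card + e ρ) :=
      h3.trans (mul_le_mul_of_nonneg_left (by
        linarith [show 0 ≤ ‖∑ p ∈ P, (p - y) / ρ‖ ^ 2 / (4 * P.card) by positivity]) hρ.1.le)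
    have := e0 ρ
    rw [cnt, ← h1, ncard_coe_finset]
    refine ⟨?_, by rwa [sub_zero, one_mul], fun h6 => ?_⟩
    · rcases le_or_gt P.card 1 with h | h
      · linarith [h2 h, P.card.cast_nonneg (α := ℝ)]
      · linarith [show (2 : ℝ) ≤ P.card by exact_mod_cast h]
    · rcases le_or_gt 4 P.card with h | h
      · exact (h4 h).trans (mul_le_mul_of_nonneg_left (by linarith) hρ.1.le)
      · have h7 : (P.card : ℝ) ≤ 3 := by exact_mod_cast Nat.lt_succ_iff.1 h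
        have h8 := le_of_mul_le_mul_left ((mul_comm _ _).trans_le (h6.trans h5)) hρ.1
        exact h5.trans (mul_le_mul_of_nonneg_left (by linarith) hρ.1.le)
  have h2 : ∀ s r, 0 < s → s ≤ r → r ≤ b → len K (closedBall y s) / s ≤
      len K (closedBall y r) / r + 10 * ε * (r / b) ^ (1 / 3 : ℝ) := fun s r hs hsr hr => by
    have := mono hGron ci ei hl hs hsr hr (hA.mono fun ρ h hρ =>
      (h ⟨hs.trans hρ.1, hρ.2.trans_le hr⟩).2.1)
    have hr0 := hs.trans_le hsr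
    linarith [wt hGron e0 hε ei hE hs hsr hr, show 0 ≤ ε * (r / b) ^ (1 / 3 : ℝ) by positivity]
  refine ⟨fun r hr => ?_, h2, ?_⟩
  · have i1 := (ii ei le_rfl hr.1.le hr.2).const_mul 2
    have h3 := intervalIntegral.integral_mono_ae_restrict hr.1.le
      ((intervalIntegrable_const (c := (2 : ℝ))).sub i1) (ii ci le_rfl hr.1.le hr.2) (by
        rw [← Measure.restrict_congr_set Ioo_ae_eq_Icc]
        exact (ae_restrict_iff' measurableSet_Ioo).2 (hA.mono fun ρ h hρ =>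
          (h ⟨hρ.1, hρ.2.trans_le hr.2⟩).1))
    rw [intervalIntegral.integral_sub intervalIntegrable_const i1, intervalIntegral.integral_const,
      intervalIntegral.integral_const_mul, intervalIntegral.integral_of_le hr.1.le,
      integral_Ioc_eq_integral_Ioo, smul_eq_mul] at h3
    linarith [hE r hr, hl 0 r le_rfl hr.1.le hr.2, len_nonneg K (closedBall y 0)]
  · by_contra hn
    push Not at hn
    obtain ⟨δ, δ0, δ1, δ2⟩ : ∃ δ : ℝ, 0 < δ ∧ δ ≤ 1 ∧ ε * δ ≤ 1 / 200 :=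
      ⟨1 / (200 * (ε + 1)), by positivity, (div_le_one (by positivity)).2 (by linarith), by
        rw [mul_one_div, div_le_div_iff₀ (by positivity) (by positivity)]
        linarith⟩
    have r0 : 0 < δ ^ 3 * b := by positivity
    have r1 : δ ^ 3 * b ≤ b := mul_le_of_le_one_left hb.le (pow_le_one₀ δ0.le δ1)
    have h3 : ∀ r ∈ Ioc 0 (δ ^ 3 * b), ε * (r / b) ^ (1 / 3 : ℝ) ≤ 1 / 200 := fun r hr => by
      refine le_trans (mul_le_mul_of_nonneg_left ?_ hε) δ2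
      refine (Real.rpow_le_rpow (div_pos hr.1 hb).le ((div_le_iff₀ hb).2 hr.2)
        (by norm_num)).trans_eq ?_
      simpa using Real.pow_rpow_inv_natCast δ0.le three_ne_zero
    generalize δ ^ 3 * b = r at r0 r1 h3
    have h4 : ∀ ρ ∈ Ioc 0 r, 16 / 5 * ρ ≤ len K (closedBall y ρ) := fun ρ hρ => by
      obtain ⟨s, hs, h5⟩ := hn ρ hρ.1
      rw [← le_div_iff₀ hρ.1]
      linarith [(lt_div_iff₀ hs.1).2 h5, h2 s ρ hs.1 hs.2 (hρ.2.trans r1), h3 ρ hρ]
    obtain ⟨T, T0, hT⟩ : ∃ T : ℝ, 0 ≤ T ∧ T = 50 * (len K (closedBall y r) / r + 1) :=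
      ⟨_, by have := len_nonneg K (closedBall y r); positivity, rfl⟩
    have s0 : 0 < r / Real.exp T := by positivity
    have s1 : r / Real.exp T ≤ r := div_le_self r0.le (Real.one_le_exp T0)
    have := mono hGron ci ei hl s0 s1 r1 (hA.mono fun ρ h hρ =>
      (h ⟨s0.trans hρ.1, hρ.2.trans_le r1⟩).2.2 (h4 ρ ⟨s0.trans hρ.1, hρ.2.le⟩))
    rw [div_div_cancel₀ r0.ne', Real.log_exp] at this
    linarith [wt hGron e0 hε ei hE s0 s1 r1, h3 r ⟨r0, le_rfl⟩,
      div_nonneg (len_nonneg K (closedBall y (r / Real.exp T))) s0.le]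

end Vale.Agent.P128
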