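import Vale.Agent.P128.Stm

open MeasureTheory Set Metric Filter Topology Complex
open scoped ENNReal ComplexConjugate Real

noncomputable section
namespace Vale.Agent.P128

namespace Tiplow

theorem two_le {K : Set ℂ} {x : ℂ} {r : ℝ} {γ τ : ℝ → ℂ} (h : Tip K x r γ τ) {s t t' : ℝ}
    (hs : 0 < s) (hsr : s ≤ r / 2) (ht : t ≤ s / 4) (ht' : t' ∈ Ioo 0 t) :
    2 ≤ (K ∩ closedBall (γ s) t ∩ (fun w => ‖w - γ s‖) ⁻¹' {t'}).encard := by
  have hin : ∀ ρ, s / 2 ≤ ρ → ρ ≤ 3 * s / 2 → ρ ∈ Ioo 0 r := fun ρ h1 h2 =>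
    ⟨by linarith, by linarith⟩
  have hc : ∀ ρ, s / 2 ≤ ρ → ρ ≤ 3 * s / 2 → ContinuousAt (fun ρ => ‖γ ρ - γ s‖) ρ :=
    fun ρ h1 h2 => ((h.der ρ (hin ρ h1 h2)).continuousAt.sub continuousAt_const).norm
  have hlo : ∀ ρ, s / 2 ≤ ρ → ρ ≤ 3 * s / 2 → |ρ - s| ≤ ‖γ ρ - γ s‖ := by
    intro ρ h1 h2
    have := abs_norm_sub_norm_le (γ ρ - x) (γ s - x)
    rwa [h.norm ρ (hin ρ h1 h2), h.norm s (hin s (by linarith) (by linarith)),
      sub_sub_sub_cancel_right] at this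
  have hmem : ∀ ρ, s / 2 ≤ ρ → ρ ≤ 3 * s / 2 → ‖γ ρ - γ s‖ = t' →
      γ ρ ∈ K ∩ closedBall (γ s) t ∩ (fun w => ‖w - γ s‖) ⁻¹' {t'} := by
    intro ρ h1 h2 h3
    have h4 : γ ρ ∈ K ∩ ball x r := h.eq ▸ Or.inr ⟨ρ, hin ρ h1 h2, rfl⟩
    exact ⟨⟨h4.1, mem_closedBall_iff_norm.2 (h3.le.trans ht'.2.le)⟩, h3⟩
  have e1 := (abs_le.1 (hlo (s / 2) le_rfl (by linarith))).1
  have e2 := (abs_le.1 (hlo (3 * s / 2) (by linarith) le_rfl)).2
  obtain ⟨ρ₁, h1, h1'⟩ := intermediate_value_Icc' (show s / 2 ≤ s by linarith)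
    (f := fun ρ => ‖γ ρ - γ s‖) (fun ρ hρ => (hc ρ hρ.1 (by linarith [hρ.2])).continuousWithinAt)
    (show t' ∈ _ from ⟨by simpa using ht'.1.le, by linarith [ht'.2]⟩)
  obtain ⟨ρ₂, h2, h2'⟩ := intermediate_value_Icc (show s ≤ 3 * s / 2 by linarith)
    (f := fun ρ => ‖γ ρ - γ s‖) (fun ρ hρ => (hc ρ (by linarith [hρ.1]) hρ.2).continuousWithinAt)
    (show t' ∈ _ from ⟨by simpa using ht'.1.le, by linarith [ht'.2]⟩)
  have hne : γ ρ₁ ≠ γ ρ₂ := by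
    intro he
    have a1 := h.norm ρ₁ (hin ρ₁ h1.1 (by linarith [h1.2]))
    have a2 := h.norm ρ₂ (hin ρ₂ (by linarith [h2.1]) h2.2)
    rw [he, a2] at a1
    have a3 : ρ₁ = s := le_antisymm h1.2 (a1 ▸ h2.1)
    rw [a3] at h1'
    simp only [sub_self, norm_zero] at h1'
    exact ht'.1.ne h1'
  rw [← encard_pair hne]
  exact encard_le_encard (pair_subset (hmem ρ₁ h1.1 (by linarith [h1.2]) h1')
    (hmem ρ₂ (by linarith [h2.1]) h2.2 h2'))

end Tiplow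

theorem tiplow_pf (hEil : EilStmt) : TiplowStmt := by
  intro K x r γ τ _ h b ε γ' hb hbr hε z hz hzx hzb t ht hfin
  have hr := h.pos
  have h1 : z ∈ K ∩ ball x r := ⟨hz, mem_ball_iff_norm.2 (by linarith)⟩
  rw [h.eq] at h1
  obtain ⟨s, hs, rfl⟩ := h1.resolve_left hzx
  rw [h.norm s hs] at hzb ht ⊢
  have hl : LipschitzWith 1 fun w : ℂ => ‖w - γ s‖ := by
    simpa only [dist_eq_norm] using LipschitzWith.dist_left (γ s)
  have h2 := hEil.1 (K ∩ closedBall (γ s) t) _ ((Ioo 0 t).indicator fun _ => 2) hl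
    (measurable_const.indicator measurableSet_Ioo).aemeasurable (ae_of_all _ fun t' => by
      by_cases ht' : t' ∈ Ioo 0 t
      · rw [indicator_of_mem ht']
        exact_mod_cast Tiplow.two_le h hs.1 (hzb.trans hbr) ht.2 ht'
      · rw [indicator_of_notMem ht']; exact zero_le)
  rw [lintegral_indicator_const measurableSet_Ioo, Real.volume_Ioo, sub_zero] at h2
  have h3 := ENNReal.toReal_mono hfin.ne h2
  rw [ENNReal.toReal_mul, ENNReal.toReal_ofReal ht.1.le, ENNReal.toReal_ofNat] at h3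
  have h4 : 0 ≤ ε * (s / b) ^ γ' * s := by have := hs.1; positivity
  unfold len
  linarith

end Vale.Agent.P128
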