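import Vale.Agent.P128.Stm

open MeasureTheory Set Metric Filter Topology Complex
open scoped ENNReal ComplexConjugate Real

noncomputable section
namespace Vale.Agent.P128

namespace Trf

/-- the weak gradient identity on the whole plane -/
def WG (u : ℂ → ℝ) (G : ℂ → ℂ) (φ : ℂ → ℝ) (e : ℂ) : Prop :=
  ∫ z, u z * fderiv ℝ φ z e = -∫ z, inner ℝ (G z) e * φ z

theorem d_zero {φ : ℂ → ℝ} {z : ℂ} (h : z ∉ tsupport φ) (e : ℂ) : fderiv ℝ φ z e = 0 := by
  rw [fderiv_of_notMem_tsupport ℝ h]; rfl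

theorem wg_iff {O : Set ℂ} {φ : ℂ → ℝ} (h : tsupport φ ⊆ O) (u : ℂ → ℝ) (G : ℂ → ℂ) (e : ℂ) :
    (∫ z in O, u z * fderiv ℝ φ z e = -∫ z in O, inner ℝ (G z) e * φ z) ↔ WG u G φ e := by
  rw [setIntegral_eq_integral_of_forall_compl_eq_zero fun z hz => by
      rw [d_zero fun hh => hz (h hh), mul_zero],
    setIntegral_eq_integral_of_forall_compl_eq_zero fun z hz => by
      rw [image_eq_zero_of_notMem_tsupport fun hh => hz (h hh), mul_zero]]
  rfl

theorem WG.congr {u u' : ℂ → ℝ} {G G' : ℂ → ℂ} {φ : ℂ → ℝ} {e : ℂ} (h : WG u G φ e)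
    (he : ∀ᵐ z, z ∈ tsupport φ → u' z = u z ∧ G' z = G z) : WG u' G' φ e := by
  unfold WG at h ⊢
  have h1 : ∫ z, u' z * fderiv ℝ φ z e = ∫ z, u z * fderiv ℝ φ z e := by
    refine integral_congr_ae (he.mono fun z hz => ?_)
    by_cases h0 : z ∈ tsupport φ
    · simp only [(hz h0).1]
    · simp only [d_zero h0, mul_zero]
  have h2 : ∫ z, inner ℝ (G' z) e * φ z = ∫ z, inner ℝ (G z) e * φ z := by
    refine integral_congr_ae (he.mono fun z hz => ?_)
    by_cases h0 : z ∈ tsupport φ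
    · simp only [(hz h0).2]
    · simp only [image_eq_zero_of_notMem_tsupport h0, mul_zero]
  rw [h1, h2, h]

theorem int_mul {Ω : Set ℂ} {u ψ : ℂ → ℝ} (hu : MemLp u 2 (volume.restrict Ω))
    (hψ : Continuous ψ) (hc : HasCompactSupport ψ) (h0 : ∀ z, z ∉ Ω → ψ z = 0) :
    Integrable fun z => u z * ψ z := by
  have h1 : IntegrableOn (fun z => u z * ψ z) Ω :=
    hu.integrable_mul ((hψ.memLp_of_hasCompactSupport (p := 2) hc).restrict Ω)
  exact h1.integrable_of_forall_notMem_eq_zero fun z hz => by rw [h0 z hz, mul_zero]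

theorem WG.add {Ω : Set ℂ} {u : ℂ → ℝ} {G : ℂ → ℂ} {φ ψ : ℂ → ℝ} {e : ℂ}
    (hu : MemLp u 2 (volume.restrict Ω)) (hG : MemLp G 2 (volume.restrict Ω))
    (hφ : ContDiff ℝ (⊤ : ℕ∞) φ) (cφ : HasCompactSupport φ) (sφ : tsupport φ ⊆ Ω)
    (hψ : ContDiff ℝ (⊤ : ℕ∞) ψ) (cψ : HasCompactSupport ψ) (sψ : tsupport ψ ⊆ Ω)
    (h1 : WG u G φ e) (h2 : WG u G ψ e) : WG u G (fun z => φ z + ψ z) e := by
  have i1 : ∀ {φ : ℂ → ℝ}, ContDiff ℝ (⊤ : ℕ∞) φ → HasCompactSupport φ → tsupport φ ⊆ Ω →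
      Integrable fun z => u z * fderiv ℝ φ z e := fun hφ cφ sφ =>
    int_mul hu ((hφ.continuous_fderiv (by simp)).clm_apply continuous_const)
      (cφ.fderiv_apply ℝ e) fun z hz => d_zero (fun hh => hz (sφ hh)) e
  have i2 : ∀ {φ : ℂ → ℝ}, ContDiff ℝ (⊤ : ℕ∞) φ → HasCompactSupport φ → tsupport φ ⊆ Ω →
      Integrable fun z => inner ℝ (G z) e * φ z := fun hφ cφ sφ =>
    int_mul (hG.inner_const e) hφ.continuous cφ fun z hz =>
      image_eq_zero_of_notMem_tsupport fun hh => hz (sφ hh)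
  unfold WG at h1 h2 ⊢
  have e1 : ∀ z, fderiv ℝ (fun z => φ z + ψ z) z e = fderiv ℝ φ z e + fderiv ℝ ψ z e := fun z => by
    rw [fderiv_fun_add (hφ.differentiable (by simp) z) (hψ.differentiable (by simp) z)]; rfl
  simp only [e1, mul_add]
  rw [integral_add (i1 hφ cφ sφ) (i1 hψ cψ sψ), integral_add (i2 hφ cφ sφ) (i2 hψ cψ sψ), h1, h2]
  ring

theorem lint_fin {F : Type} [NormedAddCommGroup F] {μ : Measure ℂ} {f : ℂ → F}
    (h : MemLp f 2 μ) : ∫⁻ z, ‖f z‖ₑ ^ 2 ∂μ ≠ ⊤ := by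
  have h1 := ((memLp_two_iff_integrable_sq_norm h.1).1 h).2
  simp only [HasFiniteIntegral, enorm_pow, enorm_norm] at h1
  exact h1.ne

theorem int_sq {F : Type} [NormedAddCommGroup F] {μ : Measure ℂ} {f : ℂ → F}
    (h : AEStronglyMeasurable f μ) : ∫ z, ‖f z‖ ^ 2 ∂μ = (∫⁻ z, ‖f z‖ₑ ^ 2 ∂μ).toReal := by
  rw [integral_eq_lintegral_of_nonneg_ae (ae_of_all _ fun z => sq_nonneg _) (h.norm.pow 2)]
  simp only [ENNReal.ofReal_pow (norm_nonneg _), ofReal_norm]

theorem restr_diff (V : Set ℂ) {K : Set ℂ} (h : μH[1] K < ⊤) :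
    (volume : Measure ℂ).restrict (V \ K) = volume.restrict V :=
  Measure.restrict_congr_set (sdiff_null_ae_eq_self (volume_null h))

theorem lint_split {B V : Set ℂ} (hB : MeasurableSet B) (h : B ⊆ V) (f : ℂ → ℝ≥0∞) :
    ∫⁻ z in V, f z = (∫⁻ z in B, f z) + ∫⁻ z in V \ B, f z := by
  rw [← lintegral_inter_add_sdiff f V hB, inter_eq_right.2 h]

theorem adm (hWg : WgStmt) {Ω : Set ℂ} {u v w : ℂ → ℝ} {G : ℂ → ℂ} {K L : Set ℂ} {y : ℂ}
    {r R : ℝ} (hΩ : IsOpen Ω) (hA : Adm Ω u G K) (hv : Rep Ω u G K v) (h0 : 0 ≤ r) (hr : r < R)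
    (hR : ball y R ⊆ Ω) (hL : L ⊆ closedBall y r) (hLf : μH[1] L < ⊤)
    (hO : IsOpen (ball y R \ (L ∪ (K \ closedBall y r))))
    (hw : LocallyLipschitzOn (ball y R \ (L ∪ (K \ closedBall y r))) w)
    (hwv : ∀ z ∈ ball y R, z ∉ closedBall y r → z ∉ K → w z = v z)
    (hi : IntegrableOn (fun z => ‖pd w z‖ ^ 2) (closedBall y r))
    (hw2 : MemLp w 2 (volume.restrict (closedBall y r))) [∀ z, Decidable (z ∈ closedBall y r)] :
    Adm Ω ((closedBall y r).piecewise w u) ((closedBall y r).piecewise (fun z => conj (pd w z)) G)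
      (L ∪ (K \ closedBall y r)) := by
  have hB : MeasurableSet (closedBall y r) := measurableSet_closedBall
  have hBR : closedBall y r ⊆ ball y R := closedBall_subset_ball hr
  have hfin : μH[1] (L ∪ (K \ closedBall y r)) < ⊤ :=
    (measure_union_le _ _).trans_lt
      (ENNReal.add_lt_top.2 ⟨hLf, (measure_mono sdiff_subset).trans_lt hA.fin⟩)
  have hG2 : MemLp G 2 (volume.restrict Ω) := restr_diff Ω hA.fin ▸ hA.gl2
  have hp2 : MemLp (fun z => conj (pd w z)) 2 (volume.restrict (closedBall y r)) := by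
    refine (memLp_two_iff_integrable_sq_norm
      (continuous_conj.measurable.comp (measurable_pd w)).aestronglyMeasurable).2 ?_
    simpa only [Function.comp_def, Complex.norm_conj] using hi.integrable
  have hle : (volume.restrict Ω).restrict (closedBall y r) ≤ volume.restrict (closedBall y r) :=
    Measure.restrict_mono subset_rfl Measure.restrict_le_self
  have l2 := MemLp.piecewise hB (hw2.mono_measure hle) (hA.l2.restrict _)
  have g2 := MemLp.piecewise hB (hp2.mono_measure hle) (hG2.restrict _)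
  have hout : IsOpen ((Ω \ K) \ closedBall y r) := hA.closed.sdiff isClosed_closedBall
  refine ⟨union_subset (hL.trans (hBR.trans hR)) (sdiff_subset.trans hA.sub), ?_, hfin, l2,
    by rwa [restr_diff Ω hfin], fun φ hφ cφ sφ e => ?_⟩
  · have : Ω \ (L ∪ (K \ closedBall y r)) =
        (ball y R \ (L ∪ (K \ closedBall y r))) ∪ ((Ω \ K) \ closedBall y r) := by
      ext z
      constructor
      · rintro ⟨h1, h2⟩
        by_cases hz : z ∈ closedBall y r
        · exact Or.inl ⟨hBR hz, h2⟩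
        · exact Or.inr ⟨⟨h1, fun h => h2 (Or.inr ⟨h, hz⟩)⟩, hz⟩
      · rintro (⟨h1, h2⟩ | ⟨⟨h1, h2⟩, h3⟩)
        · exact ⟨hR h1, h2⟩
        · exact ⟨h1, fun h => h.elim (fun h => h3 (hL h)) fun h => h2 h.1⟩
    rw [this]
    exact hO.union hout
  rw [wg_iff sφ]
  let ζ : ContDiffBump y := ⟨(2 * r + R) / 3, (r + 2 * R) / 3, by linarith, by linarith⟩
  have s1 : tsupport (fun z => ζ z * φ z) ⊆ tsupport φ := tsupport_mul_subset_right
  have s2 : tsupport (fun z => (1 - ζ z) * φ z) ⊆ tsupport φ := tsupport_mul_subset_right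
  have s3 : tsupport (fun z => ζ z * φ z) ⊆ ball y R \ (L ∪ (K \ closedBall y r)) := by
    intro z hz
    have h1 : z ∈ tsupport ζ := tsupport_mul_subset_left hz
    rw [ζ.tsupport_eq] at h1
    exact ⟨closedBall_subset_ball (show (r + 2 * R) / 3 < R by linarith) h1, (sφ (s1 hz)).2⟩
  have s4 : ∀ z ∈ tsupport (fun z => (1 - ζ z) * φ z), z ∉ closedBall y r := by
    intro z hz hzB
    have h1 : z ∈ tsupport fun z => 1 - ζ z := tsupport_mul_subset_left hz
    refine absurd h1 (notMem_tsupport_iff_eventuallyEq.2 ?_)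
    filter_upwards [ζ.eventuallyEq_one_of_mem_ball
      (closedBall_subset_ball (show r < (2 * r + R) / 3 by linarith) hzB)] with x hx
    rw [hx]; simp
  have s5 : tsupport (fun z => (1 - ζ z) * φ z) ⊆ Ω \ K := fun z hz =>
    ⟨(sφ (s2 hz)).1, fun h => (sφ (s2 hz)).2 (Or.inr ⟨h, s4 z hz⟩)⟩
  have d1 : ContDiff ℝ (⊤ : ℕ∞) fun z => ζ z * φ z := ζ.contDiff.mul hφ
  have d2 : ContDiff ℝ (⊤ : ℕ∞) fun z => (1 - ζ z) * φ z := (contDiff_const.sub ζ.contDiff).mul hφ
  have c1 : HasCompactSupport fun z => ζ z * φ z := cφ.mul_left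
  have c2 : HasCompactSupport fun z => (1 - ζ z) * φ z := cφ.mul_left
  have w1 := (wg_iff s3 _ _ e).1 (hWg _ w hO hw _ d1 c1 s3 e)
  have w2 := (wg_iff s5 _ _ e).1 (hA.grad _ d2 c2 s5 e)
  have key := WG.add l2 g2 d1 c1 (fun z hz => (sφ (s1 hz)).1) d2 c2 (fun z hz => (s5 hz).1)
    (w1.congr ?_) (w2.congr (ae_of_all _ fun z hz => ⟨piecewise_eq_of_notMem _ _ _ (s4 z hz),
      piecewise_eq_of_notMem _ _ _ (s4 z hz)⟩))
  · have : (fun z => ζ z * φ z + (1 - ζ z) * φ z) = φ := funext fun z => by ring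
    rwa [this] at key
  · filter_upwards [(ae_restrict_iff' hΩ.measurableSet).1 hv.eq,
      (ae_restrict_iff' hΩ.measurableSet).1 hv.grad] with z e1 e2 hz
    by_cases hzB : z ∈ closedBall y r
    · exact ⟨piecewise_eq_of_mem _ _ _ hzB, piecewise_eq_of_mem _ _ _ hzB⟩
    obtain ⟨h1, h2⟩ := s3 hz
    have h3 : z ∉ K := fun h => h2 (Or.inr ⟨h, hzB⟩)
    have h4 : w =ᶠ[𝓝 z] v := by
      filter_upwards [isOpen_ball.mem_nhds h1, hout.mem_nhds ⟨⟨hR h1, h3⟩, hzB⟩] with x a b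
      exact hwv x a b.2 b.1.2
    rw [piecewise_eq_of_notMem _ _ _ hzB, piecewise_eq_of_notMem _ _ _ hzB, hwv z h1 hzB h3,
      pd_congr h4, e1 (hR h1), e2 (hR h1), conj_conj]
    exact ⟨rfl, rfl⟩

end Trf

open Trf in
theorem trf_pf (hWg : WgStmt) : TrfStmt := by
  classical
  intro Ω g u G K v hΩ hg hm hv y r R L w h0 hr hR hL hLf hO hw hwv hi hw2
  have hA := hm.1
  have hA1 := adm hWg hΩ hA hv h0 hr hR hL hLf hO hw hwv hi hw2
  have hB : MeasurableSet (closedBall y r) := measurableSet_closedBall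
  have hBV : closedBall y r ⊆ ball y ((r + R) / 2) := closedBall_subset_ball (by linarith)
  have hcl : closure (ball y ((r + R) / 2)) ⊆ ball y R :=
    closure_ball_subset_closedBall.trans (closedBall_subset_ball (by linarith))
  have hVΩ : ball y ((r + R) / 2) ⊆ Ω := subset_closure.trans (hcl.trans hR)
  have hBΩ := hBV.trans hVΩ
  have h := hm.2 (ball y ((r + R) / 2)) isOpen_ball isBounded_ball.isCompact_closure (hcl.trans hR)
    _ _ _ hA1 ⟨closedBall y r, isCompact_closedBall y r, hBV, ?_,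
      (ae_restrict_iff' (hΩ.measurableSet.diff hB)).2
        (ae_of_all _ fun z hz => piecewise_eq_of_notMem _ _ _ hz.2)⟩
  swap
  · rintro z (⟨h1, h2⟩ | ⟨h1, h2⟩)
    · exact h1.elim (fun h => hL h) fun h => absurd h.1 h2
    · by_contra hz
      exact h2 (Or.inr ⟨h1, hz⟩)
  have hVm : MeasurableSet (ball y ((r + R) / 2)) := measurableSet_ball
  have hVf : IsFiniteMeasure (volume.restrict (ball y ((r + R) / 2))) :=
    isFiniteMeasure_restrict.2 measure_ball_lt_top.ne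
  generalize ball y ((r + R) / 2) = V at h hBV hVΩ hVm hVf
  have hG2 : MemLp G 2 (volume.restrict Ω) := restr_diff Ω hA.fin ▸ hA.gl2
  have le1 : ∀ {S T : Set ℂ}, S ⊆ T → (volume : Measure ℂ).restrict S ≤ volume.restrict T :=
    fun h => Measure.restrict_mono h le_rfl
  have hg2 : MemLp g 2 (volume.restrict V) := (hg.mono_measure (le1 hVΩ)).mono_exponent le_top
  have hug : MemLp (fun z => u z - g z) 2 (volume.restrict V) :=
    (hA.l2.mono_measure (le1 hVΩ)).sub hg2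
  have hwg : MemLp (fun z => w z - g z) 2 (volume.restrict (closedBall y r)) :=
    hw2.sub (hg2.mono_measure (le1 hBV))
  have hp2 : MemLp (pd w) 2 (volume.restrict (closedBall y r)) :=
    (memLp_two_iff_integrable_sq_norm (measurable_pd w).aestronglyMeasurable).2 hi
  have m1 : μH[1] (K ∩ V) = μH[1] (K ∩ closedBall y r) + μH[1] ((K ∩ V) \ closedBall y r) := by
    rw [← measure_inter_add_sdiff (K ∩ V) hB, inter_assoc, inter_eq_right.2 hBV]
  have m2 : μH[1] ((L ∪ K \ closedBall y r) ∩ V) ≤ μH[1] L +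
      μH[1] ((K ∩ V) \ closedBall y r) := by
    refine le_trans (measure_mono ?_) (measure_union_le _ _)
    rintro z ⟨h1 | h1, h2⟩
    · exact Or.inl h1
    · exact Or.inr ⟨⟨h1.1, h2⟩, h1.2⟩
  have a1 : ∫⁻ z in closedBall y r, ‖(closedBall y r).piecewise (fun z => conj (pd w z)) G z‖ₑ ^ 2 =
      ∫⁻ z in closedBall y r, ‖pd w z‖ₑ ^ 2 := setLIntegral_congr_fun hB fun z hz => by
    simp only [piecewise_eq_of_mem _ _ _ hz, ← ofReal_norm, Complex.norm_conj]
  have a2 : ∫⁻ z in V \ closedBall y r,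
      ‖(closedBall y r).piecewise (fun z => conj (pd w z)) G z‖ₑ ^ 2 =
      ∫⁻ z in V \ closedBall y r, ‖G z‖ₑ ^ 2 := setLIntegral_congr_fun (hVm.diff hB) fun z hz => by
    simp only [piecewise_eq_of_notMem _ _ _ hz.2]
  have a3 : ∫⁻ z in closedBall y r, ‖(closedBall y r).piecewise w u z - g z‖ₑ ^ 2 =
      ∫⁻ z in closedBall y r, ‖w z - g z‖ₑ ^ 2 := setLIntegral_congr_fun hB fun z hz => by
    simp only [piecewise_eq_of_mem _ _ _ hz]
  have a4 : ∫⁻ z in V \ closedBall y r, ‖(closedBall y r).piecewise w u z - g z‖ₑ ^ 2 =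
      ∫⁻ z in V \ closedBall y r, ‖u z - g z‖ₑ ^ 2 :=
    setLIntegral_congr_fun (hVm.diff hB) fun z hz => by
      simp only [piecewise_eq_of_notMem _ _ _ hz.2]
  unfold msF at h
  rw [restr_diff V hA.fin, restr_diff V hA1.fin, lint_split hB hBV, lint_split hB hBV,
    lint_split hB hBV, lint_split hB hBV, a1, a2, a3, a4, m1] at h
  have f1 := lint_fin (hG2.mono_measure (le1 ((sdiff_subset (t := closedBall y r)).trans hVΩ)))
  have f2 : μH[1] ((K ∩ V) \ closedBall y r) ≠ ⊤ :=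
    ((measure_mono (sdiff_subset.trans inter_subset_left)).trans_lt hA.fin).ne
  have f3 := lint_fin (hug.mono_measure (le1 (sdiff_subset (t := closedBall y r))))
  have f4 := lint_fin (hG2.mono_measure (le1 hBΩ))
  have f5 : μH[1] (K ∩ closedBall y r) ≠ ⊤ := ((measure_mono inter_subset_left).trans_lt hA.fin).ne
  have f6 := lint_fin (hug.mono_measure (le1 hBV))
  have f7 := lint_fin hp2
  have f8 := lint_fin hwg
  have e1 : En v (closedBall y r) = (∫⁻ z in closedBall y r, ‖G z‖ₑ ^ 2).toReal := by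
    rw [← int_sq (hG2.mono_measure (le1 hBΩ)).1]
    refine integral_congr_ae ((hv.grad.filter_mono (ae_mono (le1 hBΩ))).mono fun z hz => ?_)
    simp only [hz, Complex.norm_conj]
  have e2 : ∫ z in closedBall y r, (v z - g z) ^ 2 =
      (∫⁻ z in closedBall y r, ‖u z - g z‖ₑ ^ 2).toReal := by
    rw [← int_sq (hug.mono_measure (le1 hBV)).1]
    refine integral_congr_ae ((hv.eq.filter_mono (ae_mono (le1 hBΩ))).mono fun z hz => ?_)
    simp only [hz, Real.norm_eq_abs, sq_abs]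
  have e3 : En w (closedBall y r) = (∫⁻ z in closedBall y r, ‖pd w z‖ₑ ^ 2).toReal :=
    int_sq hp2.1
  have e4 : ∫ z in closedBall y r, (w z - g z) ^ 2 =
      (∫⁻ z in closedBall y r, ‖w z - g z‖ₑ ^ 2).toReal := by
    rw [← int_sq hwg.1]
    simp only [Real.norm_eq_abs, sq_abs]
  have h' := ENNReal.toReal_mono (by finiteness) (h.trans (add_le_add (add_le_add le_rfl m2) le_rfl))
  rw [e1, e2, e3, e4, len]
  simp (disch := finiteness) only [ENNReal.toReal_add] at h'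
  linarith

end Vale.Agent.P128
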