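import Vale.Agent.P128.Stm

open MeasureTheory Set Metric Filter Topology Complex
open scoped ENNReal ComplexConjugate Real

noncomputable section
namespace Vale.Agent.P128

namespace Tstar

theorem ident {f : ℂ → ℂ} {U V : Set ℂ} {z : ℂ} (hU : IsOpen U) (hc : IsPreconnected U)
    (hf : DifferentiableOn ℂ f U) (hz : z ∈ U) (hV : V ∈ 𝓝 z) (h : ∀ a ∈ V, f a = 0) :
    ∀ a ∈ U, f a = 0 :=
  (hf.analyticOnNhd hU).eqOn_zero_of_preconnected_of_eventuallyEq_zero hc hz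
    (eventually_of_mem hV h)

theorem van (hCaseA1 : CaseA1Stmt) {K : Set ℂ} {u : ℂ → ℝ} (h : GM K u) {c : ℂ} (hc : c ∈ K)
    {F κ : ℂ → ℂ} (hF : DifferentiableOn ℂ F (ball c 1)) (e : ∀ a ∈ ball c (1 / 4), F a = κ a)
    (h0 : ∀ φ, Test K (ball c (1 / 4)) φ → ∫ a, κ a * db φ a = 0) : ∀ a ∈ ball c 1, F a = 0 := by
  refine ident isOpen_ball (convex_ball c 1).isPreconnected hF (mem_ball_self one_pos)
    (ball_mem_nhds c (by norm_num : (0 : ℝ) < 1 / 4))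
    (hCaseA1 K u h c hc F (hF.mono (ball_subset_ball (by norm_num))) fun φ hφ => ?_)
  rw [← h0 φ hφ]
  refine integral_congr_ae (Eventually.of_forall fun a => ?_)
  by_cases ha : a ∈ ball c (1 / 4)
  · simp only [e a ha]
  · have : fderiv ℝ φ a = 0 := by
      rw [(notMem_tsupport_iff_eventuallyEq.1 fun h1 => ha (hφ.sub h1)).fderiv_eq]
      exact fderiv_const_apply 0
    simp [db, this]

theorem front {K : Set ℂ} (hK : IsClosed K) {z₀ z : ℂ}
    (h1 : z ∈ closure (connectedComponentIn Kᶜ z₀)) (h2 : z ∉ connectedComponentIn Kᶜ z₀) :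
    z ∈ K := by
  by_contra hz
  obtain ⟨w, w1, w2⟩ := mem_closure_iff_nhds.1 h1 _
    (connectedComponentIn_mem_nhds (hK.isOpen_compl.mem_nhds hz))
  rw [connectedComponentIn_eq w2, ← connectedComponentIn_eq w1] at h2
  exact h2 (mem_connectedComponentIn hz)

end Tstar

theorem tstar_pf (hChi : ChiStmt) (hKap2 : Kap2Stmt) (hExt : ExtStmt) (hCaseA1 : CaseA1Stmt)
    (hApx : ApxStmt) (hConv1 : Conv1Stmt) (hConv2 : Conv2Stmt) (hSlide : SlideStmt)
    (hPinch : PinchStmt) : TstarStmt := by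
  intro K K₁ K₂ u h hS
  obtain ⟨χ, hχ⟩ := hChi K₁
  obtain ⟨F₁, F₂, d1, d2, e1, e2, e3⟩ := hExt K K₁ K₂ u χ h hS hχ
  have k0 : (0 : ℂ) ∈ K := hS.eq ▸ Or.inl hS.m1
  have kI : I ∈ K := hS.eq ▸ Or.inr hS.m2
  have z1 := Tstar.van hCaseA1 h k0 d1 e1 (hKap2 K K₁ K₂ u χ h hS hχ 0 (Or.inl rfl))
  have z2 := Tstar.van hCaseA1 h kI d2 e2 (hKap2 K K₁ K₂ u χ h hS hχ I (Or.inr rfl))
  have hl : ball (0 : ℂ) 1 ∩ ball I 1 ⊆ Kᶜ := fun z hz hK => by
    rcases hS.eq.subset hK with k | k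
    · exact (hS.far z k I hS.m2).not_gt (mem_ball_iff_norm.1 hz.2)
    · exact (hS.far 0 hS.m1 z k).not_gt (mem_ball_iff_norm'.1 hz.1)
  have ht : ∀ t ∈ Ioo (0 : ℝ) 1, (t : ℂ) * I ∈ ball (0 : ℂ) 1 ∩ ball I 1 := fun t ht => by
    refine ⟨by simpa [abs_of_pos ht.1] using ht.2, mem_ball_iff_norm.2 ?_⟩
    rw [show (t : ℂ) * I - I = ((t - 1 : ℝ) : ℂ) * I by push_cast; ring, norm_mul, norm_I, mul_one,
      norm_real, Real.norm_eq_abs, abs_lt]
    constructor <;> linarith [ht.1, ht.2]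
  have hh := ht (1 / 2) (by norm_num)
  have hU : IsOpen (connectedComponentIn Kᶜ (((1 / 2 : ℝ) : ℂ) * I)) :=
    h.cl.isOpen_compl.connectedComponentIn
  have hs := connectedComponentIn_subset Kᶜ (((1 / 2 : ℝ) : ℂ) * I)
  have hlU := ((convex_ball _ _).inter (convex_ball _ _)).isPreconnected.subset_connectedComponentIn
    hh hl
  have hd := (hApx.2 K u h).mono hs
  have hc : ∀ z ∈ connectedComponentIn Kᶜ (((1 / 2 : ℝ) : ℂ) * I),
      pd u z = pd u (((1 / 2 : ℝ) : ℂ) * I) := fun z hz =>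
    hU.is_const_of_deriv_eq_zero isPreconnected_connectedComponentIn hd
      (Tstar.ident hU isPreconnected_connectedComponentIn (hd.deriv hU) (hlU hh)
        ((isOpen_ball.inter isOpen_ball).mem_nhds hh) fun a ha => by
          rw [← e3 a ha, z1 a ha.1, z2 a ha.2, sub_zero]) hz (hlU hh)
  obtain ⟨e, he, hi⟩ : ∃ e : ℂ, e ≠ 0 ∧ ∀ z ∈ connectedComponentIn Kᶜ (((1 / 2 : ℝ) : ℂ) * I),
      ∀ t : ℝ, z + t * e ∈ connectedComponentIn Kᶜ (((1 / 2 : ℝ) : ℂ) * I) := by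
    by_cases h0 : pd u (((1 / 2 : ℝ) : ℂ) * I) = 0
    · exact hConv2 K K₁ K₂ _ hS hU (hConv1 K u h _ (h0 ▸ hc))
        (fun z hz => Tstar.front h.cl hz.1 (hU.interior_eq ▸ hz.2)) (fun t h1 => hlU (ht t h1))
        (fun h1 => hs h1 k0) fun h1 => hs h1 kI
    · exact ⟨_, (map_ne_zero _).2 h0, hSlide K u h _ _ hc⟩
  have hline : ∀ s ∈ Icc (0 : ℝ) 1, (s : ℂ) * I ∈ K → ∀ t : ℝ, (s : ℂ) * I + t * e ∈ K := by
    intro s h1 h2 t
    rw [← closure_Ioo zero_ne_one] at h1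
    refine Tstar.front h.cl (map_mem_closure (f := fun s : ℝ => (s : ℂ) * I + t * e) (by fun_prop)
      h1 fun a ha => hi _ (hlU (ht a ha)) t) fun h3 => hs ?_ h2
    simpa using hi _ h3 (-t)
  have hp := hPinch K u h 0 I e
    (by simpa using hline 0 (by norm_num) (by simpa using k0))
    (by simpa using hline 1 (by norm_num) (by simpa using kI))
  have hre : e.re = 0 := by simpa using hp
  have him : e.im ≠ 0 := fun h1 => he (Complex.ext hre h1)
  refine hs (hi _ (hlU hh) (-(1 / 2) / e.im)) ?_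
  rwa [show ((1 / 2 : ℝ) : ℂ) * I + ((-(1 / 2) / e.im : ℝ) : ℂ) * e = 0 by
    apply Complex.ext
    · simp only [add_re, re_ofReal_mul, hre, I_re, mul_zero, add_zero, zero_re]
    · simp only [add_im, im_ofReal_mul, I_im, div_mul_cancel₀ _ him, zero_im]
      norm_num]

end Vale.Agent.P128
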