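import Vale.Agent.P128.Stm

open MeasureTheory Set Metric Filter Topology Complex
open scoped ENNReal ComplexConjugate Real

noncomputable section
namespace Vale.Agent.P128

namespace Up

theorem cases {Ω K : Set ℂ} {x z : ℂ} {r : ℝ} (hz : z ∈ Ω \ (K \ ball x r ∪ sphere x r)) :
    z ∈ ball x r ∨ (z ∉ closedBall x r ∧ z ∈ Ω \ K) := by
  by_cases h : z ∈ ball x r
  · exact Or.inl h
  refine Or.inr ⟨fun h' => hz.2 (Or.inr ?_), hz.1, fun h' => hz.2 (Or.inl ⟨h', h⟩)⟩
  exact le_antisymm h' (not_lt.1 h)

end Up

theorem up_pf : UpStmt := by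
  classical
  intro Ω K u Λ M h x r hr hΩ
  have hπ := Real.pi_pos
  obtain ⟨w, hw⟩ : ∃ w : ℂ → ℝ, w = fun z => if z ∈ closedBall x r then 0 else u z := ⟨_, rfl⟩
  have hin : ∀ z ∈ ball x r, w =ᶠ[𝓝 z] fun _ => 0 := by
    intro z hz
    filter_upwards [isOpen_ball.mem_nhds hz] with y hy
    rw [hw]; exact if_pos (ball_subset_closedBall hy)
  have hout : ∀ z, z ∉ closedBall x r → w =ᶠ[𝓝 z] u := by
    intro z hz
    filter_upwards [isClosed_closedBall.isOpen_compl.mem_nhds hz] with y hy
    rw [hw]; exact if_neg hy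
  have hsph : μH[1] (sphere x r) < ⊤ := (sphere_length_le x hr).trans_lt ENNReal.ofReal_lt_top
  have hL : (K \ ball x r ∪ sphere x r) ∩ closedBall x r ⊆ sphere x r := by
    rintro z ⟨hz | hz, hz'⟩
    · exact le_antisymm hz' (not_lt.1 hz.2)
    · exact hz
  have hpd : ∀ᵐ z ∂(volume.restrict (closedBall x r)), ‖pd w z‖ ^ 2 = 0 := by
    rw [ae_restrict_iff' measurableSet_closedBall]
    filter_upwards [measure_eq_zero_iff_ae_notMem.1 (volume_null hsph)] with z hz hz'
    have : z ∈ ball x r := lt_of_le_of_ne hz' hz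
    rw [pd_congr (hin z this), pd_const]; simp
  have hc : Comp Ω K u x r (K \ ball x r ∪ sphere x r) w := by
    refine ⟨(h.cl.sdiff isOpen_ball).union isClosed_sphere, ?_, fun z _ hz _ => (hout z hz).eq_of_nhds,
      ?_, ?_, (measure_mono hL).trans_lt hsph, ?_⟩
    · ext z
      constructor
      · rintro ⟨hz | hz, hz'⟩
        · exact ⟨hz.1, hz'⟩
        · exact absurd (sphere_subset_closedBall hz) hz'
      · rintro ⟨hz, hz'⟩
        exact ⟨Or.inl ⟨hz, fun h' => hz' (ball_subset_closedBall h')⟩, hz'⟩
    · refine locLip_of_local fun z hz => ?_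
      rcases Up.cases hz with h1 | h1
      · exact ⟨fun _ => 0, univ, isOpen_univ, mem_univ _,
          (LipschitzWith.const 0).locallyLipschitz.locallyLipschitzOn, hin z h1⟩
      · exact ⟨u, Ω \ K, h.isOpen, h1.2, h.lip, hout z h1.1⟩
    · exact (integrable_zero _ _ _).congr (EventuallyEq.symm hpd)
    · refine ⟨fun z => if z ∈ closedBall x r then ∅ else connectedComponentIn (Ω \ K) z,
        fun z hz => ?_, fun z _ hz _ => if_neg hz⟩
      rcases Up.cases hz with h1 | h1
      · filter_upwards [isOpen_ball.mem_nhds h1] with y hy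
        rw [if_pos (ball_subset_closedBall hy), if_pos (ball_subset_closedBall h1)]
      · filter_upwards [isClosed_closedBall.isOpen_compl.mem_nhds h1.1,
          h.isOpen.connectedComponentIn.mem_nhds (mem_connectedComponentIn h1.2)] with y hy hy'
        rw [if_neg hy, if_neg h1.1, connectedComponentIn_eq hy']
  have h1 := h.min x r _ w hΩ hc
  have h2 : En w (closedBall x r) = 0 := integral_eq_zero_of_ae hpd
  have h3 : len (K \ ball x r ∪ sphere x r) (closedBall x r) ≤ 2 * π * r :=
    ENNReal.toReal_le_of_le_ofReal (by positivity)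
      ((measure_mono hL).trans (sphere_length_le x hr))
  have h4 : ∫ z in closedBall x r, min |w z - u z| (2 * M) ≤ ∫ _ in closedBall x r, 2 * M := by
    have hM := h.M0
    refine integral_mono_of_nonneg (Eventually.of_forall fun z => le_min (abs_nonneg _)
      (by positivity)) (integrableOn_const measure_closedBall_lt_top.ne)
      (Eventually.of_forall fun z => min_le_right _ _)
  rw [setIntegral_const, measureReal_def, Complex.volume_closedBall, ENNReal.toReal_mul,
    ENNReal.toReal_pow, ENNReal.toReal_ofReal hr, ENNReal.coe_toReal, NNReal.coe_real_pi,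
    smul_eq_mul] at h4
  have h5 := mul_le_mul_of_nonneg_left h4 h.L0
  linarith

end Vale.Agent.P128
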