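import Vale.Agent.P128.Stm

open MeasureTheory Set Metric Filter Topology Complex
open scoped ENNReal ComplexConjugate Real

noncomputable section
namespace Vale.Agent.P128

namespace Upn

theorem ii {g : ℝ → ℝ} {s t b : ℝ} (h : IntegrableOn g (Ioo 0 b)) (hs : 0 ≤ s) (hst : s ≤ t)
    (ht : t ≤ b) : IntervalIntegrable g volume s t :=
  (intervalIntegrable_iff_integrableOn_Ioo_of_le hst).2 (h.mono_set (Ioo_subset_Ioo hs ht))

theorem mono_ae {f g : ℝ → ℝ} {s t : ℝ} (hst : s ≤ t) (hf : IntervalIntegrable f volume s t)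
    (hg : IntervalIntegrable g volume s t) (h : ∀ᵐ ρ, ρ ∈ Ioo s t → f ρ ≤ g ρ) :
    ∫ ρ in s..t, f ρ ≤ ∫ ρ in s..t, g ρ := by
  refine intervalIntegral.integral_mono_ae_restrict hst hf hg ?_
  rw [← Measure.restrict_congr_set Ioo_ae_eq_Icc]
  exact (ae_restrict_iff' measurableSet_Ioo).2 h

/-- the one dimensional data -/
structure Dt (l N e : ℝ → ℝ) (n b ε : ℝ) : Prop where
  b0 : 0 < b
  p0 : 0 < ε
  p1 : ε ≤ 1 / 80
  e0 : ∀ ρ, 0 ≤ e ρ
  ie : IntegrableOn e (Ioo 0 b)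
  iN : IntegrableOn N (Ioo 0 b)
  l0 : 0 ≤ l 0
  eb : ∀ s t, 0 ≤ s → s ≤ t → 0 < t → t ≤ b →
    ∫ ρ in s..t, e ρ ≤ ε * (t / b) ^ (1 / 3 : ℝ) * t
  lb : ∀ s t, 0 ≤ s → s ≤ t → t ≤ b → l s + ∫ ρ in s..t, N ρ ≤ l t
  pt : ∀ᵐ ρ, ρ ∈ Ioo 0 b → l ρ ≤ ρ * (N ρ + e ρ) ∧ (N ρ ≤ n - 1 ∨ N ρ = n ∨ n + 1 ≤ N ρ)
  hy : ∀ r ∈ Ioc 0 b, (n - 9 / 10) * r ≤ l r ∧ l r ≤ (n + 1 / 4) * r
  th : ∀ s r, 0 < s → s ≤ r → r ≤ b → l s / s ≤ l r / r + 10 * ε * (r / b) ^ (1 / 3 : ℝ)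

variable {l N e : ℝ → ℝ} {n b ε : ℝ}

theorem Dt.low_pt (h : Dt l N e n b ε) : ∀ᵐ ρ, ρ ∈ Ioo 0 b →
    n - 10 * e ρ ≤ N ρ ∧ (N ρ ≤ n - 1 → 1 ≤ 10 * e ρ) := by
  filter_upwards [h.pt] with ρ hρ hm
  obtain ⟨h1, h2⟩ := hρ hm
  have h3 := (h.hy ρ ⟨hm.1, hm.2.le⟩).1
  have h4 : n - 9 / 10 ≤ N ρ + e ρ :=
    le_of_mul_le_mul_left (by linarith : ρ * (n - 9 / 10) ≤ ρ * (N ρ + e ρ)) hm.1
  have h5 := h.e0 ρ
  refine ⟨?_, fun h6 => by linarith⟩
  rcases h2 with h2 | h2 | h2 <;> linarith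

theorem Dt.int_ge (h : Dt l N e n b ε) {s t c d : ℝ} (hs : 0 ≤ s) (hst : s ≤ t) (ht0 : 0 < t)
    (ht : t ≤ b) (hd : 0 ≤ d) (hN : ∀ᵐ ρ, ρ ∈ Ioo s t → c - d * e ρ ≤ N ρ) :
    l s + c * (t - s) - d * (ε * (t / b) ^ (1 / 3 : ℝ) * t) ≤ l t := by
  have i1 := ii h.ie hs hst ht
  have h1 := mono_ae hst (intervalIntegrable_const.sub (i1.const_mul d)) (ii h.iN hs hst ht) hN
  rw [intervalIntegral.integral_sub intervalIntegrable_const (i1.const_mul d),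
    intervalIntegral.integral_const, intervalIntegral.integral_const_mul, smul_eq_mul] at h1
  have h2 := mul_le_mul_of_nonneg_left (h.eb s t hs hst ht0 ht) hd
  have h3 := h.lb s t hs hst ht
  linarith

theorem Dt.low (h : Dt l N e n b ε) {r : ℝ} (hr : 0 < r) (hb : r ≤ b) :
    n * r - 10 * (ε * (r / b) ^ (1 / 3 : ℝ) * r) ≤ l r := by
  have h1 := h.int_ge (c := n) (d := 10) le_rfl hr.le hr hb (by norm_num) (by
    filter_upwards [h.low_pt] with ρ hρ hm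
    exact (hρ ⟨hm.1, hm.2.trans_le hb⟩).1)
  have h2 := h.l0
  linarith

theorem Dt.up (h : Dt l N e n b ε) {s : ℝ} (hs : 0 < s) (hb : 2 * s ≤ b) :
    l s ≤ n * s + 18 * (ε * (2 * s / b) ^ (1 / 3 : ℝ) * s) := by
  by_contra hc
  push Not at hc
  have b0 := h.b0
  have p0 := h.p0
  obtain ⟨η, hη⟩ : ∃ η, η = ε * (2 * s / b) ^ (1 / 3 : ℝ) := ⟨_, rfl⟩
  have η0 : 0 < η := by rw [hη]; positivity
  have η1 : η ≤ 1 / 80 := by
    have : (2 * s / b) ^ (1 / 3 : ℝ) ≤ 1 :=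
      Real.rpow_le_one (by positivity) ((div_le_one b0).2 hb) (by norm_num)
    rw [hη]
    nlinarith [h.p1]
  rw [← hη] at hc
  have h0 : n + 18 * η < l s / s := by
    rw [lt_div_iff₀ hs]
    linarith
  have h1 := h.int_ge (c := n + 1) (d := (8 * η)⁻¹ + 10) hs.le (by linarith : s ≤ 2 * s)
    (by positivity) hb (by positivity) (by
    filter_upwards [h.low_pt, h.pt] with ρ hρ hρ' hm
    have hm' : ρ ∈ Ioo 0 b := ⟨hs.trans hm.1, hm.2.trans_le hb⟩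
    obtain ⟨k1, -⟩ := hρ hm'
    obtain ⟨k2, k3⟩ := hρ' hm'
    have k4 := h.th s ρ hs hm.1.le hm'.2.le
    have k5 : ε * (ρ / b) ^ (1 / 3 : ℝ) ≤ η := by
      rw [hη]
      have := hm'.1.le
      have := hm.2.le
      gcongr
    have k6 : l ρ / ρ ≤ N ρ + e ρ := by
      rw [div_le_iff₀ hm'.1]
      linarith
    have k7 := h.e0 ρ
    have k8 : 0 ≤ (8 * η)⁻¹ * e ρ := by positivity
    have k9 : N ρ ≤ n → 1 ≤ (8 * η)⁻¹ * e ρ := fun hN => by
      rw [le_inv_mul_iff₀ (by positivity)]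
      linarith
    rcases k3 with k3 | k3 | k3
    · have := k9 (by linarith)
      linarith
    · have := k9 k3.le
      linarith
    · linarith)
  rw [← hη] at h1
  have h2 := (h.hy (2 * s) ⟨by positivity, hb⟩).2
  have h3 : ((8 * η)⁻¹ + 10) * (η * (2 * s)) = s / 4 + 20 * (η * s) := by
    field_simp
    ring
  have h4 : η * s ≤ 1 / 80 * s := by gcongr
  have h5 : 0 < η * s := by positivity
  rw [h3] at h1
  linarith

theorem rp {r t b : ℝ} (hb : 0 < b) (ht : 0 ≤ t) (htr : t ≤ 4 * r) :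
    (t / b) ^ (1 / 3 : ℝ) ≤ ((r / (b / 4)) ^ (1 / 6 : ℝ)) ^ 2 := by
  have hr : 0 ≤ r := by linarith
  have e1 : r / (b / 4) = 4 * r / b := by field_simp
  rw [← Real.rpow_natCast, ← Real.rpow_mul (by positivity), e1]
  norm_num only
  gcongr

theorem Dt.shell (h : Dt l N e n b ε) {δ r : ℝ} (hδ : 0 < δ) (hδ1 : δ ≤ 1) (hε : ε = δ ^ 2)
    (hr : 0 < r) (hb : r ≤ b / 4) (S : Set ℝ) (hS : S ⊆ Ioo (r / 2) r)
    (hS' : ∀ᵐ ρ, ρ ∈ S → ¬ (N ρ = n ∧ e ρ ≤ δ * (r / (b / 4)) ^ (1 / 6 : ℝ))) :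
    volume S ≤ ENNReal.ofReal (44 * δ * (r / (b / 4)) ^ (1 / 6 : ℝ) * r) := by
  have b0 := h.b0
  have p0 := h.p0
  have k1 := rp b0 hr.le (by linarith : r ≤ 4 * r)
  have k2 := rp b0 (by positivity : 0 ≤ 2 * r) (by linarith : 2 * r ≤ 4 * r)
  have k3 := rp b0 (by positivity : 0 ≤ r / 2) (by linarith : r / 2 ≤ 4 * r)
  obtain ⟨q, hq⟩ : ∃ q, q = (r / (b / 4)) ^ (1 / 6 : ℝ) := ⟨_, rfl⟩
  have q0 : 0 < q := by rw [hq]; positivity
  have q1 : q ≤ 1 := hq ▸ Real.rpow_le_one (by positivity) ((div_le_one (by positivity)).2 hb)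
    (by norm_num)
  rw [← hq] at k1 k2 k3 hS' ⊢
  have r2 : 0 < r / 2 := by positivity
  have rr : r / 2 ≤ r := by linarith
  have rb : r ≤ b := by linarith
  have i1 := ii h.ie r2.le rr rb
  have i2 := ii h.iN r2.le rr rb
  have i3 : IntervalIntegrable (fun ρ => N ρ - n + (20 + (δ * q)⁻¹) * e ρ) volume (r / 2) r :=
    (i2.sub intervalIntegrable_const).add (i1.const_mul _)
  have hpt : ∀ᵐ ρ ∂(volume.restrict (Ioo (r / 2) r)),
      0 ≤ N ρ - n + (20 + (δ * q)⁻¹) * e ρ ∧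
        (ρ ∈ S → 1 ≤ N ρ - n + (20 + (δ * q)⁻¹) * e ρ) := by
    refine (ae_restrict_iff' measurableSet_Ioo).2 ?_
    filter_upwards [h.low_pt, h.pt, hS'] with ρ h1 h2 h3 hm
    have hm' : ρ ∈ Ioo 0 b := ⟨r2.trans hm.1, hm.2.trans_le rb⟩
    obtain ⟨m1, m2⟩ := h1 hm'
    obtain ⟨-, m3⟩ := h2 hm'
    have m4 := h.e0 ρ
    have m5 : 0 ≤ (δ * q)⁻¹ * e ρ := by positivity
    refine ⟨by linarith, fun hρ => ?_⟩
    rcases m3 with m3 | m3 | m3
    · have := m2 m3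
      linarith
    · have m6 : δ * q < e ρ := not_le.1 fun hc => h3 hρ ⟨m3, hc⟩
      have m7 : 1 ≤ (δ * q)⁻¹ * e ρ := by
        rw [le_inv_mul_iff₀ (by positivity)]
        linarith
      linarith
    · linarith
  have hM := mul_meas_ge_le_integral_of_nonneg (μ := volume.restrict (Ioo (r / 2) r))
    (f := fun ρ => N ρ - n + (20 + (δ * q)⁻¹) * e ρ) (hpt.mono fun ρ hρ => hρ.1)
    ((intervalIntegrable_iff_integrableOn_Ioo_of_le rr).1 i3) 1
  rw [one_mul, ← integral_Ioc_eq_integral_Ioo, ← intervalIntegral.integral_of_le rr,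
    intervalIntegral.integral_add (i2.sub intervalIntegrable_const) (i1.const_mul _),
    intervalIntegral.integral_sub i2 intervalIntegrable_const, intervalIntegral.integral_const,
    intervalIntegral.integral_const_mul, smul_eq_mul] at hM
  have a1 := h.lb (r / 2) r r2.le rr rb
  have a2 := h.low r2 (rr.trans rb)
  have a3 := h.up hr (by linarith)
  have a4 := h.eb (r / 2) r r2.le rr hr rb
  have a5 : ε * (r / 2 / b) ^ (1 / 3 : ℝ) * (r / 2) ≤ ε * q ^ 2 * (r / 2) := by gcongr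
  have a6 : ε * (2 * r / b) ^ (1 / 3 : ℝ) * r ≤ ε * q ^ 2 * r := by gcongr
  have a7 : ε * (r / b) ^ (1 / 3 : ℝ) * r ≤ ε * q ^ 2 * r := by gcongr
  have a8 : (20 + (δ * q)⁻¹) * ∫ ρ in (r / 2)..r, e ρ ≤ (20 + (δ * q)⁻¹) * (ε * q ^ 2 * r) :=
    mul_le_mul_of_nonneg_left (a4.trans a7) (by positivity)
  have a9 : (20 + (δ * q)⁻¹) * (ε * q ^ 2 * r) = 20 * (ε * q ^ 2 * r) + δ * q * r := by
    rw [hε]
    field_simp
  have a10 : ε * q ^ 2 * r ≤ δ * q * r := by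
    have c1 : δ * q ≤ 1 := mul_le_one₀ hδ1 q0.le q1
    have c2 : 0 ≤ δ * q * r := by positivity
    calc ε * q ^ 2 * r = δ * q * (δ * q * r) := by rw [hε]; ring
      _ ≤ 1 * (δ * q * r) := by gcongr
      _ = _ := one_mul _
  rw [← Measure.restrict_eq_self volume hS]
  refine (measure_mono_ae (t := {ρ | 1 ≤ N ρ - n + (20 + (δ * q)⁻¹) * e ρ})
    (hpt.mono fun ρ hρ => hρ.2)).trans ?_
  rw [← ofReal_measureReal]
  exact ENNReal.ofReal_le_ofReal (by linarith)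

theorem par {a b : ℂ} (ha : ‖a‖ = 1) (hb : ‖b‖ = 1) (h : ‖a + b‖ ≤ 3 / 2) : 1 ≤ ‖a - b‖ := by
  have h1 := parallelogram_law_with_norm ℝ a b
  rw [ha, hb] at h1
  by_contra hc
  push Not at hc
  nlinarith [norm_nonneg (a + b), norm_nonneg (a - b)]

theorem two {a b : ℂ} (ha : ‖a‖ = 1) (hb : ‖b‖ = 1) (h : ‖a + b‖ ≤ 1 / 2) :
    ‖a ^ 2 - b ^ 2‖ ≤ 4 * ‖a + b‖ ∧ 1 ≤ ‖a - b‖ := by
  refine ⟨?_, par ha hb (by linarith)⟩
  rw [sq_sub_sq, norm_mul]
  have h1 := norm_sub_le a b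
  rw [ha, hb] at h1
  nlinarith [norm_nonneg (a + b), norm_nonneg (a - b)]

theorem three {a b c : ℂ} (ha : ‖a‖ = 1) (hb : ‖b‖ = 1) (hc : ‖c‖ = 1)
    (h : ‖a + (b + c)‖ ≤ 1 / 2) :
    ‖a ^ 3 - b ^ 3‖ ≤ 4 * ‖a + (b + c)‖ ∧ 1 ≤ ‖a - b‖ := by
  refine ⟨?_, par ha hb ?_⟩
  · have u : ∀ z : ℂ, ‖z‖ = 1 → z * conj z = 1 := fun z hz => by
      rw [mul_conj', hz]; norm_num
    have e1 : a ^ 3 - b ^ 3 =
        (a + (b + c)) * (a ^ 2 - b ^ 2) - a * b * c * conj (a + (b + c)) * (a - b) := by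
      rw [map_add, map_add]
      linear_combination (b * c * (a - b)) * u a ha + (a * c * (a - b)) * u b hb +
        (a * b * (a - b)) * u c hc
    have h1 := norm_sub_le a b
    have h2 := norm_sub_le (a ^ 2) (b ^ 2)
    rw [norm_pow, norm_pow] at h2
    rw [ha, hb] at h1 h2
    rw [e1]
    refine (norm_sub_le _ _).trans ?_
    simp only [norm_mul, ha, hb, hc, one_mul, norm_conj]
    nlinarith [norm_nonneg (a + (b + c))]
  · have h1 := norm_sub_le (a + (b + c)) c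
    rw [show a + (b + c) - c = a + b by ring, hc] at h1
    linarith

theorem bal {K : Set ℂ} {x : ℂ} {n : ℕ} {ρ κ : ℝ} (hn : n = 2 ∨ n = 3) (hρ : 0 < ρ)
    (P : Finset ℂ) (hP : (P : Set ℂ) = K ∩ sphere x ρ) (hc : P.card = n)
    (hs : ‖∑ p ∈ P, (p - x) / ρ‖ ^ 2 ≤ κ) (hκ : κ ≤ 1 / 4) : Bal K x n (16 * κ) ρ := by
  classical
  refine ⟨P, hP, hc, fun p hp q hq => ?_⟩
  have κ0 : 0 ≤ κ := (sq_nonneg _).trans hs
  by_cases hpq : p = q
  · subst hpq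
    refine ⟨?_, fun h => absurd rfl h⟩
    rw [sub_self, norm_zero]
    nlinarith
  have un : ∀ z ∈ P, ‖(z - x) / (ρ : ℂ)‖ = 1 := fun z hz => by
    have h1 : z ∈ K ∩ sphere x ρ := hP ▸ Finset.mem_coe.2 hz
    rw [norm_div, mem_sphere_iff_norm.1 h1.2, norm_real, Real.norm_eq_abs, abs_of_pos hρ,
      div_self hρ.ne']
  have hq' : q ∈ P.erase p := Finset.mem_erase.2 ⟨Ne.symm hpq, hq⟩
  have hcard : ((P.erase p).erase q).card = n - 1 - 1 := by
    rw [Finset.card_erase_of_mem hq', Finset.card_erase_of_mem hp, hc]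
  have hsum : ∑ z ∈ P, (z - x) / (ρ : ℂ) =
      (p - x) / ρ + ((q - x) / ρ + ∑ z ∈ (P.erase p).erase q, (z - x) / (ρ : ℂ)) := by
    rw [Finset.add_sum_erase _ (fun z => (z - x) / (ρ : ℂ)) hq',
      Finset.add_sum_erase _ (fun z => (z - x) / (ρ : ℂ)) hp]
  have h12 : ‖∑ p ∈ P, (p - x) / (ρ : ℂ)‖ ≤ 1 / 2 := by
    by_contra h
    push Not at h
    nlinarith
  have key : ‖((p - x) / ρ) ^ n - ((q - x) / ρ) ^ n‖ ≤ 4 * ‖∑ p ∈ P, (p - x) / (ρ : ℂ)‖ ∧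
      1 ≤ ‖(p - x) / ρ - (q - x) / ρ‖ := by
    rw [hsum] at h12 ⊢
    rcases hn with rfl | rfl
    · rw [Finset.card_eq_zero.1 hcard, Finset.sum_empty, add_zero] at h12 ⊢
      exact two (un p hp) (un q hq) h12
    · obtain ⟨w, hw⟩ := Finset.card_eq_one.1 hcard
      have hw' : w ∈ P := Finset.mem_of_mem_erase (Finset.mem_of_mem_erase
        (hw ▸ Finset.mem_singleton_self w : w ∈ (P.erase p).erase q))
      rw [hw, Finset.sum_singleton] at h12 ⊢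
      exact three (un p hp) (un q hq) (un w hw') h12
  refine ⟨?_, fun _ => ?_⟩
  · have := pow_le_pow_left₀ (norm_nonneg _) key.1 2
    nlinarith
  · have h1 := key.2
    rw [← sub_div, sub_sub_sub_cancel_right, norm_div, norm_real, Real.norm_eq_abs,
      abs_of_pos hρ, one_le_div hρ] at h1
    exact h1

end Upn

theorem upn_pf (hTh : ThStmt) (hGood : GoodStmt) : UpnStmt := by
  intro ε' hε'
  obtain ⟨δ, δ0, δ1, δ2⟩ : ∃ δ : ℝ, 0 < δ ∧ δ ≤ ε' / 2304 ∧ δ ≤ 1 / 576 :=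
    ⟨min (ε' / 2304) (1 / 576), lt_min (by positivity) (by norm_num), min_le_left _ _,
      min_le_right _ _⟩
  refine ⟨δ ^ 2, by positivity, fun K x b n hn h hy => ?_⟩
  have b0 := h.pos
  obtain ⟨e, e0, ie, eb, pt⟩ := h.ex
  obtain ⟨-, -, iN, lb⟩ := hGood K (fun _ => 0) x b h.cl h.fin (by simp [pd_const])
  have hcnt : ∀ (ρ : ℝ) (P : Finset ℂ), (P : Set ℂ) = K ∩ sphere x ρ → cnt K x ρ = P.card :=
    fun ρ P hP => by rw [cnt, ← hP, ncard_coe_finset]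
  have D : Upn.Dt (fun r => len K (closedBall x r)) (cnt K x) e n b (δ ^ 2) := by
    refine ⟨b0, by positivity, by nlinarith, e0, ie, iN, len_nonneg _ _, ?_,
      fun s t h1 h2 h3 => (lb s t h1 h2 h3).2, ?_, hy, (hTh K x b _ h).2.1⟩
    · intro s t hs hst ht htb
      refine le_trans ?_ (eb t ⟨ht, htb⟩)
      rw [intervalIntegral.integral_of_le hst, integral_Ioc_eq_integral_Ioo]
      exact setIntegral_mono_set (ie.mono_set (Ioo_subset_Ioo_right htb))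
        (Eventually.of_forall e0) (Ioo_subset_Ioo_left hs).eventuallyLE
    · filter_upwards [pt] with ρ hρ hm
      obtain ⟨P, hP, -, h1, -⟩ := hρ hm
      rw [hcnt ρ P hP]
      refine ⟨h1.trans (mul_le_mul_of_nonneg_left ?_ hm.1.le), ?_⟩
      · have : 0 ≤ ‖∑ p ∈ P, (p - x) / (ρ : ℂ)‖ ^ 2 / (4 * (P.card : ℝ)) := by positivity
        linarith
      · rcases lt_trichotomy P.card n with h2 | h2 | h2
        · refine Or.inl ?_
          have : (P.card : ℝ) + 1 ≤ n := by exact_mod_cast h2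
          linarith
        · exact Or.inr (Or.inl (by rw [h2]))
        · exact Or.inr (Or.inr (by exact_mod_cast h2))
  have q01 : ∀ r ∈ Ioc 0 (b / 4), 0 < (r / (b / 4)) ^ (1 / 6 : ℝ) ∧
      (r / (b / 4)) ^ (1 / 6 : ℝ) ≤ 1 := fun r hr => by
    have := hr.1
    exact ⟨by positivity, Real.rpow_le_one (by positivity)
      ((div_le_one (by positivity)).2 hr.2) (by norm_num)⟩
  refine ⟨h.cl, by positivity, hε'.le, lt_of_le_of_lt (measure_mono (inter_subset_inter_right _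
    (closedBall_subset_closedBall (by linarith)))) h.fin, fun r hr => ?_, fun r hr => ?_⟩
  · have r0 := hr.1
    have k1 := Upn.rp b0 r0.le (by linarith : r ≤ 4 * r)
    have k2 := Upn.rp b0 (by positivity : 0 ≤ 2 * r) (by linarith : 2 * r ≤ 4 * r)
    have a1 := D.low r0 (by linarith [hr.2])
    have a2 := D.up r0 (by linarith [hr.2])
    obtain ⟨q0, q1⟩ := q01 r hr
    generalize (r / (b / 4)) ^ (1 / 6 : ℝ) = q at k1 k2 q0 q1 ⊢
    have a3 : δ ^ 2 * (r / b) ^ (1 / 3 : ℝ) * r ≤ δ ^ 2 * q ^ 2 * r := by gcongr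
    have a4 : δ ^ 2 * (2 * r / b) ^ (1 / 3 : ℝ) * r ≤ δ ^ 2 * q ^ 2 * r := by gcongr
    have a5 : 18 * (δ ^ 2 * q ^ 2 * r) ≤ ε' * q * r := by
      have c1 : δ * q ≤ 1 := mul_le_one₀ (by linarith) q0.le q1
      calc 18 * (δ ^ 2 * q ^ 2 * r) = 18 * δ * (δ * q) * q * r := by ring
        _ ≤ ε' * 1 * q * r := by gcongr; linarith
        _ = _ := by ring
    have a6 : 0 ≤ δ ^ 2 * q ^ 2 * r := by positivity
    exact abs_le.2 ⟨by linarith, by linarith⟩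
  · have r0 := hr.1
    refine (D.shell δ0 (by linarith) rfl r0 hr.2 _ (sep_subset _ _) ?_).trans
      (ENNReal.ofReal_le_ofReal ?_)
    · filter_upwards [pt] with ρ hρ hm hc
      obtain ⟨hm, hbad⟩ := hm
      have ρ0 : 0 < ρ := by linarith [hm.1]
      have hρ4 : ρ ≤ b / 4 := hm.2.le.trans hr.2
      obtain ⟨P, hP, -, h1, -⟩ := hρ ⟨ρ0, by linarith⟩
      obtain ⟨c1, c2⟩ := hc
      rw [hcnt ρ P hP] at c1
      have c3 : P.card = n := by exact_mod_cast c1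
      have k1 := Upn.rp b0 ρ0.le (by linarith : ρ ≤ 4 * ρ)
      have k2 : (r / (b / 4)) ^ (1 / 6 : ℝ) ≤ 2 * (ρ / (b / 4)) ^ (1 / 6 : ℝ) := by
        have t1 : r / (b / 4) ≤ 2 * (ρ / (b / 4)) := by
          rw [← mul_div_assoc]
          have : r ≤ 2 * ρ := by linarith [hm.1]
          gcongr
        refine (Real.rpow_le_rpow (by positivity) t1 (by norm_num)).trans ?_
        rw [Real.mul_rpow (by norm_num) (by positivity)]
        have t2 : (2 : ℝ) ^ (1 / 6 : ℝ) ≤ 2 ^ (1 : ℝ) :=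
          Real.rpow_le_rpow_of_exponent_le (by norm_num) (by norm_num)
        rw [Real.rpow_one] at t2
        gcongr
      have a1 := D.low ρ0 (by linarith)
      obtain ⟨q0, q1⟩ := q01 ρ ⟨ρ0, hρ4⟩
      generalize (ρ / (b / 4)) ^ (1 / 6 : ℝ) = q at k1 k2 q0 q1 hbad
      have a2 : δ ^ 2 * (ρ / b) ^ (1 / 3 : ℝ) * ρ ≤ δ ^ 2 * q ^ 2 * ρ := by gcongr
      have a3 : e ρ ≤ δ * (2 * q) := c2.trans (by gcongr)
      have a4 : δ ^ 2 * q ^ 2 ≤ δ * q := by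
        have c1 : δ * q ≤ 1 := mul_le_one₀ (by linarith) q0.le q1
        have c2 : 0 ≤ δ * q := by positivity
        nlinarith
      rw [c1] at h1
      obtain ⟨σ, hσ⟩ : ∃ σ, σ = ‖∑ p ∈ P, (p - x) / (ρ : ℂ)‖ ^ 2 := ⟨_, rfl⟩
      rw [← hσ] at h1
      have a5 : (n : ℝ) - 10 * (δ ^ 2 * q ^ 2) ≤ n - σ / (4 * n) + e ρ := by
        refine le_of_mul_le_mul_left ?_ ρ0
        linarith
      have a6 : σ / (4 * n) ≤ 12 * (δ * q) := by linarith
      have n0 : (0 : ℝ) < n := by rcases hn with rfl | rfl <;> norm_num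
      have n3 : (n : ℝ) ≤ 3 := by rcases hn with rfl | rfl <;> norm_num
      have dq : 0 < δ * q := by positivity
      have a7 : σ ≤ 144 * (δ * q) := by
        rw [div_le_iff₀ (by positivity)] at a6
        nlinarith
      have a8 : δ * q ≤ δ := by nlinarith
      refine hbad ((Upn.bal hn ρ0 P hP c3 (hσ ▸ a7) (by linarith)).mono ?_)
      nlinarith
    · have := (q01 r hr).1
      have : 44 * δ ≤ ε' := by linarith
      gcongr

end Vale.Agent.P128
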