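import Vale.Agent.P128.Stm

open MeasureTheory Set Metric Filter Topology Complex
open scoped ENNReal ComplexConjugate Real

noncomputable section
namespace Vale.Agent.P128

namespace Wir

theorem mono {f f' : ℝ → ℝ} {a b : ℝ} (hab : a ≤ b) (hc : ContinuousOn f (Icc a b))
    (hd : ∀ x ∈ Ioo a b, HasDerivAt f (f' x) x) (h0 : ∀ x ∈ Ioo a b, 0 ≤ f' x) : f a ≤ f b := by
  have := monotoneOn_of_deriv_nonneg (convex_Icc a b) hc
    (fun x hx => by
      rw [interior_Icc] at hx; exact (hd x hx).differentiableAt.differentiableWithinAt)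
    (fun x hx => by rw [interior_Icc] at hx; rw [(hd x hx).deriv]; exact h0 x hx)
  exact this (left_mem_Icc.2 hab) (right_mem_Icc.2 hab) hab

theorem xcos {x : ℝ} (h0 : 0 < x) (h1 : x < π) : x * (Real.cos x / Real.sin x) ≤ 1 := by
  have hs := Real.sin_pos_of_pos_of_lt_pi h0 h1
  rw [← mul_div_assoc, div_le_one hs]
  have := mono (f := fun x => Real.sin x - x * Real.cos x) (f' := fun x => x * Real.sin x)
    h0.le (by fun_prop) (fun y _ => by
      refine ((Real.hasDerivAt_sin y).fun_sub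
        ((hasDerivAt_id' y).fun_mul (Real.hasDerivAt_cos y))).congr_deriv ?_
      ring) (fun y hy => mul_nonneg hy.1.le
        (Real.sin_nonneg_of_nonneg_of_le_pi hy.1.le (hy.2.trans h1).le))
  simp at this
  linarith

theorem prim {g : ℝ → ℝ} {α β : ℝ} (hab : α < β) (hi : IntervalIntegrable g volume α β)
    (hc : ContinuousOn g (Ioo α β)) :
    ContinuousOn (fun t => ∫ θ in α..t, g θ) (Icc α β) ∧
      ∀ t ∈ Ioo α β, HasDerivAt (fun t => ∫ θ in α..t, g θ) (g t) t := by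
  refine ⟨?_, fun t ht => ?_⟩
  · have := intervalIntegral.continuousOn_primitive_interval' hi left_mem_uIcc
    rwa [uIcc_of_le hab.le] at this
  · refine intervalIntegral.integral_hasDerivAt_right (hi.mono_set ?_)
      (hc.stronglyMeasurableAtFilter isOpen_Ioo t ht) (hc.continuousAt (isOpen_Ioo.mem_nhds ht))
    rw [uIcc_of_le hab.le, uIcc_of_le ht.1.le]
    exact Icc_subset_Icc_right ht.2.le

end Wir

theorem wir_pf : WirStmt := by
  intro V v α β hab hV h0 h1 hd hv hi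
  have hL : 0 < β - α := sub_pos.2 hab
  obtain ⟨k, hk⟩ : ∃ k, k = π / (β - α) := ⟨_, rfl⟩
  have hk0 : 0 < k := hk ▸ div_pos Real.pi_pos hL
  have hkL : k * (β - α) = π := by rw [hk]; field_simp
  obtain ⟨cA, dA⟩ := Wir.prim hab hi (hv.pow 2)
  obtain ⟨cB, dB⟩ := Wir.prim hab (g := fun θ => V θ ^ 2)
    ((hV.pow 2).intervalIntegrable_of_Icc hab.le) ((hV.pow 2).mono Ioo_subset_Icc_self)
  set A : ℝ → ℝ := fun t => ∫ θ in α..t, v θ ^ 2 with hA
  set B : ℝ → ℝ := fun t => ∫ θ in α..t, V θ ^ 2 with hB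
  have A0 : A α = 0 := by simp [hA]
  have B0 : B α = 0 := by simp [hB]
  have hx : ∀ t ∈ Ioo α β, 0 < k * (t - α) ∧ k * (t - α) < π := fun t ht =>
    ⟨mul_pos hk0 (sub_pos.2 ht.1), hkL ▸ mul_lt_mul_of_pos_left (by linarith [ht.2]) hk0⟩
  have hs : ∀ t ∈ Ioo α β, 0 < Real.sin (k * (t - α)) := fun t ht =>
    Real.sin_pos_of_pos_of_lt_pi (hx t ht).1 (hx t ht).2
  set w : ℝ → ℝ := fun t => k * (Real.cos (k * (t - α)) / Real.sin (k * (t - α))) with hw
  have dl : ∀ t, HasDerivAt (fun t => k * (t - α)) k t := fun t => by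
    simpa using ((hasDerivAt_id' t).sub_const α).const_mul k
  have dw : ∀ t ∈ Ioo α β, HasDerivAt w (-k ^ 2 - w t ^ 2) t := fun t ht => by
    have hne := (hs t ht).ne'
    refine (((dl t).cos.fun_div (dl t).sin hne).const_mul k).congr_deriv ?_
    simp only [hw]
    field_simp
  have cs : ∀ (l s t : ℝ), α ≤ s → s ≤ t → t ≤ β →
      A s - 2 * l * V s + l ^ 2 * s ≤ A t - 2 * l * V t + l ^ 2 * t := fun l s t h1 h2 h3 => by
    have hI : Icc s t ⊆ Icc α β := Icc_subset_Icc h1 h3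
    have hJ : Ioo s t ⊆ Ioo α β := Ioo_subset_Ioo h1 h3
    refine Wir.mono (f := fun t => A t - 2 * l * V t + l ^ 2 * t)
      (f' := fun t => (v t - l) ^ 2) h2
      (((cA.mono hI).sub (continuousOn_const.mul (hV.mono hI))).add (by fun_prop))
      (fun x hx => ?_) (fun x _ => sq_nonneg _)
    refine (((dA x (hJ hx)).fun_sub ((hd x (hJ hx)).const_mul (2 * l))).fun_add
      ((hasDerivAt_id' x).const_mul (l ^ 2))).congr_deriv ?_
    ring
  have lo : ∀ s ∈ Ioo α β, w s * V s ^ 2 ≤ A s := fun s hs' => by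
    have h2 := cs (w s * V s) α s le_rfl hs'.1.le hs'.2.le
    have h3 := cs 0 α s le_rfl hs'.1.le hs'.2.le
    have h4 : w s * (s - α) ≤ 1 := by
      have := Wir.xcos (hx s hs').1 (hx s hs').2
      simp only [hw]; linarith
    rw [A0, h0] at h2 h3
    rcases le_total 0 (w s) with h5 | h5
    · nlinarith [mul_le_mul_of_nonneg_left h4 (mul_nonneg h5 (sq_nonneg (V s)))]
    · nlinarith [mul_nonneg (neg_nonneg.2 h5) (sq_nonneg (V s))]
  have hi' : ∀ s ∈ Ioo α β, -(w s * V s ^ 2) ≤ A β - A s := fun s hs' => by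
    have h2 := cs (w s * V s) s β hs'.1.le hs'.2.le le_rfl
    have h3 := cs 0 s β hs'.1.le hs'.2.le le_rfl
    have h4 : -w s * (β - s) ≤ 1 := by
      have := Wir.xcos (x := π - k * (s - α)) (by linarith [(hx s hs').2])
        (by linarith [(hx s hs').1])
      rw [Real.cos_pi_sub, Real.sin_pi_sub] at this
      have e : π - k * (s - α) = k * (β - s) := by rw [← hkL]; ring
      rw [e, neg_div] at this
      simp only [hw]; linarith
    rw [h1] at h2 h3
    rcases le_total (w s) 0 with h5 | h5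
    · nlinarith [mul_le_mul_of_nonneg_left h4 (mul_nonneg (neg_nonneg.2 h5) (sq_nonneg (V s)))]
    · nlinarith [mul_nonneg h5 (sq_nonneg (V s))]
  set H : ℝ → ℝ := fun t => A t - k ^ 2 * B t - w t * V t ^ 2 with hH
  have dH : ∀ t ∈ Ioo α β, HasDerivAt H ((v t - w t * V t) ^ 2) t := fun t ht => by
    refine (((dA t ht).fun_sub ((dB t ht).const_mul (k ^ 2))).fun_sub
      ((dw t ht).fun_mul ((hd t ht).fun_pow 2))).congr_deriv ?_
    norm_num
    ring
  have mH : ∀ s t, α < s → s ≤ t → t < β → H s ≤ H t := fun s t h1 h2 h3 =>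
    Wir.mono h2 (fun x hx => (dH x ⟨h1.trans_le hx.1, hx.2.trans_lt h3⟩).continuousAt.continuousWithinAt)
      (fun x hx => dH x ⟨h1.trans hx.1, hx.2.trans h3⟩) (fun x _ => sq_nonneg _)
  have H0 : ∀ t ∈ Ioo α β, 0 ≤ H t := fun t ht => by
    have := left_nhdsWithin_Ioo_neBot ht.1
    have h2 : Tendsto (fun s => -(k ^ 2 * B s)) (𝓝[Ioo α t] α) (𝓝 (-(k ^ 2 * B α))) :=
      (((cB α (left_mem_Icc.2 hab.le)).mono
        (Ioo_subset_Icc_self.trans (Icc_subset_Icc_right ht.2.le))).tendsto.const_mul _).neg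
    rw [B0, mul_zero, neg_zero] at h2
    refine le_of_tendsto h2 ?_
    filter_upwards [self_mem_nhdsWithin] with s hs'
    have h3 := mH s t hs'.1 hs'.2.le ht.2
    have h4 := lo s ⟨hs'.1, hs'.2.trans ht.2⟩
    simp only [hH] at h3 ⊢
    linarith
  have H1 : ∀ t ∈ Ioo α β, H t ≤ A β - k ^ 2 * B β := fun t ht => by
    have := right_nhdsWithin_Ioo_neBot ht.2
    have h2 : Tendsto (fun s => A β - k ^ 2 * B s) (𝓝[Ioo t β] β) (𝓝 (A β - k ^ 2 * B β)) :=
      (((cB β (right_mem_Icc.2 hab.le)).mono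
        (Ioo_subset_Icc_self.trans (Icc_subset_Icc_left ht.1.le))).tendsto.const_mul _).const_sub _
    refine ge_of_tendsto h2 ?_
    filter_upwards [self_mem_nhdsWithin] with s hs'
    have h3 := mH t s ht.1 hs'.1.le hs'.2
    have h4 := hi' s ⟨ht.1.trans hs'.1, hs'.2⟩
    simp only [hH] at h3 ⊢
    linarith
  have hm : (α + β) / 2 ∈ Ioo α β := ⟨by linarith, by linarith⟩
  have ek : ((β - α) / π) ^ 2 * k ^ 2 = 1 := by
    rw [hk]; field_simp
  have hq : 0 < ((β - α) / π) ^ 2 := by positivity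
  change B β ≤ _ * A β ∧ (_ * A β ≤ B β → _)
  refine ⟨?_, fun hle => ?_⟩
  · have := mul_nonneg hq.le ((H0 _ hm).trans (H1 _ hm))
    rw [mul_sub, ← mul_assoc, ek] at this
    linarith
  have hI : A β - k ^ 2 * B β ≤ 0 := by
    refine le_of_mul_le_mul_left ?_ hq
    rw [mul_sub, ← mul_assoc, ek]; linarith
  have hz : ∀ t ∈ Ioo α β, v t = w t * V t := fun t ht => by
    have h2 : H =ᶠ[𝓝 t] fun _ => 0 := by
      filter_upwards [isOpen_Ioo.mem_nhds ht] with s hs'
      exact le_antisymm ((H1 s hs').trans hI) (H0 s hs')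
    have h3 := (dH t ht).unique ((hasDerivAt_const t (0 : ℝ)).congr_of_eventuallyEq h2)
    exact sub_eq_zero.1 (pow_eq_zero_iff two_ne_zero |>.1 h3)
  have dQ : ∀ t ∈ Ioo α β, HasDerivAt (fun t => V t / Real.sin (k * (t - α))) 0 t :=
    fun t ht => by
    have hne := (hs t ht).ne'
    refine ((hd t ht).fun_div (dl t).sin hne).congr_deriv ?_
    rw [hz t ht]
    simp only [hw]
    field_simp
    ring
  obtain ⟨κ, hκ⟩ := isOpen_Ioo.exists_is_const_of_deriv_eq_zero isPreconnected_Ioo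
    (fun t ht => (dQ t ht).differentiableAt.differentiableWithinAt) (fun t ht => (dQ t ht).deriv)
  refine ⟨κ, fun t ht => ?_⟩
  have e : π * (t - α) / (β - α) = k * (t - α) := by rw [hk]; ring
  rw [e]
  rcases ht.1.eq_or_lt with rfl | h2
  · simp [h0]
  rcases ht.2.eq_or_lt with rfl | h3
  · rw [hkL, h1]; simp
  rw [← hκ t ⟨h2, h3⟩, div_mul_cancel₀ _ (hs t ⟨h2, h3⟩).ne']

end Vale.Agent.P128
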