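import Vale.Agent.P128.Pol
import Vale.Agent.P128.Eil
import Vale.Agent.P128.Scale
import Vale.Agent.P128.El
import Vale.Agent.P128.Up
import Vale.Agent.P128.Good
import Vale.Agent.P128.Par
import Vale.Agent.P128.Wir
import Vale.Agent.P128.ArcA
import Vale.Agent.P128.ArcB
import Vale.Agent.P128.Arcs
import Vale.Agent.P128.Circ
import Vale.Agent.P128.Div
import Vale.Agent.P128.Eid
import Vale.Agent.P128.Flx
import Vale.Agent.P128.Bon
import Vale.Agent.P128.Gron
import Vale.Agent.P128.Mono
import Vale.Agent.P128.Rem
import Vale.Agent.P128.Dens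
import Vale.Agent.P128.Low
import Vale.Agent.P128.Decay
import Vale.Agent.P128.Star
import Vale.Agent.P128.Net
import Vale.Agent.P128.Am
import Vale.Agent.P128.Apx
import Vale.Agent.P128.Fid
import Vale.Agent.P128.Cov
import Vale.Agent.P128.Dz
import Vale.Agent.P128.Def0
import Vale.Agent.P128.Alg
import Vale.Agent.P128.Defc
import Vale.Agent.P128.Lenc
import Vale.Agent.P128.Curve
import Vale.Agent.P128.Cau
import Vale.Agent.P128.Holk
import Vale.Agent.P128.Iso
import Vale.Agent.P128.Grow
import Vale.Agent.P128.Mol
import Vale.Agent.P128.Wg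
import Vale.Agent.P128.Cpt1a
import Vale.Agent.P128.Cpt1b
import Vale.Agent.P128.Cpt2a
import Vale.Agent.P128.Cpt2b
import Vale.Agent.P128.Cpt3a
import Vale.Agent.P128.Cpt3
import Vale.Agent.P128.Cpt
import Vale.Agent.P128.Chi
import Vale.Agent.P128.Por
import Vale.Agent.P128.Sv1
import Vale.Agent.P128.Sv2
import Vale.Agent.P128.Kap1
import Vale.Agent.P128.Psi
import Vale.Agent.P128.Kap2
import Vale.Agent.P128.Ext
import Vale.Agent.P128.CaseA2
import Vale.Agent.P128.CaseA1
import Vale.Agent.P128.Anx
import Vale.Agent.P128.Cut
import Vale.Agent.P128.Conv1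
import Vale.Agent.P128.Conv2
import Vale.Agent.P128.Slide
import Vale.Agent.P128.Pinch
import Vale.Agent.P128.Tstar
import Vale.Agent.P128.Lc
import Vale.Agent.P128.Th
import Vale.Agent.P128.Upn
import Vale.Agent.P128.Slc
import Vale.Agent.P128.Ray1
import Vale.Agent.P128.Ray
import Vale.Agent.P128.Fl
import Vale.Agent.P128.Flat
import Vale.Agent.P128.Br
import Vale.Agent.P128.Junc
import Vale.Agent.P128.Lowgeo
import Vale.Agent.P128.Tiplow
import Vale.Agent.P128.G1a
import Vale.Agent.P128.G1
import Vale.Agent.P128.Hi
import Vale.Agent.P128.Param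
import Vale.Agent.P128.Stat1
import Vale.Agent.P128.Stat
import Vale.Agent.P128.Rate1
import Vale.Agent.P128.Rate
import Vale.Agent.P128.High
import Vale.Agent.P128.El0
import Vale.Agent.P128.Reg1
import Vale.Agent.P128.Reg2
import Vale.Agent.P128.Reg3
import Vale.Agent.P128.Reg
import Vale.Agent.P128.Trf
import Vale.Agent.P128.Bnd
import Vale.Agent.P128.Brg
import Vale.Agent.P128.Int

namespace Vale.Agent.P128

theorem pol_all : PolStmt := pol_pf
theorem eil_all : EilStmt := eil_pf
theorem scale_all : ScaleStmt := scale_pf
theorem el_all : ElStmt := el_pf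
theorem up_all : UpStmt := up_pf
theorem good_all : GoodStmt := good_pf pol_all eil_all
theorem par_all : ParStmt := par_pf
theorem wir_all : WirStmt := wir_pf
theorem arcA_all : ArcAStmt := arcA_pf wir_all
theorem arcB_all : ArcBStmt := arcB_pf wir_all
theorem arcs_all : ArcsStmt := arcs_pf
theorem circ_all : CircStmt := circ_pf arcs_all
theorem div_all : DivStmt := div_pf el_all pol_all circ_all
theorem eid_all : EidStmt := eid_pf div_all circ_all
theorem flx_all : FlxStmt := flx_pf div_all par_all circ_all
theorem bon_all : BonStmt := bon_pf eid_all flx_all arcA_all arcs_all circ_all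
theorem gron_all : GronStmt := gron_pf
theorem mono_all : MonoStmt := mono_pf good_all bon_all gron_all up_all
theorem rem_all : RemStmt := rem_pf circ_all
theorem dens_all : DensStmt := dens_pf good_all bon_all gron_all rem_all up_all circ_all
theorem low_all : LowStmt := low_pf dens_all good_all pol_all rem_all up_all circ_all arcs_all
theorem decay_all : DecayStmt := decay_pf mono_all low_all bon_all gron_all good_all rem_all up_all circ_all
theorem star_all : StarStmt := star_pf par_all arcs_all circ_all pol_all
theorem net_all : NetStmt := net_pf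
theorem am_all : AmStmt := am_pf decay_all good_all star_all net_all rem_all dens_all up_all circ_all arcs_all
theorem cov_all : CovStmt := cov_pf
theorem dz_all : DzStmt := dz_pf cov_all
theorem def0_all : Def0Stmt := def0_pf
theorem fid_all : FidStmt := fid_pf dens_all up_all def0_all
theorem alg_all : AlgStmt := alg_pf
theorem defc_all : DefcStmt := defc_pf def0_all alg_all
theorem lenc_all : LencStmt := lenc_pf
theorem curve_all : CurveStmt := curve_pf
theorem cau_all : CauStmt := cau_pf pol_all
theorem holk_all : HolkStmt := holk_pf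
theorem iso_all : IsoStmt := iso_pf
theorem grow_all : GrowStmt := grow_pf
theorem mol_all : MolStmt := mol_pf
theorem apx_all : ApxStmt := apx_pf el_all mol_all cau_all pol_all up_all
theorem wg_all : WgStmt := wg_pf
theorem cpt1a_all : Cpt1aStmt := cpt1a_pf apx_all
theorem cpt1b_all : Cpt1bStmt := cpt1b_pf
theorem cpt2a_all : Cpt2aStmt := cpt2a_pf dens_all up_all
theorem cpt2b_all : Cpt2bStmt := cpt2b_pf dz_all low_all cov_all up_all
theorem cpt3a_all : Cpt3aStmt := cpt3a_pf
theorem cpt3_all : Cpt3Stmt := cpt3_pf cpt3a_all
theorem cpt_all : CptStmt := cpt_pf cpt1a_all cpt1b_all cpt2a_all cpt2b_all cpt3_all good_all dens_all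
theorem chi_all : ChiStmt := chi_pf mol_all
theorem por_all : PorStmt := por_pf dens_all up_all
theorem sv1_all : Sv1Stmt := sv1_pf defc_all lenc_all grow_all up_all alg_all
theorem sv2_all : Sv2Stmt := sv2_pf sv1_all alg_all grow_all up_all
theorem kap1_all : Kap1Stmt := kap1_pf cau_all holk_all iso_all
theorem psi_all : PsiStmt := psi_pf apx_all grow_all up_all
theorem kap2_all : Kap2Stmt := kap2_pf por_all sv2_all kap1_all psi_all grow_all up_all holk_all
theorem ext_all : ExtStmt := ext_pf psi_all cau_all holk_all apx_all
theorem caseA2_all : CaseA2Stmt := caseA2_pf dz_all dens_all rem_all mol_all pol_all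
theorem caseA1_all : CaseA1Stmt := caseA1_pf caseA2_all
theorem anx_all : AnxStmt := anx_pf
theorem cut_all : CutStmt := cut_pf anx_all
theorem conv1_all : Conv1Stmt := conv1_pf cut_all scale_all
theorem conv2_all : Conv2Stmt := conv2_pf
theorem slide_all : SlideStmt := slide_pf el_all anx_all mol_all
theorem pinch_all : PinchStmt := pinch_pf scale_all def0_all alg_all lenc_all up_all
theorem tstar_all : TstarStmt := tstar_pf chi_all kap2_all ext_all caseA1_all apx_all conv1_all conv2_all slide_all pinch_all
theorem lc_all : LcStmt := lc_pf scale_all cpt_all tstar_all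
theorem th_all : ThStmt := th_pf good_all gron_all
theorem upn_all : UpnStmt := upn_pf th_all good_all
theorem slc_all : SlcStmt := slc_pf eil_all
theorem ray1_all : Ray1Stmt := ray1_pf slc_all
theorem ray_all : RayStmt := ray_pf ray1_all
theorem fl_all : FlStmt := fl_pf th_all upn_all ray_all
theorem flat_all : FlatStmt := flat_pf
theorem br_all : BrStmt := br_pf
theorem junc_all : JuncStmt := junc_pf br_all
theorem lowgeo_all : LowgeoStmt := lowgeo_pf th_all upn_all ray_all slc_all fl_all flat_all junc_all
theorem tiplow_all : TiplowStmt := tiplow_pf eil_all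
theorem g1a_all : G1aStmt := g1a_pf lc_all good_all bon_all eid_all flx_all arcB_all arcs_all circ_all
theorem g1_all : G1Stmt := g1_pf g1a_all apx_all up_all curve_all anx_all
theorem hi_all : HiStmt := hi_pf scale_all cpt_all g1_all
theorem param_all : ParamStmt := param_pf
theorem stat1_all : Stat1Stmt := stat1_pf defc_all fid_all curve_all alg_all pol_all
theorem stat_all : StatStmt := stat_pf stat1_all pol_all
theorem rate1_all : Rate1Stmt := rate1_pf stat_all good_all eid_all flx_all arcB_all circ_all
theorem rate_all : RateStmt := rate_pf rate1_all gron_all good_all curve_all up_all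
theorem high_all : HighStmt := high_pf hi_all am_all fl_all param_all rate_all tiplow_all ray_all junc_all
theorem el0_all : El0Stmt := el0_pf
theorem reg1_all : Reg1Stmt := reg1_pf mol_all
theorem reg2_all : Reg2Stmt := reg2_pf cau_all pol_all
theorem reg3_all : Reg3Stmt := reg3_pf mol_all
theorem reg_all : RegStmt := reg_pf el0_all reg1_all reg2_all reg3_all
theorem trf_all : TrfStmt := trf_pf wg_all
theorem bnd_all : BndStmt := bnd_pf trf_all good_all circ_all
theorem brg_all : BrgStmt := brg_pf trf_all bnd_all
theorem int_all : IntStmt := int_pf mono_all high_all am_all lowgeo_all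

end Vale.Agent.P128
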