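import Vale.Agent.P128.Stm

open MeasureTheory Set Metric Filter Topology Complex
open scoped ENNReal ComplexConjugate Real

noncomputable section
namespace Vale.Agent.P128

namespace Param

theorem dir_mul {x z : ℂ} (h : z ≠ x) : z - x = (‖z - x‖ : ℝ) * dir x z := by
  have h1 : ((‖z - x‖ : ℝ) : ℂ) ≠ 0 := by
    exact_mod_cast norm_ne_zero_iff.2 (sub_ne_zero.2 h)
  rw [dir, mul_div_cancel₀ _ h1]

theorem norm_dir {x z : ℂ} (h : z ≠ x) : ‖dir x z‖ = 1 := by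
  rw [dir, norm_div, Complex.norm_real, norm_norm,
    div_self (norm_ne_zero_iff.2 (sub_ne_zero.2 h))]

theorem sq_rot {τ : ℂ} (h : ‖τ‖ = 1) (v : ℂ) :
    ‖v‖ ^ 2 = (conj τ * v).re ^ 2 + (conj τ * v).im ^ 2 := by
  have h1 : ‖conj τ * v‖ = ‖v‖ := by rw [norm_mul, Complex.norm_conj, h, one_mul]
  rw [← h1, Complex.sq_norm, normSq_apply]
  ring

theorem rp_le {a b γ : ℝ} (ha : 0 ≤ a) (hab : a ≤ b) (hγ : 0 ≤ γ) : (a / b) ^ γ ≤ 1 :=
  Real.rpow_le_one (div_nonneg ha (ha.trans hab)) (div_le_one_of_le₀ hab (ha.trans hab)) hγ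

theorem tan_neg {K : Set ℂ} {y τ : ℂ} {b ε γ : ℝ} (h : Tan K y b ε γ τ) :
    Tan K y b ε γ (-τ) := by
  refine ⟨by rw [norm_neg, h.unit], fun z hz hb => ?_, fun s hs hb => ?_⟩
  · rw [map_neg, neg_mul, neg_im, abs_neg]
    exact h.near z hz hb
  · obtain ⟨z, hz, h1⟩ := h.hit (-s) (neg_ne_zero.2 hs) (by rwa [abs_neg])
    refine ⟨z, hz, ?_⟩
    rw [abs_neg] at h1
    have e : (s : ℂ) * -τ = ((-s : ℝ) : ℂ) * τ := by
      push_cast
      ring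
    rwa [e]

theorem hit' {K : Set ℂ} {y τ : ℂ} {b γ l : ℝ} (h : Tan K y b (1 / 100) γ τ) (hγ : 0 ≤ γ)
    (hl : 0 < l) (hb : l ≤ b) : ∃ z ∈ K, ‖z - y - l * τ‖ ≤ l / 100 ∧ ‖z - y‖ ≤ 101 / 100 * l := by
  obtain ⟨z, hz, h1⟩ := h.hit l hl.ne' (by rwa [abs_of_pos hl])
  rw [abs_of_pos hl] at h1
  have h2 := mul_le_mul_of_nonneg_right (rp_le hl.le hb hγ) hl.le
  have h3 : ‖z - y - l * τ‖ ≤ l / 100 := by linarith
  refine ⟨z, hz, h3, ?_⟩
  have h4 := norm_add_le (z - y - l * τ) (l * τ)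
  rw [sub_add_cancel, norm_mul, h.unit, Complex.norm_real, Real.norm_of_nonneg hl.le] at h4
  linarith

/-- an oriented tangent -/
structure Ori (K : Set ℂ) (x : ℂ) (κ γ : ℝ) (y τ : ℂ) : Prop where
  tan : Tan K y (κ * ‖y - x‖) (1 / 100) γ τ
  re : 99 / 100 * ‖y - x‖ ≤ (conj τ * (y - x)).re
  im : |(conj τ * (y - x)).im| ≤ ‖y - x‖ / 10

/-- the hypotheses -/
structure Hyp (K : Set ℂ) (x : ℂ) (r κ γ : ℝ) : Prop where
  cl : IsClosed K
  k0 : 0 < κ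
  k1 : κ ≤ 1
  g0 : 0 < γ
  tan : TanH K x r κ γ
  dr : ∀ y ∈ K, y ≠ x → ‖y - x‖ ≤ r → ∀ z ∈ K, ‖y - x‖ / 2 ≤ ‖z - x‖ →
    ‖z - x‖ ≤ 2 * ‖y - x‖ → ‖dir x z - dir x y‖ ≤ κ / 100

variable {K : Set ℂ} {x : ℂ} {r κ γ : ℝ}

theorem Hyp.im_le (h : Hyp K x r κ γ) {y τ : ℂ} (hy : y ∈ K) (hne : y ≠ x) (hr : ‖y - x‖ ≤ r)
    (ht : Tan K y (κ * ‖y - x‖) (1 / 100) γ τ) : |(conj τ * (y - x)).im| ≤ ‖y - x‖ / 10 := by
  have hs : 0 < ‖y - x‖ := norm_pos_iff.2 (sub_ne_zero.2 hne)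
  have hk := h.k0
  have hks : 0 < κ * ‖y - x‖ := by positivity
  have hks' : κ * ‖y - x‖ ≤ ‖y - x‖ := mul_le_of_le_one_left hs.le h.k1
  obtain ⟨z, hz, h1, h2⟩ := hit' ht h.g0.le (l := κ * ‖y - x‖ / 3) (by positivity) (by linarith)
  have h3 := abs_le.1 (abs_norm_sub_norm_le (z - x) (y - x))
  rw [sub_sub_sub_cancel_right] at h3
  have h4 : ‖y - x‖ / 2 ≤ ‖z - x‖ := by linarith [h3.1]
  have h5 : ‖z - x‖ ≤ 4 / 3 * ‖y - x‖ + ‖y - x‖ / 100 := by linarith [h3.2]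
  have hzx : z ≠ x := by
    intro e
    rw [e, sub_self, norm_zero] at h4
    linarith
  have h6 := h.dr y hy hne hr z hz h4 (by linarith)
  have e1 := dir_mul hne
  have e2 := dir_mul hzx
  have n1 := norm_dir hne
  set s := ‖y - x‖ with hsd
  set t := ‖z - x‖ with htd
  set e := dir x y
  set d := dir x z
  set l := κ * s / 3 with hl
  have hee : conj e * e = 1 := by
    rw [conj_mul', n1]
    simp
  have h7 : conj e * (l * τ) = ((t - s : ℝ) : ℂ) + conj e * (t * (d - e) - (z - y - l * τ)) := by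
    have e3 : z - y = t * d - s * e := by rw [← e1, ← e2, sub_sub_sub_cancel_right]
    rw [e3]
    push_cast
    linear_combination ((t : ℂ) - s) * hee
  have h8 : l * (conj e * τ).im = (conj e * (t * (d - e) - (z - y - l * τ))).im := by
    have := congrArg Complex.im h7
    rw [add_im, ofReal_im, zero_add] at this
    rw [← this, mul_left_comm, im_ofReal_mul]
  have h9 : |(conj e * (t * (d - e) - (z - y - l * τ))).im| ≤ t * (κ / 100) + l / 100 := by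
    refine (abs_im_le_norm _).trans ?_
    rw [norm_mul, Complex.norm_conj, n1, one_mul]
    refine (norm_sub_le _ _).trans (add_le_add ?_ h1)
    rw [norm_mul, Complex.norm_real, Real.norm_of_nonneg (norm_nonneg _)]
    exact mul_le_mul_of_nonneg_left h6 (norm_nonneg _)
  have h10 : (conj τ * (y - x)).im = -(s * (conj e * τ).im) := by
    rw [e1]
    simp only [mul_im, mul_re, conj_re, conj_im, ofReal_re, ofReal_im]
    ring
  rw [← h8, abs_mul, abs_of_pos (by positivity : 0 < l)] at h9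
  rw [h10, abs_neg, abs_mul, abs_of_pos hs]
  have h11 : t * (κ / 100) ≤ (4 / 3 * s + s / 100) * (κ / 100) :=
    mul_le_mul_of_nonneg_right h5 (by positivity)
  have h12 : (κ * s) * |(conj e * τ).im| ≤ (κ * s) * (1 / 10) := by
    rw [hl] at h9
    linarith
  have h13 := le_of_mul_le_mul_left h12 hks
  nlinarith

theorem Hyp.ori (h : Hyp K x r κ γ) {y : ℂ} (hy : y ∈ K) (hne : y ≠ x) (hr : ‖y - x‖ ≤ r) :
    ∃ τ, Ori K x κ γ y τ := by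
  obtain ⟨τ, ht⟩ := h.tan y hy hne hr
  have key : ∀ σ, Tan K y (κ * ‖y - x‖) (1 / 100) γ σ → 0 ≤ (conj σ * (y - x)).re →
      Ori K x κ γ y σ := fun σ hσ h0 => by
    have h1 := h.im_le hy hne hr hσ
    refine ⟨hσ, ?_, h1⟩
    have h2 := sq_rot hσ.unit (y - x)
    have h3 := sq_le_sq' (abs_le.1 h1).1 (abs_le.1 h1).2
    refine (pow_le_pow_iff_left₀ (by positivity) h0 two_ne_zero).1 ?_
    nlinarith [sq_nonneg ‖y - x‖]
  rcases le_total 0 (conj τ * (y - x)).re with h0 | h0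
  · exact ⟨τ, key τ ht h0⟩
  · refine ⟨-τ, key _ (tan_neg ht) ?_⟩
    rw [map_neg, neg_mul, neg_re]
    linarith

theorem real_lip {s t n A₁ A₂ B₁ B₂ : ℝ} (hs : 0 < s) (h1 : 99 / 100 * s ≤ A₁)
    (h2 : |A₂| ≤ s / 10) (h3 : s ^ 2 = A₁ ^ 2 + A₂ ^ 2) (hn : 0 ≤ n)
    (h4 : n ^ 2 = B₁ ^ 2 + B₂ ^ 2) (h5 : |B₂| ≤ n / 100) (h6 : n ≤ s / 2) (ht : 0 ≤ t)
    (ht' : t ≤ s + n) (h7 : t ^ 2 = (A₁ + B₁) ^ 2 + (A₂ + B₂) ^ 2) : n ≤ 2 * |t - s| := by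
  have a1 : 99 / 100 * n ≤ |B₁| := by
    have := sq_le_sq' (abs_le.1 h5).1 (abs_le.1 h5).2
    refine (pow_le_pow_iff_left₀ (by positivity) (abs_nonneg _) two_ne_zero).1 ?_
    rw [sq_abs]
    nlinarith [sq_nonneg n]
  have a2 : (99 / 100 * s) * (99 / 100 * n) ≤ |A₁ * B₁| := by
    rw [abs_mul, abs_of_nonneg (by linarith : 0 ≤ A₁)]
    exact mul_le_mul h1 a1 (by positivity) (by linarith)
  have a3 : |A₂ * B₂| ≤ s / 10 * (n / 100) := by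
    rw [abs_mul]
    exact mul_le_mul h2 h5 (abs_nonneg _) (by positivity)
  have a4 : 2 * (A₁ * B₁) = (t - s) * (t + s) - 2 * (A₂ * B₂) - n ^ 2 := by
    linear_combination -h7 + h3 + h4
  have a5 : |(t - s) * (t + s)| ≤ |t - s| * (5 / 2 * s) := by
    rw [abs_mul, abs_of_nonneg (by linarith : 0 ≤ t + s)]
    exact mul_le_mul_of_nonneg_left (by linarith) (abs_nonneg _)
  have a6 : n ^ 2 ≤ s / 2 * n := by nlinarith
  have a7 : |A₁ * B₁| * 2 ≤ |t - s| * (5 / 2 * s) + 2 * (s / 10 * (n / 100)) + s / 2 * n := by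
    have b1 := abs_le.1 a5
    have b2 := abs_le.1 a3
    have b3 := sq_nonneg n
    have b4 : 0 ≤ s / 2 * n := by positivity
    rw [← le_div_iff₀ two_pos, abs_le]
    constructor <;> linarith [b1.1, b1.2, b2.1, b2.2]
  have a8 : 0 ≤ s * n := by positivity
  have a9 : 0 ≤ s * |t - s| := by positivity
  have a10 : s * n ≤ s * (2 * |t - s|) := by linarith
  exact le_of_mul_le_mul_left a10 hs

theorem Ori.near {y τ z : ℂ} (o : Ori K x κ γ y τ) (hγ : 0 ≤ γ) (hz : z ∈ K)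
    (h : ‖z - y‖ ≤ κ * ‖y - x‖) : |(conj τ * (z - y)).im| ≤ ‖z - y‖ / 100 := by
  have h1 := o.tan.near z hz h
  have h2 := mul_le_mul_of_nonneg_right (rp_le (norm_nonneg _) h hγ) (norm_nonneg (z - y))
  linarith

theorem sq_add {τ : ℂ} (h : ‖τ‖ = 1) (x y z : ℂ) : ‖z - x‖ ^ 2 =
    ((conj τ * (y - x)).re + (conj τ * (z - y)).re) ^ 2 +
      ((conj τ * (y - x)).im + (conj τ * (z - y)).im) ^ 2 := by
  rw [← add_re, ← add_im, ← mul_add, sq_rot h]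
  congr 4 <;> ring

theorem Hyp.lip (h : Hyp K x r κ γ) {y z : ℂ} (hy : y ∈ K) (hne : y ≠ x) (hr : ‖y - x‖ ≤ r)
    (hz : z ∈ K) (hd : |‖z - x‖ - ‖y - x‖| ≤ κ * ‖y - x‖ / 4) :
    ‖z - y‖ ≤ 2 * |‖z - x‖ - ‖y - x‖| := by
  obtain ⟨τ, o⟩ := h.ori hy hne hr
  have hs : 0 < ‖y - x‖ := norm_pos_iff.2 (sub_ne_zero.2 hne)
  have hk := h.k0
  have hks : 0 < κ * ‖y - x‖ := by positivity
  have hks' : κ * ‖y - x‖ ≤ ‖y - x‖ := mul_le_of_le_one_left hs.le h.k1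
  have h3 := abs_le.1 hd
  have h4 : ‖y - x‖ / 2 ≤ ‖z - x‖ := by linarith [h3.1]
  have hzx : z ≠ x := by
    intro e
    rw [e, sub_self, norm_zero] at h4
    linarith
  have h6 := h.dr y hy hne hr z hz h4 (by linarith [h3.2])
  have h7 : ‖z - y‖ ≤ κ * ‖y - x‖ / 2 := by
    have e3 : z - y = ((‖z - x‖ - ‖y - x‖ : ℝ) : ℂ) * dir x z +
        (‖y - x‖ : ℝ) * (dir x z - dir x y) := by
      have e1 := dir_mul hne
      have e2 := dir_mul hzx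
      push_cast
      linear_combination e2 - e1
    have h8 := norm_add_le (((‖z - x‖ - ‖y - x‖ : ℝ) : ℂ) * dir x z)
      ((‖y - x‖ : ℝ) * (dir x z - dir x y))
    rw [← e3, norm_mul, norm_mul, norm_dir hzx, Complex.norm_real, Complex.norm_real, norm_norm,
      Real.norm_eq_abs] at h8
    have h9 := mul_le_mul_of_nonneg_left h6 hs.le
    linarith
  have h10 := norm_add_le (y - x) (z - y)
  rw [sub_add_sub_cancel'] at h10
  exact real_lip hs o.re o.im (sq_rot o.tan.unit _) (norm_nonneg _) (sq_rot o.tan.unit _)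
    (o.near h.g0.le hz (by linarith)) (by linarith) (norm_nonneg _) h10 (sq_add o.tan.unit x y z)

theorem Hyp.uniq (h : Hyp K x r κ γ) {y z : ℂ} (hy : y ∈ K) (hne : y ≠ x) (hr : ‖y - x‖ ≤ r)
    (hz : z ∈ K) (hd : ‖z - x‖ = ‖y - x‖) : z = y := by
  have hk := h.k0
  have h1 := h.lip hy hne hr hz (by rw [hd, sub_self, abs_zero]; positivity)
  rw [hd, sub_self, abs_zero, mul_zero] at h1
  exact sub_eq_zero.1 (norm_le_zero_iff.1 h1)

theorem Hyp.exi (h : Hyp K x r κ γ) (hc : ∀ δ, 0 < δ → ∃ y ∈ K, y ≠ x ∧ ‖y - x‖ < δ) {ρ : ℝ}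
    (h0 : 0 < ρ) (hr : ρ ≤ r) : ∃ y ∈ K, ‖y - x‖ = ρ := by
  obtain ⟨y₀, hy₀, hne₀, hρ₀⟩ := hc ρ h0
  have hC : IsCompact (closedBall x ρ ∩ K) := (isCompact_closedBall x ρ).inter_right h.cl
  obtain ⟨y, ⟨hy1, hy⟩, hmax⟩ := hC.exists_isMaxOn (f := fun z => ‖z - x‖)
    ⟨y₀, mem_closedBall_iff_norm.2 hρ₀.le, hy₀⟩ (by fun_prop)
  rw [mem_closedBall_iff_norm] at hy1
  refine ⟨y, hy, le_antisymm hy1 (not_lt.1 fun hlt => ?_)⟩
  have hs : 0 < ‖y - x‖ := (norm_pos_iff.2 (sub_ne_zero.2 hne₀)).trans_le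
    (hmax ⟨mem_closedBall_iff_norm.2 hρ₀.le, hy₀⟩)
  have hne : y ≠ x := sub_ne_zero.1 (norm_pos_iff.1 hs)
  obtain ⟨τ, o⟩ := h.ori hy hne (hy1.trans hr)
  have hk := h.k0
  have hl : 0 < min (κ * ‖y - x‖) ((ρ - ‖y - x‖) / 2) := lt_min (by positivity) (by linarith)
  obtain ⟨z, hz, h1, h2⟩ := hit' o.tan h.g0.le hl (min_le_left _ _)
  have hl2 := min_le_right (κ * ‖y - x‖) ((ρ - ‖y - x‖) / 2)
  set l := min (κ * ‖y - x‖) ((ρ - ‖y - x‖) / 2)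
  have h3 := norm_add_le (y - x) (z - y)
  rw [sub_add_sub_cancel'] at h3
  have h4 : ‖z - x‖ ≤ ‖y - x‖ := hmax ⟨mem_closedBall_iff_norm.2 (by linarith), hz⟩
  have hττ : conj τ * τ = 1 := by
    rw [conj_mul', o.tan.unit]
    simp
  have h5 : conj τ * (z - y) = l + conj τ * (z - y - l * τ) := by
    linear_combination (l : ℂ) * hττ
  have h6 : ‖conj τ * (z - y - l * τ)‖ ≤ l / 100 := by
    rwa [norm_mul, Complex.norm_conj, o.tan.unit, one_mul]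
  have h7 : 99 / 100 * l ≤ (conj τ * (z - y)).re := by
    rw [h5, add_re, ofReal_re]
    have := abs_le.1 ((abs_re_le_norm _).trans h6)
    linarith [this.1]
  have h8 : |(conj τ * (z - y)).im| ≤ l / 100 := by
    rw [h5, add_im, ofReal_im, zero_add]
    exact (abs_im_le_norm _).trans h6
  have h9 := sq_add o.tan.unit x y z
  have h10 := sq_rot o.tan.unit (y - x)
  have h11 : ‖z - x‖ ^ 2 ≤ ‖y - x‖ ^ 2 := pow_le_pow_left₀ (norm_nonneg _) h4 2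
  have h12 := mul_le_mul o.re h7 (by positivity) (by linarith [o.re])
  have h13 : |(conj τ * (y - x)).im * (conj τ * (z - y)).im| ≤ ‖y - x‖ / 10 * (l / 100) := by
    rw [abs_mul]
    exact mul_le_mul o.im h8 (abs_nonneg _) (by positivity)
  have h14 : 0 < ‖y - x‖ * l := by positivity
  nlinarith [(abs_le.1 h13).1, sq_nonneg (conj τ * (z - y)).re, sq_nonneg (conj τ * (z - y)).im]

theorem real_der {s t n A₁ A₂ B₁ B₂ : ℝ} (hs : 0 < s) (h1 : 99 / 100 * s ≤ A₁)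
    (h2 : |A₂| ≤ s / 10) (h3 : s ^ 2 = A₁ ^ 2 + A₂ ^ 2) (hn : 0 ≤ n)
    (h4 : n ^ 2 = B₁ ^ 2 + B₂ ^ 2) (h6 : n ≤ 2 * |t - s|)
    (h7 : t ^ 2 = (A₁ + B₁) ^ 2 + (A₂ + B₂) ^ 2) :
    |B₁ - (t - s) / (A₁ / s)| ≤ |B₂| + 3 * (|t - s| / s) * |t - s| := by
  have hA : 0 < A₁ := by linarith
  have e : B₁ - (t - s) / (A₁ / s) = (-(A₂ * B₂) + ((t - s) ^ 2 - n ^ 2) / 2) / A₁ := by
    field_simp
    linear_combination -h7 + h3 + h4
  have a3 : |A₂ * B₂| ≤ s / 10 * |B₂| := by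
    rw [abs_mul]
    exact mul_le_mul_of_nonneg_right h2 (abs_nonneg _)
  have a4 : n ^ 2 ≤ (2 * |t - s|) ^ 2 := pow_le_pow_left₀ hn h6 2
  rw [mul_pow, sq_abs] at a4
  have a5 : 3 * (|t - s| / s) * |t - s| * (99 / 100 * s) = 297 / 100 * (t - s) ^ 2 := by
    rw [← sq_abs (t - s)]
    field_simp
    ring
  have a6 := mul_le_mul_of_nonneg_left h1
    (show 0 ≤ |B₂| + 3 * (|t - s| / s) * |t - s| by positivity)
  have a7 : 0 ≤ s * |B₂| := by positivity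
  rw [e, abs_div, abs_of_pos hA, div_le_iff₀ hA, abs_le]
  have b := abs_le.1 a3
  have b1 := sq_nonneg n
  have b2 := sq_nonneg (t - s)
  constructor <;> linarith [b.1, b.2]

theorem Hyp.der (h : Hyp K x r κ γ) {y z τ : ℂ} (hy : y ∈ K) (hr : ‖y - x‖ ≤ r) (hz : z ∈ K)
    (o : Ori K x κ γ y τ) {m : ℝ} (hm : 0 < m) (hm' : m ≤ ‖y - x‖)
    (hd : |‖z - x‖ - ‖y - x‖| ≤ κ * m / 4) :
    ‖z - y - (‖z - x‖ - ‖y - x‖) • (τ / (((conj τ * (y - x)).re / ‖y - x‖ : ℝ) : ℂ))‖ ≤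
      ((2 * |‖z - x‖ - ‖y - x‖| / (κ * m)) ^ γ + 3 * (|‖z - x‖ - ‖y - x‖| / m)) *
        |‖z - x‖ - ‖y - x‖| := by
  have hs : 0 < ‖y - x‖ := hm.trans_le hm'
  have hne : y ≠ x := sub_ne_zero.1 (norm_pos_iff.1 hs)
  have hk := h.k0
  have hkm : κ * m ≤ κ * ‖y - x‖ := mul_le_mul_of_nonneg_left hm' hk.le
  have hkm0 : 0 < κ * m := by positivity
  have h1 := h.lip hy hne hr hz (by linarith)
  have h2 := real_der hs o.re o.im (sq_rot o.tan.unit _) (norm_nonneg _) (sq_rot o.tan.unit _) h1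
    (sq_add o.tan.unit x y z)
  have h3 := o.tan.near z hz (by linarith)
  set a := |‖z - x‖ - ‖y - x‖| with ha
  have ha0 : 0 ≤ a := abs_nonneg _
  have h4 : (‖z - y‖ / (κ * ‖y - x‖)) ^ γ ≤ (2 * a / (κ * m)) ^ γ :=
    Real.rpow_le_rpow (by positivity) (by gcongr) h.g0.le
  have h5 : (‖z - y‖ / (κ * ‖y - x‖)) ^ γ * ‖z - y‖ ≤ (2 * a / (κ * m)) ^ γ * (2 * a) :=
    mul_le_mul h4 h1 (norm_nonneg _) (by positivity)
  have h6 : a / ‖y - x‖ * a ≤ a / m * a := by gcongr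
  have h7 : 0 ≤ (2 * a / (κ * m)) ^ γ * a := by positivity
  set c := (conj τ * (y - x)).re / ‖y - x‖
  set d := ‖z - x‖ - ‖y - x‖
  have hττ : conj τ * τ = 1 := by
    rw [conj_mul', o.tan.unit]
    simp
  have e : conj τ * (z - y - d • (τ / (c : ℂ))) = conj τ * (z - y) - ((d / c : ℝ) : ℂ) := by
    rw [real_smul]
    push_cast
    linear_combination (-(d : ℂ) / c) * hττ
  have h8 : ‖z - y - d • (τ / (c : ℂ))‖ = ‖conj τ * (z - y) - ((d / c : ℝ) : ℂ)‖ := by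
    rw [← e, norm_mul, Complex.norm_conj, o.tan.unit, one_mul]
  rw [h8]
  refine (norm_le_abs_re_add_abs_im _).trans ?_
  rw [sub_re, sub_im, ofReal_re, ofReal_im, sub_zero]
  linarith

theorem err_tendsto {κ γ m : ℝ} (hγ : 0 < γ) (ρ : ℝ) :
    Tendsto (fun t : ℝ => (2 * |t - ρ| / (κ * m)) ^ γ + 3 * (|t - ρ| / m)) (𝓝 ρ) (𝓝 0) := by
  have h : Continuous fun t : ℝ => (2 * |t - ρ| / (κ * m)) ^ γ + 3 * (|t - ρ| / m) :=
    (Continuous.rpow_const (by fun_prop) fun _ => Or.inr hγ.le).add (by fun_prop)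
  refine h.tendsto' ρ 0 ?_
  simp [Real.zero_rpow hγ.ne']

end Param

open Param in
theorem param_pf : ParamStmt := by
  intro K x r κ γ' hcl hx hr hk0 hk1 hg0 _ htan hdr hc
  have h : Hyp K x r κ γ' := ⟨hcl, hk0, hk1, hg0, htan, hdr⟩
  have hex : ∀ ρ : ℝ, ∃ y τ : ℂ, ρ ∈ Ioo 0 (r / 2) →
      y ∈ K ∧ ‖y - x‖ = ρ ∧ Ori K x κ γ' y τ := fun ρ => by
    by_cases hρ : ρ ∈ Ioo 0 (r / 2)
    · obtain ⟨y, hy, hn⟩ := h.exi hc hρ.1 (by linarith [hρ.2])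
      obtain ⟨τ, o⟩ := h.ori hy (sub_ne_zero.1 (norm_pos_iff.1 (hn ▸ hρ.1)))
        (by linarith [hρ.2])
      exact ⟨y, τ, fun _ => ⟨hy, hn, o⟩⟩
    · exact ⟨0, 0, fun h' => absurd h' hρ⟩
  choose γ τ hγ using hex
  have hcb : ∀ ρ ∈ Ioo 0 (r / 2), 99 / 100 ≤ cb x γ τ ρ := fun ρ hρ => by
    have h1 := (hγ ρ hρ).2.2.re
    rw [(hγ ρ hρ).2.1] at h1
    rw [cb, le_div_iff₀ hρ.1]
    exact h1
  have key : ∀ m, 0 < m → ∀ ρ ∈ Ioo 0 (r / 2), ∀ t ∈ Ioo 0 (r / 2), m ≤ ρ →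
      |t - ρ| ≤ κ * m / 4 → ‖γ t - γ ρ - (t - ρ) • (τ ρ / (cb x γ τ ρ : ℝ))‖ ≤
        ((2 * |t - ρ| / (κ * m)) ^ γ' + 3 * (|t - ρ| / m)) * |t - ρ| := by
    intro m hm ρ hρ t ht h1 h2
    obtain ⟨a1, a2, a3⟩ := hγ ρ hρ
    obtain ⟨b1, b2, -⟩ := hγ t ht
    have := h.der a1 (by linarith [hρ.2]) b1 a3 hm (by rwa [a2]) (by rwa [a2, b2])
    rwa [a2, b2] at this
  have hev : ∀ ρ ∈ Ioo 0 (r / 2), ∀ᶠ t in 𝓝 ρ,
      t ∈ Ioo 0 (r / 2) ∧ ρ / 2 ≤ t ∧ |t - ρ| ≤ κ * (ρ / 2) / 4 := fun ρ hρ => by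
    have h0 := hρ.1
    filter_upwards [isOpen_Ioo.mem_nhds hρ, Ici_mem_nhds (half_lt_self h0),
      closedBall_mem_nhds ρ (show 0 < κ * (ρ / 2) / 4 by positivity)] with t h1 h2 h3
    exact ⟨h1, h2, h3⟩
  have hD : ContinuousOn (fun ρ => τ ρ / (cb x γ τ ρ : ℝ)) (Ioo 0 (r / 2)) := by
    intro ρ hρ
    refine ContinuousAt.continuousWithinAt (tendsto_iff_norm_sub_tendsto_zero.2 ?_)
    have h1 := (err_tendsto (κ := κ) (m := ρ / 2) hg0 ρ).const_mul 2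
    rw [mul_zero] at h1
    refine squeeze_zero' (Eventually.of_forall fun _ => norm_nonneg _) ?_ h1
    filter_upwards [hev ρ hρ] with t ht
    have h0 := hρ.1
    by_cases hne : t = ρ
    · rw [hne, sub_self, norm_zero]
      positivity
    have k1 := key _ (half_pos h0) ρ hρ t ht.1 (half_le_self h0.le) ht.2.2
    have k2 := key _ (half_pos h0) t ht.1 ρ hρ ht.2.1 (by rw [abs_sub_comm]; exact ht.2.2)
    rw [abs_sub_comm ρ t] at k2
    have k3 := norm_add_le (γ t - γ ρ - (t - ρ) • (τ ρ / (cb x γ τ ρ : ℝ)))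
      (γ ρ - γ t - (ρ - t) • (τ t / (cb x γ τ t : ℝ)))
    have e : γ t - γ ρ - (t - ρ) • (τ ρ / (cb x γ τ ρ : ℝ)) +
        (γ ρ - γ t - (ρ - t) • (τ t / (cb x γ τ t : ℝ))) =
        (t - ρ) • (τ t / (cb x γ τ t : ℝ) - τ ρ / (cb x γ τ ρ : ℝ)) := by
      simp only [real_smul]
      push_cast
      ring
    rw [e, norm_smul, Real.norm_eq_abs] at k3
    refine le_of_mul_le_mul_left ?_ (abs_pos.2 (sub_ne_zero.2 hne))
    linarith
  have hnD : ∀ ρ ∈ Ioo 0 (r / 2), ‖τ ρ / (cb x γ τ ρ : ℝ)‖ = (cb x γ τ ρ)⁻¹ := fun ρ hρ => by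
    rw [norm_div, (hγ ρ hρ).2.2.tan.unit, Complex.norm_real,
      Real.norm_of_nonneg (by linarith [hcb ρ hρ]), one_div]
  refine ⟨γ, τ, half_pos hr, ?_, fun ρ hρ => (hγ ρ hρ).2.1, fun ρ hρ => (hγ ρ hρ).2.2.tan.unit,
    ?_, fun ρ hρ => by linarith [hcb ρ hρ], fun ρ hρ => ?_⟩
  · ext z
    constructor
    · rintro ⟨hz, hb⟩
      rw [mem_ball_iff_norm] at hb
      by_cases hzx : z = x
      · exact Or.inl hzx
      · have hρ : ‖z - x‖ ∈ Ioo 0 (r / 2) := ⟨norm_pos_iff.2 (sub_ne_zero.2 hzx), hb⟩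
        exact Or.inr ⟨_, hρ, h.uniq hz hzx (by linarith) (hγ _ hρ).1 (hγ _ hρ).2.1⟩
    · rintro (hz | ⟨ρ, hρ, rfl⟩)
      · rw [mem_singleton_iff.1 hz]
        exact ⟨hx, mem_ball_self (half_pos hr)⟩
      · exact ⟨(hγ ρ hρ).1, mem_ball_iff_norm.2 ((hγ ρ hρ).2.1.trans_lt hρ.2)⟩
  · refine (hD.div (continuous_ofReal.comp_continuousOn hD.norm) fun ρ hρ => ?_).congr
      fun ρ hρ => ?_
    · have h1 : 0 < cb x γ τ ρ := by linarith [hcb ρ hρ]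
      rw [Function.comp_apply, hnD ρ hρ]
      exact_mod_cast (inv_pos.2 h1).ne'
    · have h1 : ((cb x γ τ ρ : ℝ) : ℂ) ≠ 0 := by
        exact_mod_cast (show 0 < cb x γ τ ρ by linarith [hcb ρ hρ]).ne'
      rw [Pi.div_apply, Function.comp_apply, hnD ρ hρ]
      push_cast
      field_simp
  · rw [hasDerivAt_iff_isLittleO, Asymptotics.isLittleO_iff]
    intro c hc0
    have h0 := hρ.1
    filter_upwards [hev ρ hρ,
      (err_tendsto (κ := κ) (m := ρ / 2) hg0 ρ).eventually_le_const hc0] with t ht h1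
    refine (key _ (half_pos h0) ρ hρ t ht.1 (half_le_self h0.le) ht.2.2).trans ?_
    exact mul_le_mul_of_nonneg_right h1 (abs_nonneg _)

end Vale.Agent.P128
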