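import Vale.Agent.P128.Stm

open MeasureTheory Set Metric Filter Topology Complex
open scoped ENNReal ComplexConjugate Real

noncomputable section
namespace Vale.Agent.P128

namespace Pol

/-- the polar map -/
def T (x : ℂ) (p : ℝ × ℝ) : ℂ := circleMap x p.1 p.2

theorem T_cont (x : ℂ) : Continuous (T x) := by
  unfold T circleMap
  fun_prop

/-- the radial measure -/
def rad (s t : ℝ) : Measure ℝ := (volume.restrict (Ioo s t)).withDensity ENNReal.ofReal

instance (s t : ℝ) : SFinite (rad s t) := by unfold rad; infer_instance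

/-- the measure in polar coordinates -/
def nu (s t : ℝ) : Measure (ℝ × ℝ) := (rad s t).prod (volume.restrict (Ioo 0 (2 * π)))

theorem lint_rad (s t : ℝ) (g : ℝ → ℝ≥0∞) :
    ∫⁻ ρ, g ρ ∂(rad s t) = ∫⁻ ρ in Ioo s t, ENNReal.ofReal ρ * g ρ :=
  lintegral_withDensity_eq_lintegral_mul_non_measurable _ ENNReal.measurable_ofReal
    (ae_of_all _ fun _ => ENNReal.ofReal_lt_top) g

theorem shift (g : ℝ → ℝ≥0∞) : ∫⁻ θ in Ioo (-π) π, g (θ + π) = ∫⁻ θ in Ioo 0 (2 * π), g θ := by
  have h := (measurePreserving_add_right (volume : Measure ℝ) π).setLIntegral_comp_preimage_emb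
    (measurableEmbedding_addRight π) g (Ioo 0 (2 * π))
  rw [preimage_add_const_Ioo, zero_sub, show 2 * π - π = π by ring] at h
  exact h

theorem base {f : ℂ → ℝ≥0∞} (hf : Measurable f) (x : ℂ) :
    ∫⁻ z, f z = ∫⁻ ρ in Ioi 0, ENNReal.ofReal ρ * ∫⁻ θ in Ioo 0 (2 * π), f (circleMap x ρ θ) := by
  have e : ∀ p : ℝ × ℝ, x - Complex.polarCoord.symm p = T x (p.1, p.2 + π) := fun p => by
    simp only [Complex.polarCoord_symm_apply, T, circleMap, ofReal_add, add_mul, exp_add]
    rw [exp_pi_mul_I, exp_mul_I, ofReal_cos, ofReal_sin]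
    ring
  have hm : Measurable fun p : ℝ × ℝ => f (T x (p.1, p.2 + π)) :=
    hf.comp ((T_cont x).comp (by fun_prop)).measurable
  rw [← lintegral_sub_left_eq_self f x, ← Complex.lintegral_comp_polarCoord_symm]
  simp only [e, smul_eq_mul]
  rw [polarCoord_target, Measure.volume_eq_prod, ← Measure.prod_restrict, lintegral_prod
    (fun p : ℝ × ℝ => ENNReal.ofReal p.1 * f (T x (p.1, p.2 + π)))
    ((ENNReal.measurable_ofReal.comp measurable_fst).mul hm).aemeasurable]
  refine lintegral_congr fun ρ => ?_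
  simp only
  rw [lintegral_const_mul' _ _ ENNReal.ofReal_ne_top]
  congr 1
  exact shift fun θ => f (circleMap x ρ θ)

theorem norm_T (x : ℂ) (ρ θ : ℝ) : ‖circleMap x ρ θ - x‖ = |ρ| := by
  rw [circleMap_sub_center, norm_circleMap_zero]

theorem ann {f : ℂ → ℝ≥0∞} (hf : Measurable f) (x : ℂ) {s : ℝ} (t : ℝ) (hs : 0 ≤ s) :
    ∫⁻ z in closedBall x t \ closedBall x s, f z =
      ∫⁻ ρ in Ioo s t, ENNReal.ofReal ρ * ∫⁻ θ in Ioo 0 (2 * π), f (circleMap x ρ θ) := by
  have hA : MeasurableSet (closedBall x t \ closedBall x s) :=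
    measurableSet_closedBall.diff measurableSet_closedBall
  rw [← lintegral_indicator hA, base (hf.indicator hA) x, setLIntegral_congr Ioo_ae_eq_Ioc,
    ← inter_eq_left.2 (show Ioc s t ⊆ Ioi 0 from fun ρ h => hs.trans_lt h.1),
    ← Measure.restrict_restrict measurableSet_Ioc, ← lintegral_indicator measurableSet_Ioc]
  refine setLIntegral_congr_fun measurableSet_Ioi fun ρ hρ => ?_
  have h : ∀ θ, circleMap x ρ θ ∈ closedBall x t \ closedBall x s ↔ ρ ∈ Ioc s t := fun θ => by
    simp only [Set.mem_sdiff, mem_closedBall, dist_eq_norm, norm_T, abs_of_pos (mem_Ioi.1 hρ),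
      not_le, mem_Ioc, and_comm]
  by_cases h1 : ρ ∈ Ioc s t
  · simp only [indicator_of_mem h1, fun θ => indicator_of_mem ((h θ).2 h1) f]
  · simp only [indicator_of_notMem h1, fun θ => indicator_of_notMem (mt (h θ).1 h1) f,
      lintegral_const, zero_mul, mul_zero]

theorem mp (x : ℂ) {s : ℝ} (t : ℝ) (hs : 0 ≤ s) :
    MeasurePreserving (T x) (nu s t) (volume.restrict (closedBall x t \ closedBall x s)) := by
  have hT := (T_cont x).measurable
  refine ⟨hT, Measure.ext fun B hB => ?_⟩
  have h1 : Measurable (B.indicator (1 : ℂ → ℝ≥0∞)) := measurable_one.indicator hB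
  rw [← lintegral_indicator_one hB, ← lintegral_indicator_one hB, ann h1 x t hs,
    lintegral_map h1 hT, nu,
    lintegral_prod (fun p => B.indicator 1 (T x p)) (h1.comp hT).aemeasurable, lint_rad]
  rfl

variable {E : Type} [NormedAddCommGroup E] [NormedSpace ℝ E]

theorem int_rad {s : ℝ} (t : ℝ) (hs : 0 ≤ s) (g : ℝ → E) :
    Integrable g (rad s t) ↔ IntegrableOn (fun ρ => ρ • g ρ) (Ioo s t) := by
  rw [rad, integrable_withDensity_iff_integrable_smul' ENNReal.measurable_ofReal
    (ae_of_all _ fun _ => ENNReal.ofReal_lt_top)]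
  refine integrableOn_congr_fun (fun ρ h => ?_) measurableSet_Ioo
  simp only [ENNReal.toReal_ofReal (hs.trans h.1.le)]

theorem ang (g : ℝ → E) : ∫ θ in Ioo 0 (2 * π), g θ = ∫ θ in (0 : ℝ)..2 * π, g θ := by
  rw [intervalIntegral.integral_of_le Real.two_pi_pos.le, integral_Ioc_eq_integral_Ioo]

theorem val {f : ℂ → E} {x : ℂ} {s t : ℝ} (hs : 0 ≤ s) (hst : s ≤ t)
    (hf : IntegrableOn f (closedBall x t \ closedBall x s)) :
    ∫ z in closedBall x t \ closedBall x s, f z =
      ∫ ρ in s..t, ρ • ∫ θ in (0 : ℝ)..2 * π, f (circleMap x ρ θ) := by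
  have h := mp x t hs
  have h1 : Integrable (fun p => f (T x p)) (nu s t) := h.integrable_comp_of_integrable hf
  have h2 : AEStronglyMeasurable f (Measure.map (T x) (nu s t)) := h.map_eq ▸ hf.1
  rw [← h.map_eq, integral_map h.measurable.aemeasurable h2, nu, integral_prod _ h1, rad,
    integral_withDensity_eq_integral_toReal_smul ENNReal.measurable_ofReal
      (ae_of_all _ fun _ => ENNReal.ofReal_lt_top),
    intervalIntegral.integral_of_le hst, integral_Ioc_eq_integral_Ioo]
  refine setIntegral_congr_fun measurableSet_Ioo fun ρ hρ => ?_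
  simp only [ENNReal.toReal_ofReal (hs.trans hρ.1.le)]
  rw [ang]
  rfl

theorem pw (a : ℂ) {r s : ℝ} (hr : 0 ≤ r) (hs : s < 2) :
    IntegrableOn (fun z => ‖z - a‖ ^ (-s)) (closedBall a r) ∧
    ∫ z in closedBall a r, ‖z - a‖ ^ (-s) = 2 * π * r ^ (2 - s) / (2 - s) := by
  have h0 : (closedBall a r \ closedBall a 0 : Set ℂ) =ᵐ[volume] closedBall a r :=
    sdiff_null_ae_eq_self (by simp)
  have e : ∀ ρ ∈ Ioo 0 r, ρ • |ρ| ^ (-s) = ρ ^ (1 - s) := fun ρ h => by
    rw [abs_of_pos h.1, smul_eq_mul, sub_eq_add_neg, Real.rpow_add h.1, Real.rpow_one]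
  have h1 : Integrable (fun ρ : ℝ => |ρ| ^ (-s)) (rad 0 r) := by
    rw [int_rad r le_rfl, integrableOn_congr_fun e measurableSet_Ioo]
    exact (intervalIntegrable_iff_integrableOn_Ioo_of_le hr).1
      (intervalIntegral.intervalIntegrable_rpow' (by linarith))
  have hm : Measurable fun z : ℂ => ‖z - a‖ ^ (-s) := by fun_prop
  have h2 : IntegrableOn (fun z => ‖z - a‖ ^ (-s)) (closedBall a r \ closedBall a 0) := by
    refine ((mp a r le_rfl).integrable_comp hm.aestronglyMeasurable).1 ?_
    have := h1.comp_fst (volume.restrict (Ioo 0 (2 * π)))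
    refine this.congr (ae_of_all _ fun p => ?_)
    simp only [Function.comp_apply, T, norm_T]
  refine ⟨h2.congr_set_ae h0.symm, ?_⟩
  rw [← setIntegral_congr_set h0, val le_rfl hr h2]
  simp only [norm_T, intervalIntegral.integral_const, sub_zero, smul_eq_mul]
  have h3 : ∫ ρ in (0 : ℝ)..r, ρ * (2 * π * |ρ| ^ (-s)) =
      ∫ ρ in (0 : ℝ)..r, 2 * π * ρ ^ (1 - s) := by
    rw [intervalIntegral.integral_of_le hr, intervalIntegral.integral_of_le hr,
      integral_Ioc_eq_integral_Ioo, integral_Ioc_eq_integral_Ioo]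
    refine setIntegral_congr_fun measurableSet_Ioo fun ρ hρ => ?_
    simp only [← e ρ hρ, smul_eq_mul]
    ring
  rw [h3, intervalIntegral.integral_const_mul, integral_rpow (Or.inl (by linarith)),
    show 1 - s + 1 = 2 - s by ring, Real.zero_rpow (by linarith), sub_zero, mul_div_assoc]

end Pol

theorem pol_pf : PolStmt := by
  refine ⟨fun f x s t hf hs => ?_, fun E _ _ _ f x r hf => ?_, fun a r s hr hs => Pol.pw a hr hs⟩
  · have h := Pol.mp x t hs
    have h1 : AEMeasurable f (Measure.map (Pol.T x) (Pol.nu s t)) :=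
      h.map_eq ▸ hf.mono_set sdiff_subset
    rw [← h.map_eq, lintegral_map' h1 h.measurable.aemeasurable, Pol.nu,
      lintegral_prod (fun p => f (Pol.T x p)) (h1.comp_measurable h.measurable), Pol.lint_rad]
    rfl
  · have h1 : Integrable (fun p => f (Pol.T x p)) (Pol.nu 0 r) :=
      (Pol.mp x r le_rfl).integrable_comp_of_integrable (hf.mono_set sdiff_subset)
    refine ⟨?_, ?_, fun s t hs hst htr => Pol.val hs hst
      (hf.mono_set (sdiff_subset.trans (closedBall_subset_closedBall htr)))⟩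
    · have h2 := h1.prod_right_ae
      rw [Pol.rad, ae_withDensity_iff ENNReal.measurable_ofReal,
        ae_restrict_iff' measurableSet_Ioo] at h2
      filter_upwards [h2] with ρ h3 hρ
      exact (intervalIntegrable_iff_integrableOn_Ioo_of_le Real.two_pi_pos.le).2
        (h3 hρ (by simpa using hρ.1))
    · have h2 := (Pol.int_rad r le_rfl _).1 h1.integral_prod_left
      simp only [Pol.ang] at h2
      exact h2

end Vale.Agent.P128
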