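import Vale.Agent.P128.Stm

/-! Geometry for the star competitor: radial projection, the cut set, the index of a region. -/

open MeasureTheory Set Metric Filter Topology Complex
open scoped ENNReal ComplexConjugate Real

noncomputable section
namespace Vale.Agent.P128

namespace Star

/-- Lipschitz near a point -/
def LipAt {α β : Type} [PseudoEMetricSpace α] [PseudoEMetricSpace β] (f : α → β) (z : α) : Prop :=
  ∃ C, ∃ t ∈ 𝓝 z, LipschitzOnWith C f t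

section lip
variable {α β γ : Type} [PseudoEMetricSpace α] [PseudoEMetricSpace β] [PseudoEMetricSpace γ]

theorem LipAt.of_lip {f : α → β} {C : NNReal} (h : LipschitzWith C f) (z : α) : LipAt f z :=
  ⟨C, univ, univ_mem, h.lipschitzOnWith⟩

theorem LipAt.continuousAt {f : α → β} {z : α} (h : LipAt f z) : ContinuousAt f z := by
  obtain ⟨C, t, ht, hl⟩ := h
  exact hl.continuousOn.continuousAt ht

theorem LipAt.comp {g : β → γ} {f : α → β} {z : α} (hg : LipAt g (f z)) (hf : LipAt f z) :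
    LipAt (fun y => g (f y)) z := by
  have hc := hf.continuousAt
  obtain ⟨C, t, ht, hl⟩ := hf
  obtain ⟨D, s, hs, hm⟩ := hg
  exact ⟨D * C, t ∩ f ⁻¹' s, inter_mem ht (hc hs),
    hm.comp (hl.mono inter_subset_left) fun y hy => hy.2⟩

theorem LipAt.prodMk {f : α → β} {g : α → γ} {z : α} (hf : LipAt f z) (hg : LipAt g z) :
    LipAt (fun y => (f y, g y)) z := by
  obtain ⟨C, t, ht, hl⟩ := hf
  obtain ⟨D, s, hs, hm⟩ := hg
  exact ⟨max C D, t ∩ s, inter_mem ht hs,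
    (hl.mono inter_subset_left).prodMk (hm.mono inter_subset_right)⟩

theorem LipAt.congr {f g : α → β} {z : α} (hf : LipAt f z) (h : g =ᶠ[𝓝 z] f) : LipAt g z := by
  obtain ⟨C, t, ht, hl⟩ := hf
  refine ⟨C, t ∩ {y | g y = f y}, inter_mem ht h, fun a ha b hb => ?_⟩
  rw [show g a = f a from ha.2, show g b = f b from hb.2]
  exact hl ha.1 hb.1

theorem locLip_of_lipAt {f : α → β} {O : Set α} (h : ∀ z ∈ O, LipAt f z) :
    LocallyLipschitzOn O f := by
  intro z hz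
  obtain ⟨C, t, ht, hl⟩ := h z hz
  exact ⟨C, t, mem_nhdsWithin_of_mem_nhds ht, hl⟩

end lip

theorem LipAt.of_contDiffAt {E F : Type} [NormedAddCommGroup E] [NormedSpace ℝ E]
    [NormedAddCommGroup F] [NormedSpace ℝ F] {f : E → F} {z : E} (h : ContDiffAt ℝ 1 f z) :
    LipAt f z := h.exists_lipschitzOnWith

/-- radial projection to the circle from inside, the identity outside -/
def pr (x : ℂ) (ρ : ℝ) (y : ℂ) : ℂ := x + max (ρ / ‖y - x‖) 1 • (y - x)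

/-- radial cut-off -/
def cut (x : ℂ) (ρ : ℝ) (y : ℂ) : ℝ := min 1 (max 0 (2 / ρ * ‖y - x‖ - 1))

variable {x : ℂ} {ρ : ℝ}

theorem pr_out (hρ : 0 < ρ) {y : ℂ} (h : ρ ≤ ‖y - x‖) : pr x ρ y = y := by
  have h1 : ρ / ‖y - x‖ ≤ 1 := (div_le_one (hρ.trans_le h)).2 h
  rw [pr, max_eq_right h1, one_smul, add_sub_cancel]

theorem pr_in {y : ℂ} (h0 : 0 < ‖y - x‖) (h : ‖y - x‖ ≤ ρ) :
    pr x ρ y = x + (ρ / ‖y - x‖) • (y - x) := by
  rw [pr, max_eq_left ((one_le_div h0).2 h)]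

theorem norm_pr {y : ℂ} (h0 : 0 < ‖y - x‖) (h : ‖y - x‖ ≤ ρ) : ‖pr x ρ y - x‖ = ρ := by
  rw [pr_in h0 h, add_sub_cancel_left, norm_smul, Real.norm_eq_abs,
    abs_of_nonneg (div_nonneg (h0.le.trans h) h0.le), div_mul_cancel₀ _ h0.ne']

theorem norm_ray {p : ℂ} (hp : ‖p - x‖ = ρ) {t : ℝ} (ht : 0 ≤ t) :
    ‖x + t • (p - x) - x‖ = t * ρ := by
  rw [add_sub_cancel_left, norm_smul, hp, Real.norm_eq_abs, abs_of_nonneg ht]

theorem pr_ray (hρ : 0 < ρ) {p : ℂ} (hp : ‖p - x‖ = ρ) {t : ℝ} (ht : 0 < t) (ht1 : t ≤ 1) :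
    pr x ρ (x + t • (p - x)) = p := by
  have h1 := norm_ray hp ht.le
  rw [pr_in (by rw [h1]; positivity) (by rw [h1]; nlinarith), h1, add_sub_cancel_left, smul_smul]
  have : ρ / (t * ρ) * t = 1 := by field_simp
  rw [this, one_smul, add_sub_cancel]

theorem ray_pr {y : ℂ} (h0 : 0 < ‖y - x‖) (h : ‖y - x‖ ≤ ρ) :
    x + (‖y - x‖ / ρ) • (pr x ρ y - x) = y := by
  have hρ : 0 < ρ := h0.trans_le h
  rw [pr_in h0 h, add_sub_cancel_left, smul_smul]
  have : ‖y - x‖ / ρ * (ρ / ‖y - x‖) = 1 := by field_simp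
  rw [this, one_smul, add_sub_cancel]

theorem pr_circleMap (hρ : 0 < ρ) {r : ℝ} (hr : 0 < r) (h : r ≤ ρ) (θ : ℝ) :
    pr x ρ (circleMap x r θ) = circleMap x ρ θ := by
  have h1 : circleMap x r θ = x + (r / ρ) • (circleMap x ρ θ - x) := by
    have : (ρ : ℂ) ≠ 0 := ofReal_ne_zero.2 hρ.ne'
    simp only [circleMap, add_sub_cancel_left, real_smul, ofReal_div]
    field_simp
  rw [h1]
  exact pr_ray hρ (by simp [abs_of_pos hρ]) (div_pos hr hρ) ((div_le_one hρ).2 h)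

theorem lipAt_pr {z : ℂ} (hz : z ≠ x) : LipAt (pr x ρ) z := by
  have h0 : z - x ≠ 0 := sub_ne_zero.2 hz
  have h1 : ContDiffAt ℝ 1 (fun y : ℂ => y - x) z := contDiffAt_id.sub contDiffAt_const
  have h2 : ContDiffAt ℝ 1 (fun y : ℂ => ρ / ‖y - x‖) z :=
    contDiffAt_const.div (h1.norm ℂ h0) (norm_ne_zero_iff.2 h0)
  have h3 : LipAt (fun y : ℂ => max (ρ / ‖y - x‖) 1) z :=
    LipAt.comp (g := fun s : ℝ => max s 1) (LipAt.of_lip (LipschitzWith.id.max_const 1) _)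
      (LipAt.of_contDiffAt h2)
  have h4 : ContDiff ℝ 1 fun p : ℝ × ℂ => x + p.1 • p.2 :=
    contDiff_const.add (contDiff_fst.smul contDiff_snd)
  have h5 := h3.prodMk (LipAt.of_contDiffAt h1)
  have h6 := LipAt.of_contDiffAt (h4.contDiffAt (x := (max (ρ / ‖z - x‖) 1, z - x)))
  exact LipAt.comp (f := fun y : ℂ => (max (ρ / ‖y - x‖) 1, y - x)) h6 h5

theorem measurable_pr : Measurable (pr x ρ) := by
  unfold pr
  fun_prop

theorem norm_fderiv_pr (hρ : 0 < ρ) {z : ℂ} (h1 : ρ / 2 < ‖z - x‖) (h2 : ‖z - x‖ < ρ) :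
    ‖fderiv ℝ (pr x ρ) z‖ ≤ 4 := by
  refine norm_fderiv_le_of_lip' ℝ (by norm_num) ?_
  have hc : ContinuousAt (fun y : ℂ => ‖y - x‖) z := by fun_prop
  have hz : 0 < ‖z - x‖ := by linarith
  filter_upwards [hc.eventually (Ioo_mem_nhds hz h2)] with y hy
  have hy0 : 0 < ‖y - x‖ := hy.1
  rw [pr_in hy0 hy.2.le, pr_in hz h2.le]
  have h3 : x + (ρ / ‖y - x‖) • (y - x) - (x + (ρ / ‖z - x‖) • (z - x)) =
      (ρ / ‖z - x‖) • (y - z) + (ρ / ‖y - x‖ - ρ / ‖z - x‖) • (y - x) := by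
    module
  have h4 : ρ / ‖z - x‖ ≤ 2 := by
    rw [div_le_iff₀ hz]
    linarith
  have h5 : 0 ≤ ρ / ‖z - x‖ := by positivity
  have h6 : |ρ / ‖y - x‖ - ρ / ‖z - x‖| * ‖y - x‖ = ρ / ‖z - x‖ * |‖z - x‖ - ‖y - x‖| := by
    have : (ρ / ‖y - x‖ - ρ / ‖z - x‖) * ‖y - x‖ = ρ / ‖z - x‖ * (‖z - x‖ - ‖y - x‖) := by
      field_simp
    rw [← abs_of_nonneg h5, ← abs_mul, abs_of_nonneg h5, ← this, abs_mul, abs_norm]
  have h7 : |‖z - x‖ - ‖y - x‖| ≤ ‖y - z‖ := by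
    refine (abs_norm_sub_norm_le _ _).trans (le_of_eq ?_)
    rw [sub_sub_sub_cancel_right, norm_sub_rev]
  rw [h3]
  refine (norm_add_le _ _).trans ?_
  rw [norm_smul, norm_smul, Real.norm_eq_abs, Real.norm_eq_abs, h6, abs_of_nonneg h5]
  have h8 := mul_le_mul h4 h7 (abs_nonneg _) zero_le_two
  have h9 := mul_le_mul_of_nonneg_right h4 (norm_nonneg (y - z))
  linarith

theorem cut_lip (hρ : 0 < ρ) : LipschitzWith ⟨2 / ρ, by positivity⟩ (cut x ρ) := by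
  have h : LipschitzWith ⟨2 / ρ, by positivity⟩ fun y : ℂ => 2 / ρ * ‖y - x‖ - 1 := by
    refine LipschitzWith.of_dist_le_mul fun a b => ?_
    have h1 : (0 : ℝ) ≤ 2 / ρ := by positivity
    have h2 := abs_norm_sub_norm_le (a - x) (b - x)
    rw [sub_sub_sub_cancel_right] at h2
    rw [Real.dist_eq, dist_eq_norm, sub_sub_sub_cancel_right, ← mul_sub, abs_mul, abs_of_nonneg h1]
    exact mul_le_mul_of_nonneg_left h2 h1
  exact (h.const_max 0).const_min 1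

theorem cut_out (hρ : 0 < ρ) {y : ℂ} (h : ρ ≤ ‖y - x‖) : cut x ρ y = 1 := by
  refine min_eq_left (le_max_of_le_right ?_)
  have : 2 / ρ * ρ ≤ 2 / ρ * ‖y - x‖ := mul_le_mul_of_nonneg_left h (by positivity)
  rw [div_mul_cancel₀ _ hρ.ne'] at this
  linarith

theorem cut_in (hρ : 0 < ρ) {y : ℂ} (h : ‖y - x‖ ≤ ρ / 2) : cut x ρ y = 0 := by
  have h1 : 2 / ρ * ‖y - x‖ ≤ 2 / ρ * (ρ / 2) := mul_le_mul_of_nonneg_left h (by positivity)
  have h2 : 2 / ρ * (ρ / 2) = 1 := by field_simp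
  rw [cut, max_eq_left (by linarith), min_eq_right zero_le_one]

theorem abs_cut_le (y : ℂ) : |cut x ρ y| ≤ 1 := by
  rw [abs_of_nonneg (le_min zero_le_one (le_max_left _ _))]
  exact min_le_left _ _

/-- the cut set -/
structure Cut (K C : Set ℂ) (x : ℂ) (ρ : ℝ) : Prop where
  cpt : IsCompact C
  conn : IsPreconnected C
  sub : C ⊆ closedBall x ρ
  mem : ∀ y, ρ / 2 < ‖y - x‖ → y ∈ C → pr x ρ y ∈ K
  mem' : ∀ y, ρ / 2 ≤ ‖y - x‖ → ‖y - x‖ ≤ ρ → pr x ρ y ∈ K → y ∈ C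

theorem exists_cut {K Z : Set ℂ} (hρ : 0 < ρ) (hfin : (K ∩ sphere x ρ).Finite)
    (hne : (K ∩ sphere x ρ).Nonempty) (hZ : IsCompact Z) (hZc : IsPreconnected Z)
    (hZs : Z ⊆ closedBall x (ρ / 2)) (hmid : ∀ p ∈ K ∩ sphere x ρ, (x + p) / 2 ∈ Z) :
    ∃ C, Cut K C x ρ ∧ μH[1] C ≤ μH[1] Z + ENNReal.ofReal (cnt K x ρ * ρ / 2) := by
  set ry : ℂ → Set ℂ := fun p => (fun t : ℝ => x + t • (p - x)) '' Icc (1 / 2) 1 with hry
  have hc : ∀ p, Continuous fun t : ℝ => x + t • (p - x) := fun p => by fun_prop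
  have hn : ∀ p ∈ K ∩ sphere x ρ, ‖p - x‖ = ρ := fun p hp => mem_sphere_iff_norm.1 hp.2
  have hm : ∀ p, (x + p) / 2 ∈ ry p := fun p =>
    ⟨1 / 2, ⟨le_rfl, by norm_num⟩, by simp only [real_smul]; push_cast; ring⟩
  refine ⟨Z ∪ ⋃ p ∈ K ∩ sphere x ρ, ry p, ⟨?_, ?_, ?_, ?_, ?_⟩, ?_⟩
  · exact hZ.union (hfin.isCompact_biUnion fun p _ => isCompact_Icc.image (hc p))
  · obtain ⟨p₀, hp₀⟩ := hne
    refine isPreconnected_of_forall ((x + p₀) / 2) ?_
    rintro y (hy | hy)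
    · exact ⟨Z, subset_union_left, hmid p₀ hp₀, hy, hZc⟩
    · obtain ⟨p, hp, hyp⟩ := mem_iUnion₂.1 hy
      refine ⟨Z ∪ ry p, union_subset_union_right _ (subset_biUnion_of_mem (u := ry) hp),
        Or.inl (hmid p₀ hp₀), Or.inr hyp, ?_⟩
      exact hZc.union _ (hmid p hp) (hm p) (isPreconnected_Icc.image _ (hc p).continuousOn)
  · rintro y (hy | hy)
    · exact closedBall_subset_closedBall (by linarith) (hZs hy)
    · obtain ⟨p, hp, t, ht, rfl⟩ := mem_iUnion₂.1 hy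
      rw [mem_closedBall_iff_norm, norm_ray (hn p hp) (by linarith [ht.1])]
      nlinarith [ht.2]
  · rintro y h1 (hy | hy)
    · have := mem_closedBall_iff_norm.1 (hZs hy)
      linarith
    · obtain ⟨p, hp, t, ht, rfl⟩ := mem_iUnion₂.1 hy
      rw [pr_ray hρ (hn p hp) (by linarith [ht.1]) ht.2]
      exact hp.1
  · intro y h1 h2 hy
    have h0 : 0 < ‖y - x‖ := by linarith
    refine Or.inr (mem_iUnion₂.2 ⟨pr x ρ y, ⟨hy, mem_sphere_iff_norm.2 (norm_pr h0 h2)⟩,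
      ‖y - x‖ / ρ, ⟨?_, (div_le_one hρ).2 h2⟩, ray_pr h0 h2⟩)
    rw [le_div_iff₀ hρ]
    linarith
  · refine (measure_union_le _ _).trans (add_le_add le_rfl ?_)
    have h1 : ∀ p ∈ hfin.toFinset, μH[1] (ry p) ≤ ENNReal.ofReal (ρ / 2) := by
      intro p hp
      have hp' := hn p (hfin.mem_toFinset.1 hp)
      have hl : LipschitzWith ⟨ρ, hρ.le⟩ fun t : ℝ => x + t • (p - x) := by
        refine LipschitzWith.of_dist_le_mul fun a b => le_of_eq ?_
        rw [dist_eq_norm, add_sub_add_left_eq_sub, ← sub_smul, norm_smul, hp', dist_eq_norm,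
          mul_comm]
        rfl
      have h := hl.hausdorffMeasure_image_le zero_le_one (Icc (1 / 2) 1)
      rw [ENNReal.rpow_one, hausdorffMeasure_real, Real.volume_Icc] at h
      refine h.trans (le_of_eq ?_)
      rw [show ρ / 2 = ρ * (1 - 1 / 2) by ring, ENNReal.ofReal_mul hρ.le]
      congr 1
      rw [ENNReal.ofReal, Real.toNNReal_of_nonneg hρ.le]
      rfl
    have h2 : (⋃ p ∈ K ∩ sphere x ρ, ry p) = ⋃ p ∈ hfin.toFinset, ry p := by
      simp only [hfin.mem_toFinset]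
    rw [h2]
    refine (measure_biUnion_finset_le _ _).trans ((Finset.sum_le_card_nsmul _ _ _ h1).trans ?_)
    rw [cnt, ncard_eq_toFinset_card _ hfin, mul_div_assoc,
      ENNReal.ofReal_mul (Nat.cast_nonneg _), ENNReal.ofReal_natCast, nsmul_eq_mul]

theorem freq_out (hρ : 0 < ρ) {z : ℂ} (hz : z ∈ sphere x ρ) : ∃ᶠ y in 𝓝 z, ρ < ‖y - x‖ := by
  rw [← frontier_closedBall x hρ.ne', frontier_eq_closure_inter_closure] at hz
  refine (mem_closure_iff_frequently.1 hz.2).mono fun y hy => ?_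
  exact not_le.1 fun h => hy (mem_closedBall_iff_norm.2 h)

/-- every region of the disc cut along `C` is attached to at most one arc -/
theorem exists_index (hPar : ParStmt) (hArcs : ArcsStmt) {K C : Set ℂ} (hρ : 0 < ρ)
    (hfin : (K ∩ sphere x ρ).Finite) (hne : (K ∩ sphere x ρ).Nonempty) (hC : Cut K C x ρ) :
    ∃ q : ℂ → ℂ, (∀ z, ‖z - x‖ < ρ → z ∉ C → ∀ᶠ y in 𝓝 z, q y = q z) ∧
      ∀ z ∈ sphere x ρ, z ∉ K → ∃ α β s t, β ≤ α + 2 * π ∧ Free K x ρ α β ∧ s ∈ Ioo α β ∧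
        t ∈ Ioo α β ∧ z = circleMap x ρ s ∧
        ∀ᶠ y in 𝓝 z, ‖y - x‖ < ρ → q y = circleMap x ρ t := by
  obtain ⟨N, θ, -, -, hθ, -, hK, huniq, -⟩ := hArcs K x ρ hρ hfin hne
  have hnc : ∀ s, ‖circleMap x ρ s - x‖ = ρ := fun s => by simp [abs_of_pos hρ]
  have hKC : ∀ i ≤ N, circleMap x ρ (θ i) ∈ C := fun i hi =>
    hC.mem' _ (by rw [hnc]; linarith) (hnc _).le (by rw [pr_out hρ (hnc _).ge]; exact hK i hi)
  have hex := fun i (hi : i < N) => hPar C x ρ (θ i) (θ (i + 1)) hC.cpt hC.conn hρ (hθ i hi).1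
    (hθ i hi).2.1 (hKC i hi.le) (hKC (i + 1) hi)
  choose! χ h0 h1 h2 h3 using hex
  have hout : ∀ j < N, ∀ y, ρ < ‖y - x‖ → χ j y = 0 := by
    intro j hj y hy
    refine h2 j hj x ρ (union_subset hC.sub ?_) y fun h => ?_
    · rintro _ ⟨s, -, rfl⟩
      exact mem_closedBall_iff_norm.2 (hnc s).le
    · exact not_le.2 hy (mem_closedBall_iff_norm.1 h)
  refine ⟨fun y => circleMap x ρ ((θ (sInf {j | j < N ∧ χ j y = 1}) +
    θ (sInf {j | j < N ∧ χ j y = 1} + 1)) / 2), fun z hz hzC => ?_, fun z hz hzK => ?_⟩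
  · have h4 : ∀ j ∈ {j | j < N}, ∀ᶠ y in 𝓝 z, χ j y = χ j z := by
      intro j hj
      refine h1 j hj z hzC ?_
      rintro ⟨s, -, rfl⟩
      exact hz.ne (hnc s)
    filter_upwards [(eventually_all_finite (finite_lt_nat N)).2 h4] with y hy
    have : {j | j < N ∧ χ j y = 1} = {j | j < N ∧ χ j z = 1} := by
      ext j
      exact and_congr_right fun hj => by rw [hy j hj]
    simp only [this]
  · obtain ⟨i, ⟨hi, s, hs, hsz⟩, hu⟩ := huniq z hz hzK
    have hzn : ‖z - x‖ = ρ := mem_sphere_iff_norm.1 hz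
    have hzC : z ∉ C := fun h => hzK (by
      have := hC.mem z (by linarith) h
      rwa [pr_out hρ hzn.ge] at this)
    have hlt := (hθ i hi).1
    refine ⟨θ i, θ (i + 1), s, (θ i + θ (i + 1)) / 2, (hθ i hi).2.1, (hθ i hi).2.2, hs,
      ⟨by linarith, by linarith⟩, hsz.symm, ?_⟩
    have h4 : ∀ j ∈ {j | j < N}, ∀ᶠ y in 𝓝 z, ‖y - x‖ < ρ → (χ j y = 1 ↔ j = i) := by
      intro j hj
      by_cases hji : j = i
      · subst hji
        obtain ⟨σ, hσ⟩ := h3 j hj s hs (by rwa [hsz])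
        rw [hsz] at hσ
        obtain ⟨y, hy1, hy2⟩ := ((freq_out hρ hz).and_eventually hσ).exists
        have h5 := hy2.2 hy1
        rw [hout j hj y hy1] at h5
        filter_upwards [hσ] with w hw hw1
        rw [hw.1 hw1]
        exact ⟨fun _ => rfl, fun _ => by linarith⟩
      · have h5 : z ∉ circleMap x ρ '' Icc (θ j) (θ (j + 1)) := by
          rintro ⟨t, ht, htz⟩
          rcases ht.1.eq_or_lt with h | h
          · exact hzK (by rw [← htz, ← h]; exact hK j (le_of_lt hj))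
          rcases ht.2.eq_or_lt with h' | h'
          · exact hzK (by rw [← htz, h']; exact hK (j + 1) hj)
          exact hji (hu j ⟨hj, t, ⟨h, h'⟩, htz⟩)
        have h6 := h1 j hj z hzC h5
        obtain ⟨y, hy1, hy2⟩ := ((freq_out hρ hz).and_eventually h6).exists
        rw [hout j hj y hy1] at hy2
        filter_upwards [h6] with w hw _
        rw [hw, ← hy2]
        exact ⟨fun h => absurd h zero_ne_one, fun h => absurd h hji⟩
    filter_upwards [(eventually_all_finite (finite_lt_nat N)).2 h4] with y hy hyρ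
    have : {j | j < N ∧ χ j y = 1} = {i} := by
      ext j
      exact ⟨fun h => (hy j h.1 hyρ).1 h.2, fun h => by
        have hj : j = i := h
        subst hj
        exact ⟨hi, (hy j hi hyρ).2 rfl⟩⟩
    simp only [this, csInf_singleton]

/-- the index is constant along rays in the ring -/
theorem index_ray {K C : Set ℂ} (hρ : 0 < ρ) (hC : Cut K C x ρ) {q : ℂ → ℂ}
    (hq : ∀ z, ‖z - x‖ < ρ → z ∉ C → ∀ᶠ y in 𝓝 z, q y = q z) {z p : ℂ} (h1 : ρ / 2 < ‖z - x‖)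
    (h2 : ‖z - x‖ < ρ) (hK : pr x ρ z ∉ K)
    (hp : ∀ᶠ y in 𝓝 (pr x ρ z), ‖y - x‖ < ρ → q y = p) : q z = p := by
  have h0 : 0 < ‖z - x‖ := by linarith
  have hn := norm_pr h0 h2.le
  set γ : ℝ → ℂ := fun t => x + t • (pr x ρ z - x) with hγ
  have hc : Continuous γ := by fun_prop
  have ht0 : 1 / 2 < ‖z - x‖ / ρ := by
    rw [lt_div_iff₀ hρ]
    linarith
  have ht1 : ‖z - x‖ / ρ < 1 := (div_lt_one hρ).2 h2
  have hlt : ∀ t ∈ Ico (‖z - x‖ / ρ) 1, ‖γ t - x‖ < ρ := by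
    intro t ht
    rw [norm_ray hn (by linarith [ht.1])]
    nlinarith [ht.2]
  have hγ1 : γ 1 = pr x ρ z := by simp [hγ]
  have h3 : Tendsto γ (𝓝[<] 1) (𝓝 (pr x ρ z)) := by
    rw [← hγ1]
    exact hc.continuousAt.mono_left nhdsWithin_le_nhds
  have h8 : ∀ᶠ t in 𝓝[<] (1 : ℝ), t ∈ Ico (‖z - x‖ / ρ) 1 := Ico_mem_nhdsLT ht1
  obtain ⟨t, ht, htq⟩ := (h8.and (h3.eventually hp)).exists
  have h4 := (isPreconnected_Ico (a := ‖z - x‖ / ρ) (b := 1)).induction₂'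
    (fun a b => q (γ a) = q (γ b)) (fun a ha => by
      have h5 : γ a ∉ C := fun h => hK (by
        have h6 := hC.mem (γ a) (by
          rw [norm_ray hn (by linarith [ha.1])]
          nlinarith [ha.1]) h
        rwa [pr_ray hρ hn (by linarith [ha.1]) ha.2.le] at h6)
      have h7 := hc.continuousAt.eventually (hq _ (hlt a ha) h5)
      filter_upwards [mem_nhdsWithin_of_mem_nhds h7] with b hb
      exact ⟨hb.symm, hb⟩) (fun _ _ _ _ _ _ ha hb => ha.trans hb) ⟨le_rfl, ht1⟩ ht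
  rw [← htq (hlt t ht), ← h4]
  congr 1
  exact (ray_pr h0 h2.le).symm

end Star

end Vale.Agent.P128
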