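import Vale.Agent.P128.Basic

/-! The statements of all steps.  Proof sketches are in skel/P128/PLAN.md. -/

open MeasureTheory Set Metric Filter Topology Complex
open scoped ENNReal ComplexConjugate Real

noncomputable section
namespace Vale.Agent.P128

/-! ### Tools -/

def PolStmt : Prop :=
  (∀ (f : ℂ → ℝ≥0∞) (x : ℂ) (s t : ℝ), AEMeasurable f (volume.restrict (closedBall x t)) → 0 ≤ s →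
    ∫⁻ z in closedBall x t \ closedBall x s, f z =
      ∫⁻ ρ in Ioo s t, ENNReal.ofReal ρ * ∫⁻ θ in Ioo 0 (2 * π), f (circleMap x ρ θ)) ∧
  (∀ (E : Type) [NormedAddCommGroup E] [NormedSpace ℝ E] [CompleteSpace E] (f : ℂ → E) (x : ℂ)
    (r : ℝ), IntegrableOn f (closedBall x r) →
    (∀ᵐ ρ, ρ ∈ Ioo 0 r → IntervalIntegrable (fun θ => f (circleMap x ρ θ)) volume 0 (2 * π)) ∧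
    IntegrableOn (fun ρ : ℝ => ρ • ∫ θ in (0 : ℝ)..2 * π, f (circleMap x ρ θ)) (Ioo 0 r) ∧
    ∀ s t, 0 ≤ s → s ≤ t → t ≤ r → ∫ z in closedBall x t \ closedBall x s, f z =
      ∫ ρ in s..t, ρ • ∫ θ in (0 : ℝ)..2 * π, f (circleMap x ρ θ)) ∧
  ∀ (a : ℂ) (r s : ℝ), 0 ≤ r → s < 2 →
    IntegrableOn (fun z => ‖z - a‖ ^ (-s)) (closedBall a r) ∧
    ∫ z in closedBall a r, ‖z - a‖ ^ (-s) = 2 * π * r ^ (2 - s) / (2 - s)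

def EilStmt : Prop :=
  (∀ (S : Set ℂ) (f : ℂ → ℝ) (g : ℝ → ℝ≥0∞), LipschitzWith 1 f → AEMeasurable g →
    (∀ᵐ t, g t ≤ ((S ∩ f ⁻¹' {t}).encard : ℝ≥0∞)) → ∫⁻ t, g t ≤ μH[1] S) ∧
  ∀ (S : Set ℂ) (f : ℂ → ℝ), IsClosed S → Continuous f →
    Measurable fun t => ((S ∩ f ⁻¹' {t}).encard : ℝ≥0∞)

def ScaleStmt : Prop := ∀ x d : ℂ, d ≠ 0 →
  (∀ u z, pd (sc x d u) z = d * pd u (af x d z) / (√‖d‖ : ℝ)) ∧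
  (∀ u S, MeasurableSet S → En (sc x d u) (af x d ⁻¹' S) = En u S / ‖d‖) ∧
  (∀ S, μH[1] S = ‖d‖ₑ * μH[1] (af x d ⁻¹' S)) ∧
  (∀ K S, len (af x d ⁻¹' K) (af x d ⁻¹' S) = len K S / ‖d‖) ∧
  (∀ y r, af x d ⁻¹' closedBall (af x d y) (‖d‖ * r) = closedBall y r ∧
    af x d ⁻¹' ball (af x d y) (‖d‖ * r) = ball y r) ∧
  (∀ S z, af x d ⁻¹' connectedComponentIn S (af x d z) =
    connectedComponentIn (af x d ⁻¹' S) z) ∧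
  ∀ Ω K u Λ M, IsMS Ω K u Λ M →
    IsMS (af x d ⁻¹' Ω) (af x d ⁻¹' K) (sc x d u) (Λ * ‖d‖ * √‖d‖) (M / √‖d‖)

def ElStmt : Prop := ∀ Ω K u Λ M, IsMS Ω K u Λ M → ∀ (x : ℂ) (r : ℝ) (φ : ℂ → ℝ),
  closedBall x r ⊆ Ω → LocallyLipschitzOn (Ω \ K) φ → (∀ z, z ∉ closedBall x r → φ z = 0) →
  IntegrableOn (fun z => ‖pd φ z‖ ^ 2) (closedBall x r) →
  IntegrableOn (fun z => Λ * φ z) (closedBall x r) →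
  |∫ z in closedBall x r, (pd u z * conj (pd φ z)).re| ≤ ∫ z in closedBall x r, |Λ * φ z|

def UpStmt : Prop := ∀ Ω K u Λ M, IsMS Ω K u Λ M → ∀ x r, 0 ≤ r → closedBall x r ⊆ Ω →
  En u (closedBall x r) + len K (closedBall x r) ≤ 2 * π * r + 2 * π * (Λ * M) * r ^ 2

def GoodStmt : Prop := ∀ (K : Set ℂ) (u : ℂ → ℝ) (x : ℂ) (r : ℝ), IsClosed K →
  μH[1] (K ∩ closedBall x r) < ⊤ → IntegrableOn (fun z => ‖pd u z‖ ^ 2) (closedBall x r) →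
  (∀ᵐ ρ, ρ ∈ Ioo 0 r → Good K u x ρ) ∧ IntegrableOn (ce u x) (Ioo 0 r) ∧
  IntegrableOn (cnt K x) (Ioo 0 r) ∧ ∀ s t, 0 ≤ s → s ≤ t → t ≤ r →
    En u (closedBall x t) = En u (closedBall x s) + ∫ ρ in s..t, ce u x ρ ∧
    len K (closedBall x s) + ∫ ρ in s..t, cnt K x ρ ≤ len K (closedBall x t)

def ParStmt : Prop := ∀ (C : Set ℂ) (x : ℂ) (ρ α β : ℝ), IsCompact C → IsPreconnected C →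
  0 < ρ → α < β → β ≤ α + 2 * π → circleMap x ρ α ∈ C → circleMap x ρ β ∈ C →
  ∃ χ : ℂ → ℝ, (∀ z, χ z = 0 ∨ χ z = 1) ∧
    (∀ z, z ∉ C → z ∉ circleMap x ρ '' Icc α β → ∀ᶠ w in 𝓝 z, χ w = χ z) ∧
    (∀ y R, C ∪ circleMap x ρ '' Icc α β ⊆ closedBall y R → ∀ z, z ∉ closedBall y R → χ z = 0) ∧
    ∀ θ ∈ Ioo α β, circleMap x ρ θ ∉ C → ∃ σ : ℝ, ∀ᶠ w in 𝓝 (circleMap x ρ θ),
      (‖w - x‖ < ρ → χ w = σ) ∧ (ρ < ‖w - x‖ → χ w = 1 - σ)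

def WirStmt : Prop := ∀ (V v : ℝ → ℝ) (α β : ℝ), α < β → ContinuousOn V (Icc α β) →
  V α = 0 → V β = 0 → (∀ θ ∈ Ioo α β, HasDerivAt V (v θ) θ) → ContinuousOn v (Ioo α β) →
  IntervalIntegrable (fun θ => v θ ^ 2) volume α β →
  ∫ θ in α..β, V θ ^ 2 ≤ ((β - α) / π) ^ 2 * ∫ θ in α..β, v θ ^ 2 ∧
  (((β - α) / π) ^ 2 * ∫ θ in α..β, v θ ^ 2 ≤ ∫ θ in α..β, V θ ^ 2 →
    ∃ κ : ℝ, ∀ θ ∈ Icc α β, V θ = κ * Real.sin (π * (θ - α) / (β - α)))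

def ArcAStmt : Prop :=
  (∀ a b U α β B, AD a b U α β B → ∫ θ in α..β, U θ * b θ ≤
    (β - α) / (2 * π) * (∫ θ in α..β, (a θ ^ 2 + b θ ^ 2)) + |∫ θ in α..β, b θ| * B) ∧
  ∀ (a b U : ℝ → ℝ) (B : ℝ), Continuous a → Continuous b → Function.Periodic b (2 * π) →
    Function.Periodic U (2 * π) → (∀ θ, HasDerivAt U (a θ) θ) → (∀ θ, |U θ| ≤ B) →
    ∫ θ in (0 : ℝ)..2 * π, U θ * b θ ≤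
      (∫ θ in (0 : ℝ)..2 * π, (a θ ^ 2 + b θ ^ 2)) / 2 + |∫ θ in (0 : ℝ)..2 * π, b θ| * B

def ArcBStmt : Prop := ∀ a b U α β B, AD a b U α β B → β = α + 2 * π →
  (∫ θ in α..β, b θ = 0 → ∫ θ in α..β, (a θ ^ 2 + b θ ^ 2) ≤ ∫ θ in α..β, U θ * b θ →
    ∃ κ : ℝ, ∀ θ ∈ Ioo α β, (b θ : ℂ) - I * a θ = κ * exp ((θ - α) / 2 * I)) ∧
  2 * ∫ θ in α..β, U θ * b θ ≤ (∫ θ in α..β, (a θ ^ 2 + b θ ^ 2)) +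
    (∫ θ in α..β, ((b θ : ℂ) - I * a θ) ^ 2 * exp (-(θ - α) * I)).re +
    2 * |∫ θ in α..β, b θ| * B +
    2 * |∫ θ in α..β, b θ| * √(∫ θ in α..β, (a θ ^ 2 + b θ ^ 2)) + (∫ θ in α..β, b θ) ^ 2

def ArcsStmt : Prop := ∀ (K : Set ℂ) (x : ℂ) (ρ : ℝ), 0 < ρ → (K ∩ sphere x ρ).Finite →
  (K ∩ sphere x ρ).Nonempty → ∃ (N : ℕ) (θ : ℕ → ℝ), N = (K ∩ sphere x ρ).ncard ∧ 0 < N ∧
    (∀ i < N, θ i < θ (i + 1) ∧ θ (i + 1) ≤ θ i + 2 * π ∧ Free K x ρ (θ i) (θ (i + 1))) ∧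
    θ N = θ 0 + 2 * π ∧ (∀ i ≤ N, circleMap x ρ (θ i) ∈ K) ∧
    (∀ z ∈ sphere x ρ, z ∉ K → ∃! i, i < N ∧ z ∈ circleMap x ρ '' Ioo (θ i) (θ (i + 1))) ∧
    ∀ α β, Free K x ρ α β → ∃ i < N, β - α ≤ θ (i + 1) - θ i

def CircStmt : Prop := ∀ (Ω K : Set ℂ) (u : ℂ → ℝ) (x : ℂ) (ρ : ℝ), IsOpen (Ω \ K) →
  ContDiffOn ℝ 1 u (Ω \ K) → sphere x ρ ⊆ Ω → Good K u x ρ →
  (∀ θ, circleMap x ρ θ ∉ K → ContinuousAt (cg u x ρ) θ ∧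
    HasDerivAt (fun θ => u (circleMap x ρ θ)) (-(cg u x ρ θ).im) θ) ∧
  (∀ α β, IntervalIntegrable (cg u x ρ) volume α β ∧
    IntervalIntegrable (fun θ => ‖cg u x ρ θ‖ ^ 2) volume α β) ∧
  (∀ α, ∫ θ in α..α + 2 * π, ‖cg u x ρ θ‖ ^ 2 = ρ * ce u x ρ) ∧
  (∫ θ in (0 : ℝ)..2 * π, ‖cg u x ρ θ‖) ^ 2 ≤ 2 * π * ρ * ce u x ρ ∧
  (∃ T, ∀ z ∈ sphere x ρ, z ∉ K → |u z| ≤ T) ∧
  (∀ α β, β ≤ α + 2 * π → Free K x ρ α β → ∀ s ∈ Ioo α β, ∀ t ∈ Ioo α β,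
    |u (circleMap x ρ s) - u (circleMap x ρ t)| ≤ ∫ θ in (0 : ℝ)..2 * π, ‖cg u x ρ θ‖) ∧
  ∀ α β B, α < β → Free K x ρ α β → (∀ z ∈ sphere x ρ, z ∉ K → |u z| ≤ B) →
    AD (fun θ => -(cg u x ρ θ).im) (fun θ => (cg u x ρ θ).re) (fun θ => u (circleMap x ρ θ)) α β B

def DivStmt : Prop := ∀ Ω K u Λ M, IsMS Ω K u Λ M →
  ∀ (x : ℂ) (ρ R σ B : ℝ) (φ : ℂ → ℝ) (φ₀ : ℝ → ℝ), closedBall x R ⊆ Ω → ρ < R → Good K u x ρ →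
  (σ = 1 ∨ σ = -1) → LocallyLipschitzOn ({z ∈ Ω | 0 < σ * (‖z - x‖ - ρ)} \ K) φ →
  (∀ z, 0 < σ * (‖z - x‖ - ρ) → z ∉ closedBall x R → φ z = 0) → (∀ z, |φ z| ≤ B) →
  IntegrableOn (fun z => ‖pd φ z‖ ^ 2) {z ∈ closedBall x R | 0 < σ * (‖z - x‖ - ρ)} →
  (∀ᵐ θ, Tendsto (fun t => φ (circleMap x (ρ + σ * t) θ)) (𝓝[>] 0) (𝓝 (φ₀ θ))) →
  |(∫ z in {z ∈ closedBall x R | 0 < σ * (‖z - x‖ - ρ)}, (pd u z * conj (pd φ z)).re) +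
      σ * ∫ θ in (0 : ℝ)..2 * π, φ₀ θ * (cg u x ρ θ).re| ≤
    ∫ z in {z ∈ closedBall x R | 0 < σ * (‖z - x‖ - ρ)}, |Λ * φ z|

def EidStmt : Prop := ∀ Ω K u Λ M, IsMS Ω K u Λ M → ∀ x ρ, closedBall x ρ ⊆ Ω → Good K u x ρ →
  |En u (closedBall x ρ) - ∫ θ in (0 : ℝ)..2 * π, u (circleMap x ρ θ) * (cg u x ρ θ).re| ≤
    π * (Λ * M) * ρ ^ 2 ∧
  |∫ θ in (0 : ℝ)..2 * π, (cg u x ρ θ).re| ≤ π * Λ * ρ ^ 2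

def FlxStmt : Prop := ∀ Ω K u Λ M, IsMS Ω K u Λ M → ∀ (x : ℂ) (ρ R α β : ℝ) (C : Set ℂ),
  closedBall x R ⊆ Ω → ρ ≤ R → Good K u x ρ → α < β → β ≤ α + 2 * π → Free K x ρ α β →
  IsCompact C → IsPreconnected C → C ⊆ K ∩ closedBall x R → circleMap x ρ α ∈ C →
  circleMap x ρ β ∈ C → |∫ θ in α..β, (cg u x ρ θ).re| ≤ 2 * π * Λ * R ^ 2

def BonStmt : Prop := ∀ Ω K u Λ M, IsMS Ω K u Λ M → ∀ x ρ, Good K u x ρ →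
  (closedBall x ρ ⊆ Ω → K ∩ sphere x ρ = ∅ →
    En u (closedBall x ρ) ≤ ρ * ce u x ρ / 2 + 7 * (Λ * M) * ρ ^ 2) ∧
  ∀ A θ₀, 1 ≤ A → closedBall x (A * ρ) ⊆ Ω → LocConn K A x ρ →
    (∀ α β, Free K x ρ α β → β - α ≤ θ₀) → En u (closedBall x ρ) ≤
      θ₀ / (2 * π) * ρ * ce u x ρ + 7 * (1 + cnt K x ρ) * A ^ 2 * (Λ * M) * ρ ^ 2

def GronStmt : Prop := ∀ (f e h : ℝ → ℝ) (a b q : ℝ), 0 < a → a ≤ b → 0 < q →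
  IntervalIntegrable e volume a b → IntervalIntegrable h volume a b →
  (∀ t ∈ Icc a b, f t = f a + ∫ ρ in a..t, e ρ) →
  (∀ᵐ ρ, ρ ∈ Ioo a b → f ρ ≤ ρ * e ρ / q + ρ ^ 2 * h ρ) →
  f a / a ^ q ≤ f b / b ^ q + q * ∫ ρ in a..b, ρ ^ (1 - q) * h ρ

def MonoStmt : Prop := ∀ Ω K u Λ M A, IsReg Ω K u Λ M A → ∀ y s b, 0 < s → s ≤ b →
  closedBall y (A * b) ⊆ Ω →
  En u (closedBall y s) / s ≤ En u (closedBall y b) / b + 100 * A ^ 2 * (Λ * M) * b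

def RemStmt : Prop := ∀ Ω K u Λ M, IsMS Ω K u Λ M → ∀ (x : ℂ) (ρ η l : ℝ), 0 < ρ →
  closedBall x ρ ⊆ Ω → 0 < η → η ≤ 1 → 0 < l → l < 1 →
  (∀ (J : Set ℂ) (m s : ℝ) (z₀ : ℂ), IsClosed J → J ⊆ sphere x ρ → 0 < s →
    (∀ z ∈ sphere x ρ, z ∉ K → z ∉ J → |u z - m| < s ∧ z ∈ connectedComponentIn (Ω \ K) z₀) →
    len K (ball x ((1 - l) * ρ)) ≤ (μH[1] J).toReal + η * En u (closedBall x ρ) +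
      4 * π * s ^ 2 / (η * l) + 2 * π * (Λ * M) * ρ ^ 2) ∧
  ∀ α β, Good K u x ρ → α < β → β ≤ α + 2 * π → Free K x ρ α β →
    len K (ball x ((1 - l) * ρ)) ≤ (2 * π - (β - α)) * ρ + η * En u (closedBall x ρ) +
      4 * π * (∫ θ in (0 : ℝ)..2 * π, ‖cg u x ρ θ‖) ^ 2 / (η * l) + 2 * π * (Λ * M) * ρ ^ 2

def DensStmt : Prop := ∃ c, 0 < c ∧ ∀ Ω K u Λ M, IsMS Ω K u Λ M → ∀ x ∈ K, ∀ r, 0 < r →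
  closedBall x r ⊆ Ω → Λ * M * r ≤ 1 → c * r ≤ len K (closedBall x r)

def LowStmt : Prop := ∀ ε, 0 < ε → ∃ δ, 0 < δ ∧ ∀ Ω K u Λ M, IsMS Ω K u Λ M → ∀ x ∈ K, ∀ r,
  0 < r → closedBall x r ⊆ Ω → Λ * M * r ≤ δ →
  ∫ z in closedBall x r, ‖pd u z‖ ≤ δ * r * √r → (2 - ε) * r ≤ len K (closedBall x r)

def DecayStmt : Prop := ∀ A, ∃ δ C, 0 < δ ∧ 0 ≤ C ∧ ∀ Ω K u Λ M, IsReg Ω K u Λ M A →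
  ∀ y ∈ K, ∀ b, 0 < b → closedBall y (A * b) ⊆ Ω → En u (closedBall y b) ≤ δ * b →
  Λ * M * b ≤ δ → ∀ s ∈ Ioc 0 b, En u (closedBall y s) ≤
    (s / b) ^ (1 / 3 : ℝ) * (En u (closedBall y b) / b + C * (Λ * M) * b) * s

def StarStmt : Prop := ∀ Ω K u Λ M, IsMS Ω K u Λ M → ∀ (x : ℂ) (ρ : ℝ) (Z : Set ℂ),
  closedBall x ρ ⊆ Ω → Good K u x ρ → (K ∩ sphere x ρ).Nonempty → IsCompact Z →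
  IsPreconnected Z → Z ⊆ closedBall x (ρ / 2) → (∀ p ∈ K ∩ sphere x ρ, (x + p) / 2 ∈ Z) →
  μH[1] Z < ⊤ → En u (closedBall x ρ) + len K (closedBall x ρ) ≤
    cnt K x ρ * ρ / 2 + (μH[1] Z).toReal + 200 * ρ * ce u x ρ + 7 * (Λ * M) * ρ ^ 2

def NetStmt : Prop := ∀ (P : Finset ℂ) (x : ℂ) (ρ : ℝ), 0 < ρ → P.Nonempty →
  (P : Set ℂ) ⊆ sphere x ρ → ∀ s : ℝ,
  (s = ‖∑ p ∈ P, (p - x) / ρ‖ ^ 2 / (4 * P.card) ∨ (4 ≤ P.card ∧ s = 1 / 50)) →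
  ∃ Z : Set ℂ, IsCompact Z ∧ IsPreconnected Z ∧ Z ⊆ closedBall x (ρ / 2) ∧
    (∀ p ∈ P, (x + p) / 2 ∈ Z) ∧ μH[1] Z < ⊤ ∧ (μH[1] Z).toReal ≤ P.card * ρ / 2 - ρ * s

def AmStmt : Prop := ∀ A ε, 0 < ε → ∃ δ, 0 < δ ∧ ∀ Ω K u Λ M, IsReg Ω K u Λ M A →
  ∀ y ∈ K, ∀ b, 0 < b → closedBall y (A * b) ⊆ Ω → En u (closedBall y b) ≤ δ * b →
  Λ * M * b ≤ δ → AMin K y b ε

def ApxStmt : Prop :=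
  (∃ C, 0 ≤ C ∧ ∀ Ω K u Λ M, IsMS Ω K u Λ M → ∀ x r, 0 < r → closedBall x (2 * r) ⊆ Ω \ K →
    (∀ ε, 0 < ε → ∃ h : ℂ → ℂ, DifferentiableOn ℂ h (ball x r) ∧
      ∀ z ∈ ball x r, ‖pd u z - h z‖ ≤ C * Λ * r + ε) ∧
    (Λ * M * (2 * r) ≤ 1 → ‖pd u x‖ ^ 2 * r ≤ C)) ∧
  ∀ K u, GM K u → DifferentiableOn ℂ (pd u) Kᶜ

def FidStmt : Prop := ∃ C, 0 ≤ C ∧ ∀ Ω K u Λ M, IsMS Ω K u Λ M →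
  ∀ (x : ℂ) (r t : ℝ) (X : ℂ → ℂ), 0 < t → t ≤ r / 4 → closedBall x (2 * r) ⊆ Ω →
  Λ * M * (2 * r) ≤ 1 → ContDiff ℝ 1 X → (∀ z, ‖fderiv ℝ X z‖ ≤ 1 / 2) → (∀ z, ‖X z‖ ≤ t) →
  Λ * ∫ z in closedBall x r, min |u (z + X z) - u z| (2 * M) ≤ C * (Λ * M) * t * r

def CovStmt : Prop := ∀ (E U : Set ℂ) (F : ℂ → Set ℝ) (ε : ℝ), μH[1] E < ⊤ → IsOpen U →
  E ⊆ U → 0 < ε → (∀ y ∈ E, ∀ δ, 0 < δ → (F y ∩ Ioo 0 δ).Nonempty) →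
  ∃ (T : Finset ℂ) (r : ℂ → ℝ),
    (∀ y ∈ T, y ∈ E ∧ r y ∈ F y ∧ 0 < r y ∧ closedBall y (r y) ⊆ U) ∧
    (T : Set ℂ).PairwiseDisjoint (fun y => closedBall y (r y)) ∧
    (μH[1] E).toReal ≤ ε + ∑ y ∈ T, 2 * r y

def DzStmt : Prop := ∀ (E O : Set ℂ) (g : ℂ → ℝ), MeasurableSet E → μH[1] E < ⊤ → IsOpen O →
  E ⊆ O → IntegrableOn g O → (∀ z, 0 ≤ g z) → ∀ δ, 0 < δ →
  ∀ᵐ y ∂((μH[1] : Measure ℂ).restrict E), ∀ᶠ s in 𝓝[>] (0 : ℝ),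
    ∫ z in closedBall y s, g z ≤ δ * s

def Def0Stmt : Prop := ∀ X : ℂ → ℂ, ContDiff ℝ 1 X → (∀ z, ‖fderiv ℝ X z‖ ≤ 1 / 2) →
  ∃ W : ℂ ≃ₜ ℂ, (∀ z, W z = z + X z) ∧ LipschitzWith 2 W.symm ∧ ContDiff ℝ 1 W.symm ∧
    (∀ z, 1 / 4 ≤ jac X z ∧ jac X z ≤ 9 / 4) ∧
    (∀ (h : ℂ → ℝ≥0∞) (S : Set ℂ), MeasurableSet S →
      ∫⁻ z in W '' S, h z = ∫⁻ z in S, ENNReal.ofReal (jac X z) * h (W z)) ∧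
    (∀ (h : ℂ → ℝ) (S : Set ℂ), MeasurableSet S →
      (IntegrableOn h (W '' S) ↔ IntegrableOn (fun z => jac X z * h (W z)) S) ∧
      ∫ z in W '' S, h z = ∫ z in S, jac X z * h (W z)) ∧
    ∀ (f : ℂ → ℝ) (z : ℂ), jac X z * ‖pd (f ∘ W.symm) (W z)‖ ^ 2 = dens X (pd f z) z

def AlgStmt : Prop := ∃ C, 0 ≤ C ∧ ∀ α β P : ℂ, ‖α‖ + ‖β‖ ≤ 1 / 2 →
  |dd α β P - ‖P‖ ^ 2| ≤ 4 * (‖α‖ + ‖β‖) * ‖P‖ ^ 2 ∧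
  |dd α β P - ‖P‖ ^ 2 + 2 * (β * P ^ 2).re| ≤ C * (‖α‖ + ‖β‖) ^ 2 * ‖P‖ ^ 2 ∧
  |dd α β P - ‖P‖ ^ 2 - 2 * ‖β‖ ^ 2 * ‖P‖ ^ 2 + 2 * ((β - α * β) * P ^ 2).re| ≤
    C * (‖α‖ + ‖β‖) ^ 3 * ‖P‖ ^ 2

def DefcStmt : Prop := ∀ Ω K u Λ M, IsMS Ω K u Λ M →
  ∀ (x : ℂ) (r : ℝ) (X : ℂ → ℂ) (ϑ : ℂ → ℝ), closedBall x r ⊆ Ω → ContDiff ℝ 1 X →
  (∀ z, ‖fderiv ℝ X z‖ ≤ 1 / 2) → (∀ z, z ∉ closedBall x r → X z = 0 ∧ ϑ z = 0) →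
  LocallyLipschitzOn (Ω \ K) ϑ → IntegrableOn (fun z => ‖pd ϑ z‖ ^ 2) (closedBall x r) →
  IntegrableOn (fun z => dens X (pd u z + pd ϑ z) z) (closedBall x r) ∧
  En u (closedBall x r) + len K (closedBall x r) ≤
    (∫ z in closedBall x r, dens X (pd u z + pd ϑ z) z) +
    (μH[1] ((fun z => z + X z) '' (K ∩ closedBall x r))).toReal +
    3 * Λ * ∫ z in closedBall x r, min |u (z + X z) - u z - ϑ z| (2 * M)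

def LencStmt : Prop := ∀ (W : ℂ → ℂ) (S : Set ℂ), ContDiff ℝ 1 W → MeasurableSet S →
  μH[1] S < ⊤ → μH[1] (W '' S) ≤ ∫⁻ z in S, ‖fderiv ℝ W z‖ₑ ∂μH[1]

def CurveStmt : Prop := ∀ (γ γ' : ℝ → ℂ) (s t : ℝ), s ≤ t →
  (∀ ρ ∈ Icc s t, HasDerivAt γ (γ' ρ) ρ) → ContinuousOn γ' (Icc s t) →
  μH[1] (γ '' Icc s t) ≤ ENNReal.ofReal (∫ ρ in s..t, ‖γ' ρ‖) ∧
  (InjOn γ (Icc s t) → μH[1] (γ '' Icc s t) = ENNReal.ofReal (∫ ρ in s..t, ‖γ' ρ‖))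

def CauStmt : Prop := ∀ ψ : ℂ → ℂ, ContDiff ℝ (⊤ : ℕ∞) ψ → HasCompactSupport ψ →
  ContDiff ℝ (⊤ : ℕ∞) (cau ψ) ∧ (∀ a, db (cau ψ) a = ψ a) ∧ ∀ a, cau (db ψ) a = ψ a

def HolkStmt : Prop :=
  (∀ (ψ : ℂ → ℂ) (O : Set ℂ), AEStronglyMeasurable ψ →
    Integrable (fun z => ‖ψ z‖ / (1 + ‖z‖) ^ 2) → IsOpen O → (∀ z ∈ O, ψ z = 0) →
    (∀ a ∈ O, Integrable fun z => ψ z / (a - z) ^ 2) ∧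
    DifferentiableOn ℂ (fun a => ∫ z, ψ z / (a - z) ^ 2) O) ∧
  ∀ (ψ : ℂ → ℂ) (R : ℝ), Integrable ψ → 0 < R → (∀ z, R < ‖z‖ → ψ z = 0) →
    (∀ O, IsOpen O → (∀ z ∈ O, ψ z = 0) → ∀ a ∈ O,
      HasDerivAt (cau ψ) (-(1 / π : ℂ) * ∫ z, ψ z / (a - z) ^ 2) a) ∧
    ∀ a, 2 * R ≤ ‖a‖ → ‖cau ψ a‖ ≤ (∫ z, ‖ψ z‖) / ‖a‖ ∧
      ‖fderiv ℝ (cau ψ) a‖ ≤ 2 * (∫ z, ‖ψ z‖) / ‖a‖ ^ 2

def IsoStmt : Prop := ∀ Θ : ℂ → ℂ, ContDiff ℝ (⊤ : ℕ∞) Θ → HasCompactSupport Θ →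
  ∫ z, ‖dz Θ z‖ ^ 2 = ∫ z, ‖db Θ z‖ ^ 2

def GrowStmt : Prop := ∀ s : ℝ, 1 < s → ∃ C', 0 ≤ C' ∧ ∀ (μ : Measure ℂ) (C : ℝ), 0 ≤ C →
  (∀ R, 1 ≤ R → μ (closedBall 0 R) ≤ ENNReal.ofReal (C * R)) → ∀ R, 1 ≤ R →
  ∫⁻ z, ENNReal.ofReal ((R + ‖z‖) ^ (-s)) ∂μ ≤ ENNReal.ofReal (C' * C * R ^ (1 - s))

def MolStmt : Prop := ∀ (F : Type) [NormedAddCommGroup F] [NormedSpace ℝ F] [CompleteSpace F]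
  (f : ℂ → F), LocallyIntegrable f →
  (∀ φ : ContDiffBump (0 : ℂ), ContDiff ℝ (⊤ : ℕ∞) (mol φ f) ∧
    (∀ a, mol φ f a = ∫ z, φ.normed volume (a - z) • f z) ∧
    ∀ a e, fderiv ℝ (mol φ f) a e = ∫ z, fderiv ℝ (φ.normed volume) (a - z) e • f z) ∧
  ∀ φ : ℕ → ContDiffBump (0 : ℂ), Tendsto (fun n => (φ n).rOut) atTop (𝓝 0) →
    (∀ O C, IsOpen O → ContinuousOn f O → IsCompact C → C ⊆ O →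
      TendstoUniformlyOn (fun n => mol (φ n) f) f atTop C) ∧
    ((∀ n, (φ n).rOut ≤ 2 * (φ n).rIn) → ∀ᵐ a, Tendsto (fun n => mol (φ n) f a) atTop (𝓝 (f a)))

def WgStmt : Prop := ∀ (O : Set ℂ) (w : ℂ → ℝ), IsOpen O → LocallyLipschitzOn O w →
  IsWeakGrad O w fun z => conj (pd w z)

/-! ### Compactness -/

def Cpt1aStmt : Prop := ∀ Ω K u Λ M R, Seq Ω K u Λ M R → ∃ P, Lim0 K u P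

def Cpt1bStmt : Prop := ∀ Ω K u Λ M R P, Seq Ω K u Λ M R → Lim0 K u P → ∃ v, Lim K u v

def Cpt2aStmt : Prop := ∀ Ω K u Λ M R v, Seq Ω K u Λ M R → Lim K u v → LimE K u v

def Cpt2bStmt : Prop := ∀ Ω K u Λ M R v, Seq Ω K u Λ M R → Lim K u v → LimE K u v →
  ∀ x r ε, 0 < ε → ∀ᶠ j in hyperfilter ℕ, len (limK K) (ball x r) ≤ len (K j) (ball x r) + ε

def Cpt3aStmt : Prop := ∀ Ω K u Λ M R v, Seq Ω K u Λ M R → Lim K u v →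
  ∀ (A : Set ℂ) (ζ : Set ℂ → ℂ), IsCompact A → A ⊆ (limK K)ᶜ → (∀ C : Set ℂ, C.Nonempty → ζ C ∈ C) →
  ∀ ε, 0 < ε → ∀ᶠ j in hyperfilter ℕ, ∀ z ∈ A,
    z ∈ connectedComponentIn (Ω j \ K j) (ζ (connectedComponentIn (limK K)ᶜ z)) ∧
    |u j z - u j (ζ (connectedComponentIn (limK K)ᶜ z)) -
      (v z - v (ζ (connectedComponentIn (limK K)ᶜ z)))| ≤ ε

def Cpt3Stmt : Prop := ∀ Ω K u Λ M R v, Seq Ω K u Λ M R → Lim K u v → LimE K u v →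
  ∀ x r L w, Comp univ (limK K) v x r L w → ∀ ρ, 0 < ρ → r < ρ → (limK K ∩ sphere x ρ).Finite →
  ∀ ε, 0 < ε → ∀ᶠ j in hyperfilter ℕ, En (u j) (closedBall x ρ) + len (K j) (closedBall x ρ) ≤
    En w (closedBall x ρ) + len L (closedBall x ρ) + ε

def CptStmt : Prop := ∀ Ω K u Λ M R, Seq Ω K u Λ M R → ∃ v, GM (limK K) v ∧ Lim K u v ∧
  ∀ x r, Tendsto (fun j => En (u j) (closedBall x r)) (hyperfilter ℕ)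
      (𝓝 (En v (closedBall x r))) ∧
    ∀ ε, 0 < ε → ∀ᶠ j in hyperfilter ℕ,
      len (K j) (closedBall x r) ≤ len (limK K) (closedBall x r) + ε

/-! ### No global minimizer splits -/

def ChiStmt : Prop := ∀ K₁ : Set ℂ, ∃ χ, IsChi K₁ χ

def PorStmt : Prop := ∀ K u, GM K u → ∃ c, 0 < c ∧ ∀ R, 1 ≤ R → ∃ b : ℂ, R ≤ ‖b‖ ∧
  ‖b‖ ≤ 2 * R ∧ ∀ z ∈ K, c * R ≤ ‖z - b‖

def Sv1Stmt : Prop := ∀ K u, GM K u → ∀ (X : ℂ → ℂ) (ϑ : ℂ → ℝ), ContDiff ℝ 1 X → Decay X →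
  (∀ z, ‖fderiv ℝ X z‖ ≤ 1 / 4) → (∀ z ∈ K, db X z = 0) → LocallyLipschitzOn Kᶜ ϑ →
  HasCompactSupport ϑ → Integrable (fun z => ‖pd ϑ z‖ ^ 2) →
  Integrable (fun z => dens X (pd u z + pd ϑ z) z - ‖pd u z‖ ^ 2) ∧
  IntegrableOn (fun z => ‖1 + dz X z‖ - 1) K μH[1] ∧
  0 ≤ (∫ z, (dens X (pd u z + pd ϑ z) z - ‖pd u z‖ ^ 2)) + ∫ z in K, (‖1 + dz X z‖ - 1) ∂μH[1]

def Sv2Stmt : Prop := ∀ K u, GM K u → ∀ (X Θ : ℂ → ℂ) (η : ℝ), ContDiff ℝ 1 X → Decay X →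
  (∀ z ∈ K, db X z = 0) → Test K univ Θ → 0 ≤ η →
  ∫⁻ z in K, ‖dz X z‖ₑ ^ 2 ∂μH[1] ≤ ENNReal.ofReal η →
  -η ≤ ∫ z, (2 * ‖db X z * pd u z - db Θ z‖ ^ 2 + ‖dz Θ z‖ ^ 2 - ‖db Θ z‖ ^ 2)

def Kap1Stmt : Prop := ∀ (K : Set ℂ) (ψ : ℂ → ℂ) (c : ℂ) (η : ℝ), IsClosed K → volume K = 0 →
  ContDiff ℝ (⊤ : ℕ∞) ψ → Integrable (fun z => ‖ψ z‖ ^ 2) → (∀ z ∈ ball c (1 / 4), ψ z = 0) →
  (∀ Θ, Test K univ Θ → -η ≤ ∫ z, (2 * ‖ψ z - db Θ z‖ ^ 2 + ‖dz Θ z‖ ^ 2 - ‖db Θ z‖ ^ 2)) →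
  ∀ φ, Test K (ball c (1 / 4)) φ → -η ≤ (∫ z, (‖db φ z‖ ^ 2 + ‖dz φ z‖ ^ 2)) +
    2 * (∫ a, (-(1 / π : ℂ) * ∫ z, ψ z / (a - z) ^ 2) * conj (dz φ a)).re

def PsiStmt : Prop := ∀ K K₁ K₂ u χ, GM K u → Split K K₁ K₂ → IsChi K₁ χ →
  ContDiff ℝ (⊤ : ℕ∞) (fun z => db (fun w => (χ w : ℂ)) z * pd u z) ∧
  Integrable (fun z => ‖db (fun w => (χ w : ℂ)) z * pd u z‖ / (1 + ‖z‖) ^ 2) ∧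
  Integrable (fun z => ‖db (fun w => (χ w : ℂ)) z * pd u z‖ ^ 2 / (1 + ‖z‖) ^ 2) ∧
  ∀ z ∈ ball 0 (1 / 4) ∪ ball I (1 / 4), db (fun w => (χ w : ℂ)) z = 0

def Kap2Stmt : Prop := ∀ K K₁ K₂ u χ, GM K u → Split K K₁ K₂ → IsChi K₁ χ →
  ∀ c, (c = 0 ∨ c = I) → ∀ φ, Test K (ball c (1 / 4)) φ → ∫ a, kap χ (pd u) a * db φ a = 0

def ExtStmt : Prop := ∀ K K₁ K₂ u χ, GM K u → Split K K₁ K₂ → IsChi K₁ χ →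
  ∃ F₁ F₂ : ℂ → ℂ, DifferentiableOn ℂ F₁ (ball 0 1) ∧ DifferentiableOn ℂ F₂ (ball I 1) ∧
    (∀ a ∈ ball 0 (1 / 4), F₁ a = kap χ (pd u) a) ∧
    (∀ a ∈ ball I (1 / 4), F₂ a = kap χ (pd u) a) ∧
    ∀ a ∈ ball 0 1 ∩ ball I 1, F₁ a - F₂ a = deriv (pd u) a

def CaseA2Stmt : Prop := ∀ K u, GM K u → ∀ y ∈ K, ∀ r, 0 < r →
  ¬ ∀ φ, Test K (ball y r) φ → ∫ a, db φ a = 0

def CaseA1Stmt : Prop := ∀ K u, GM K u → ∀ c ∈ K, ∀ κ : ℂ → ℂ,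
  DifferentiableOn ℂ κ (ball c (1 / 4)) →
  (∀ φ, Test K (ball c (1 / 4)) φ → ∫ a, κ a * db φ a = 0) → ∀ a ∈ ball c (1 / 4), κ a = 0

def AnxStmt : Prop := ∀ K u, GM K u → ∀ (z₀ : ℂ) (Q O J : Set ℂ) (w : ℂ → ℝ), IsOpen Q →
  Bornology.IsBounded Q → IsOpen O → closure Q ⊆ O → LocallyLipschitzOn O w →
  (∀ z ∈ O ∩ connectedComponentIn Kᶜ z₀, w z = u z) → IsClosed J → J ⊆ frontier Q →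
  frontier Q ⊆ connectedComponentIn Kᶜ z₀ ∪ J ∪ K → μH[1] J < ⊤ →
  len K Q + En u Q ≤ (μH[1] (J \ K)).toReal + En w Q

def CutStmt : Prop := ∀ K u, GM K u → ∀ (z₀ : ℂ) (a b c d : ℝ),
  (∀ z ∈ connectedComponentIn Kᶜ z₀, pd u z = 0) → a < b → c < d →
  (∀ z : ℂ, (z.re ∈ Icc a b ∧ z.im = c) ∨ ((z.re = a ∨ z.re = b) ∧ z.im ∈ Icc c d) →
    z ∈ connectedComponentIn Kᶜ z₀) → ∀ z : ℂ, z.re ∈ Ioo a b → z.im ∈ Ioo c d → z ∉ K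

def Conv1Stmt : Prop := ∀ K u, GM K u → ∀ z₀ : ℂ,
  (∀ z ∈ connectedComponentIn Kᶜ z₀, pd u z = 0) → Convex ℝ (connectedComponentIn Kᶜ z₀)

def Conv2Stmt : Prop := ∀ K K₁ K₂ U : Set ℂ, Split K K₁ K₂ → IsOpen U → Convex ℝ U →
  frontier U ⊆ K → (∀ t ∈ Ioo (0 : ℝ) 1, (t : ℂ) * I ∈ U) → 0 ∉ U → I ∉ U →
  ∃ e : ℂ, e ≠ 0 ∧ ∀ z ∈ U, ∀ t : ℝ, z + t * e ∈ U

def SlideStmt : Prop := ∀ K u, GM K u → ∀ z₀ c : ℂ,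
  (∀ z ∈ connectedComponentIn Kᶜ z₀, pd u z = c) →
  ∀ z ∈ connectedComponentIn Kᶜ z₀, ∀ t : ℝ, z + t * conj c ∈ connectedComponentIn Kᶜ z₀

def PinchStmt : Prop := ∀ K u, GM K u → ∀ p q e : ℂ, (∀ t : ℝ, p + t * e ∈ K) →
  (∀ t : ℝ, q + t * e ∈ K) → (conj e * (q - p)).im = 0

def TstarStmt : Prop := ∀ K K₁ K₂ u, GM K u → ¬ Split K K₁ K₂

def LcStmt : Prop := ∃ A c, 0 < c ∧ ∀ Ω K u Λ M, IsMS Ω K u Λ M →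
  (∀ x r, closedBall x r ⊆ Ω → Λ * M * r ≤ c) → IsReg Ω K u Λ M A

/-! ### Geometry of almost minimal sets -/

def ThStmt : Prop := ∀ K y b ε, AMin K y b ε →
  (∀ r ∈ Ioc 0 b, 2 * r - 2 * ε * (r / b) ^ (1 / 3 : ℝ) * r ≤ len K (closedBall y r)) ∧
  (∀ s r, 0 < s → s ≤ r → r ≤ b → len K (closedBall y s) / s ≤
    len K (closedBall y r) / r + 10 * ε * (r / b) ^ (1 / 3 : ℝ)) ∧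
  ∃ r₀, 0 < r₀ ∧ ∀ r ∈ Ioc 0 r₀, len K (closedBall y r) ≤ 13 / 4 * r

def UpnStmt : Prop := ∀ ε', 0 < ε' → ∃ ε, 0 < ε ∧ ∀ (K : Set ℂ) (x : ℂ) (b : ℝ) (n : ℕ),
  (n = 2 ∨ n = 3) → AMin K x b ε →
  (∀ r ∈ Ioc 0 b, (n - 9 / 10) * r ≤ len K (closedBall x r) ∧
    len K (closedBall x r) ≤ (n + 1 / 4) * r) → Cone K x n (b / 4) ε' (1 / 6)

def SlcStmt : Prop := ∃ C, 0 ≤ C ∧ ∀ (K : Set ℂ) (x : ℂ) (n : ℕ) (b ε γ : ℝ), n ≤ 3 → 0 < γ →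
  γ ≤ 1 → Cone K x n b ε γ → ∀ y t, y ≠ x → ‖y - x‖ ≤ b / 2 → 0 < t → t ≤ ‖y - x‖ / 4 →
  len K (closedBall y t) ≤ (volume ((fun z => ‖z - x‖) '' (K ∩ closedBall y t))).toReal +
    C * ε * (‖y - x‖ / b) ^ γ * ‖y - x‖ ∧
  len K (closedBall y t) ≤ 2 * t + C * ε * (‖y - x‖ / b) ^ γ * ‖y - x‖

def Ray1Stmt : Prop := ∀ ε', 0 < ε' → ∃ ε, 0 < ε ∧ ∀ (K : Set ℂ) (x : ℂ) (n : ℕ) (b γ : ℝ),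
  n ≤ 3 → 0 < γ → γ ≤ 1 → Cone K x n b ε γ → LB K x b ε γ → Cmpr K x n (b / 2) ε' (γ / 2)

def RayStmt : Prop := ∀ γ ε', 0 < γ → γ ≤ 1 → 0 < ε' → ∃ ε, 0 < ε ∧
  ∀ (K : Set ℂ) (x : ℂ) (n : ℕ) (b : ℝ), 1 ≤ n → n ≤ 3 → Cone K x n b ε γ → LB K x b ε γ →
  ∃ Φ, Ray K x n (b / 4) ε' (γ / 2) Φ

def FlStmt : Prop := ∀ ε', 0 < ε' → ∃ ε, 0 < ε ∧ ∀ (K : Set ℂ) (y : ℂ) (b : ℝ), y ∈ K → 0 < b →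
  (∀ z ∈ K ∩ closedBall y b, AMin K z b ε) → len K (closedBall y b) ≤ 11 / 5 * b →
  ∃ τ, Tan K y (b / 16) ε' (1 / 12) τ

def FlatStmt : Prop := ∀ (K : Set ℂ) (y : ℂ) (b γ : ℝ), IsClosed K → y ∈ K → 0 < b → 0 < γ →
  γ ≤ 1 → (∀ z ∈ K ∩ closedBall y b, ∃ τ, Tan K z b (1 / 100) γ τ) → Concl K y b

def BrStmt : Prop := ∀ (K : Set ℂ) (x e : ℂ) (b κ γ γ' C : ℝ), IsClosed K → ‖e‖ = 1 → 0 < b →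
  0 < κ → κ ≤ 1 → 0 < γ → γ ≤ 1 → 0 < γ' → γ' ≤ 1 →
  (∀ z ∈ K, z ≠ x → ‖z - x‖ ≤ b → ‖dir x z - e‖ ≤ 1 / 2 → ‖dir x z - e‖ ≤ C * ‖z - x‖ ^ γ) →
  (∀ s ∈ Ioc 0 b, ∃ z ∈ K, ‖z - x - s * e‖ ≤ C * s ^ γ * s) → TanH K x b κ γ' →
  ∀ᶠ r in 𝓝[>] (0 : ℝ), ∃ (α l : ℝ) (c c' : ℝ → ℂ), 0 < α ∧ 0 < l ∧ IsArc α c c' ∧ c 0 = x ∧
    c' 0 = l * e ∧ c '' Icc 0 1 = {x} ∪ {z ∈ K | z ≠ x ∧ ‖z - x‖ ≤ 2 * r ∧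
      ‖dir x z - e‖ ≤ 1 / 2 ∧ (conj e * (z - x)).re ≤ r}

def JuncStmt : Prop := ∀ (K : Set ℂ) (x Φ : ℂ) (n : ℕ) (b ε κ γ γ' : ℝ), IsClosed K → x ∈ K →
  (n = 1 ∨ n = 3) → 0 < b → 0 < κ → κ ≤ 1 → 0 < γ → γ ≤ 1 → 0 < γ' → γ' ≤ 1 →
  Ray K x n b ε γ Φ → TanH K x b κ γ' → Concl K x b

def LowgeoStmt : Prop := ∃ ε, 0 < ε ∧ ∀ (K : Set ℂ) (x : ℂ) (b : ℝ), x ∈ K → 0 < b →
  (∀ z ∈ K ∩ closedBall x b, AMin K z b ε) → Concl K x b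

def TiplowStmt : Prop := ∀ K x r γ τ, IsClosed K → Tip K x r γ τ → ∀ b ε γ', 0 < b →
  b ≤ r / 2 → 0 ≤ ε → LB K x b ε γ'

/-! ### Crack tips -/

def G1aStmt : Prop := ∀ K v D, GM K v → 0 < D →
  (∀ ρ, 0 < ρ → En v (closedBall 0 ρ) = D * ρ) → ∀ᵐ ρ, 0 < ρ → ∃ α : ℝ,
    K ∩ sphere 0 ρ = {circleMap 0 ρ α} ∧
    ∀ z ∈ sphere 0 ρ, z ∉ K → z * pd v z ^ 2 = D / (2 * π) * exp (-α * I)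

def G1Stmt : Prop := ∀ K v D, GM K v → 0 < D →
  (∀ ρ, 0 < ρ → En v (closedBall 0 ρ) = D * ρ) →
  (∃ e : ℂ, ∀ z ∈ K, ∃ t : ℝ, 0 ≤ t ∧ z = t * e) ∧ ∀ z, z ∉ K → ‖z‖ * ‖pd v z‖ ^ 2 ≤ 1

def HiStmt : Prop := ∀ Ω K u Λ M, IsMS Ω K u Λ M → ∀ x ∈ K, x ∈ Ω → ∀ D, 0 < D →
  Tendsto (fun r => En u (closedBall x r) / r) (𝓝[>] 0) (𝓝 D) →
  ∀ ε₁, 0 < ε₁ → ∃ κ, 0 < κ ∧ κ ≤ 1 / 2 ∧ ∀ κ' ∈ Ioc 0 κ, ∀ ε₂, 0 < ε₂ → ∃ r₁, 0 < r₁ ∧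
    ∀ y ∈ K, y ≠ x → ‖y - x‖ ≤ r₁ →
      En u (closedBall y (κ * ‖y - x‖)) ≤ ε₁ * (κ * ‖y - x‖) ∧
      len K (closedBall y (κ' * ‖y - x‖)) ≤ 11 / 5 * (κ' * ‖y - x‖) ∧
      ∀ z ∈ K, ‖y - x‖ / 2 ≤ ‖z - x‖ → ‖z - x‖ ≤ 2 * ‖y - x‖ → ‖dir x z - dir x y‖ ≤ ε₂

def ParamStmt : Prop := ∀ (K : Set ℂ) (x : ℂ) (r κ γ' : ℝ), IsClosed K → x ∈ K → 0 < r →
  0 < κ → κ ≤ 1 → 0 < γ' → γ' ≤ 1 → TanH K x r κ γ' →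
  (∀ y ∈ K, y ≠ x → ‖y - x‖ ≤ r → ∀ z ∈ K, ‖y - x‖ / 2 ≤ ‖z - x‖ → ‖z - x‖ ≤ 2 * ‖y - x‖ →
    ‖dir x z - dir x y‖ ≤ κ / 100) →
  (∀ δ, 0 < δ → ∃ y ∈ K, y ≠ x ∧ ‖y - x‖ < δ) → ∃ γ τ, Tip K x (r / 2) γ τ

def Stat1Stmt : Prop := ∃ C, 0 ≤ C ∧ ∀ Ω K u Λ M, IsMS Ω K u Λ M → ∀ x r γ τ, Tip K x r γ τ →
  closedBall x (2 * r) ⊆ Ω → Λ * M * (2 * r) ≤ 1 → ∀ (g : ℝ → ℝ) (s t : ℝ), Continuous g →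
  (∀ ρ, 0 ≤ g ρ) → 0 < s → s < t → t < r → (∀ ρ, ρ ∉ Ioo s t → g ρ = 0) →
  ∫ ρ in s..t, g ρ = 1 → ‖∫ ρ in s..t, g ρ * (conj (τ ρ) - tens u x ρ)‖ ≤ C * (Λ * M) * t

def StatStmt : Prop := ∃ C, 0 ≤ C ∧ ∀ Ω K u Λ M, IsMS Ω K u Λ M → ∀ x r γ τ, Tip K x r γ τ →
  closedBall x (2 * r) ⊆ Ω → Λ * M * (2 * r) ≤ 1 →
  ∀ᵐ ρ, ρ ∈ Ioo 0 r → ‖conj (τ ρ) - tens u x ρ‖ ≤ C * (Λ * M) * ρ

def Rate1Stmt : Prop := ∃ C, 0 ≤ C ∧ ∀ Ω K u Λ M, IsMS Ω K u Λ M → ∀ x r γ τ, Tip K x r γ τ →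
  closedBall x (2 * r) ⊆ Ω → Λ * M * (2 * r) ≤ 1 → ∀ᵐ ρ, ρ ∈ Ioo 0 r →
    1 - C * (Λ * M) * ρ ≤ ce u x ρ ∧ 2 * En u (closedBall x ρ) ≤
      (1 + C * (Λ * M) * ρ) * ρ * ce u x ρ + ρ * cb x γ τ ρ + C * (Λ * M) * ρ ^ 2

def RateStmt : Prop := ∀ Ω K u Λ M, IsMS Ω K u Λ M → ∀ x r γ τ, Tip K x r γ τ →
  closedBall x (2 * r) ⊆ Ω → Λ * M * (2 * r) ≤ 1 → ∀ ε, 0 < ε →
  ∃ b, 0 < b ∧ b ≤ r / 2 ∧ Cone K x 1 b ε (1 / 2)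

def HighStmt : Prop := ∀ Ω K u Λ M A, IsReg Ω K u Λ M A → ∀ x ∈ K, x ∈ Ω → ∀ D, 0 < D →
  Tendsto (fun r => En u (closedBall x r) / r) (𝓝[>] 0) (𝓝 D) → ∀ b, 0 < b → Concl K x b

def IntStmt : Prop := ∀ Ω K u Λ M A, IsReg Ω K u Λ M A → ∀ x ∈ K, x ∈ Ω → ∀ b, 0 < b →
  Concl K x b

/-! ### From the minimizers of the problem to the working class -/

def El0Stmt : Prop := ∀ Ω g u G K, IsOpen Ω → MemLp g ⊤ (volume.restrict Ω) → IsMin Ω g u G K →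
  ∀ φ : ℂ → ℝ, ContDiff ℝ (⊤ : ℕ∞) φ → HasCompactSupport φ → tsupport φ ⊆ Ω \ K →
  ∫ z in Ω \ K, fderiv ℝ φ z (G z) = -∫ z in Ω \ K, (u z - g z) * φ z

def Reg1Stmt : Prop := ∀ (O : Set ℂ) (u : ℂ → ℝ) (G : ℂ → ℂ) (x : ℂ) (r : ℝ), IsOpen O →
  IsWeakGrad O u G → MemLp u 2 (volume.restrict O) → MemLp G 2 (volume.restrict O) → 0 < r →
  closedBall x (2 * r) ⊆ O → MemLp u 4 (volume.restrict (ball x r))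

def Reg2Stmt : Prop := ∀ (O : Set ℂ) (u f : ℂ → ℝ) (G : ℂ → ℂ) (x : ℂ) (r : ℝ), IsOpen O →
  IsWeakGrad O u G → MemLp G 2 (volume.restrict O) → 0 < r → ball x (2 * r) ⊆ O →
  MemLp f 4 (volume.restrict (ball x (2 * r))) →
  (∀ φ : ℂ → ℝ, ContDiff ℝ (⊤ : ℕ∞) φ → HasCompactSupport φ → tsupport φ ⊆ ball x (2 * r) →
    ∫ z in O, fderiv ℝ φ z (G z) = -∫ z in O, f z * φ z) →
  ∃ P : ℂ → ℂ, ContinuousOn P (ball x r) ∧ ∀ᵐ z ∂(volume.restrict (ball x r)), P z = conj (G z)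

def Reg3Stmt : Prop := ∀ (O : Set ℂ) (u : ℂ → ℝ) (G : ℂ → ℂ), IsOpen O → IsWeakGrad O u G →
  MemLp u 2 (volume.restrict O) → MemLp G 2 (volume.restrict O) →
  (∀ x ∈ O, ∃ (r : ℝ) (P : ℂ → ℂ), 0 < r ∧ ball x r ⊆ O ∧ ContinuousOn P (ball x r) ∧
    ∀ᵐ z ∂(volume.restrict (ball x r)), P z = conj (G z)) →
  ∃ v : ℂ → ℝ, ContDiffOn ℝ 1 v O ∧ (∀ᵐ z ∂(volume.restrict O), v z = u z) ∧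
    ∀ᵐ z ∂(volume.restrict O), pd v z = conj (G z)

def RegStmt : Prop := ∀ Ω g u G K, IsOpen Ω → MemLp g ⊤ (volume.restrict Ω) → IsMin Ω g u G K →
  ∃ v, Rep Ω u G K v

def TrfStmt : Prop := ∀ Ω g u G K v, IsOpen Ω → MemLp g ⊤ (volume.restrict Ω) →
  IsMin Ω g u G K → Rep Ω u G K v → ∀ (y : ℂ) (r R : ℝ) (L : Set ℂ) (w : ℂ → ℝ), 0 ≤ r → r < R →
  ball y R ⊆ Ω → L ⊆ closedBall y r → μH[1] L < ⊤ →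
  IsOpen (ball y R \ (L ∪ (K \ closedBall y r))) →
  LocallyLipschitzOn (ball y R \ (L ∪ (K \ closedBall y r))) w →
  (∀ z ∈ ball y R, z ∉ closedBall y r → z ∉ K → w z = v z) →
  IntegrableOn (fun z => ‖pd w z‖ ^ 2) (closedBall y r) →
  MemLp w 2 (volume.restrict (closedBall y r)) →
  En v (closedBall y r) + len K (closedBall y r) + ∫ z in closedBall y r, (v z - g z) ^ 2 ≤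
    En w (closedBall y r) + (μH[1] L).toReal + ∫ z in closedBall y r, (w z - g z) ^ 2

def BndStmt : Prop := ∀ Ω g u G K v, IsOpen Ω → MemLp g ⊤ (volume.restrict Ω) →
  IsMin Ω g u G K → Rep Ω u G K v → ∀ x ∈ Ω, ∃ R T, 0 < R ∧ closedBall x R ⊆ Ω ∧
  ∀ z ∈ ball x R, z ∉ K → |v z| ≤ T

def BrgStmt : Prop := ∀ Ω g u G K v, IsOpen Ω → MemLp g ⊤ (volume.restrict Ω) →
  IsMin Ω g u G K → Reduced Ω K → Rep Ω u G K v → ∀ x ∈ Ω, ∃ M R₁, 0 < R₁ ∧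
  closedBall x R₁ ⊆ Ω ∧ ∀ R ∈ Ioo 0 R₁, IsMS (ball x R) (K ∩ closedBall x R₁) v (4 * M) M

end Vale.Agent.P128
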