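import Vale.Agent.P128.Stm

open MeasureTheory Set Metric Filter Topology Complex
open scoped ENNReal ComplexConjugate Real

noncomputable section
namespace Vale.Agent.P128

theorem wg_pf : WgStmt := by
  intro O w hO hw φ hφ hc hs e
  obtain ⟨L, hL, h1, h2⟩ := exists_compact_between hc hO hs
  obtain ⟨C, hC⟩ := (hw.mono h2).exists_lipschitzOnWith_of_compact hL
  obtain ⟨g, hg, hwg⟩ := hC.extend_real
  obtain ⟨D, hD⟩ := hφ.lipschitzWith_of_hasCompactSupport hc (by simp)
  have ev : ∀ z ∈ tsupport φ, w =ᶠ[𝓝 z] g := fun z hz =>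
    hwg.eventuallyEq_of_mem (mem_interior_iff_mem_nhds.1 (h1 hz))
  have d0 : ∀ z, z ∉ tsupport φ → fderiv ℝ φ z = 0 := fun z hz =>
    Function.notMem_support.1 fun h => hz (support_fderiv_subset ℝ h)
  have H := hg.integral_lineDeriv_mul_eq (μ := volume) hD hc e
  rw [setIntegral_eq_integral_of_forall_compl_eq_zero fun z hz => by
      rw [d0 z fun h => hz (hs h), zero_apply, mul_zero],
    setIntegral_eq_integral_of_forall_compl_eq_zero fun z hz => by
      rw [image_eq_zero_of_notMem_tsupport fun h => hz (hs h), mul_zero],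
    integral_congr_ae (f := fun z => inner ℝ (conj (pd w z)) e * φ z)
      (g := fun z => lineDeriv ℝ g z e * φ z) ?_, H, ← integral_neg]
  · refine integral_congr_ae (ae_of_all _ fun z => ?_)
    simp only [((hφ.differentiable (by simp)) z).lineDeriv_eq_fderiv, map_neg, neg_mul, neg_neg]
    by_cases hz : z ∈ tsupport φ
    · rw [(ev z hz).eq_of_nhds, mul_comm]
    · simp [d0 z hz]
  · filter_upwards [hg.ae_differentiableAt] with z hd
    by_cases hz : z ∈ tsupport φ
    · rw [hd.lineDeriv_eq_fderiv, fderiv_eq_pd, pd_congr (ev z hz)]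
      simp [mul_comm]
    · simp [image_eq_zero_of_notMem_tsupport hz]

end Vale.Agent.P128
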